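import Mathlib

/-!
# ROW 285, PINS / ROWS (finite rank penalties by rank one updates; [C]L3.3, T3.1), layer 0: pure analysis (Mathlib only).      Architect: helper279.   Prefix `pn_bd_`.

Plan of the package: header of `Pins/Band.lean`.   Every statement of this file is a LEAF (name in brackets), independent of all the others.

* `pn_bd_vitali`   [BAND-LIB-VIT]  a sequence of entire functions, locally uniformly bounded, which tends to `0` on the real axis tends to `0` everywhere.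
      PROOF (no Montel): `d k n = iteratedDeriv n (D k) 0 / n!`; Cauchy (`Complex.norm_iteratedDeriv_le_of_forall_mem_sphere_norm_le`): `‖d k n‖ ≤ M_R / R^n` eventually in `k`, for all `n`;
      `Complex.taylorSeries_eq_of_entire'`.  By strong induction on `n`: `d k n → 0` [for `0 < t ≤ 1`: `d k n = t^{-n} (D k t - ∑_{j<n} d k j t^j) - ∑_{j>n} d k j t^{j-n}`, the tail is `≤ t · 2 M_2`; `k → ∞`, then `t ↓ 0`].
      Then Tannery (`tendsto_tsum_of_dominated_convergence`, bound `M_R (‖ζ‖/R)^n`, `R = 2‖ζ‖ + 1`).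
* `pn_bd_gauss_fourier`, `pn_bd_gauss_sin`, `pn_bd_gauss_cplx`  [BAND-LIB-GAUSS]  `integral_cexp_quadratic`, `integral_gaussian`, oddness.
* `pn_bd_theta*`   [BAND-LIB-THETA]  `Complex.tsum_exp_neg_quadratic` with `a = ρ²/(2π)`, `b = ρ(ζ - y)/(2π)`   (the exponents agree after `ring`: `(ζ-y)²/2 + ζ y - y²/2 = ζ²/2`).
* `pn_bd_log_sub`, `pn_bd_exp_sub`  [BAND-LIB-LOG]  elementary.
-/

set_option autoImplicit false

namespace Claimed.Agent.R285.Pins

open Filter Topology MeasureTheory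

noncomputable section

/-- the standard Gaussian density -/
def pnGd (s : ℝ) : ℝ := (Real.sqrt (2 * Real.pi))⁻¹ * Real.exp (-(s ^ 2) / 2)

theorem pnGd_eqns_cite : True := by
  have := @pnGd.eq_1; trivial

theorem pn_bd_vit_hasSum (f : ℂ → ℂ) (hf : Differentiable ℂ f) (z : ℂ) :
    HasSum (fun n : ℕ => ((n.factorial : ℂ)⁻¹ * iteratedDeriv n f 0) * z ^ n) (f z) := by
  have h := Complex.hasSum_taylorSeries_of_entire hf 0 z
  have e : (fun n : ℕ => ((n.factorial : ℂ)⁻¹ * iteratedDeriv n f 0) * z ^ n)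
      = fun n : ℕ => (n.factorial : ℂ)⁻¹ • (z - 0) ^ n • iteratedDeriv n f 0 := by
    funext n
    rw [sub_zero, smul_eq_mul, smul_eq_mul]
    ring
  rw [e]
  exact h

theorem pn_bd_vit_cauchy (f : ℂ → ℂ) (hf : Differentiable ℂ f) {R M : ℝ} (hR : 0 < R)
    (hM : ∀ ζ : ℂ, ‖ζ‖ ≤ R → ‖f ζ‖ ≤ M) (n : ℕ) :
    ‖(n.factorial : ℂ)⁻¹ * iteratedDeriv n f 0‖ ≤ M / R ^ n := by
  have h := Complex.norm_iteratedDeriv_le_of_forall_mem_sphere_norm_le n hR hf.diffContOnCl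
    (fun z hz => hM z (mem_sphere_zero_iff_norm.1 hz).le)
  rw [norm_mul, norm_inv, Complex.norm_natCast]
  have hn : (0 : ℝ) < n.factorial := by exact_mod_cast n.factorial_pos
  calc (n.factorial : ℝ)⁻¹ * ‖iteratedDeriv n f 0‖ ≤ (n.factorial : ℝ)⁻¹ * (n.factorial * M / R ^ n) :=
        mul_le_mul_of_nonneg_left h (by positivity)
    _ = M / R ^ n := by field_simp

/-- the `n`-th coefficient is controlled by the value at a small real point, the lower coefficients and the tail -/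
theorem pn_bd_vit_coef (f : ℂ → ℂ) (hf : Differentiable ℂ f) {M : ℝ} (hM : ∀ ζ : ℂ, ‖ζ‖ ≤ 2 → ‖f ζ‖ ≤ M)
    (t : ℝ) (ht0 : 0 < t) (ht1 : t ≤ 1) (n : ℕ) :
    ‖(n.factorial : ℂ)⁻¹ * iteratedDeriv n f 0‖ * t ^ n ≤ ‖f (t : ℂ)‖
      + ∑ j ∈ Finset.range n, ‖(j.factorial : ℂ)⁻¹ * iteratedDeriv j f 0‖ * t ^ j + 2 * M * t ^ (n + 1) := by
  obtain ⟨a, ha⟩ : ∃ a : ℕ → ℂ, a = fun n : ℕ => (n.factorial : ℂ)⁻¹ * iteratedDeriv n f 0 := ⟨_, rfl⟩
  have hM0 : 0 ≤ M := (norm_nonneg _).trans (hM 0 (by simp))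
  have hs : HasSum (fun j => a j * (t : ℂ) ^ j) (f t) := by rw [ha]; exact pn_bd_vit_hasSum f hf t
  have hc : ∀ j, ‖a j‖ ≤ M / 2 ^ j := fun j => by rw [ha]; exact pn_bd_vit_cauchy f hf two_pos hM j
  have hnt : ‖(t : ℂ)‖ = t := by rw [Complex.norm_real, Real.norm_of_nonneg ht0.le]
  have htail := (hasSum_nat_add_iff' (n + 1)).2 hs
  have hg : HasSum (fun j : ℕ => M * t ^ (n + 1) * (1 / 2 : ℝ) ^ j) (M * t ^ (n + 1) * 2) :=
    hasSum_geometric_two.mul_left _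
  have hb := htail.norm_le_of_bounded hg (fun j => by
    rw [norm_mul, norm_pow, hnt]
    have h1 : ‖a (j + (n + 1))‖ ≤ M * (1 / 2 : ℝ) ^ j := by
      refine (hc _).trans ?_
      rw [div_eq_mul_inv, one_div, inv_pow]
      refine mul_le_mul_of_nonneg_left ?_ hM0
      exact inv_anti₀ (by positivity) (pow_le_pow_right₀ (by norm_num) (by omega))
    have h2 : t ^ (j + (n + 1)) ≤ t ^ (n + 1) := pow_le_pow_of_le_one ht0.le ht1 (by omega)
    calc ‖a (j + (n + 1))‖ * t ^ (j + (n + 1)) ≤ (M * (1 / 2 : ℝ) ^ j) * t ^ (n + 1) :=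
          mul_le_mul h1 h2 (by positivity) (by positivity)
      _ = _ := by ring)
  have e : a n * (t : ℂ) ^ n = f t - ∑ j ∈ Finset.range n, a j * (t : ℂ) ^ j
      - (f t - ∑ j ∈ Finset.range (n + 1), a j * (t : ℂ) ^ j) := by
    rw [Finset.sum_range_succ]
    ring
  have h3 : ‖a n‖ * t ^ n = ‖a n * (t : ℂ) ^ n‖ := by rw [norm_mul, norm_pow, hnt]
  have h4 : ‖∑ j ∈ Finset.range n, a j * (t : ℂ) ^ j‖ ≤ ∑ j ∈ Finset.range n, ‖a j‖ * t ^ j := by
    refine (norm_sum_le _ _).trans (le_of_eq ?_)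
    refine Finset.sum_congr rfl fun j _ => ?_
    rw [norm_mul, norm_pow, hnt]
  have h5 := norm_sub_le (f t - ∑ j ∈ Finset.range n, a j * (t : ℂ) ^ j)
    (f t - ∑ j ∈ Finset.range (n + 1), a j * (t : ℂ) ^ j)
  have h6 := norm_sub_le (f t) (∑ j ∈ Finset.range n, a j * (t : ℂ) ^ j)
  have goal : ‖a n‖ * t ^ n ≤ ‖f (t : ℂ)‖ + ∑ j ∈ Finset.range n, ‖a j‖ * t ^ j + 2 * M * t ^ (n + 1) := by
    rw [h3, e]
    linarith
  rw [ha] at goal
  exact goal

theorem pn_bd_vit_coef_tendsto (D : ℕ → ℂ → ℂ) (hD : ∀ k, Differentiable ℂ (D k))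
    (hb : ∀ R : ℝ, ∃ M : ℝ, ∀ᶠ k in atTop, ∀ ζ : ℂ, ‖ζ‖ ≤ R → ‖D k ζ‖ ≤ M)
    (h0 : ∀ t : ℝ, Tendsto (fun k => D k (t : ℂ)) atTop (𝓝 0)) (n : ℕ) :
    Tendsto (fun k => (n.factorial : ℂ)⁻¹ * iteratedDeriv n (D k) 0) atTop (𝓝 0) := by
  induction n using Nat.strong_induction_on with
  | _ n ih =>
    obtain ⟨M, hM⟩ := hb 2
    rw [NormedAddGroup.tendsto_nhds_zero]
    intro ε hε
    obtain ⟨t, ht⟩ : ∃ t : ℝ, t = min 1 (ε / (4 * (|M| + 1))) := ⟨_, rfl⟩
    have hM1 : 0 < 4 * (|M| + 1) := by positivity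
    have ht0 : 0 < t := by rw [ht]; exact lt_min one_pos (by positivity)
    have ht1 : t ≤ 1 := by rw [ht]; exact min_le_left _ _
    have ht2 : 2 * M * t ≤ ε / 2 := by
      have h1 : t ≤ ε / (4 * (|M| + 1)) := by rw [ht]; exact min_le_right _ _
      have h2 : t * (4 * (|M| + 1)) ≤ ε := (le_div_iff₀ hM1).1 h1
      have h3 : M ≤ |M| := le_abs_self M
      nlinarith
    have hG : Tendsto (fun k => ‖D k (t : ℂ)‖
        + ∑ j ∈ Finset.range n, ‖(j.factorial : ℂ)⁻¹ * iteratedDeriv j (D k) 0‖ * t ^ j) atTop (𝓝 0) := by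
      have h1 : Tendsto (fun k => ‖D k (t : ℂ)‖) atTop (𝓝 0) := tendsto_zero_iff_norm_tendsto_zero.1 (h0 t)
      have h2 : Tendsto (fun k => ∑ j ∈ Finset.range n, ‖(j.factorial : ℂ)⁻¹ * iteratedDeriv j (D k) 0‖ * t ^ j)
          atTop (𝓝 (∑ j ∈ Finset.range n, 0 * t ^ j)) :=
        tendsto_finsetSum _ fun j hj =>
          (tendsto_zero_iff_norm_tendsto_zero.1 (ih j (Finset.mem_range.1 hj))).mul_const _
      simpa using h1.add h2
    have hpos : 0 < ε / 2 * t ^ n := by positivity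
    filter_upwards [hM, hG.eventually_lt_const hpos] with k hk hk2
    have h := pn_bd_vit_coef (D k) (hD k) hk t ht0 ht1 n
    have htn : 0 < t ^ n := by positivity
    have h7 : 2 * M * t ^ (n + 1) ≤ ε / 2 * t ^ n := by
      rw [pow_succ]
      nlinarith
    have h8 : ‖(n.factorial : ℂ)⁻¹ * iteratedDeriv n (D k) 0‖ * t ^ n < ε * t ^ n := by linarith
    exact lt_of_mul_lt_mul_right h8 htn.le

/-- **[BAND-LIB-VIT]** Vitali's theorem in the form needed (see the header). -/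
theorem pn_bd_vitali (D : ℕ → ℂ → ℂ) (hD : ∀ k, Differentiable ℂ (D k))
    (hb : ∀ R : ℝ, ∃ M : ℝ, ∀ᶠ k in atTop, ∀ ζ : ℂ, ‖ζ‖ ≤ R → ‖D k ζ‖ ≤ M)
    (h0 : ∀ t : ℝ, Tendsto (fun k => D k (t : ℂ)) atTop (𝓝 0)) (ζ : ℂ) :
    Tendsto (fun k => D k ζ) atTop (𝓝 0) := by
  obtain ⟨R, hR⟩ : ∃ R : ℝ, R = 2 * ‖ζ‖ + 1 := ⟨_, rfl⟩
  have hR0 : 0 < R := by rw [hR]; positivity
  obtain ⟨M, hM⟩ := hb R
  have hr : ‖ζ‖ / R < 1 := by
    rw [div_lt_one hR0, hR]
    linarith [norm_nonneg ζ]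
  have hsum : Summable fun n : ℕ => |M| * (‖ζ‖ / R) ^ n :=
    (summable_geometric_of_lt_one (by positivity) hr).mul_left _
  have key := tendsto_tsum_of_dominated_convergence (𝓕 := atTop)
    (f := fun k n => ((n.factorial : ℂ)⁻¹ * iteratedDeriv n (D k) 0) * ζ ^ n) (g := fun _ => 0) hsum
    (fun n => by simpa using (pn_bd_vit_coef_tendsto D hD hb h0 n).mul_const (ζ ^ n))
    (by
      filter_upwards [hM] with k hk n
      rw [norm_mul, norm_pow, div_pow]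
      have h1 := pn_bd_vit_cauchy (D k) (hD k) hR0 hk n
      have h2 : M / R ^ n ≤ |M| / R ^ n := div_le_div_of_nonneg_right (le_abs_self M) (by positivity)
      calc _ ≤ |M| / R ^ n * ‖ζ‖ ^ n := mul_le_mul_of_nonneg_right (h1.trans h2) (by positivity)
        _ = _ := by ring)
  simp only [tsum_zero] at key
  refine key.congr fun k => ?_
  exact (pn_bd_vit_hasSum (D k) (hD k) ζ).tsum_eq

/-- **[BAND-LIB-GAUSS]** -/
theorem pn_bd_gd_pos (s : ℝ) : 0 < pnGd s := by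
  unfold pnGd
  have : 0 < Real.sqrt (2 * Real.pi) := Real.sqrt_pos.2 (by positivity)
  positivity

theorem pn_bd_gd_integrable : Integrable pnGd := by
  have h := (integrable_exp_neg_mul_sq (b := 1 / 2) (by norm_num)).const_mul (Real.sqrt (2 * Real.pi))⁻¹
  refine h.congr (Filter.Eventually.of_forall fun s => ?_)
  show (Real.sqrt (2 * Real.pi))⁻¹ * Real.exp (-(1 / 2) * s ^ 2) = pnGd s
  unfold pnGd
  rw [show -(1 / 2 : ℝ) * s ^ 2 = -(s ^ 2) / 2 by ring]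

theorem pn_bd_gd_integral : ∫ s, pnGd s = 1 := by
  have e : pnGd = fun s => (Real.sqrt (2 * Real.pi))⁻¹ * Real.exp (-(1 / 2) * s ^ 2) := by
    funext s
    unfold pnGd
    congr 2
    ring
  rw [e, integral_const_mul, integral_gaussian]
  have h1 : Real.pi / (1 / 2) = 2 * Real.pi := by ring
  rw [h1]
  have : Real.sqrt (2 * Real.pi) ≠ 0 := (Real.sqrt_pos.2 (by positivity)).ne'
  field_simp

/-- master formula -/
theorem pn_bd_gq (β : ℝ) (hβ : 0 < β) (c d : ℂ) :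
    Integrable (fun s : ℝ => Complex.exp (-((β : ℂ) / 2) * (s : ℂ) ^ 2 + c * s + d)) ∧
    ∫ s : ℝ, Complex.exp (-((β : ℂ) / 2) * (s : ℂ) ^ 2 + c * s + d)
      = ((Real.sqrt (2 * Real.pi / β) : ℝ) : ℂ) * Complex.exp (d + c ^ 2 / (2 * β)) := by
  have hb : (-((β : ℂ) / 2)).re < 0 := by
    simp only [Complex.neg_re, Complex.div_ofNat_re, Complex.ofReal_re]
    linarith
  refine ⟨integrable_cexp_quadratic' hb c d, ?_⟩
  rw [integral_cexp_quadratic hb c d]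
  have hβc : (β : ℂ) ≠ 0 := by exact_mod_cast hβ.ne'
  congr 1
  · rw [Real.sqrt_eq_rpow, Complex.ofReal_cpow (by positivity)]
    congr 1
    · push_cast
      field_simp
    · push_cast
      rfl
  · congr 1
    field_simp
    ring

theorem pn_bd_gauss_cplx' (A B C : ℝ) (hC : 0 ≤ C) :
    ∫ s : ℝ, (Complex.exp (((A : ℂ) + 2 * (Complex.I * s) * B + (Complex.I * s) ^ 2 * C) / 2)).re * pnGd s
      = (Real.sqrt (1 + C))⁻¹ * Real.exp (A / 2 - B ^ 2 / (2 * (1 + C))) := by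
  have hβ : 0 < 1 + C := by linarith
  obtain ⟨hi, hv⟩ := pn_bd_gq (1 + C) hβ (Complex.I * B) (A / 2)
  have e : ∀ s : ℝ, (Complex.exp (((A : ℂ) + 2 * (Complex.I * s) * B + (Complex.I * s) ^ 2 * C) / 2)).re * pnGd s
      = (Real.sqrt (2 * Real.pi))⁻¹ * Complex.reCLM
        (Complex.exp (-(((1 + C : ℝ) : ℂ) / 2) * (s : ℂ) ^ 2 + Complex.I * B * s + A / 2)) := by
    intro s
    have h1 : Complex.exp (-(((1 + C : ℝ) : ℂ) / 2) * (s : ℂ) ^ 2 + Complex.I * B * s + A / 2)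
        = Complex.exp (((A : ℂ) + 2 * (Complex.I * s) * B + (Complex.I * s) ^ 2 * C) / 2)
          * ((Real.exp (-(s ^ 2) / 2) : ℝ) : ℂ) := by
      rw [Complex.ofReal_exp, ← Complex.exp_add]
      congr 1
      push_cast
      rw [mul_pow, Complex.I_sq]
      ring
    rw [h1, Complex.reCLM_apply, Complex.re_mul_ofReal]
    unfold pnGd
    ring
  simp only [e]
  rw [integral_const_mul, Complex.reCLM.integral_comp_comm hi, hv]
  have h2 : (A / 2 : ℂ) + (Complex.I * B) ^ 2 / (2 * ((1 + C : ℝ) : ℂ))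
      = ((A / 2 - B ^ 2 / (2 * (1 + C)) : ℝ) : ℂ) := by
    rw [mul_pow, Complex.I_sq]
    push_cast
    ring
  rw [h2, ← Complex.ofReal_exp, ← Complex.ofReal_mul, Complex.reCLM_apply, Complex.ofReal_re, ← mul_assoc]
  congr 1
  rw [Real.sqrt_div (by positivity)]
  have h3 : Real.sqrt (2 * Real.pi) ≠ 0 := (Real.sqrt_pos.2 (by positivity)).ne'
  have h4 : Real.sqrt (1 + C) ≠ 0 := (Real.sqrt_pos.2 hβ).ne'
  field_simp

/-- `exp(-y²/2) = ∫ cos(s y) dγ(s)` -/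
theorem pn_bd_gauss_fourier (y : ℝ) : ∫ s, Real.cos (s * y) * pnGd s = Real.exp (-(y ^ 2) / 2) := by
  have h := pn_bd_gauss_cplx' 0 y 0 le_rfl
  have e : ∀ s : ℝ, (Complex.exp ((((0 : ℝ) : ℂ) + 2 * (Complex.I * s) * y + (Complex.I * s) ^ 2 * ((0 : ℝ) : ℂ)) / 2)).re
      = Real.cos (s * y) := by
    intro s
    have : (((0 : ℝ) : ℂ) + 2 * (Complex.I * s) * y + (Complex.I * s) ^ 2 * ((0 : ℝ) : ℂ)) / 2
        = ((s * y : ℝ) : ℂ) * Complex.I := by
      push_cast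
      ring
    rw [this, Complex.exp_ofReal_mul_I_re]
  simp only [e] at h
  rw [h]
  simp only [add_zero, Real.sqrt_one, inv_one, one_mul, mul_one]
  congr 1
  ring

theorem pn_bd_gauss_sin (y : ℝ) : ∫ s, Real.sin (s * y) * pnGd s = 0 := by
  have h := integral_neg_eq_self (fun s => Real.sin (s * y) * pnGd s) volume
  have e : ∀ s : ℝ, Real.sin (-s * y) * pnGd (-s) = -(Real.sin (s * y) * pnGd s) := by
    intro s
    unfold pnGd
    rw [neg_mul, Real.sin_neg, neg_sq]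
    ring
  simp only [e] at h
  rw [integral_neg] at h
  linarith

/-- the Gaussian integral of the analytic continuation of a Gaussian Laplace transform -/
theorem pn_bd_gauss_cplx (A B C : ℝ) (hC : 0 ≤ C) :
    ∫ s : ℝ, (Complex.exp (((A : ℂ) + 2 * (Complex.I * s) * B + (Complex.I * s) ^ 2 * C) / 2)).re * pnGd s
      = (Real.sqrt (1 + C))⁻¹ * Real.exp (A / 2 - B ^ 2 / (2 * (1 + C))) :=
  pn_bd_gauss_cplx' A B C hC

/-- the exponent of the direct side -/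
theorem pn_bd_th_exp (ρ y : ℝ) (ζ : ℂ) (m : ℤ) :
    ζ * ((y + ρ * m : ℝ) : ℂ) - (((y + ρ * m) ^ 2 / 2 : ℝ) : ℂ)
      = (ζ * y - (y : ℂ) ^ 2 / 2) + (-(Real.pi : ℂ) * ((ρ : ℂ) ^ 2 / (2 * Real.pi)) * (m : ℂ) ^ 2
        + 2 * Real.pi * ((ρ : ℂ) * (ζ - y) / (2 * Real.pi)) * m) := by
  have hpi : (Real.pi : ℂ) ≠ 0 := by exact_mod_cast Real.pi_ne_zero
  push_cast
  field_simp
  ring

/-- **[BAND-LIB-THETA]** Poisson summation for a shifted Gaussian with a complex linear term. -/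
theorem pn_bd_theta_summable (ρ : ℝ) (hρ : 0 < ρ) (y : ℝ) (ζ : ℂ) :
    Summable fun m : ℤ => Complex.exp (ζ * ((y + ρ * m : ℝ) : ℂ) - (((y + ρ * m) ^ 2 / 2 : ℝ) : ℂ)) := by
  have hpi : (Real.pi : ℂ) ≠ 0 := by exact_mod_cast Real.pi_ne_zero
  have h := (summable_jacobiTheta₂_term_iff ((ρ : ℂ) * (ζ - y) / (2 * Real.pi * Complex.I))
    (Complex.I * ((ρ ^ 2 / (2 * Real.pi) : ℝ) : ℂ))).2 (by
      rw [Complex.mul_im]
      simp only [Complex.I_re, Complex.I_im, Complex.ofReal_re, Complex.ofReal_im]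
      have : 0 < ρ ^ 2 / (2 * Real.pi) := by positivity
      linarith)
  refine (h.mul_left (Complex.exp (ζ * y - (y : ℂ) ^ 2 / 2))).congr fun m => ?_
  rw [pn_bd_th_exp, Complex.exp_add]
  congr 1
  unfold jacobiTheta₂_term
  congr 1
  have hI : Complex.I ≠ 0 := Complex.I_ne_zero
  push_cast
  field_simp
  linear_combination ((m : ℂ) ^ 2 * (ρ : ℂ) ^ 2) * Complex.I_sq

/-- the dominating series of the dual side -/
theorem pn_bd_theta_dom (ρ : ℝ) (hρ : 0 < ρ) :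
    Summable fun q : ℤ => Real.exp (-((2 * Real.pi * q / ρ) ^ 2) / 4) := by
  have h := summable_pow_mul_jacobiTheta₂_term_bound 0 (T := Real.pi / ρ ^ 2) (by positivity) 0
  refine h.congr fun q => ?_
  rw [pow_zero, one_mul]
  congr 1
  field_simp
  ring

/-- the terms of the dual side are dominated, uniformly for `‖ζ‖ ≤ M` -/
theorem pn_bd_theta_bound (ζ : ℂ) (M : ℝ) (hζ : ‖ζ‖ ≤ M) (x : ℝ) :
    ‖Complex.exp ((ζ - (x : ℂ) * Complex.I) ^ 2 / 2)‖ ≤ Real.exp (3 * M ^ 2 / 2) * Real.exp (-(x ^ 2) / 4) := by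
  rw [Complex.norm_exp, ← Real.exp_add, Real.exp_le_exp]
  have e : ((ζ - (x : ℂ) * Complex.I) ^ 2 / 2).re = (ζ.re ^ 2 - (ζ.im - x) ^ 2) / 2 := by
    rw [Complex.div_ofNat_re, pow_two, Complex.mul_re]
    simp only [Complex.sub_re, Complex.sub_im, Complex.mul_re, Complex.mul_im, Complex.ofReal_re, Complex.ofReal_im,
      Complex.I_re, Complex.I_im]
    ring
  rw [e]
  have h1 : ζ.re ^ 2 + ζ.im ^ 2 = ‖ζ‖ ^ 2 := by
    rw [Complex.sq_norm, Complex.normSq_apply]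
    ring
  have h2 : ‖ζ‖ ^ 2 ≤ M ^ 2 := pow_le_pow_left₀ (norm_nonneg _) hζ 2
  nlinarith [sq_nonneg (2 * ζ.im - x), sq_nonneg M]

theorem pn_bd_theta (ρ : ℝ) (hρ : 0 < ρ) (y : ℝ) (ζ : ℂ) :
    ∑' m : ℤ, Complex.exp (ζ * ((y + ρ * m : ℝ) : ℂ) - (((y + ρ * m) ^ 2 / 2 : ℝ) : ℂ))
      = ((Real.sqrt (2 * Real.pi) / ρ : ℝ) : ℂ) *
        ∑' q : ℤ, Complex.exp ((ζ - ((2 * Real.pi * q / ρ : ℝ) : ℂ) * Complex.I) ^ 2 / 2)
          * Complex.exp (Complex.I * ((2 * Real.pi * q / ρ * y : ℝ) : ℂ)) := by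
  have hpi : (Real.pi : ℂ) ≠ 0 := by exact_mod_cast Real.pi_ne_zero
  have hρc : (ρ : ℂ) ≠ 0 := by exact_mod_cast hρ.ne'
  have ha : 0 < ((ρ : ℂ) ^ 2 / (2 * Real.pi)).re := by
    have : (ρ : ℂ) ^ 2 / (2 * Real.pi) = ((ρ ^ 2 / (2 * Real.pi) : ℝ) : ℂ) := by push_cast; rfl
    rw [this, Complex.ofReal_re]
    positivity
  have h := Complex.tsum_exp_neg_quadratic ha ((ρ : ℂ) * (ζ - y) / (2 * Real.pi))
  have e0 : ∀ m : ℤ, Complex.exp (ζ * ((y + ρ * m : ℝ) : ℂ) - (((y + ρ * m) ^ 2 / 2 : ℝ) : ℂ))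
      = Complex.exp (ζ * y - (y : ℂ) ^ 2 / 2) * Complex.exp (-(Real.pi : ℂ) * ((ρ : ℂ) ^ 2 / (2 * Real.pi)) * (m : ℂ) ^ 2
        + 2 * Real.pi * ((ρ : ℂ) * (ζ - y) / (2 * Real.pi)) * m) := fun m => by
    rw [pn_bd_th_exp, Complex.exp_add]
  rw [tsum_congr e0, tsum_mul_left, h, ← mul_assoc, mul_comm (Complex.exp _), mul_assoc, ← tsum_mul_left]
  congr 1
  · have e1 : (ρ : ℂ) ^ 2 / (2 * Real.pi) = ((ρ ^ 2 / (2 * Real.pi) : ℝ) : ℂ) := by push_cast; rfl
    have e2 : (1 / 2 : ℂ) = ((1 / 2 : ℝ) : ℂ) := by push_cast; rfl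
    rw [e1, e2, ← Complex.ofReal_cpow (by positivity), ← Real.sqrt_eq_rpow, ← Complex.ofReal_one,
      ← Complex.ofReal_div]
    congr 1
    rw [Real.sqrt_div (by positivity), Real.sqrt_sq hρ.le]
    field_simp
  · refine tsum_congr fun q => ?_
    rw [← Complex.exp_add, ← Complex.exp_add]
    congr 1
    push_cast
    field_simp
    linear_combination (-4 * (Real.pi : ℂ) ^ 2 * (q : ℂ) ^ 2 - (ρ : ℂ) ^ 2 * (ζ - y) ^ 2) * Complex.I_sq

/-- **[BAND-LIB-LOG]** -/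
theorem pn_bd_log_sub (u v : ℕ → ℝ) (c : ℝ) (hc : 0 < c) (hv : ∀ᶠ k in atTop, c ≤ v k)
    (h : Tendsto (fun k => u k - v k) atTop (𝓝 0)) :
    Tendsto (fun k => Real.log (u k) - Real.log (v k)) atTop (𝓝 0) := by
  have h1 : Tendsto (fun k => (u k - v k) / v k) atTop (𝓝 0) := by
    refine squeeze_zero_norm' (a := fun k => |u k - v k| / c) ?_ ?_
    · filter_upwards [hv] with k hk
      rw [norm_div, Real.norm_eq_abs, Real.norm_eq_abs, abs_of_pos (hc.trans_le hk)]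
      exact div_le_div_of_nonneg_left (abs_nonneg _) hc hk
    · simpa using h.abs.div_const c
  have h2 : Tendsto (fun k => 1 + (u k - v k) / v k) atTop (𝓝 1) := by simpa using h1.const_add 1
  have h3 := (Real.continuousAt_log one_ne_zero).tendsto.comp h2
  rw [Real.log_one] at h3
  refine h3.congr' ?_
  filter_upwards [hv, h2.eventually_const_lt (by norm_num : (0 : ℝ) < 1)] with k hk hk2
  have hvk : 0 < v k := hc.trans_le hk
  have e : 1 + (u k - v k) / v k = u k / v k := by field_simp; ring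
  have huk : u k ≠ 0 := by
    intro h0
    rw [e, h0, zero_div] at hk2
    exact lt_irrefl _ hk2
  show Real.log (1 + (u k - v k) / v k) = _
  rw [e, Real.log_div huk hvk.ne']

theorem pn_bd_exp_sub (u v : ℕ → ℝ) (C : ℝ) (hv : ∀ᶠ k in atTop, v k ≤ C)
    (h : Tendsto (fun k => u k - v k) atTop (𝓝 0)) :
    Tendsto (fun k => Real.exp (u k) - Real.exp (v k)) atTop (𝓝 0) := by
  have h1 : Tendsto (fun k => Real.exp (u k - v k) - 1) atTop (𝓝 0) := by
    have := (Real.continuous_exp.tendsto 0).comp h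
    rw [Real.exp_zero] at this
    simpa using this.sub_const 1
  refine squeeze_zero_norm' (a := fun k => Real.exp C * |Real.exp (u k - v k) - 1|) ?_ ?_
  · filter_upwards [hv] with k hk
    have e : Real.exp (u k) - Real.exp (v k) = Real.exp (v k) * (Real.exp (u k - v k) - 1) := by
      rw [mul_sub, ← Real.exp_add, mul_one]
      congr 2
      ring
    rw [e, norm_mul, Real.norm_eq_abs, Real.norm_eq_abs, abs_of_pos (Real.exp_pos _)]
    exact mul_le_mul_of_nonneg_right (Real.exp_le_exp.2 hk) (abs_nonneg _)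
  · simpa using h1.abs.const_mul (Real.exp C)

end

end Claimed.Agent.R285.Pins
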