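import Claimed.Agent.R285.Base.Geom

/-!
# ROW 285, PINS: hard zero pins of ONE finite height law, exact (helper64).   Paper-free, NO sorry.

Vocabulary of `Base/HeightDefs`, `Base/Geom` s4 only (`HLaw.addPin`, `pPin`, `dPin`).
* `pn_pin_proper`, `pn_pin_ok`        : pins preserve `Proper` and `Ok`;
* `pnRefPin H b hPQ`                  : the `Ref` "more pins" `(H.addPin P).sys b → (H.addPin Q).sys b`, `P ⊆ Q`;  `pnRefPin0` : `H.sys b → (H.addPin P).sys b`;
* `pn_pPin_eq`, `pn_pPin_pos`         : `pPin b A = w_A(0) / w(0) > 0`;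
* `pn_pin_event`                      : `w_A w_P ≤ w_{A ∪ P} w`   (`lsys_event_mono`);
* `pn_dPin_nonneg_gen`                : `0 ≤ H.dPin b A A'`      (= `Sec.dPin_nonneg`, `T32.pn_dPin_nonneg`, `C3.dPin_nonneg`);
* `pn_char_sq`, `pn_lap_prod`          : abstract (`LSys`) forms of `lsys_phi_affine`, `lsys_master` on a translate;
* `pn_dPin_cond`, `pn_dPin_cond_le_gen` : `(H.addPin F).dPin b A A' + H.dPin b F A' = H.dPin b (A ∪ F) A'`   ([F](3.17)).
-/

set_option autoImplicit false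

namespace Claimed.Agent.R285.Pins

noncomputable section

variable {G : HGraph} (H : HLaw G)

/-- the image of the pinned lattice -/
def pnM (P : Set G.V) : AddSubgroup ((G.E → ℤ) × (H.O → ℝ)) := (H.Λ ⊓ HLaw.pinned P).map H.coord

theorem pn_w_congr {E O : Type} [Fintype E] [Fintype O] (b : E → ℝ) {L L' : AddSubgroup ((E → ℤ) × (O → ℝ))}
    (h : L = L') (α : (E → ℤ) × (O → ℝ)) :
    (LSys.mk (E := E) (O := O) b L).w α = (LSys.mk (E := E) (O := O) b L').w α := by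
  subst h; rfl

theorem pn_ok_congr {E O : Type} [Fintype E] [Fintype O] (b : E → ℝ) {L L' : AddSubgroup ((E → ℤ) × (O → ℝ))}
    (h : L = L') (hok : (LSys.mk (E := E) (O := O) b L).Ok) : (LSys.mk (E := E) (O := O) b L').Ok := by
  subst h; exact hok

theorem pn_pin_proper (hP : H.Proper) (P : Set G.V) : (H.addPin P).Proper := fun h hh hc => hP h hh.1 hc

theorem pn_pinM_le (P : Set G.V) : pnM H P ≤ H.Λ.map H.coord := AddSubgroup.map_mono inf_le_left

theorem pn_pin_ok {b : ℝ} (hok : (H.sys b).Ok) (P : Set G.V) : ((H.addPin P).sys b).Ok := by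
  have h1 : ((H.sys b).sub (pnM H P)).Ok := lsys_ok_sub _ hok _
  have h2 : H.Λ.map H.coord ⊓ pnM H P = pnM H P := inf_eq_right.2 (pn_pinM_le H P)
  exact pn_ok_congr (fun _ : G.E => b) h2 h1

/-- more pins = more precision -/
def pnRefPin (b : ℝ) {P Q : Set G.V} (hPQ : P ⊆ Q) : LSys.Ref ((H.addPin P).sys b) ((H.addPin Q).sys b) where
  iE := Function.Embedding.refl _
  iO := Function.Embedding.refl _
  hb := fun _ => rfl
  map_mem := by
    rintro z ⟨h, hh, rfl⟩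
    exact ⟨h, ⟨hh.1, fun v hv => hh.2 v (hPQ hv)⟩, rfl⟩

theorem pnRefPin_res (b : ℝ) {P Q : Set G.V} (hPQ : P ⊆ Q) (y : ((H.addPin Q).sys b).Amb) :
    (pnRefPin H b hPQ).res y = y := rfl

/-- pins = more precision -/
def pnRefPin0 (b : ℝ) (P : Set G.V) : LSys.Ref (H.sys b) ((H.addPin P).sys b) where
  iE := Function.Embedding.refl _
  iO := Function.Embedding.refl _
  hb := fun _ => rfl
  map_mem := by
    rintro z ⟨h, hh, rfl⟩
    exact ⟨h, hh.1, rfl⟩

theorem pnRefPin0_res (b : ℝ) (P : Set G.V) (y : ((H.addPin P).sys b).Amb) : (pnRefPin0 H b P).res y = y := rfl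

theorem pn_amb_zero (b : ℝ) : (HLaw.Aff.zero H).amb b = 0 := by
  unfold HLaw.Aff.amb HLaw.Aff.zero
  rw [map_zero, zero_add]
  refine Prod.ext rfl ?_
  funext o
  exact neg_zero

theorem pn_Z_zero (hP : H.Proper) (b : ℝ) : H.Z b (HLaw.Aff.zero H) (fun _ => 1) = (H.sys b).w 0 := by
  rw [HLaw.Z_eq_w H hP, pn_amb_zero]

theorem pn_w_pos {b : ℝ} (hok : (H.sys b).Ok) (α : (H.sys b).Amb) : 0 < (H.sys b).w α := by
  have := lsys_pos _ hok α 0
  simpa [LSys.wT, LSys.w] using this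

theorem pn_pPin_eq (hP : H.Proper) (b : ℝ) (A : Set G.V) :
    H.pPin b A = ((H.addPin A).sys b).w 0 / (H.sys b).w 0 := by
  unfold HLaw.pPin
  rw [pn_Z_zero H hP, pn_Z_zero _ (pn_pin_proper H hP A)]

theorem pn_pPin_pos (hP : H.Proper) {b : ℝ} (hok : (H.sys b).Ok) (A : Set G.V) : 0 < H.pPin b A := by
  rw [pn_pPin_eq H hP]
  exact div_pos (pn_w_pos _ (pn_pin_ok H hok A) 0) (pn_w_pos H hok 0)

theorem pn_pinM_inf (hP : H.Proper) (A P : Set G.V) : pnM H P ⊓ pnM H A = pnM H (A ∪ P) := by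
  ext z
  constructor
  · rintro ⟨⟨h, hh, rfl⟩, ⟨h', hh', he⟩⟩
    have : h' = h := by
      have h0 : h' - h = 0 := hP _ (H.Λ.sub_mem hh'.1 hh.1) (by rw [map_sub, he, sub_self])
      exact sub_eq_zero.1 h0
    subst this
    refine ⟨h', ⟨hh.1, ?_⟩, rfl⟩
    rintro v (hv | hv)
    · exact hh'.2 v hv
    · exact hh.2 v hv
  · rintro ⟨h, hh, rfl⟩
    exact ⟨⟨h, ⟨hh.1, fun v hv => hh.2 v (Or.inr hv)⟩, rfl⟩, ⟨h, ⟨hh.1, fun v hv => hh.2 v (Or.inl hv)⟩, rfl⟩⟩

/-- **FKG for hard zero pins**: `w_A w_P ≤ w_{A ∪ P} w`. -/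
theorem pn_pin_event (hP : H.Proper) {b : ℝ} (hok : (H.sys b).Ok) (A P : Set G.V) :
    ((H.addPin A).sys b).w 0 / (H.sys b).w 0 ≤ ((H.addPin (A ∪ P)).sys b).w 0 / ((H.addPin P).sys b).w 0 := by
  have h := lsys_event_mono (pnRefPin0 H b P) hok (pn_pin_ok H hok P) (pnM H A)
  have e1 : ((H.sys b).sub (pnM H A)).w 0 = ((H.addPin A).sys b).w 0 :=
    pn_w_congr (fun _ : G.E => b) (inf_eq_right.2 (pn_pinM_le H A)) 0
  have e2 : (((H.addPin P).sys b).sub ((pnM H A).comap (pnRefPin0 H b P).res)).w 0 = ((H.addPin (A ∪ P)).sys b).w 0 := by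
    refine pn_w_congr (fun _ : G.E => b) ?_ 0
    exact pn_pinM_inf H hP A P
  rwa [e1, e2] at h

/-- `D(A,A') ≥ 0`. -/
theorem pn_dPin_nonneg_gen (b : ℝ) (hok : (H.sys b).Ok) (hP : H.Proper) (A A' : Set G.V) : 0 ≤ H.dPin b A A' := by
  unfold HLaw.dPin
  have h0 := pn_pPin_pos H hP hok (A ∪ A')
  have h1 := pn_pPin_pos H hP hok A
  have h2 := pn_pPin_pos H hP hok A'
  have h := pn_pin_event H hP hok A A'
  have hw := pn_w_pos H hok 0
  have hwA' := pn_w_pos _ (pn_pin_ok H hok A') 0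
  have key : H.pPin b A * H.pPin b A' ≤ H.pPin b (A ∪ A') := by
    rw [pn_pPin_eq H hP, pn_pPin_eq H hP, pn_pPin_eq H hP]
    calc ((H.addPin A).sys b).w 0 / (H.sys b).w 0 * (((H.addPin A').sys b).w 0 / (H.sys b).w 0)
        ≤ ((H.addPin (A ∪ A')).sys b).w 0 / ((H.addPin A').sys b).w 0 * (((H.addPin A').sys b).w 0 / (H.sys b).w 0) :=
          mul_le_mul_of_nonneg_right h (div_pos hwA' hw).le
      _ = ((H.addPin (A ∪ A')).sys b).w 0 / (H.sys b).w 0 := by field_simp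
  have := Real.log_le_log (mul_pos h1 h2) key
  rw [Real.log_mul h1.ne' h2.ne'] at this
  linarith

theorem pn_pin_pin_w (b : ℝ) (F A : Set G.V) :
    (((H.addPin F).addPin A).sys b).w 0 = ((H.addPin (A ∪ F)).sys b).w 0 := by
  refine pn_w_congr (fun _ : G.E => b) ?_ 0
  have : (H.Λ ⊓ HLaw.pinned F) ⊓ HLaw.pinned A = H.Λ ⊓ HLaw.pinned (A ∪ F) := by
    ext h
    constructor
    · rintro ⟨⟨h1, h2⟩, h3⟩
      refine ⟨h1, ?_⟩
      rintro v (hv | hv)
      · exact h3 v hv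
      · exact h2 v hv
    · rintro ⟨h1, h2⟩
      exact ⟨⟨h1, fun v hv => h2 v (Or.inr hv)⟩, fun v hv => h2 v (Or.inl hv)⟩
  show ((H.Λ ⊓ HLaw.pinned F) ⊓ HLaw.pinned A).map H.coord = (H.Λ ⊓ HLaw.pinned (A ∪ F)).map H.coord
  rw [this]

/-- Bayes: `p_F(A) = p(A ∪ F) / p(F)`. -/
theorem pn_pPin_pin (hP : H.Proper) {b : ℝ} (hok : (H.sys b).Ok) (F A : Set G.V) :
    (H.addPin F).pPin b A = H.pPin b (A ∪ F) / H.pPin b F := by
  have hw := pn_w_pos H hok 0
  have hwF := pn_w_pos _ (pn_pin_ok H hok F) 0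
  rw [pn_pPin_eq _ (pn_pin_proper H hP F), pn_pPin_eq H hP, pn_pPin_eq H hP, pn_pin_pin_w]
  field_simp

/-- [F](3.17), exact form. -/
theorem pn_dPin_cond (b : ℝ) (hok : (H.sys b).Ok) (hP : H.Proper) (F A A' : Set G.V) :
    (H.addPin F).dPin b A A' + H.dPin b F A' = H.dPin b (A ∪ F) A' := by
  unfold HLaw.dPin
  rw [pn_pPin_pin H hP hok, pn_pPin_pin H hP hok, pn_pPin_pin H hP hok]
  have p := fun A => (pn_pPin_pos H hP hok A).ne'
  rw [Real.log_div (p _) (p _), Real.log_div (p _) (p _), Real.log_div (p _) (p _)]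
  have e1 : A ∪ A' ∪ F = A ∪ F ∪ A' := by
    ext v; simp only [Set.mem_union]; tauto
  have e2 : A' ∪ F = F ∪ A' := Set.union_comm _ _
  rw [e1, e2]
  ring

theorem pn_dPin_cond_le_gen (b : ℝ) (hok : (H.sys b).Ok) (hP : H.Proper) (F A A' : Set G.V) :
    (H.addPin F).dPin b A A' ≤ H.dPin b (A ∪ F) A' := by
  have h1 := pn_dPin_cond H b hok hP F A A'
  have h2 := pn_dPin_nonneg_gen H b hok hP F A'
  linarith

/-! ## Abstract inequalities on a translate -/

/-- characters on a translate, real form with both components -/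
theorem pn_char_sq {S : LSys} (hS : S.Ok) (α : S.Amb) (X : S.L →+ ℝ) (c : ℝ) :
    (S.Zf α fun z => Real.cos (X z + c)) ^ 2 + (S.Zf α fun z => Real.sin (X z + c)) ^ 2
      ≤ (S.w α * S.phi X) ^ 2 := by
  have r1 : (Complex.exp (Complex.I * c) * S.wC α 0 X).re = S.Zf α fun z => Real.cos (X z + c) := by
    rw [rd_wC_re hS α 0 X c]
    exact rd_Zf_congr α fun z => by simp
  have r2 : (Complex.exp (Complex.I * c) * S.wC α 0 X).im = S.Zf α fun z => Real.sin (X z + c) := by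
    have h := rd_wC_re hS α 0 X (c - Real.pi / 2)
    have h' : Complex.exp (Complex.I * ((c - Real.pi / 2 : ℝ) : ℂ)) = -Complex.I * Complex.exp (Complex.I * c) := by
      have : Complex.I * ((c - Real.pi / 2 : ℝ) : ℂ) = Complex.I * c + -(Real.pi / 2 * Complex.I) := by
        push_cast; ring
      rw [this, Complex.exp_add, Complex.exp_neg, Complex.exp_pi_div_two_mul_I, Complex.inv_I]
      ring
    rw [h', mul_assoc] at h
    have h2 : (-Complex.I * (Complex.exp (Complex.I * c) * S.wC α 0 X)).re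
        = (Complex.exp (Complex.I * c) * S.wC α 0 X).im := by
      simp [Complex.mul_re]
    rw [← h2, h]
    refine rd_Zf_congr α fun z => ?_
    have : X z + (c - Real.pi / 2) = (X z + c) - Real.pi / 2 := by ring
    rw [this, Real.cos_sub_pi_div_two]
    simp
  have hn : ‖Complex.exp (Complex.I * c) * S.wC α 0 X‖ = ‖S.wC α 0 X‖ := by
    rw [norm_mul, mul_comm Complex.I, Complex.norm_exp_ofReal_mul_I, one_mul]
  have hb := lsys_phi_affine S hS α X
  rw [← r1, ← r2]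
  have h3 : (Complex.exp (Complex.I * c) * S.wC α 0 X).re ^ 2 + (Complex.exp (Complex.I * c) * S.wC α 0 X).im ^ 2
      = ‖S.wC α 0 X‖ ^ 2 := by
    rw [← hn, Complex.sq_norm, Complex.normSq_apply]; ring
  rw [h3]
  exact pow_le_pow_left₀ (norm_nonneg _) hb 2

/-- `w(α)² wT(0,X)² ≤ wT(α,X) wT(α,-X) w(0)²` -/
theorem pn_lap_prod {S : LSys} (hS : S.Ok) (α : S.Amb) (X : S.L →+ ℝ) :
    S.w α ^ 2 * S.wT 0 X ^ 2 ≤ S.wT α X * S.wT α (-X) * S.w 0 ^ 2 := by
  have hm := lsys_master S hS α 0 0 X 0 0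
  simp only [rd_wC_zero, add_zero, sub_zero, zero_add, zero_sub, Complex.norm_real, Real.norm_eq_abs, sq_abs,
    rd_wT_zero, rd_phi_zero hS, mul_one] at hm
  calc _ ≤ _ := hm
    _ = _ := by ring

/-- Stores the on-demand equation lemmas of the definitions above in THIS module (rule 6 hygiene). -/
theorem pn_pinLib_forced : True := by
  have := @pnM.eq_1
  have := @pnRefPin.eq_1
  have := @pnRefPin0.eq_1
  trivial

end

end Claimed.Agent.R285.Pins
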