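import Mathlib

/-!
# ROW 285, PINS, T3.2 package (architect helper178).  FILE 1: PURE PROBABILITY along a sequence of probability spaces.   MATHLIB ONLY, PAPER-FREE.

Every `sorry` of this file is ONE LEAF (names `L-PN-P*`, see the docstrings).  Statements are frozen; prove in place; helper lemmas: prefix `pn_`, this namespace (`Claimed.Agent.R285.Pins.T32`).

Setting: for every `k` a probability space `(Ω k, m k)`; nothing relates the spaces for different `k`.
* `NearP m X ε`  : eventually `m k {ε < ‖X k‖} ≤ ε`.            * `TendsP m X` : `X k → 0` in probability.            * `TightP m X` : uniform tightness.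
Plan of the package (files `T32Prob`, `T32Lat`, `T32Gau`, `T32Step`, `T32Glue`): see `T32Glue.lean`.
-/

set_option autoImplicit false

namespace Claimed.Agent.R285.Pins.T32

open Filter Topology MeasureTheory

noncomputable section

section defs

variable {Ω : ℕ → Type} [∀ k, MeasurableSpace (Ω k)] {E : Type} [Norm E]

/-- eventually `‖X k‖ ≤ ε` outside an event of probability `≤ ε` -/
def NearP (m : ∀ k, Measure (Ω k)) (X : ∀ k, Ω k → E) (ε : ℝ) : Prop :=
  ∀ᶠ k in atTop, (m k).real {ω | ε < ‖X k ω‖} ≤ ε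

/-- convergence to zero in probability -/
def TendsP (m : ∀ k, Measure (Ω k)) (X : ∀ k, Ω k → E) : Prop :=
  ∀ ε > 0, Tendsto (fun k => (m k).real {ω | ε < ‖X k ω‖}) atTop (𝓝 0)

/-- uniform tightness -/
def TightP (m : ∀ k, Measure (Ω k)) (X : ∀ k, Ω k → E) : Prop :=
  ∀ ε > 0, ∃ R : ℝ, ∀ᶠ k in atTop, (m k).real {ω | R < ‖X k ω‖} ≤ ε

end defs

/-! ## 1. Power series: real convergence implies complex convergence -/

lemma pn_coeff_summable (c : ℕ → ℝ) (C : ℝ) (hC : ∀ n, |c n| ≤ C) (s : ℝ) (hs0 : 0 ≤ s) (hs1 : s < 1) :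
    Summable fun n => c n * s ^ n := by
  refine Summable.of_norm_bounded (g := fun n => C * s ^ n) ((summable_geometric_of_lt_one hs0 hs1).mul_left C) ?_
  intro n
  rw [norm_mul, Real.norm_eq_abs, norm_pow, Real.norm_eq_abs, abs_of_nonneg hs0]
  exact mul_le_mul_of_nonneg_right (hC n) (pow_nonneg hs0 n)

lemma pn_coeff_zero (c : ℕ → ℕ → ℝ) (C : ℝ) (hC : ∀ k n, |c k n| ≤ C)
    (h0 : ∀ s : ℝ, 0 < s → s ≤ 1 / 2 → Tendsto (fun k => ∑' n, c k n * s ^ n) atTop (𝓝 0)) :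
    Tendsto (fun k => c k 0) atTop (𝓝 0) := by
  have hC0 : 0 ≤ C := (abs_nonneg _).trans (hC 0 0)
  rw [Metric.tendsto_atTop]
  intro ε hε
  set s : ℝ := min (1 / 2) (ε / (4 * (C + 1))) with hs
  have hs0 : 0 < s := lt_min (by norm_num) (by positivity)
  have hs2 : s ≤ 1 / 2 := min_le_left _ _
  have hs3 : s * (4 * (C + 1)) ≤ ε := by
    have : s ≤ ε / (4 * (C + 1)) := min_le_right _ _
    rwa [le_div_iff₀ (by positivity)] at this
  obtain ⟨N, hN⟩ := (Metric.tendsto_atTop.1 (h0 s hs0 hs2)) (ε / 2) (by positivity)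
  refine ⟨N, fun k hk => ?_⟩
  have h1 := hN k hk
  rw [Real.dist_eq, sub_zero] at h1 ⊢
  have hsum := pn_coeff_summable (c k) C (hC k) s hs0.le (by linarith)
  have h2 : ∑' n, c k n * s ^ n = c k 0 + ∑' n, c k (n + 1) * s ^ (n + 1) := by
    rw [hsum.tsum_eq_zero_add]; simp
  have h3 : ‖∑' n, c k (n + 1) * s ^ (n + 1)‖ ≤ C * s * (1 - s)⁻¹ := by
    refine tsum_of_norm_bounded ((hasSum_geometric_of_lt_one hs0.le (by linarith)).mul_left (C * s)) ?_
    intro n
    rw [norm_mul, Real.norm_eq_abs, norm_pow, Real.norm_eq_abs, abs_of_nonneg hs0.le, pow_succ]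
    have := hC k (n + 1)
    have h5 : 0 ≤ s ^ n * s := by positivity
    nlinarith
  have h4 : C * s * (1 - s)⁻¹ ≤ C * s * 2 := by
    have : (1 - s)⁻¹ ≤ 2 := by
      rw [inv_le_comm₀ (by linarith) (by norm_num)]
      linarith
    gcongr
  rw [Real.norm_eq_abs] at h3
  have h6 : c k 0 = (∑' n, c k n * s ^ n) - ∑' n, c k (n + 1) * s ^ (n + 1) := by rw [h2]; ring
  rw [h6]
  have h7 := abs_sub (∑' n, c k n * s ^ n) (∑' n, c k (n + 1) * s ^ (n + 1))
  nlinarith

lemma pn_coeff_all (n : ℕ) : ∀ (c : ℕ → ℕ → ℝ) (C : ℝ) (_ : ∀ k n, |c k n| ≤ C)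
    (_ : ∀ s : ℝ, 0 < s → s ≤ 1 / 2 → Tendsto (fun k => ∑' n, c k n * s ^ n) atTop (𝓝 0)),
    Tendsto (fun k => c k n) atTop (𝓝 0) := by
  induction n with
  | zero => exact fun c C hC h0 => pn_coeff_zero c C hC h0
  | succ n ih =>
    intro c C hC h0
    refine ih (fun k j => c k (j + 1)) C (fun k j => hC k (j + 1)) ?_
    intro s hs0 hs2
    have h1 := pn_coeff_zero c C hC h0
    have h2 := ((h0 s hs0 hs2).sub h1).div_const s
    simp only [sub_zero, zero_div] at h2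
    refine h2.congr fun k => ?_
    have hsum := pn_coeff_summable (c k) C (hC k) s hs0.le (by linarith)
    rw [hsum.tsum_eq_zero_add]
    simp only [pow_zero, mul_one, add_sub_cancel_left]
    rw [← tsum_div_const]
    congr 1
    ext j
    field_simp
    ring

/-- **L-PN-P1** (~120 l.).  `c k n` = coefficients with Cauchy bounds uniform in `k`; if the sums tend to `0` at every real point then every coefficient tends to `0`, hence the sums tend to `0` at every complex point.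
PROOF: induction on `n`: `(∑_j c k j s^j - ∑_{j<n} c k j s^j)/s^n = c k n + O(s)` uniformly in `k` (bound with `R = 1`, `0 < s ≤ 1/2`), so `limsup |c k n| ≤ C s` for all small `s`.  Then Tannery (`tendsto_tsum_of_dominated_convergence`) with `R = 2 (‖z‖ + 1)`. -/
theorem pn_ps_real_to_complex (c : ℕ → ℕ → ℝ) (hb : ∀ R : ℝ, 0 < R → ∃ C : ℝ, ∀ k n, |c k n| * R ^ n ≤ C)
    (h0 : ∀ s : ℝ, Tendsto (fun k => ∑' n, c k n * s ^ n) atTop (𝓝 0)) (z : ℂ) :
    Tendsto (fun k => ∑' n, (c k n : ℂ) * z ^ n) atTop (𝓝 0) := by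
  obtain ⟨C1, hC1⟩ := hb 1 one_pos
  have hcoef : ∀ n, Tendsto (fun k => c k n) atTop (𝓝 0) := fun n =>
    pn_coeff_all n c C1 (fun k n => by simpa using hC1 k n) (fun s _ _ => h0 s)
  obtain ⟨C, hC⟩ := hb (2 * (‖z‖ + 1)) (by positivity)
  have hC0 : 0 ≤ C := le_trans (by positivity) (hC 0 0)
  have key := tendsto_tsum_of_dominated_convergence (𝓕 := atTop) (f := fun k n => (c k n : ℂ) * z ^ n)
    (g := fun _ => (0:ℂ)) (bound := fun n => C * (1 / 2 : ℝ) ^ n)
    ((summable_geometric_of_lt_one (by norm_num) (by norm_num)).mul_left C) ?_ ?_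
  · simpa using key
  · intro n
    have h1 : Tendsto (fun k => ((c k n : ℝ) : ℂ)) atTop (𝓝 ((0:ℝ) : ℂ)) :=
      (Complex.continuous_ofReal.tendsto 0).comp (hcoef n)
    simpa using h1.mul_const (z ^ n)
  · refine Eventually.of_forall fun k n => ?_
    rw [norm_mul, Complex.norm_real, Real.norm_eq_abs, norm_pow]
    have h1 := hC k n
    have h2 : ‖z‖ ^ n ≤ (‖z‖ + 1) ^ n := by gcongr; linarith
    have h3 : (2 * (‖z‖ + 1)) ^ n * (1 / 2 : ℝ) ^ n = (‖z‖ + 1) ^ n := by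
      rw [← mul_pow]; congr 1; ring
    calc |c k n| * ‖z‖ ^ n ≤ |c k n| * (‖z‖ + 1) ^ n := by gcongr
      _ = (|c k n| * (2 * (‖z‖ + 1)) ^ n) * (1 / 2 : ℝ) ^ n := by rw [← h3]; ring
      _ ≤ C * (1 / 2 : ℝ) ^ n := by gcongr

lemma pn_exp_abs_le (r y : ℝ) : Real.exp (r * |y|) ≤ Real.exp (r * y) + Real.exp (-r * y) := by
  rcases le_total 0 y with h | h
  · rw [abs_of_nonneg h]
    linarith [Real.exp_pos (-r * y)]
  · rw [abs_of_nonpos h]
    have : r * -y = -r * y := by ring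
    rw [this]
    linarith [Real.exp_pos (r * y)]

lemma pn_exp_abs_integrable {Ω : Type} [MeasurableSpace Ω] (m : Measure Ω) (Y : Ω → ℝ) (hY : Measurable Y)
    (hint : ∀ s : ℝ, Integrable (fun ω => Real.exp (s * Y ω)) m) (r : ℝ) :
    Integrable (fun ω => Real.exp (r * |Y ω|)) m := by
  refine Integrable.mono' ((hint r).add (hint (-r))) (hY.abs.const_mul r).exp.aestronglyMeasurable ?_
  refine Eventually.of_forall fun ω => ?_
  rw [Real.norm_eq_abs, abs_of_pos (Real.exp_pos _)]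
  exact pn_exp_abs_le r (Y ω)

/-- **L-PN-P2** (~150 l.).  Exponential series under the integral sign: if all exponential moments of `Y` are finite then `∫ e^{zY} = ∑ z^n ∫ Y^n / n!` and `|∫ Y^n| / n! ≤ R^{-n} (∫ e^{RY} + ∫ e^{-RY})`.
(`|y|^n / n! ≤ R^{-n} e^{R|y|}`; `hasSum_integral_of_summable_integral_norm`.) -/
theorem pn_exp_series {Ω : Type} [MeasurableSpace Ω] (m : Measure Ω) [IsProbabilityMeasure m] (Y : Ω → ℝ) (hY : Measurable Y)
    (hint : ∀ s : ℝ, Integrable (fun ω => Real.exp (s * Y ω)) m) :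
    (∀ z : ℂ, HasSum (fun n : ℕ => (((∫ ω, Y ω ^ n ∂m) / (n.factorial : ℝ) : ℝ) : ℂ) * z ^ n) (∫ ω, Complex.exp (z * (Y ω : ℂ)) ∂m)) ∧
    (∀ R : ℝ, 0 < R → ∀ n : ℕ, |(∫ ω, Y ω ^ n ∂m) / (n.factorial : ℝ)| * R ^ n
        ≤ (∫ ω, Real.exp (R * Y ω) ∂m) + ∫ ω, Real.exp (-R * Y ω) ∂m) := by
  constructor
  · intro z
    set F : ℕ → Ω → ℂ := fun n ω => (z * (Y ω : ℂ)) ^ n / (n.factorial : ℂ) with hF
    have hnorm : ∀ n ω, ‖F n ω‖ = (‖z‖ * |Y ω|) ^ n / (n.factorial : ℝ) := by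
      intro n ω
      simp only [hF, norm_div, norm_pow, norm_mul, Complex.norm_real, Real.norm_eq_abs, Complex.norm_natCast]
    have hFm : ∀ n, AEStronglyMeasurable (F n) m := fun n =>
      (((measurable_const.mul (Complex.measurable_ofReal.comp hY)).pow_const n).div_const _).aestronglyMeasurable
    have hF_int : ∀ n, Integrable (F n) m := by
      intro n
      refine Integrable.mono' (pn_exp_abs_integrable m Y hY hint ‖z‖) (hFm n) ?_
      refine Eventually.of_forall fun ω => ?_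
      rw [hnorm]
      exact Real.pow_div_factorial_le_exp _ (by positivity) n
    have hF_sum : Summable fun n => ∫ ω, ‖F n ω‖ ∂m := by
      refine Summable.of_nonneg_of_le (fun n => integral_nonneg fun ω => norm_nonneg _) (fun n => ?_)
        ((summable_geometric_of_lt_one (by norm_num : (0:ℝ) ≤ 1 / 2) (by norm_num)).mul_right
          (∫ ω, Real.exp (2 * ‖z‖ * |Y ω|) ∂m))
      rw [← integral_const_mul]
      refine integral_mono_of_nonneg (Eventually.of_forall fun ω => norm_nonneg _)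
        ((pn_exp_abs_integrable m Y hY hint (2 * ‖z‖)).const_mul _) (Eventually.of_forall fun ω => ?_)
      show ‖F n ω‖ ≤ (1 / 2 : ℝ) ^ n * Real.exp (2 * ‖z‖ * |Y ω|)
      rw [hnorm]
      have h1 : (2 * ‖z‖ * |Y ω|) ^ n / (n.factorial : ℝ) ≤ Real.exp (2 * ‖z‖ * |Y ω|) :=
        Real.pow_div_factorial_le_exp _ (by positivity) n
      have h2 : (‖z‖ * |Y ω|) ^ n / (n.factorial : ℝ) = (1 / 2 : ℝ) ^ n * ((2 * ‖z‖ * |Y ω|) ^ n / (n.factorial : ℝ)) := by
        rw [← mul_div_assoc, ← mul_pow]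
        congr 2
        ring
      rw [h2]
      gcongr
    have key := hasSum_integral_of_summable_integral_norm hF_int hF_sum
    have e1 : (fun ω => ∑' n, F n ω) = fun ω => Complex.exp (z * (Y ω : ℂ)) := by
      ext ω
      rw [Complex.exp_eq_exp_ℂ]
      exact (NormedSpace.expSeries_div_hasSum_exp (z * (Y ω : ℂ))).tsum_eq
    rw [e1] at key
    have e3 : (fun n : ℕ => (((∫ ω, Y ω ^ n ∂m) / (n.factorial : ℝ) : ℝ) : ℂ) * z ^ n) = fun n => ∫ ω, F n ω ∂m := by
      ext n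
      have e2 : ∀ ω, F n ω = (((Y ω ^ n : ℝ)) : ℂ) * (z ^ n / (n.factorial : ℂ)) := by
        intro ω
        simp only [hF, mul_pow]
        push_cast
        ring
      simp_rw [e2]
      rw [integral_mul_const]
      have e4 : ∫ ω, (((Y ω ^ n : ℝ)) : ℂ) ∂m = ((∫ ω, Y ω ^ n ∂m : ℝ) : ℂ) := integral_ofReal
      rw [e4]
      push_cast
      ring
    rw [e3]
    exact key
  · intro R hR n
    have hn : (0:ℝ) < (n.factorial : ℝ) := by positivity
    calc |(∫ ω, Y ω ^ n ∂m) / (n.factorial : ℝ)| * R ^ n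
        = |∫ ω, Y ω ^ n ∂m| * (R ^ n / (n.factorial : ℝ)) := by
          rw [abs_div, abs_of_pos hn]; ring
      _ ≤ (∫ ω, |Y ω ^ n| ∂m) * (R ^ n / (n.factorial : ℝ)) := by
          gcongr
          exact abs_integral_le_integral_abs
      _ = ∫ ω, (R * |Y ω|) ^ n / (n.factorial : ℝ) ∂m := by
          rw [← integral_mul_const]
          congr 1
          ext ω
          rw [abs_pow, mul_pow]
          ring
      _ ≤ ∫ ω, (Real.exp (R * Y ω) + Real.exp (-R * Y ω)) ∂m := by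
          refine integral_mono_of_nonneg (Eventually.of_forall fun ω => by positivity)
            ((hint R).add (hint (-R))) (Eventually.of_forall fun ω => ?_)
          exact (Real.pow_div_factorial_le_exp _ (by positivity) n).trans (pn_exp_abs_le R (Y ω))
      _ = _ := integral_add (hint R) (hint (-R))

lemma pn_integral_cexp_ofReal {Ω : Type} [MeasurableSpace Ω] (m : Measure Ω) (Y : Ω → ℝ) (s : ℝ) :
    ∫ ω, Complex.exp ((s : ℂ) * (Y ω : ℂ)) ∂m = ((∫ ω, Real.exp (s * Y ω) ∂m : ℝ) : ℂ) := by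
  have e : ∫ ω, ((Real.exp (s * Y ω) : ℝ) : ℂ) ∂m = ((∫ ω, Real.exp (s * Y ω) ∂m : ℝ) : ℂ) := integral_ofReal
  rw [← e]
  congr 1
  ext ω
  push_cast
  rfl

/-- **L-PN-P3** (~120 l., from P1 + P2).  Two sequences of real random variables whose moment generating functions are asymptotically equal at every real point (and bounded) have asymptotically equal transforms at every complex point;
in particular asymptotically equal characteristic functions.  No Gaussian, no Levy, no Montel. -/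
theorem pn_mgf_to_char {Ω Ω' : ℕ → Type} [∀ k, MeasurableSpace (Ω k)] [∀ k, MeasurableSpace (Ω' k)]
    (m : ∀ k, Measure (Ω k)) (m' : ∀ k, Measure (Ω' k)) [∀ k, IsProbabilityMeasure (m k)] [∀ k, IsProbabilityMeasure (m' k)]
    (Y : ∀ k, Ω k → ℝ) (Y' : ∀ k, Ω' k → ℝ) (hY : ∀ k, Measurable (Y k)) (hY' : ∀ k, Measurable (Y' k))
    (hint : ∀ k (s : ℝ), Integrable (fun ω => Real.exp (s * Y k ω)) (m k))
    (hint' : ∀ k (s : ℝ), Integrable (fun ω => Real.exp (s * Y' k ω)) (m' k))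
    (hbd : ∀ s : ℝ, ∃ C : ℝ, ∀ k, ∫ ω, Real.exp (s * Y' k ω) ∂(m' k) ≤ C)
    (hmgf : ∀ s : ℝ, Tendsto (fun k => (∫ ω, Real.exp (s * Y k ω) ∂(m k)) - ∫ ω, Real.exp (s * Y' k ω) ∂(m' k)) atTop (𝓝 0)) (z : ℂ) :
    Tendsto (fun k => (∫ ω, Complex.exp (z * (Y k ω : ℂ)) ∂(m k)) - ∫ ω, Complex.exp (z * (Y' k ω : ℂ)) ∂(m' k)) atTop (𝓝 0) := by
  set c : ℕ → ℕ → ℝ := fun k n => (∫ ω, Y k ω ^ n ∂(m k)) / (n.factorial : ℝ) - (∫ ω, Y' k ω ^ n ∂(m' k)) / (n.factorial : ℝ)
    with hc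
  have hs : ∀ k (w : ℂ), HasSum (fun n => (c k n : ℂ) * w ^ n)
      ((∫ ω, Complex.exp (w * (Y k ω : ℂ)) ∂(m k)) - ∫ ω, Complex.exp (w * (Y' k ω : ℂ)) ∂(m' k)) := by
    intro k w
    have h1 := (pn_exp_series (m k) (Y k) (hY k) (hint k)).1 w
    have h2 := (pn_exp_series (m' k) (Y' k) (hY' k) (hint' k)).1 w
    have h3 := h1.sub h2
    have e : (fun n => (c k n : ℂ) * w ^ n) = fun n : ℕ =>
        (((∫ ω, Y k ω ^ n ∂(m k)) / (n.factorial : ℝ) : ℝ) : ℂ) * w ^ n
          - (((∫ ω, Y' k ω ^ n ∂(m' k)) / (n.factorial : ℝ) : ℝ) : ℂ) * w ^ n := by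
      ext n
      simp only [hc]
      push_cast
      ring
    rw [e]
    exact h3
  have hbdY : ∀ s : ℝ, ∃ C : ℝ, ∀ k, ∫ ω, Real.exp (s * Y k ω) ∂(m k) ≤ C := by
    intro s
    obtain ⟨C', hC'⟩ := hbd s
    obtain ⟨D, hD⟩ := (hmgf s).bddAbove_range
    refine ⟨D + C', fun k => ?_⟩
    have h1 : (∫ ω, Real.exp (s * Y k ω) ∂(m k)) - ∫ ω, Real.exp (s * Y' k ω) ∂(m' k) ≤ D := hD (Set.mem_range_self k)
    linarith [hC' k]
  have hb : ∀ R : ℝ, 0 < R → ∃ C : ℝ, ∀ k n, |c k n| * R ^ n ≤ C := by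
    intro R hR
    obtain ⟨C1, hC1⟩ := hbdY R
    obtain ⟨C2, hC2⟩ := hbdY (-R)
    obtain ⟨C3, hC3⟩ := hbd R
    obtain ⟨C4, hC4⟩ := hbd (-R)
    refine ⟨C1 + C2 + C3 + C4, fun k n => ?_⟩
    have h1 := (pn_exp_series (m k) (Y k) (hY k) (hint k)).2 R hR n
    have h2 := (pn_exp_series (m' k) (Y' k) (hY' k) (hint' k)).2 R hR n
    have h3 : |c k n| ≤ |(∫ ω, Y k ω ^ n ∂(m k)) / (n.factorial : ℝ)| + |(∫ ω, Y' k ω ^ n ∂(m' k)) / (n.factorial : ℝ)| :=
      abs_sub _ _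
    have h4 : 0 ≤ R ^ n := by positivity
    have h5 := mul_le_mul_of_nonneg_right h3 h4
    rw [add_mul] at h5
    linarith [hC1 k, hC2 k, hC3 k, hC4 k]
  have h0 : ∀ s : ℝ, Tendsto (fun k => ∑' n, c k n * s ^ n) atTop (𝓝 0) := by
    intro s
    refine (hmgf s).congr fun k => ?_
    have h1 := hs k (s : ℂ)
    rw [pn_integral_cexp_ofReal, pn_integral_cexp_ofReal] at h1
    have h2 : HasSum (fun n => c k n * s ^ n)
        ((∫ ω, Real.exp (s * Y k ω) ∂(m k)) - ∫ ω, Real.exp (s * Y' k ω) ∂(m' k)) := by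
      rw [← Complex.hasSum_ofReal]
      push_cast
      exact h1
    exact h2.tsum_eq.symm
  exact (pn_ps_real_to_complex c hb h0 z).congr fun k => (hs k z).tsum_eq

/-- **L-PN-P4** (~60 l.).  Tightness of a finite vector from bounded exponential moments of its coordinates (Markov + union bound). -/
theorem pn_tight_of_mgf {Ω : ℕ → Type} [∀ k, MeasurableSpace (Ω k)] (m : ∀ k, Measure (Ω k)) [∀ k, IsProbabilityMeasure (m k)]
    {ι : Type} [Fintype ι] (S : ∀ k, Ω k → ι → ℝ) (hS : ∀ k, Measurable (S k))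
    (hint : ∀ k i (s : ℝ), Integrable (fun ω => Real.exp (s * S k ω i)) (m k))
    (C : ℝ) (hC : ∀ᶠ k in atTop, ∀ i, (∫ ω, Real.exp (S k ω i) ∂(m k)) ≤ C ∧ (∫ ω, Real.exp (-(S k ω i)) ∂(m k)) ≤ C) :
    TightP m S := by
  intro ε hε
  have ht : Tendsto (fun R : ℝ => (Fintype.card ι : ℝ) * (2 * C) * Real.exp (-R)) atTop
      (𝓝 ((Fintype.card ι : ℝ) * (2 * C) * 0)) := Real.tendsto_exp_neg_atTop_nhds_zero.const_mul _
  obtain ⟨R, hR1, hR0⟩ := ((ht.eventually_le_const (by simpa using hε)).and (eventually_ge_atTop 0)).exists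
  refine ⟨R, ?_⟩
  filter_upwards [hC] with k hk
  have hmk : ∀ (f : Ω k → ℝ), Integrable (fun ω => Real.exp (f ω)) (m k) → (∫ ω, Real.exp (f ω) ∂(m k)) ≤ C →
      (m k).real {ω | R < f ω} ≤ C * Real.exp (-R) := by
    intro f hf hfC
    have h1 : Real.exp R * (m k).real {ω | Real.exp R ≤ Real.exp (f ω)} ≤ ∫ ω, Real.exp (f ω) ∂(m k) :=
      mul_meas_ge_le_integral_of_nonneg (Eventually.of_forall fun ω => (Real.exp_pos _).le) hf _
    have h2 : (m k).real {ω | R < f ω} ≤ (m k).real {ω | Real.exp R ≤ Real.exp (f ω)} := by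
      refine measureReal_mono ?_ (measure_ne_top _ _)
      intro ω hω
      exact Real.exp_le_exp.2 (le_of_lt hω)
    have h3 : Real.exp R * (m k).real {ω | R < f ω} ≤ C :=
      (mul_le_mul_of_nonneg_left h2 (Real.exp_pos _).le).trans (h1.trans hfC)
    rw [Real.exp_neg, ← div_eq_mul_inv, le_div_iff₀ (Real.exp_pos _)]
    linarith
  have hsub : {ω | R < ‖S k ω‖} ⊆ ⋃ i ∈ (Finset.univ : Finset ι), ({ω | R < S k ω i} ∪ {ω | R < -(S k ω i)}) := by
    intro ω hω
    by_contra hcon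
    simp only [Finset.mem_univ, Set.iUnion_true, Set.mem_iUnion, Set.mem_union, Set.mem_ofPred_eq, not_exists, not_or,
      not_lt] at hcon
    have : ‖S k ω‖ ≤ R := (pi_norm_le_iff_of_nonneg hR0).2 fun i => by
      rw [Real.norm_eq_abs, abs_le]
      exact ⟨by linarith [(hcon i).2], (hcon i).1⟩
    exact absurd hω (not_lt.2 this)
  calc (m k).real {ω | R < ‖S k ω‖}
      ≤ (m k).real (⋃ i ∈ (Finset.univ : Finset ι), ({ω | R < S k ω i} ∪ {ω | R < -(S k ω i)})) :=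
        measureReal_mono hsub (measure_ne_top _ _)
    _ ≤ ∑ i ∈ (Finset.univ : Finset ι), (m k).real ({ω | R < S k ω i} ∪ {ω | R < -(S k ω i)}) :=
        measureReal_biUnion_finset_le _ _
    _ ≤ ∑ _i ∈ (Finset.univ : Finset ι), (2 * C * Real.exp (-R)) := by
        apply Finset.sum_le_sum
        intro i _
        have h1 := hmk (fun ω => S k ω i) (by simpa using hint k i 1) (hk i).1
        have h2 := hmk (fun ω => -(S k ω i)) (by simpa using hint k i (-1)) (hk i).2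
        have h3 := measureReal_union_le (μ := m k) {ω | R < S k ω i} {ω | R < -(S k ω i)}
        linarith
    _ = (Fintype.card ι : ℝ) * (2 * C) * Real.exp (-R) := by simp; ring
    _ ≤ ε := hR1

/-! ## 2. Weak comparison of two sequences of laws on `ℝ^ι` -/

lemma pn_tight_range {Ω : ℕ → Type} [∀ k, MeasurableSpace (Ω k)] (m : ∀ k, Measure (Ω k)) [∀ k, IsProbabilityMeasure (m k)]
    {ι : Type} [Fintype ι] (S : ∀ k, Ω k → ι → ℝ) (hS : ∀ k, Measurable (S k)) (ht : TightP m S) :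
    IsTightMeasureSet (Set.range fun k => (m k).map (S k)) := by
  have : ∀ k, IsProbabilityMeasure ((m k).map (S k)) := fun k => Measure.isProbabilityMeasure_map (hS k).aemeasurable
  apply isTightMeasureSet_range_of_tendsto_limsup_measure_norm_gt
  rw [ENNReal.tendsto_nhds_zero]
  intro ε hε
  by_cases htop : ε = ⊤
  · simp [htop]
  have hε' : 0 < ε.toReal := ENNReal.toReal_pos hε.ne' htop
  obtain ⟨R, hR⟩ := ht ε.toReal hε'
  filter_upwards [eventually_ge_atTop R] with r hr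
  refine limsup_le_of_le (h := ?_)
  filter_upwards [hR] with k hk
  rw [Measure.map_apply (hS k) (measurableSet_lt measurable_const measurable_norm)]
  have h1 : (m k) (S k ⁻¹' {x | r < ‖x‖}) ≤ (m k) {ω | R < ‖S k ω‖} := by
    apply measure_mono
    intro ω hω
    exact lt_of_le_of_lt hr hω
  refine h1.trans ?_
  rw [measureReal_def] at hk
  exact (ENNReal.toReal_le_toReal (measure_ne_top _ _) htop).1 hk

lemma pn_dual_apply {ι : Type} [Fintype ι] [DecidableEq ι] (L : StrongDual ℝ (ι → ℝ)) (x : ι → ℝ) :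
    L x = ∑ i, L (Pi.single i 1) * x i := by
  conv_lhs => rw [← Finset.univ_sum_single x]
  rw [map_sum]
  refine Finset.sum_congr rfl fun i _ => ?_
  have h : Pi.single i (x i) = x i • (Pi.single i (1:ℝ) : ι → ℝ) := by
    ext j
    simp [Pi.single_apply]
  rw [h, map_smul, smul_eq_mul, mul_comm]

lemma pn_charDual_map {Ω : Type} [MeasurableSpace Ω] (m : Measure Ω) {ι : Type} [Fintype ι] [DecidableEq ι]
    (S : Ω → ι → ℝ) (hS : Measurable S) (L : StrongDual ℝ (ι → ℝ)) :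
    ∫ x, BoundedContinuousFunction.probCharDual L x ∂(m.map S)
      = ∫ ω, Complex.exp (Complex.I * ((∑ i, L (Pi.single i 1) * S ω i : ℝ) : ℂ)) ∂m := by
  rw [integral_map hS.aemeasurable (BoundedContinuousFunction.probCharDual L).continuous.aestronglyMeasurable]
  refine integral_congr_ae (Eventually.of_forall fun ω => ?_)
  show BoundedContinuousFunction.probCharDual L (S ω) = _
  rw [BoundedContinuousFunction.probCharDual_apply, pn_dual_apply L (S ω), mul_comm]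

/-- **L-PN-P5** (~250 l.).  Levy's theorem for two moving sequences.  Both sequences tight, characteristic functions asymptotically equal: integrals of a FIXED bounded continuous function are asymptotically equal.
PROOF: push forward to `EuclideanSpace ℝ ι`; `Filter.tendsto_iff_ultrafilter`; along an ultrafilter both sequences of `ProbabilityMeasure`s converge (`isCompact_closure_of_isTightMeasureSet`, `IsCompact.ultrafilter_le_nhds`;
the finitely many exceptional `k` of `TightP` do not matter: a single probability measure on a Polish space is tight, or drop an initial segment); the limits have the same `charFun`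
(`ProbabilityMeasure.tendsto_iff_forall_integral_rclike_tendsto ℂ` applied to `innerProbChar t`), hence are equal (`Measure.ext_of_charFun`).  Model: the proof of `ProbabilityMeasure.tendsto_of_tight_of_separatesPoints` in Mathlib. -/
theorem pn_levy_pair {Ω Ω' : ℕ → Type} [∀ k, MeasurableSpace (Ω k)] [∀ k, MeasurableSpace (Ω' k)]
    (m : ∀ k, Measure (Ω k)) (m' : ∀ k, Measure (Ω' k)) [∀ k, IsProbabilityMeasure (m k)] [∀ k, IsProbabilityMeasure (m' k)]
    {ι : Type} [Fintype ι] (S : ∀ k, Ω k → ι → ℝ) (S' : ∀ k, Ω' k → ι → ℝ) (hS : ∀ k, Measurable (S k)) (hS' : ∀ k, Measurable (S' k))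
    (ht : TightP m S) (ht' : TightP m' S')
    (hch : ∀ t : ι → ℝ, Tendsto (fun k => (∫ ω, Complex.exp (Complex.I * ((∑ i, t i * S k ω i : ℝ) : ℂ)) ∂(m k))
        - ∫ ω, Complex.exp (Complex.I * ((∑ i, t i * S' k ω i : ℝ) : ℂ)) ∂(m' k)) atTop (𝓝 0))
    (Ψ : (ι → ℝ) → ℝ) (hΨ : Continuous Ψ) (hΨb : ∃ C : ℝ, ∀ x, |Ψ x| ≤ C) :
    Tendsto (fun k => (∫ ω, Ψ (S k ω) ∂(m k)) - ∫ ω, Ψ (S' k ω) ∂(m' k)) atTop (𝓝 0) := by
  classical
  obtain ⟨C, hC⟩ := hΨb
  let μ : ℕ → ProbabilityMeasure (ι → ℝ) := fun k =>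
    ⟨(m k).map (S k), Measure.isProbabilityMeasure_map (hS k).aemeasurable⟩
  let μ' : ℕ → ProbabilityMeasure (ι → ℝ) := fun k =>
    ⟨(m' k).map (S' k), Measure.isProbabilityMeasure_map (hS' k).aemeasurable⟩
  have hcpt : IsCompact (closure (Set.range μ)) := by
    apply isCompact_closure_of_isTightMeasureSet
    convert pn_tight_range m S hS ht using 1
    ext ν
    constructor
    · rintro ⟨_, ⟨k, rfl⟩, rfl⟩
      exact ⟨k, rfl⟩
    · rintro ⟨k, rfl⟩
      exact ⟨_, ⟨k, rfl⟩, rfl⟩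
  have hcpt' : IsCompact (closure (Set.range μ')) := by
    apply isCompact_closure_of_isTightMeasureSet
    convert pn_tight_range m' S' hS' ht' using 1
    ext ν
    constructor
    · rintro ⟨_, ⟨k, rfl⟩, rfl⟩
      exact ⟨k, rfl⟩
    · rintro ⟨k, rfl⟩
      exact ⟨_, ⟨k, rfl⟩, rfl⟩
  refine (Filter.tendsto_iff_ultrafilter _ _ _).2 fun U hU => ?_
  obtain ⟨ν, -, hν : Tendsto μ U (𝓝 ν)⟩ := hcpt.ultrafilter_le_nhds (U.map μ)
    (.trans (by simp) (monotone_principal subset_closure))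
  obtain ⟨ν', -, hν' : Tendsto μ' U (𝓝 ν')⟩ := hcpt'.ultrafilter_le_nhds (U.map μ')
    (.trans (by simp) (monotone_principal subset_closure))
  have heq : (ν : Measure (ι → ℝ)) = ν' := by
    apply Measure.ext_of_charFunDual
    ext L
    have h1 := (ProbabilityMeasure.tendsto_iff_forall_integral_rclike_tendsto ℂ).1 hν (BoundedContinuousFunction.probCharDual L)
    have h2 := (ProbabilityMeasure.tendsto_iff_forall_integral_rclike_tendsto ℂ).1 hν' (BoundedContinuousFunction.probCharDual L)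
    have h3 := (hch fun i => L (Pi.single i 1)).comp hU
    have h4 := h1.sub h2
    have h5 : (fun k => (∫ x, BoundedContinuousFunction.probCharDual L x ∂(μ k : Measure (ι → ℝ)))
        - ∫ x, BoundedContinuousFunction.probCharDual L x ∂(μ' k : Measure (ι → ℝ)))
        = (fun k => (∫ ω, Complex.exp (Complex.I * ((∑ i, L (Pi.single i 1) * S k ω i : ℝ) : ℂ)) ∂(m k))
        - ∫ ω, Complex.exp (Complex.I * ((∑ i, L (Pi.single i 1) * S' k ω i : ℝ) : ℂ)) ∂(m' k)) := by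
      ext k
      rw [← pn_charDual_map (m k) (S k) (hS k) L, ← pn_charDual_map (m' k) (S' k) (hS' k) L]
      rfl
    rw [h5] at h4
    have h6 := tendsto_nhds_unique h4 h3
    exact sub_eq_zero.1 h6
  let Ψb : BoundedContinuousFunction (ι → ℝ) ℝ := BoundedContinuousFunction.ofNormedAddCommGroup Ψ hΨ C hC
  have g1 := (ProbabilityMeasure.tendsto_iff_forall_integral_tendsto).1 hν Ψb
  have g2 := (ProbabilityMeasure.tendsto_iff_forall_integral_tendsto).1 hν' Ψb
  rw [← heq] at g2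
  have g3 := g1.sub g2
  rw [sub_self] at g3
  refine g3.congr fun k => ?_
  have e1 : ∫ x, Ψb x ∂(μ k : Measure (ι → ℝ)) = ∫ ω, Ψ (S k ω) ∂(m k) :=
    integral_map (hS k).aemeasurable hΨ.aestronglyMeasurable
  have e2 : ∫ x, Ψb x ∂(μ' k : Measure (ι → ℝ)) = ∫ ω, Ψ (S' k ω) ∂(m' k) :=
    integral_map (hS' k).aemeasurable hΨ.aestronglyMeasurable
  rw [e1, e2]

/-- **L-PN-P6** (~80 l.).  Closeness in probability and bounded UNIFORMLY continuous test functions. -/
theorem pn_buc_near {Ω : Type} [MeasurableSpace Ω] (m : Measure Ω) [IsProbabilityMeasure m] {n : Type} [Fintype n]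
    (X Y : Ω → n → ℝ) (hX : Measurable X) (hY : Measurable Y) (Φ : (n → ℝ) → ℝ) (hΦ : Continuous Φ) (C : ℝ) (hC : ∀ x, |Φ x| ≤ C)
    (δ η p : ℝ) (hδ : 0 ≤ δ) (hmod : ∀ x y, ‖x - y‖ ≤ δ → |Φ x - Φ y| ≤ η) (hp : m.real {ω | δ < ‖X ω - Y ω‖} ≤ p) :
    |(∫ ω, Φ (X ω) ∂m) - ∫ ω, Φ (Y ω) ∂m| ≤ η + 2 * C * p := by
  have hC0 : 0 ≤ C := (abs_nonneg _).trans (hC 0)
  have hiX : Integrable (fun ω => Φ (X ω)) m :=
    Integrable.of_bound (hΦ.measurable.comp hX).aestronglyMeasurable C (Eventually.of_forall fun ω => hC _)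
  have hiY : Integrable (fun ω => Φ (Y ω)) m :=
    Integrable.of_bound (hΦ.measurable.comp hY).aestronglyMeasurable C (Eventually.of_forall fun ω => hC _)
  set B : Set Ω := {ω | δ < ‖X ω - Y ω‖} with hB
  have hBm : MeasurableSet B := measurableSet_lt measurable_const (hX.sub hY).norm
  have hiB : Integrable (B.indicator (fun _ => (1:ℝ))) m := (integrable_const (1:ℝ)).indicator hBm
  rw [← integral_sub hiX hiY]
  calc |∫ ω, (Φ (X ω) - Φ (Y ω)) ∂m| ≤ ∫ ω, |Φ (X ω) - Φ (Y ω)| ∂m := abs_integral_le_integral_abs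
    _ ≤ ∫ ω, (η + 2 * C * B.indicator (fun _ => (1:ℝ)) ω) ∂m := by
        apply integral_mono (hiX.sub hiY).abs ((integrable_const η).add (hiB.const_mul _))
        intro ω
        have hη : 0 ≤ η := (abs_nonneg _).trans (hmod 0 0 (by simpa using hδ))
        show |Φ (X ω) - Φ (Y ω)| ≤ η + 2 * C * B.indicator (fun _ => (1:ℝ)) ω
        by_cases hω : ω ∈ B
        · simp only [Set.indicator_of_mem hω]
          have h1 := abs_sub (Φ (X ω)) (Φ (Y ω))
          have h2 := hC (X ω)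
          have h3 := hC (Y ω)
          linarith
        · simp only [Set.indicator_of_notMem hω]
          have : ‖X ω - Y ω‖ ≤ δ := not_lt.1 hω
          have := hmod _ _ this
          linarith
    _ = η + 2 * C * m.real B := by
        rw [integral_add (integrable_const η) (hiB.const_mul _), integral_const_mul, integral_indicator hBm]
        simp
    _ ≤ η + 2 * C * p := by gcongr

lemma pn_levy_param {Ω Ω' : ℕ → Type} [∀ k, MeasurableSpace (Ω k)] [∀ k, MeasurableSpace (Ω' k)]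
    (m : ∀ k, Measure (Ω k)) (m' : ∀ k, Measure (Ω' k)) [∀ k, IsProbabilityMeasure (m k)] [∀ k, IsProbabilityMeasure (m' k)]
    {ι κ : Type} [Fintype ι] [Fintype κ] (S : ∀ k, Ω k → ι → ℝ) (S' : ∀ k, Ω' k → ι → ℝ)
    (hS : ∀ k, Measurable (S k)) (hS' : ∀ k, Measurable (S' k))
    (ht : TightP m S) (ht' : TightP m' S')
    (hch : ∀ t : ι → ℝ, Tendsto (fun k => (∫ ω, Complex.exp (Complex.I * ((∑ i, t i * S k ω i : ℝ) : ℂ)) ∂(m k))
        - ∫ ω, Complex.exp (Complex.I * ((∑ i, t i * S' k ω i : ℝ) : ℂ)) ∂(m' k)) atTop (𝓝 0))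
    (θ : ℕ → κ → ℝ) (hθ : ∃ C : ℝ, ∀ k, ‖θ k‖ ≤ C)
    (Ψ : (κ → ℝ) × (ι → ℝ) → ℝ) (hΨ : Continuous Ψ) (hΨb : ∃ C : ℝ, ∀ x, |Ψ x| ≤ C) :
    Tendsto (fun k => (∫ ω, Ψ (θ k, S k ω) ∂(m k)) - ∫ ω, Ψ (θ k, S' k ω) ∂(m' k)) atTop (𝓝 0) := by
  obtain ⟨C, hC⟩ := hθ
  have hC0 : 0 ≤ C := (norm_nonneg _).trans (hC 0)
  have hmeas : ∀ {Ω₀ : Type} [MeasurableSpace Ω₀] (S₀ : Ω₀ → ι → ℝ) (_ : Measurable S₀) (a : κ → ℝ),
      Measurable fun ω => (Sum.elim a (S₀ ω) : κ ⊕ ι → ℝ) := by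
    intro Ω₀ _ S₀ hS₀ a
    rw [measurable_pi_iff]
    rintro (j | i)
    · exact measurable_const
    · exact (measurable_pi_apply i).comp hS₀
  have htight : ∀ {Ω₀ : ℕ → Type} [∀ k, MeasurableSpace (Ω₀ k)] (m₀ : ∀ k, Measure (Ω₀ k)) [∀ k, IsProbabilityMeasure (m₀ k)]
      (S₀ : ∀ k, Ω₀ k → ι → ℝ), TightP m₀ S₀ → TightP m₀ fun k ω => (Sum.elim (θ k) (S₀ k ω) : κ ⊕ ι → ℝ) := by
    intro Ω₀ _ m₀ _ S₀ h₀ ε hε
    obtain ⟨R, hR⟩ := h₀ ε hε
    refine ⟨max R C, ?_⟩
    filter_upwards [hR] with k hk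
    refine (measureReal_mono ?_ (measure_ne_top _ _)).trans hk
    intro ω hω
    by_contra hcon
    have h1 : ‖S₀ k ω‖ ≤ R := not_lt.1 hcon
    have h2 : ‖(Sum.elim (θ k) (S₀ k ω) : κ ⊕ ι → ℝ)‖ ≤ max R C := by
      rw [pi_norm_le_iff_of_nonneg (hC0.trans (le_max_right _ _))]
      rintro (j | i)
      · exact ((norm_le_pi_norm (θ k) j).trans (hC k)).trans (le_max_right _ _)
      · exact ((norm_le_pi_norm (S₀ k ω) i).trans h1).trans (le_max_left _ _)
    exact absurd hω (not_lt.2 h2)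
  have key := pn_levy_pair m m' (fun k ω => (Sum.elim (θ k) (S k ω) : κ ⊕ ι → ℝ))
    (fun k ω => (Sum.elim (θ k) (S' k ω) : κ ⊕ ι → ℝ)) (fun k => hmeas (S k) (hS k) (θ k))
    (fun k => hmeas (S' k) (hS' k) (θ k)) (htight m S ht) (htight m' S' ht') ?_
    (fun x => Ψ (x ∘ Sum.inl, x ∘ Sum.inr)) (hΨ.comp (by fun_prop)) (by
      obtain ⟨D, hD⟩ := hΨb
      exact ⟨D, fun x => hD _⟩)
  · simpa using key
  · intro t
    have h1 := hch (fun i => t (Sum.inr i))
    rw [tendsto_zero_iff_norm_tendsto_zero] at h1 ⊢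
    refine h1.congr fun k => ?_
    have e : ∀ {Ω₀ : Type} [MeasurableSpace Ω₀] (m₀ : Measure Ω₀) (S₀ : Ω₀ → ι → ℝ),
        ∫ ω, Complex.exp (Complex.I * ((∑ j, t j * (Sum.elim (θ k) (S₀ ω) : κ ⊕ ι → ℝ) j : ℝ) : ℂ)) ∂m₀
          = Complex.exp (Complex.I * ((∑ a, t (Sum.inl a) * θ k a : ℝ) : ℂ))
            * ∫ ω, Complex.exp (Complex.I * ((∑ i, t (Sum.inr i) * S₀ ω i : ℝ) : ℂ)) ∂m₀ := by
      intro Ω₀ _ m₀ S₀
      rw [← integral_const_mul]
      congr 1
      ext ω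
      rw [← Complex.exp_add, Fintype.sum_sum_type]
      simp only [Sum.elim_inl, Sum.elim_inr]
      push_cast
      ring_nf
    rw [e, e, ← mul_sub, norm_mul, mul_comm Complex.I, Complex.norm_exp_ofReal_mul_I, one_mul]

/-- **L-PN-P7** (~300 l., from P5 + P6) = **THE ASSEMBLY LEMMA**.  Targets `T k` (lattice) and `T' k` (reference).  For every tolerance there are finitely many statistics `S, S'`, bounded deterministic parameters `θ k` and ONE continuous map `Θ` with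
`T ≈ Θ(θ,S)`, `T' ≈ Θ(θ,S')` in probability up to the tolerance, and `S, S'` tight with asymptotically equal characteristic functions.  Then `T` and `T'` have asymptotically the same law.
PROOF.  (1) `Φ` bounded uniformly continuous: P6 twice and P5 for the vectors `Sum.elim (θ k) (S k ω)` and `Ψ = Φ ∘ Θ ∘ (split)` (the deterministic coordinates multiply both characteristic functions by the same unimodular number).
(2) eventual tightness of `T'`: from the approximation with tolerance `ε/2`, tightness of `S'`, boundedness of `θ`, and compactness of the image under `Θ`.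
(3) general `Φ`: cutoff `χ = max 0 (min 1 (R + 1 - ‖x‖))`; `Φ χ` and `1 - χ` are bounded uniformly continuous (`Φ χ` is continuous with compact support). -/
theorem pn_assembly {Ω Ω' : ℕ → Type} [∀ k, MeasurableSpace (Ω k)] [∀ k, MeasurableSpace (Ω' k)]
    (m : ∀ k, Measure (Ω k)) (m' : ∀ k, Measure (Ω' k)) [∀ k, IsProbabilityMeasure (m k)] [∀ k, IsProbabilityMeasure (m' k)]
    {n : Type} [Fintype n] (T : ∀ k, Ω k → n → ℝ) (T' : ∀ k, Ω' k → n → ℝ) (hT : ∀ k, Measurable (T k)) (hT' : ∀ k, Measurable (T' k))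
    (happ : ∀ ε > 0, ∃ (ι κ : Type) (_ : Fintype ι) (_ : Fintype κ) (S : ∀ k, Ω k → ι → ℝ) (S' : ∀ k, Ω' k → ι → ℝ)
        (θ : ℕ → κ → ℝ) (Θ : (κ → ℝ) × (ι → ℝ) → n → ℝ),
        (∀ k, Measurable (S k)) ∧ (∀ k, Measurable (S' k)) ∧ Continuous Θ ∧ (∃ C : ℝ, ∀ k, ‖θ k‖ ≤ C) ∧ TightP m S ∧ TightP m' S' ∧
        (∀ t : ι → ℝ, Tendsto (fun k => (∫ ω, Complex.exp (Complex.I * ((∑ i, t i * S k ω i : ℝ) : ℂ)) ∂(m k))
          - ∫ ω, Complex.exp (Complex.I * ((∑ i, t i * S' k ω i : ℝ) : ℂ)) ∂(m' k)) atTop (𝓝 0)) ∧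
        NearP m (fun k ω => T k ω - Θ (θ k, S k ω)) ε ∧ NearP m' (fun k ω => T' k ω - Θ (θ k, S' k ω)) ε)
    (Φ : (n → ℝ) → ℝ) (hΦ : Continuous Φ) (hΦb : ∃ C : ℝ, ∀ x, |Φ x| ≤ C) :
    Tendsto (fun k => (∫ ω, Φ (T k ω) ∂(m k)) - ∫ ω, Φ (T' k ω) ∂(m' k)) atTop (𝓝 0) := by
  classical
  -- Step 1: bounded Lipschitz test functions
  have step1 : ∀ (f : (n → ℝ) → ℝ) (C : ℝ) (L : NNReal), (∀ x, |f x| ≤ C) → LipschitzWith L f →
      Tendsto (fun k => (∫ ω, f (T k ω) ∂(m k)) - ∫ ω, f (T' k ω) ∂(m' k)) atTop (𝓝 0) := by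
    intro f C L hC hL
    have hC0 : 0 ≤ C := (abs_nonneg _).trans (hC 0)
    rw [Metric.tendsto_atTop']
    intro e he
    set ε : ℝ := e / (4 * ((L : ℝ) + 2 * C + 1)) with hε
    have hden : 0 < 4 * ((L : ℝ) + 2 * C + 1) := by positivity
    have hε0 : 0 < ε := by positivity
    have hεe : 4 * (((L : ℝ) + 2 * C) * ε) ≤ e := by
      have h1 : ε * (4 * ((L : ℝ) + 2 * C + 1)) = e := by rw [hε]; field_simp
      nlinarith
    obtain ⟨ι, κ, _, _, S, S', θ, Θ, hS, hS', hΘ, hθ, ht, ht', hch, hn, hn'⟩ := happ ε hε0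
    have hpar := pn_levy_param m m' S S' hS hS' ht ht' hch θ hθ (fun x => f (Θ x)) (hL.continuous.comp hΘ)
      ⟨C, fun x => hC _⟩
    have hpar' := (Metric.tendsto_atTop'.1 hpar) (e / 2) (by positivity)
    have hmod : ∀ x y : n → ℝ, ‖x - y‖ ≤ ε → |f x - f y| ≤ (L : ℝ) * ε := by
      intro x y hxy
      have h1 := hL.dist_le_mul x y
      rw [Real.dist_eq, dist_eq_norm] at h1
      exact h1.trans (by gcongr)
    obtain ⟨N, hN⟩ := hpar'
    have hev : ∀ᶠ k in atTop, dist ((∫ ω, f (T k ω) ∂(m k)) - ∫ ω, f (T' k ω) ∂(m' k)) 0 < e := by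
      filter_upwards [hn, hn', eventually_gt_atTop N] with k hk hk' hkN
      have a1 := pn_buc_near (m k) (T k) (fun ω => Θ (θ k, S k ω)) (hT k)
        (hΘ.measurable.comp (measurable_const.prodMk (hS k))) f hL.continuous C hC ε ((L : ℝ) * ε) ε hε0.le hmod hk
      have a2 := pn_buc_near (m' k) (T' k) (fun ω => Θ (θ k, S' k ω)) (hT' k)
        (hΘ.measurable.comp (measurable_const.prodMk (hS' k))) f hL.continuous C hC ε ((L : ℝ) * ε) ε hε0.le hmod hk'
      have a3 := hN k hkN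
      rw [Real.dist_eq, sub_zero] at a3 ⊢
      rw [abs_le] at a1 a2
      rw [abs_lt] at a3 ⊢
      constructor <;> nlinarith [a1.1, a1.2, a2.1, a2.2, a3.1, a3.2]
    obtain ⟨N', hN'⟩ := eventually_atTop.1 hev
    exact ⟨N', fun k hk => hN' k hk.le⟩
  -- Step 2: tightness of the reference sequence
  have step2 : TightP m' T' := by
    intro ε hε
    obtain ⟨ι, κ, _, _, S, S', θ, Θ, hS, hS', hΘ, ⟨C, hC⟩, ht, ht', hch, hn, hn'⟩ := happ (ε / 2) (by positivity)
    obtain ⟨R₀, hR₀⟩ := ht' (ε / 2) (by positivity)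
    obtain ⟨M, hM⟩ := ((isCompact_closedBall (0 : κ → ℝ) C).prod (isCompact_closedBall (0 : ι → ℝ) R₀)).exists_bound_of_continuousOn
      hΘ.continuousOn
    refine ⟨M + ε / 2, ?_⟩
    filter_upwards [hn', hR₀] with k hk hk'
    have hsub : {ω | M + ε / 2 < ‖T' k ω‖} ⊆ {ω | ε / 2 < ‖T' k ω - Θ (θ k, S' k ω)‖} ∪ {ω | R₀ < ‖S' k ω‖} := by
      intro ω hω
      by_contra hcon
      simp only [Set.mem_union, Set.mem_ofPred_eq, not_or, not_lt] at hcon
      have h1 : ‖Θ (θ k, S' k ω)‖ ≤ M := hM _ ⟨by simpa using hC k, by simpa using hcon.2⟩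
      have h2 : ‖T' k ω‖ ≤ ‖T' k ω - Θ (θ k, S' k ω)‖ + ‖Θ (θ k, S' k ω)‖ := by
        simpa using norm_add_le (T' k ω - Θ (θ k, S' k ω)) (Θ (θ k, S' k ω))
      have h3 : M + ε / 2 < ‖T' k ω‖ := hω
      linarith [hcon.1]
    calc (m' k).real {ω | M + ε / 2 < ‖T' k ω‖}
        ≤ (m' k).real ({ω | ε / 2 < ‖T' k ω - Θ (θ k, S' k ω)‖} ∪ {ω | R₀ < ‖S' k ω‖}) :=
          measureReal_mono hsub (measure_ne_top _ _)
      _ ≤ (m' k).real {ω | ε / 2 < ‖T' k ω - Θ (θ k, S' k ω)‖} + (m' k).real {ω | R₀ < ‖S' k ω‖} :=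
          measureReal_union_le _ _
      _ ≤ ε / 2 + ε / 2 := add_le_add hk hk'
      _ = ε := by ring
  -- Step 3: subsequences and the Lipschitz portmanteau theorem
  obtain ⟨C, hC⟩ := hΦb
  let μ : ℕ → ProbabilityMeasure (n → ℝ) := fun k =>
    ⟨(m k).map (T k), Measure.isProbabilityMeasure_map (hT k).aemeasurable⟩
  let μ' : ℕ → ProbabilityMeasure (n → ℝ) := fun k =>
    ⟨(m' k).map (T' k), Measure.isProbabilityMeasure_map (hT' k).aemeasurable⟩
  have hcpt' : IsCompact (closure (Set.range μ')) := by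
    apply isCompact_closure_of_isTightMeasureSet
    convert pn_tight_range m' T' hT' step2 using 1
    ext ν
    constructor
    · rintro ⟨_, ⟨k, rfl⟩, rfl⟩
      exact ⟨k, rfl⟩
    · rintro ⟨k, rfl⟩
      exact ⟨_, ⟨k, rfl⟩, rfl⟩
  have eμ : ∀ (g : (n → ℝ) → ℝ), Continuous g → ∀ k, ∫ x, g x ∂(μ k : Measure (n → ℝ)) = ∫ ω, g (T k ω) ∂(m k) :=
    fun g hg k => integral_map (hT k).aemeasurable hg.aestronglyMeasurable
  have eμ' : ∀ (g : (n → ℝ) → ℝ), Continuous g → ∀ k, ∫ x, g x ∂(μ' k : Measure (n → ℝ)) = ∫ ω, g (T' k ω) ∂(m' k) :=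
    fun g hg k => integral_map (hT' k).aemeasurable hg.aestronglyMeasurable
  refine tendsto_of_subseq_tendsto fun ns hns => ?_
  obtain ⟨ν, -, φ, hφ, hν⟩ := hcpt'.tendsto_subseq (x := fun j => μ' (ns j)) (fun j => subset_closure ⟨ns j, rfl⟩)
  refine ⟨φ, ?_⟩
  have hsub : Tendsto (fun j => ns (φ j)) atTop atTop := hns.comp hφ.tendsto_atTop
  have hμ : Tendsto (fun j => μ (ns (φ j))) atTop (𝓝 ν) := by
    rw [tendsto_iff_forall_lipschitz_integral_tendsto]
    rintro f ⟨D, hD⟩ ⟨L, hL⟩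
    have hb : ∀ x, |f x| ≤ |f 0| + D := by
      intro x
      have h1 := hD x 0
      rw [Real.dist_eq] at h1
      have h2 := abs_sub_abs_le_abs_sub (f x) (f 0)
      linarith
    have h1 := (step1 f _ L hb hL).comp hsub
    have h2 := (tendsto_iff_forall_lipschitz_integral_tendsto.1 hν) f ⟨D, hD⟩ ⟨L, hL⟩
    have h3 := h1.add h2
    rw [zero_add] at h3
    refine h3.congr fun j => ?_
    simp only [Function.comp_apply]
    rw [eμ f hL.continuous, eμ' f hL.continuous]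
    ring
  let Φb : BoundedContinuousFunction (n → ℝ) ℝ := BoundedContinuousFunction.ofNormedAddCommGroup Φ hΦ C hC
  have g1 := (ProbabilityMeasure.tendsto_iff_forall_integral_tendsto).1 hμ Φb
  have g2 := (ProbabilityMeasure.tendsto_iff_forall_integral_tendsto).1 hν Φb
  have g3 := g1.sub g2
  rw [sub_self] at g3
  refine g3.congr fun j => ?_
  have e1 := eμ Φ hΦ (ns (φ j))
  have e2 := eμ' Φ hΦ (ns (φ j))
  simp only [Function.comp_apply]
  exact congrArg₂ (· - ·) e1 e2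

/-! ## 3. Squeezes -/

lemma pn_h_lower (ε x : ℝ) (hε : 0 < ε) (hx : ε < |x|) :
    min (Real.exp ε - 1 - ε) (Real.exp (-ε) - 1 + ε) ≤ Real.exp x - 1 - x := by
  rcases lt_abs.1 hx with h | h
  · refine (min_le_left _ _).trans ?_
    have h1 : (x - ε) + 1 ≤ Real.exp (x - ε) := Real.add_one_le_exp _
    have h2 : Real.exp x = Real.exp ε * Real.exp (x - ε) := by rw [← Real.exp_add]; congr 1; ring
    have h3 : ε + 1 ≤ Real.exp ε := Real.add_one_le_exp _
    have h4 : 0 < Real.exp ε := Real.exp_pos _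
    have h5 : Real.exp ε * ((x - ε) + 1) ≤ Real.exp x := by rw [h2]; gcongr
    nlinarith
  · refine (min_le_right _ _).trans ?_
    have h1 : (x + ε) + 1 ≤ Real.exp (x + ε) := Real.add_one_le_exp _
    have h2 : Real.exp x = Real.exp (-ε) * Real.exp (x + ε) := by rw [← Real.exp_add]; congr 1; ring
    have h3 : Real.exp (-ε) ≤ 1 := Real.exp_le_one_iff.2 (by linarith)
    have h4 : 0 < Real.exp (-ε) := Real.exp_pos _
    have h5 : Real.exp (-ε) * ((x + ε) + 1) ≤ Real.exp x := by rw [h2]; gcongr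
    nlinarith

/-- **L-PN-P8** (~150 l.).  The multiplicative squeeze of Step B: `a, a' > 0`, `a a' ≥ c → 1`, `E a → 1`, `E a' → 1` imply `log a → 0` in probability.
PROOF: `0 ≤ (a - √c)²/a = a + c/a - 2√c ≤ a + a' - 2√c`, whose mean tends to `0`; Markov; and `(a - √c)²/a ≤ δ`, `|c - 1| ≤ δ` force `|log a| ≤ ε` for `δ = δ(ε)` small. -/
theorem pn_mul_squeeze {Ω : ℕ → Type} [∀ k, MeasurableSpace (Ω k)] (m : ∀ k, Measure (Ω k)) [∀ k, IsProbabilityMeasure (m k)]
    (a a' : ∀ k, Ω k → ℝ) (ha : ∀ k, Integrable (a k) (m k)) (ha' : ∀ k, Integrable (a' k) (m k))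
    (hpos : ∀ k ω, 0 < a k ω) (hpos' : ∀ k ω, 0 < a' k ω) (c : ℕ → ℝ) (hc : Tendsto c atTop (𝓝 1)) (hprod : ∀ k ω, c k ≤ a k ω * a' k ω)
    (hE : Tendsto (fun k => ∫ ω, a k ω ∂(m k)) atTop (𝓝 1)) (hE' : Tendsto (fun k => ∫ ω, a' k ω ∂(m k)) atTop (𝓝 1)) :
    TendsP m fun k ω => Real.log (a k ω) := by
  intro ε hε
  set δ := min (Real.exp ε - 1 - ε) (Real.exp (-ε) - 1 + ε) with hδdef
  have hδ : 0 < δ := lt_min (by linarith [Real.add_one_lt_exp hε.ne'])
    (by linarith [Real.add_one_lt_exp (neg_ne_zero.2 hε.ne')])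
  have hlog : Tendsto (fun k => Real.log (c k)) atTop (𝓝 0) := by simpa using hc.log one_ne_zero
  have hW : Tendsto (fun k => ((∫ ω, a k ω ∂(m k)) + (∫ ω, a' k ω ∂(m k)) - 2 - Real.log (c k)) / δ) atTop (𝓝 0) := by
    have := (((hE.add hE').sub_const 2).sub hlog).div_const δ
    norm_num at this
    exact this
  have hcpos : ∀ᶠ k in atTop, 0 < c k := hc.eventually_const_lt one_pos
  refine squeeze_zero' (Eventually.of_forall fun k => measureReal_nonneg) ?_ hW
  filter_upwards [hcpos] with k hk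
  have hWint : Integrable (fun ω => a k ω + a' k ω - 2 - Real.log (c k)) (m k) :=
    (((ha k).add (ha' k)).sub (integrable_const 2)).sub (integrable_const _)
  have hWle : ∀ ω, Real.exp (Real.log (a k ω)) - 1 - Real.log (a k ω) ≤ a k ω + a' k ω - 2 - Real.log (c k) := by
    intro ω
    rw [Real.exp_log (hpos k ω)]
    have h1 : Real.log (c k) ≤ Real.log (a k ω * a' k ω) := Real.log_le_log hk (hprod k ω)
    rw [Real.log_mul (hpos k ω).ne' (hpos' k ω).ne'] at h1
    have h2 := Real.log_le_sub_one_of_pos (hpos' k ω)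
    linarith
  have hWnn : ∀ ω, 0 ≤ a k ω + a' k ω - 2 - Real.log (c k) := by
    intro ω
    have := Real.add_one_le_exp (Real.log (a k ω))
    linarith [hWle ω]
  have hmk : δ * (m k).real {ω | δ ≤ a k ω + a' k ω - 2 - Real.log (c k)} ≤ ∫ ω, (a k ω + a' k ω - 2 - Real.log (c k)) ∂(m k) :=
    mul_meas_ge_le_integral_of_nonneg (Eventually.of_forall hWnn) hWint δ
  have hint : ∫ ω, (a k ω + a' k ω - 2 - Real.log (c k)) ∂(m k)
      = (∫ ω, a k ω ∂(m k)) + (∫ ω, a' k ω ∂(m k)) - 2 - Real.log (c k) := by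
    have e1 := integral_sub (((ha k).add (ha' k)).sub (integrable_const 2)) (integrable_const (μ := m k) (Real.log (c k)))
    have e2 := integral_sub ((ha k).add (ha' k)) (integrable_const (μ := m k) (2:ℝ))
    have e3 := integral_add (ha k) (ha' k)
    simp only [Pi.sub_apply, Pi.add_apply] at e1 e2 e3
    rw [e1, e2, e3]
    simp
  have hsub : (m k).real {ω | ε < ‖Real.log (a k ω)‖} ≤ (m k).real {ω | δ ≤ a k ω + a' k ω - 2 - Real.log (c k)} := by
    refine measureReal_mono ?_ (measure_ne_top _ _)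
    intro ω hω
    exact (pn_h_lower ε _ hε hω).trans (hWle ω)
  rw [le_div_iff₀ hδ]
  calc (m k).real {ω | ε < ‖Real.log (a k ω)‖} * δ ≤ (m k).real {ω | δ ≤ a k ω + a' k ω - 2 - Real.log (c k)} * δ := by gcongr
    _ = δ * (m k).real {ω | δ ≤ a k ω + a' k ω - 2 - Real.log (c k)} := mul_comm _ _
    _ ≤ _ := hmk.trans_eq hint

/-- **L-PN-P9** (~40 l.).  Markov: `L¹`-small implies near in probability. -/
theorem pn_near_of_l1 {Ω : ℕ → Type} [∀ k, MeasurableSpace (Ω k)] (m : ∀ k, Measure (Ω k)) [∀ k, IsProbabilityMeasure (m k)]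
    (X : ∀ k, Ω k → ℝ) (hX : ∀ k, Integrable (X k) (m k)) (ε : ℝ) (hε : 0 < ε)
    (h : ∀ᶠ k in atTop, ∫ ω, |X k ω| ∂(m k) ≤ ε ^ 2) : NearP m X ε := by
  filter_upwards [h] with k hk
  have h1 : ε * (m k).real {ω | ε ≤ |X k ω|} ≤ ∫ ω, |X k ω| ∂(m k) :=
    mul_meas_ge_le_integral_of_nonneg (Eventually.of_forall fun ω => abs_nonneg _) (hX k).abs ε
  have h2 : (m k).real {ω | ε < ‖X k ω‖} ≤ (m k).real {ω | ε ≤ |X k ω|} := by
    refine measureReal_mono ?_ (measure_ne_top _ _)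
    intro ω hω
    simp only [Set.mem_ofPred_eq, Real.norm_eq_abs] at hω ⊢
    exact hω.le
  have h3 : ε * (m k).real {ω | ε < ‖X k ω‖} ≤ ε * ε := by
    calc ε * (m k).real {ω | ε < ‖X k ω‖} ≤ ε * (m k).real {ω | ε ≤ |X k ω|} := by gcongr
      _ ≤ ε ^ 2 := h1.trans hk
      _ = ε * ε := by ring
  exact le_of_mul_le_mul_left h3 hε

/-- **L-PN-P10** (~60 l.).  Calculus of `NearP` / `TendsP`. -/
theorem pn_near_add {Ω : ℕ → Type} [∀ k, MeasurableSpace (Ω k)] (m : ∀ k, Measure (Ω k)) [∀ k, IsProbabilityMeasure (m k)]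
    (X Y : ∀ k, Ω k → ℝ) (ε ε' : ℝ) (h : NearP m X ε) (h' : NearP m Y ε') : NearP m (fun k ω => X k ω + Y k ω) (ε + ε') := by
  filter_upwards [h, h'] with k hk hk'
  have hsub : {ω | ε + ε' < ‖X k ω + Y k ω‖} ⊆ {ω | ε < ‖X k ω‖} ∪ {ω | ε' < ‖Y k ω‖} := by
    intro ω hω
    simp only [Set.mem_ofPred_eq, Set.mem_union] at hω ⊢
    by_contra hcon
    push Not at hcon
    have := norm_add_le (X k ω) (Y k ω)
    linarith [hcon.1, hcon.2]
  calc (m k).real {ω | ε + ε' < ‖X k ω + Y k ω‖}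
      ≤ (m k).real ({ω | ε < ‖X k ω‖} ∪ {ω | ε' < ‖Y k ω‖}) := measureReal_mono hsub
    _ ≤ (m k).real {ω | ε < ‖X k ω‖} + (m k).real {ω | ε' < ‖Y k ω‖} := measureReal_union_le _ _
    _ ≤ ε + ε' := add_le_add hk hk'

theorem pn_near_of_tends {Ω : ℕ → Type} [∀ k, MeasurableSpace (Ω k)] (m : ∀ k, Measure (Ω k))
    (X : ∀ k, Ω k → ℝ) (h : TendsP m X) (ε : ℝ) (hε : 0 < ε) : NearP m X ε :=
  (h ε hε).eventually_le_const hε

/-- coordinates to vectors (sup norm): union bound -/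
theorem pn_near_pi {Ω : ℕ → Type} [∀ k, MeasurableSpace (Ω k)] (m : ∀ k, Measure (Ω k)) [∀ k, IsProbabilityMeasure (m k)]
    {n : Type} [Fintype n] (X : ∀ k, Ω k → n → ℝ) (ε : ℝ) (hε : 0 < ε)
    (h : ∀ i, NearP m (fun k ω => X k ω i) (ε / (Fintype.card n + 1))) : NearP m X ε := by
  have hall : ∀ᶠ k in atTop, ∀ i, (m k).real {ω | ε / (Fintype.card n + 1) < ‖X k ω i‖} ≤ ε / (Fintype.card n + 1) :=
    eventually_all.2 h
  filter_upwards [hall] with k hk
  have hN : (0:ℝ) < (Fintype.card n : ℝ) + 1 := by positivity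
  have hle : ε / (Fintype.card n + 1) ≤ ε := div_le_self hε.le (by linarith [(Nat.cast_nonneg (Fintype.card n) : (0:ℝ) ≤ _)])
  have hsub : {ω | ε < ‖X k ω‖} ⊆ ⋃ i ∈ (Finset.univ : Finset n), {ω | ε / (Fintype.card n + 1) < ‖X k ω i‖} := by
    intro ω hω
    simp only [Set.mem_ofPred_eq] at hω
    by_contra hcon
    simp only [Finset.mem_univ, Set.iUnion_true, Set.mem_iUnion, Set.mem_ofPred_eq, not_exists, not_lt] at hcon
    have : ‖X k ω‖ ≤ ε := (pi_norm_le_iff_of_nonneg hε.le).2 fun i => (hcon i).trans hle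
    linarith
  calc (m k).real {ω | ε < ‖X k ω‖}
      ≤ (m k).real (⋃ i ∈ (Finset.univ : Finset n), {ω | ε / (Fintype.card n + 1) < ‖X k ω i‖}) := measureReal_mono hsub (measure_ne_top _ _)
    _ ≤ ∑ i ∈ (Finset.univ : Finset n), (m k).real {ω | ε / (Fintype.card n + 1) < ‖X k ω i‖} :=
        measureReal_biUnion_finset_le _ _
    _ ≤ ∑ _i ∈ (Finset.univ : Finset n), ε / (Fintype.card n + 1) := Finset.sum_le_sum fun i _ => hk i
    _ = (Fintype.card n : ℝ) * (ε / (Fintype.card n + 1)) := by simp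
    _ ≤ ε := by
        rw [mul_div_assoc', div_le_iff₀ hN]
        nlinarith

/-- **L-PN-P11** (~80 l.).  Change of measure by Cauchy-Schwarz: if `m' = ρ m` with `∫ ρ² dm ≤ C²` then `m'(A) ≤ C √(m A)`. -/
theorem pn_cs_event {Ω : Type} [MeasurableSpace Ω] (m : Measure Ω) [IsProbabilityMeasure m] (ρ : Ω → ℝ) (hρ0 : ∀ ω, 0 ≤ ρ ω)
    (hρ : Measurable ρ) (hρ2 : Integrable (fun ω => ρ ω ^ 2) m) (C : ℝ) (hC : ∫ ω, ρ ω ^ 2 ∂m ≤ C ^ 2) (hC0 : 0 ≤ C)
    (A : Set Ω) (hA : MeasurableSet A) :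
    (m.withDensity fun ω => ENNReal.ofReal (ρ ω)).real A ≤ C * Real.sqrt (m.real A) := by
  have hρ1 : Integrable ρ m :=
    ((memLp_two_iff_integrable_sq hρ.aestronglyMeasurable).2 hρ2).integrable (by norm_num)
  have hreal : (m.withDensity fun ω => ENNReal.ofReal (ρ ω)).real A = ∫ ω in A, ρ ω ∂m := by
    rw [measureReal_def, withDensity_apply _ hA,
      integral_eq_lintegral_of_nonneg_ae (Eventually.of_forall hρ0) hρ.aestronglyMeasurable.restrict]
  rw [hreal]
  set I := ∫ ω in A, ρ ω ∂m with hI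
  have hq : ∀ t : ℝ, 0 ≤ m.real A * (t * t) + (-2 * I) * t + ∫ ω, ρ ω ^ 2 ∂m := by
    intro t
    have h1 : Integrable (A.indicator ρ) m := hρ1.indicator hA
    have h2 : Integrable (A.indicator (fun _ => (1:ℝ))) m := (integrable_const (1:ℝ)).indicator hA
    have h3 : ∫ ω, (ρ ω ^ 2 - 2 * t * A.indicator ρ ω + t ^ 2 * A.indicator (fun _ => (1:ℝ)) ω) ∂m
        = (∫ ω, ρ ω ^ 2 ∂m) - 2 * t * I + t ^ 2 * m.real A := by
      have e1 := integral_add (hρ2.sub (h1.const_mul (2 * t))) (h2.const_mul (t ^ 2))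
      have e2 := integral_sub hρ2 (h1.const_mul (2 * t))
      simp only [Pi.sub_apply] at e1
      rw [e1, e2, integral_const_mul, integral_const_mul, integral_indicator hA, integral_indicator hA]
      simp [hI]
    have h4 : 0 ≤ ∫ ω, (ρ ω ^ 2 - 2 * t * A.indicator ρ ω + t ^ 2 * A.indicator (fun _ => (1:ℝ)) ω) ∂m := by
      apply integral_nonneg
      intro ω
      show 0 ≤ ρ ω ^ 2 - 2 * t * A.indicator ρ ω + t ^ 2 * A.indicator (fun _ => (1:ℝ)) ω
      by_cases hω : ω ∈ A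
      · simp only [Set.indicator_of_mem hω]
        nlinarith [sq_nonneg (ρ ω - t)]
      · simp only [Set.indicator_of_notMem hω]
        nlinarith [sq_nonneg (ρ ω)]
    rw [h3] at h4
    nlinarith
  have hd := discrim_le_zero hq
  rw [discrim] at hd
  have hm0 : 0 ≤ m.real A := measureReal_nonneg
  have h5 : I ^ 2 ≤ C ^ 2 * m.real A := by nlinarith
  calc I ≤ |I| := le_abs_self I
    _ ≤ Real.sqrt (C ^ 2 * m.real A) := Real.abs_le_sqrt h5
    _ = C * Real.sqrt (m.real A) := by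
        rw [Real.sqrt_mul (sq_nonneg C), Real.sqrt_sq hC0]

end

end Claimed.Agent.R285.Pins.T32
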