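import Claimed.Agent.R285.Read.C3Defs
import Claimed.Agent.R285.Pins.T32Prob
import Claimed.Agent.R285.Pins.PinLib

/-!
# ROW 285, PINS, T3.2 package (architect helper178).  FILE 2: ONE FINITE LAW, EXACT.   PAPER-FREE.

Everything here is an identity or an inequality for ONE finite height law `H : HLaw G` (any finite graph) which is proper and `Ok` (`Gd H b`).  No limit, no geometry.
Vocabulary: `Base/HeightDefs`, `Base/Geom` s4-5, and the conditional quantities `ZI, ZC, cLap, cPin, rPin, ExT, phys, resZ` of `Read/C3.lean` s1a (they move to `Pins/Defs.lean`; only the import line will change).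
Tools: the rules `lsys_*` of `Base/Height.lean` (cite them), the kit `R285/Rsd/Kit*.lean`, `Rsd/CosetEvent.lean` (`coordL`, `coordL_bijective`, `hlaw_Z_eq_Zf`, `subRef`, `kit_summable_of_exp_bound`).
Every `sorry` is a leaf `L-PN-L*`.  Statements frozen; helper lemmas: prefix `pn_`.

BRIDGE used by all leaves: for a proper law `coordL H b : H.Λ ≃ (H.sys b).L`; `((H.addPin P).sys b).L = (H.Λ ⊓ pinned P).map coord`, same `E, O, b, W` as `H.sys b` (definitionally);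
the sum `ZC H b P u F` runs over `h' ∈ H.Λ ⊓ pinned P` with the affine datum `α = coord (resZ P u)`.
-/

set_option autoImplicit false

namespace Claimed.Agent.R285.Pins.T32

open Filter Topology MeasureTheory
open scoped Classical

noncomputable section

variable {G : HGraph} (H : HLaw G)

/-! ## 0. Definitions -/

/-- standing hypotheses on one finite law -/
structure Gd (b : ℝ) : Prop where
  b_pos : 0 < b
  proper : H.Proper
  ok : (H.sys b).Ok

/-- the weight of an integer height -/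
def hW (b : ℝ) (h : G.V → ℤ) : ℝ := (H.sys b).W (H.coordA b h)

/-- the linear statistic `⟨f, 2π h⟩` -/
def lin (f : G.V → ℝ) (h : G.V → ℤ) : ℝ := HLaw.pair f (C3.phys h)

/-- the centred law tilted by `e^{⟨fL, 2π h⟩}`, as a measure on integer heights (discrete σ-algebra) -/
def latM (b : ℝ) (fL : G.V → ℝ) : Measure (G.V → ℤ) :=
  Measure.sum fun h : H.Λ =>
    ENNReal.ofReal (Real.exp (lin fL (h : G.V → ℤ)) * hW H b (h : G.V → ℤ)
      / ∑' h' : H.Λ, Real.exp (lin fL (h' : G.V → ℤ)) * hW H b (h' : G.V → ℤ)) • Measure.dirac (h : G.V → ℤ)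

/-- centred log-Laplace transform in height variables -/
def hLap (b : ℝ) (f : G.V → ℝ) : ℝ := Real.log (C3.ExT H b 0 fun h => Real.exp (lin f h))

/-- centred characteristic coefficient in height variables -/
def hPhi (b : ℝ) (f : G.V → ℝ) : ℝ := C3.ExT H b 0 fun h => Real.cos (lin f h)

/-- conditional expectation of `F(2π h)` given the data on `P` -/
def cE (b : ℝ) (P : Set G.V) (F : (G.V → ℝ) → ℝ) (u : G.V → ℤ) : ℝ := C3.ZC H b P u F / C3.ZC H b P u fun _ => 1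

/-- `Ψ` depends only on the data on `P` -/
def LocP (P : Set G.V) (Ψ : (G.V → ℤ) → ℝ) : Prop := ∀ h, Ψ (C3.resZ P h) = Ψ h

/-- the restriction to `P` preserves the constraint lattice (true for coordinate pins) -/
def Splits (P : Set G.V) : Prop := ∀ h ∈ H.Λ, C3.resZ P h ∈ H.Λ

/-- the law with additional observation rows -/
def addRows {n : ℕ} (R : Fin n → G.V → ℝ) : HLaw G where
  Λ := H.Λ
  O := H.O ⊕ Fin n
  B := Sum.elim H.B R

/-- the standard Gaussian measure on `ℝ^n` -/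
def stdG (n : ℕ) : Measure (Fin n → ℝ) := Measure.pi fun _ => ProbabilityTheory.gaussianReal 0 1

/-- `H'` (on a graph with the same vertices, through `e`) is `H` with MORE PRECISION SUPPORTED IN `A`: more bonds with both ends in `A`, more rows supported in `A`.
Instances: soft probes (`extRows`), restoration of coarse faces and new rows inside the core (`T32Glue`). -/
structure Ext {G G' : HGraph} (H : HLaw G) (H' : HLaw G') (A : Set G.V) where
  e : G'.V ≃ G.V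
  iE : G.E ↪ G'.E
  iO : H.O ↪ H'.O
  src_eq : ∀ x, e (G'.src (iE x)) = G.src x
  tgt_eq : ∀ x, e (G'.tgt (iE x)) = G.tgt x
  row_eq : ∀ o v, H'.B (iO o) v = H.B o (e v)
  lam : ∀ h : G.V → ℤ, h ∘ e ∈ H'.Λ ↔ h ∈ H.Λ
  newE : ∀ x', x' ∉ Set.range iE → e (G'.src x') ∈ A ∧ e (G'.tgt x') ∈ A
  newO : ∀ o', o' ∉ Set.range iO → ∀ v, e v ∉ A → H'.B o' v = 0

/-- soft probes supported in `A` -/
def extRows {n : ℕ} (R : Fin n → G.V → ℝ) (A : Set G.V) (hR : ∀ d, ∀ v ∉ A, R d v = 0) : Ext H (addRows H R) A where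
  e := Equiv.refl _
  iE := Function.Embedding.refl _
  iO := ⟨Sum.inl, Sum.inl_injective⟩
  src_eq _ := rfl
  tgt_eq _ := rfl
  row_eq _ _ := rfl
  lam _ := Iff.rfl
  newE x' hx' := (hx' ⟨x', rfl⟩).elim
  newO o' ho' v hv := by
    rcases o' with o | d
    · exact (ho' ⟨o, rfl⟩).elim
    · exact hR d v hv

namespace Ext

variable {G' : HGraph} {H} {H' : HLaw G'} {A : Set G.V} (x : Ext H H' A)

/-- the restoration factor at the data `u` on `P`: `Z'_P(u) / Z_P(u)` -/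
def zr (b : ℝ) (P : Set G.V) (u : G.V → ℤ) : ℝ :=
  C3.ZC H' b (x.e ⁻¹' P) (u ∘ x.e) (fun _ => 1) / C3.ZC H b P u fun _ => 1

/-- `r_Δ(u) = [Z'_P(u)/Z_P(u)] / [Z'_P(0)/Z_P(0)]` -/
def rr (b : ℝ) (P : Set G.V) (u : G.V → ℤ) : ℝ := x.zr b P u / x.zr b P 0

end Ext

/-! ## 0b. Proofs of the leaves L-PN-L1 .. L-PN-L5 (helper85).  The primed lemmas are the frozen statements of s1-2 below, in the order of their proofs; the other `pn_*` lemmas are public helpers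
(`pn_lin_*` linearity, `pn_ExT_ratio`, `pn_ExT0_ratio`, `pn_int0`, `pn_integrable_iff`, `pn_integrable0_iff`, `pn_exp_hLap`, `pn_Z_pos`, `pn_ZW_pos`, `pn_ZC_one_pos`, `pn_split`). -/

theorem pn_l1_amb_zero (b : ℝ) : (HLaw.Aff.zero H).amb b = 0 := by
  unfold HLaw.Aff.amb HLaw.Aff.zero
  simp only [map_zero, zero_add]
  refine Prod.ext rfl ?_
  funext o
  show -(0 : ℝ) = 0
  simp

theorem pn_ZI_zero' (b : ℝ) (F : (G.V → ℤ) → ℝ) :
    C3.ZI H b (HLaw.Aff.zero H) F = ∑' h : H.Λ, F (h : G.V → ℤ) * hW H b (h : G.V → ℤ) := by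
  unfold C3.ZI hW
  rw [pn_l1_amb_zero]
  refine tsum_congr fun h => ?_
  have : (h : G.V → ℤ) + (HLaw.Aff.zero H).x = h := by
    show (h : G.V → ℤ) + 0 = h
    rw [add_zero]
  rw [this, add_zero]

theorem pn_ZC_eq' (b : ℝ) (P : Set G.V) (u : G.V → ℤ) (F : (G.V → ℝ) → ℝ) :
    C3.ZC H b P u F = ∑' h : ↥(H.Λ ⊓ HLaw.pinned P),
      F (C3.phys ((h : G.V → ℤ) + C3.resZ P u)) * hW H b ((h : G.V → ℤ) + C3.resZ P u) := by
  unfold C3.ZC HLaw.Z hW
  refine tsum_congr fun h => ?_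
  congr 1
  have e : HLaw.Aff.amb (H := H.addPin P) ⟨C3.resZ P u, 0, 0⟩ b = H.coordA b (C3.resZ P u) := by
    unfold HLaw.Aff.amb
    have : (show ((H.addPin P).sys b).Amb from ((0 : G.E → ℤ), fun o => -(0 : (H.addPin P).O → ℝ) o)) = 0 := by
      refine Prod.ext rfl ?_
      funext o
      show -(0 : ℝ) = 0
      simp
    rw [this, add_zero]
    rfl
  rw [e]
  show (H.sys b).W (H.coordA b (h : G.V → ℤ) + H.coordA b (C3.resZ P u)) = _
  rw [← map_add]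

theorem pn_hW_pos' {b : ℝ} (hb : 0 < b) (h : G.V → ℤ) : 0 < hW H b h :=
  Rsd.kit_W_pos (H.sys b) (fun _ => hb) _

/-- the linear statistic as an additive map on the constraint lattice -/
def pn_linHom (f : G.V → ℝ) : H.Λ →+ ℝ where
  toFun h := lin f (h : G.V → ℤ)
  map_zero' := by simp [lin, HLaw.pair, C3.phys]
  map_add' h h' := by
    simp only [lin, HLaw.pair, C3.phys, AddSubgroup.coe_add, Pi.add_apply, Int.cast_add]
    rw [← Finset.sum_add_distrib]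
    exact Finset.sum_congr rfl fun x _ => by ring

theorem pn_lin_add (f : G.V → ℝ) (h h' : G.V → ℤ) : lin f (h + h') = lin f h + lin f h' := by
  simp only [lin, HLaw.pair, C3.phys, Pi.add_apply, Int.cast_add]
  rw [← Finset.sum_add_distrib]
  exact Finset.sum_congr rfl fun x _ => by ring

theorem pn_exists_lift' (hP : H.Proper) (b : ℝ) (f : G.V → ℝ) : ∃ X : (H.sys b).L →+ ℝ, H.Lift b f X := by
  let eqv : H.Λ ≃+ (H.sys b).L := AddEquiv.ofBijective (Rsd.coordL H b) (Rsd.coordL_bijective H hP b)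
  refine ⟨(pn_linHom H f).comp eqv.symm.toAddMonoidHom, ?_⟩
  intro h hh
  have : eqv.symm ⟨H.coordA b h, H.coordA_mem b hh⟩ = ⟨h, hh⟩ := by
    rw [AddEquiv.symm_apply_eq]
    rfl
  show pn_linHom H f (eqv.symm ⟨H.coordA b h, H.coordA_mem b hh⟩) = _
  rw [this]
  rfl

theorem pn_summable' {b : ℝ} (hG : Gd H b) (u : G.V → ℤ) (f : G.V → ℝ) :
    Summable fun h : H.Λ => Real.exp (lin f ((h : G.V → ℤ) + u)) * hW H b ((h : G.V → ℤ) + u) := by
  obtain ⟨X, hX⟩ := pn_exists_lift' H hG.proper b f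
  have h1 := Rsd.lsys_summable (H.sys b) hG.ok (H.coordA b u) X
  have h2 := (Equiv.ofBijective _ (Rsd.coordL_bijective H hG.proper b)).summable_iff.2 h1
  refine (h2.mul_left (Real.exp (lin f u))).congr fun h => ?_
  simp only [Function.comp, Equiv.ofBijective_apply]
  have e1 : X (Rsd.coordL H b h) = lin f (h : G.V → ℤ) := hX h h.2
  rw [e1, pn_lin_add, Real.exp_add]
  unfold hW
  rw [map_add]
  simp only [Rsd.coordL_coe]
  ring

theorem pn_lin_zero_left (h : G.V → ℤ) : lin (0 : G.V → ℝ) h = 0 := by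
  simp [lin, HLaw.pair]

theorem pn_lin_neg (f : G.V → ℝ) (h : G.V → ℤ) : lin f (-h) = - lin f h := by
  simp only [lin, HLaw.pair, C3.phys, Pi.neg_apply, Int.cast_neg]
  rw [← Finset.sum_neg_distrib]
  exact Finset.sum_congr rfl fun x _ => by ring

theorem pn_lin_neg_left (f : G.V → ℝ) (h : G.V → ℤ) : lin (-f) h = - lin f h := by
  simp only [lin, HLaw.pair, Pi.neg_apply]
  rw [← Finset.sum_neg_distrib]
  exact Finset.sum_congr rfl fun x _ => by ring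

theorem pn_lin_add_left (f g : G.V → ℝ) (h : G.V → ℤ) : lin (f + g) h = lin f h + lin g h := by
  simp only [lin, HLaw.pair, Pi.add_apply]
  rw [← Finset.sum_add_distrib]
  exact Finset.sum_congr rfl fun x _ => by ring

theorem pn_lin_smul_left (c : ℝ) (f : G.V → ℝ) (h : G.V → ℤ) : lin (c • f) h = c * lin f h := by
  simp only [lin, HLaw.pair, Pi.smul_apply, smul_eq_mul]
  rw [Finset.mul_sum]
  exact Finset.sum_congr rfl fun x _ => by ring

/-- the tilted expectation as a ratio of sums over the constraint lattice -/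
theorem pn_ExT_ratio (b : ℝ) (fL : G.V → ℝ) (Ψ : (G.V → ℤ) → ℝ) :
    C3.ExT H b fL Ψ = (∑' h : H.Λ, Ψ (h : G.V → ℤ) * (Real.exp (lin fL (h : G.V → ℤ)) * hW H b (h : G.V → ℤ)))
      / ∑' h : H.Λ, Real.exp (lin fL (h : G.V → ℤ)) * hW H b (h : G.V → ℤ) := by
  unfold C3.ExT
  rw [pn_ZI_zero', pn_ZI_zero']
  congr 1
  exact tsum_congr fun h => by
    show _ * Real.exp (lin fL _) * _ = _
    ring

theorem pn_ExT0_ratio (b : ℝ) (Ψ : (G.V → ℤ) → ℝ) :
    C3.ExT H b 0 Ψ = (∑' h : H.Λ, Ψ (h : G.V → ℤ) * hW H b (h : G.V → ℤ)) / ∑' h : H.Λ, hW H b (h : G.V → ℤ) := by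
  rw [pn_ExT_ratio]
  simp only [pn_lin_zero_left, Real.exp_zero, one_mul]

/-- centred expectations in height variables and on the image lattice -/
theorem pn_ExT0_eq_E0 (hP : H.Proper) (b : ℝ) (Ψ : (G.V → ℤ) → ℝ) (Ψ' : (H.sys b).L → ℝ)
    (h : ∀ h : H.Λ, Ψ (h : G.V → ℤ) = Ψ' (Rsd.coordL H b h)) : C3.ExT H b 0 Ψ = (H.sys b).E0 Ψ' := by
  rw [pn_ExT0_ratio]
  unfold LSys.E0 LSys.Ev LSys.wT LSys.Zf
  rw [← (Equiv.ofBijective _ (Rsd.coordL_bijective H hP b)).tsum_eq, ← (Equiv.ofBijective _ (Rsd.coordL_bijective H hP b)).tsum_eq]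
  congr 1
  · refine tsum_congr fun k => ?_
    simp only [Equiv.ofBijective_apply, AddMonoidHom.zero_apply, Real.exp_zero, mul_one, add_zero, Rsd.coordL_coe]
    rw [h k]
    rfl
  · refine tsum_congr fun k => ?_
    simp only [Equiv.ofBijective_apply, AddMonoidHom.zero_apply, Real.exp_zero, one_mul, add_zero, Rsd.coordL_coe]
    rfl

theorem pn_hLap_eq_logLap' (hP : H.Proper) (b : ℝ) (f : G.V → ℝ) (X : (H.sys b).L →+ ℝ) (hX : H.Lift b f X) :
    hLap H b f = H.logLap b X := by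
  unfold hLap HLaw.logLap
  rw [pn_ExT0_eq_E0 H hP b _ (fun z => Real.exp (X z))]
  intro h
  have e1 : X (Rsd.coordL H b h) = lin f (h : G.V → ℤ) := hX h h.2
  rw [e1]

theorem pn_hPhi_eq_phi' (hP : H.Proper) (b : ℝ) (f : G.V → ℝ) (X : (H.sys b).L →+ ℝ) (hX : H.Lift b f X) :
    hPhi H b f = (H.sys b).phi X := by
  unfold hPhi LSys.phi
  rw [pn_ExT0_eq_E0 H hP b _ (fun z => Real.cos (X z))]
  intro h
  have e1 : X (Rsd.coordL H b h) = lin f (h : G.V → ℤ) := hX h h.2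
  rw [e1]

theorem pn_hW_neg (b : ℝ) (h : G.V → ℤ) : hW H b (-h) = hW H b h := by
  unfold hW
  rw [map_neg, Rsd.kit_W_neg]

/-- inversion symmetry of sums over the constraint lattice -/
theorem pn_tsum_neg (b : ℝ) (Ψ : (G.V → ℤ) → ℝ) :
    ∑' h : H.Λ, Ψ (-(h : G.V → ℤ)) * hW H b (h : G.V → ℤ) = ∑' h : H.Λ, Ψ (h : G.V → ℤ) * hW H b (h : G.V → ℤ) := by
  rw [← (Equiv.neg H.Λ).tsum_eq (fun h : H.Λ => Ψ (h : G.V → ℤ) * hW H b (h : G.V → ℤ))]
  refine tsum_congr fun h => ?_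
  simp only [Equiv.neg_apply, AddSubgroup.coe_neg, pn_hW_neg]

theorem pn_hLap_neg' {b : ℝ} (hG : Gd H b) (f : G.V → ℝ) : hLap H b (-f) = hLap H b f := by
  unfold hLap
  rw [pn_ExT0_ratio, pn_ExT0_ratio, ← pn_tsum_neg H b (fun h => Real.exp (lin f h))]
  simp only [pn_lin_neg, pn_lin_neg_left]

theorem pn_summable0 {b : ℝ} (hG : Gd H b) (f : G.V → ℝ) :
    Summable fun h : H.Λ => Real.exp (lin f (h : G.V → ℤ)) * hW H b (h : G.V → ℤ) := by
  simpa using pn_summable' H hG 0 f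

theorem pn_summableW {b : ℝ} (hG : Gd H b) : Summable fun h : H.Λ => hW H b (h : G.V → ℤ) := by
  simpa [pn_lin_zero_left] using pn_summable0 H hG 0

theorem pn_Z_pos {b : ℝ} (hG : Gd H b) (f : G.V → ℝ) :
    0 < ∑' h : H.Λ, Real.exp (lin f (h : G.V → ℤ)) * hW H b (h : G.V → ℤ) :=
  (pn_summable0 H hG f).tsum_pos (fun h => (mul_pos (Real.exp_pos _) (pn_hW_pos' H hG.b_pos _)).le) 0
    (mul_pos (Real.exp_pos _) (pn_hW_pos' H hG.b_pos _))

theorem pn_ZW_pos {b : ℝ} (hG : Gd H b) : 0 < ∑' h : H.Λ, hW H b (h : G.V → ℤ) := by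
  simpa [pn_lin_zero_left] using pn_Z_pos H hG 0

/-- `E e^X ≥ 1` (inversion symmetry + `cosh ≥ 1`) -/
theorem pn_hLap_nonneg' {b : ℝ} (hG : Gd H b) (f : G.V → ℝ) : 0 ≤ hLap H b f := by
  unfold hLap
  apply Real.log_nonneg
  rw [pn_ExT0_ratio, le_div_iff₀ (pn_ZW_pos H hG), one_mul]
  have h1 := pn_tsum_neg H b (fun h => Real.exp (lin f h))
  have s1 := pn_summable0 H hG f
  have s2 : Summable fun h : H.Λ => Real.exp (lin f (-(h : G.V → ℤ))) * hW H b (h : G.V → ℤ) := by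
    have := pn_summable0 H hG (-f)
    simpa only [pn_lin_neg, pn_lin_neg_left] using this
  have h2 : 2 * ∑' h : H.Λ, Real.exp (lin f (h : G.V → ℤ)) * hW H b (h : G.V → ℤ)
      = ∑' h : H.Λ, (Real.exp (lin f (h : G.V → ℤ)) * hW H b (h : G.V → ℤ) + Real.exp (lin f (-(h : G.V → ℤ))) * hW H b (h : G.V → ℤ)) := by
    rw [s1.tsum_add s2, h1]
    ring
  have h3 : 2 * ∑' h : H.Λ, hW H b (h : G.V → ℤ)
      ≤ ∑' h : H.Λ, (Real.exp (lin f (h : G.V → ℤ)) * hW H b (h : G.V → ℤ) + Real.exp (lin f (-(h : G.V → ℤ))) * hW H b (h : G.V → ℤ)) := by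
    rw [← tsum_mul_left]
    refine ((pn_summableW H hG).mul_left 2).tsum_le_tsum (fun h => ?_) (s1.add s2)
    rw [pn_lin_neg, ← add_mul]
    refine mul_le_mul_of_nonneg_right ?_ (pn_hW_pos' H hG.b_pos _).le
    have := Real.one_le_cosh (lin f (h : G.V → ℤ))
    rw [Real.cosh_eq] at this
    linarith
  linarith

theorem pn_hLap_eq {b : ℝ} (f : G.V → ℝ) :
    hLap H b f = Real.log ((∑' h : H.Λ, Real.exp (lin f (h : G.V → ℤ)) * hW H b (h : G.V → ℤ)) / ∑' h : H.Λ, hW H b (h : G.V → ℤ)) := by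
  unfold hLap
  rw [pn_ExT0_ratio]

theorem pn_hLap_holder' {b : ℝ} (hG : Gd H b) (f g : G.V → ℝ) (p q : ℝ) (hp : 1 < p) (hpq : 1 / p + 1 / q = 1) :
    hLap H b (f + g) ≤ hLap H b (p • f) / p + hLap H b (q • g) / q := by
  have hp0 : 0 < p := by linarith
  have hq0 : 0 < q := by
    have h1 : 1 / p < 1 := by rw [div_lt_one hp0]; exact hp
    have h2 : 0 < 1 / q := by linarith
    exact one_div_pos.1 h2
  have hc : p.HolderConjugate q := by
    rw [Real.holderConjugate_iff]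
    refine ⟨hp, ?_⟩
    simpa [one_div] using hpq
  set Z := ∑' h : H.Λ, hW H b (h : G.V → ℤ) with hZ
  have Zpos : 0 < Z := pn_ZW_pos H hG
  have Wp : ∀ h : H.Λ, 0 < hW H b (h : G.V → ℤ) := fun h => pn_hW_pos' H hG.b_pos _
  have e1 : ∀ h : H.Λ, (Real.exp (lin f (h : G.V → ℤ)) * hW H b (h : G.V → ℤ) ^ (1 / p)) ^ p
      = Real.exp (lin (p • f) (h : G.V → ℤ)) * hW H b (h : G.V → ℤ) := by
    intro h
    rw [Real.mul_rpow (Real.exp_pos _).le (Real.rpow_nonneg (Wp h).le _), ← Real.rpow_mul (Wp h).le,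
      one_div, inv_mul_cancel₀ hp0.ne', Real.rpow_one, ← Real.exp_mul, pn_lin_smul_left, mul_comm p]
  have e2 : ∀ h : H.Λ, (Real.exp (lin g (h : G.V → ℤ)) * hW H b (h : G.V → ℤ) ^ (1 / q)) ^ q
      = Real.exp (lin (q • g) (h : G.V → ℤ)) * hW H b (h : G.V → ℤ) := by
    intro h
    rw [Real.mul_rpow (Real.exp_pos _).le (Real.rpow_nonneg (Wp h).le _), ← Real.rpow_mul (Wp h).le,
      one_div, inv_mul_cancel₀ hq0.ne', Real.rpow_one, ← Real.exp_mul, pn_lin_smul_left, mul_comm q]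
  have e3 : ∀ h : H.Λ, (Real.exp (lin f (h : G.V → ℤ)) * hW H b (h : G.V → ℤ) ^ (1 / p)) * (Real.exp (lin g (h : G.V → ℤ)) * hW H b (h : G.V → ℤ) ^ (1 / q))
      = Real.exp (lin (f + g) (h : G.V → ℤ)) * hW H b (h : G.V → ℤ) := by
    intro h
    rw [pn_lin_add_left, Real.exp_add]
    have : hW H b (h : G.V → ℤ) ^ (1 / p) * hW H b (h : G.V → ℤ) ^ (1 / q) = hW H b (h : G.V → ℤ) := by
      rw [← Real.rpow_add (Wp h), hpq, Real.rpow_one]
    calc _ = Real.exp (lin f (h : G.V → ℤ)) * Real.exp (lin g (h : G.V → ℤ)) * (hW H b (h : G.V → ℤ) ^ (1 / p) * hW H b (h : G.V → ℤ) ^ (1 / q)) := by ring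
      _ = _ := by rw [this]
  have key := Real.inner_le_Lp_mul_Lq_tsum_of_nonneg hc
    (f := fun h : H.Λ => Real.exp (lin f (h : G.V → ℤ)) * hW H b (h : G.V → ℤ) ^ (1 / p))
    (g := fun h : H.Λ => Real.exp (lin g (h : G.V → ℤ)) * hW H b (h : G.V → ℤ) ^ (1 / q))
    (fun h => mul_nonneg (Real.exp_pos _).le (Real.rpow_nonneg (Wp h).le _))
    (fun h => mul_nonneg (Real.exp_pos _).le (Real.rpow_nonneg (Wp h).le _))
    (by simp only [e1]; exact pn_summable0 H hG _)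
    (by simp only [e2]; exact pn_summable0 H hG _)
  simp only [e1, e2, e3] at key
  have Apos := pn_Z_pos H hG (f + g)
  have Bpos := pn_Z_pos H hG (p • f)
  have Cpos := pn_Z_pos H hG (q • g)
  rw [pn_hLap_eq, pn_hLap_eq, pn_hLap_eq, ← hZ, Real.log_div Apos.ne' Zpos.ne', Real.log_div Bpos.ne' Zpos.ne',
    Real.log_div Cpos.ne' Zpos.ne']
  have l1 := Real.log_le_log Apos key
  rw [Real.log_mul (Real.rpow_pos_of_pos Bpos _).ne' (Real.rpow_pos_of_pos Cpos _).ne', Real.log_rpow Bpos, Real.log_rpow Cpos] at l1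
  have : Real.log Z = (1 / p + 1 / q) * Real.log Z := by rw [hpq, one_mul]
  have e4 : ∀ x y : ℝ, (x - Real.log Z) / p + (y - Real.log Z) / q = 1 / p * x + 1 / q * y - (1 / p + 1 / q) * Real.log Z := by
    intro x y; ring
  rw [e4, hpq, one_mul]
  linarith

theorem pn_gd_addPin' {b : ℝ} (hG : Gd H b) (P : Set G.V) : Gd (H.addPin P) b := by
  refine ⟨hG.b_pos, ?_, ?_⟩
  · intro h hh h0
    exact hG.proper h hh.1 h0
  · obtain ⟨_, n, v, hv, hL⟩ := hG.ok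
    refine Rsd.kit_ok_of_le ((H.addPin P).sys b) (fun _ => hG.b_pos) v hv ?_
    have h1 : (H.Λ ⊓ HLaw.pinned P).map H.coord ≤ H.Λ.map H.coord :=
      AddSubgroup.map_mono (f := H.coord) (inf_le_left : H.Λ ⊓ HLaw.pinned P ≤ H.Λ)
    exact le_trans (show ((H.addPin P).sys b).L ≤ (H.sys b).L from h1) hL.le

/-- transport of heights through the vertex bijection of an extension -/
def pn_extT {G' : HGraph} (e : G'.V ≃ G.V) : (G.V → ℤ) →+ (G'.V → ℤ) where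
  toFun h := h ∘ e
  map_zero' := rfl
  map_add' _ _ := rfl

/-- restriction of real coordinates to the old bonds and rows -/
def pn_extRes {G' : HGraph} {H' : HLaw G'} {A : Set G.V} (x : Ext H H' A) (b : ℝ) :
    (((H'.sys b).E → ℝ) × ((H'.sys b).O → ℝ)) →ₗ[ℝ] (((H.sys b).E → ℝ) × ((H.sys b).O → ℝ)) where
  toFun z := (fun a => z.1 (x.iE a), fun o => z.2 (x.iO o))
  map_add' _ _ := rfl
  map_smul' _ _ := rfl

theorem pn_ext_coord {G' : HGraph} {H' : HLaw G'} {A : Set G.V} (x : Ext H H' A) (h : G.V → ℤ) :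
    ((fun a => (H'.coord (h ∘ x.e)).1 (x.iE a), fun o => (H'.coord (h ∘ x.e)).2 (x.iO o)) : (G.E → ℤ) × (H.O → ℝ)) = H.coord h := by
  refine Prod.ext ?_ ?_
  · funext a
    show h (x.e (G'.tgt (x.iE a))) - h (x.e (G'.src (x.iE a))) = h (G.tgt a) - h (G.src a)
    rw [x.src_eq, x.tgt_eq]
  · funext o
    show ∑ v, H'.B (x.iO o) v * (2 * Real.pi * (h (x.e v) : ℝ)) = ∑ v, H.B o v * (2 * Real.pi * (h v : ℝ))
    rw [← x.e.sum_comp (fun v => H.B o v * (2 * Real.pi * (h v : ℝ)))]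
    exact Finset.sum_congr rfl fun v _ => by rw [x.row_eq]

theorem pn_gd_ext' {G' : HGraph} {H' : HLaw G'} {A : Set G.V} (x : Ext H H' A) {b : ℝ} (hG : Gd H b) : Gd H' b := by
  have hsurj : ∀ h' : G'.V → ℤ, (h' ∘ x.e.symm) ∘ x.e = h' := by
    intro h'; funext v; simp
  refine ⟨hG.b_pos, ?_, ?_⟩
  · intro h' hh' h0
    have h1 : h' ∘ x.e.symm ∈ H.Λ := by
      rw [← x.lam, hsurj]; exact hh'
    have h2 : H.coord (h' ∘ x.e.symm) = 0 := by
      rw [← pn_ext_coord H x, hsurj, h0]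
      rfl
    have h3 := hG.proper _ h1 h2
    rw [← hsurj h', h3]
    rfl
  · obtain ⟨_, n, v, hv, hL⟩ := hG.ok
    have hmem : ∀ i, v i ∈ H.Λ.map (H.coordA b) := by
      intro i
      have : v i ∈ (H.sys b).L := by rw [hL]; exact AddSubgroup.subset_closure ⟨i, rfl⟩
      exact this
    choose k hk hkv using hmem
    have hΛ : H.Λ ≤ AddSubgroup.closure (Set.range k) := by
      intro h hh
      have h1 : H.coordA b h ∈ AddSubgroup.closure (Set.range v) := by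
        rw [← hL]; exact ⟨h, hh, rfl⟩
      have h2 : Set.range v = H.coordA b '' Set.range k := by
        rw [← Set.range_comp]
        congr 1
        funext i
        exact (hkv i).symm
      rw [h2, ← AddMonoidHom.map_closure] at h1
      obtain ⟨k0, hk0, hk1⟩ := h1
      have hk2 : k0 ∈ H.Λ := by
        have : AddSubgroup.closure (Set.range k) ≤ H.Λ := by
          rw [AddSubgroup.closure_le]
          rintro _ ⟨i, rfl⟩
          exact hk i
        exact this hk0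
      have h3 : h - k0 = 0 := hG.proper _ (H.Λ.sub_mem hh hk2) (by
        show H.coordA b (h - k0) = 0
        rw [map_sub, hk1, sub_self])
      rw [sub_eq_zero.1 h3]
      exact hk0
    refine Rsd.kit_ok_of_le (H'.sys b) (fun _ => hG.b_pos) (fun i => H'.coordA b (k i ∘ x.e)) ?_ ?_
    · refine LinearIndependent.of_comp (pn_extRes H x b) ?_
      convert hv using 1
      funext i
      have := pn_ext_coord H x (k i)
      show pn_extRes H x b ((H'.sys b).real (H'.coordA b (k i ∘ x.e))) = (H.sys b).real (v i)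
      rw [← hkv i]
      show _ = (H.sys b).real (H.coord (k i))
      rw [← this]
      rfl
    · rintro _ ⟨h', hh', rfl⟩
      have h1 : h' ∘ x.e.symm ∈ H.Λ := by
        rw [← x.lam, hsurj]; exact hh'
      have h2 := hΛ h1
      have h3 : ((H'.coordA b).comp (pn_extT x.e)) (h' ∘ x.e.symm) ∈ (AddSubgroup.closure (Set.range k)).map ((H'.coordA b).comp (pn_extT x.e)) :=
        ⟨_, h2, rfl⟩
      rw [AddMonoidHom.map_closure, ← Set.range_comp] at h3
      have h4 : ((H'.coordA b).comp (pn_extT x.e)) (h' ∘ x.e.symm) = H'.coordA b h' := by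
        show H'.coordA b ((h' ∘ x.e.symm) ∘ x.e) = _
        rw [hsurj]
      rw [h4] at h3
      exact h3

/-- the probability weights of the tilted law -/
def pn_pw (b : ℝ) (fL : G.V → ℝ) (h : G.V → ℤ) : ℝ :=
  Real.exp (lin fL h) * hW H b h / ∑' h' : H.Λ, Real.exp (lin fL (h' : G.V → ℤ)) * hW H b (h' : G.V → ℤ)

theorem pn_latM_def (b : ℝ) (fL : G.V → ℝ) :
    latM H b fL = Measure.sum fun h : H.Λ => ENNReal.ofReal (pn_pw H b fL (h : G.V → ℤ)) • Measure.dirac (h : G.V → ℤ) := rfl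

theorem pn_pw_pos {b : ℝ} (hG : Gd H b) (fL : G.V → ℝ) (h : G.V → ℤ) : 0 < pn_pw H b fL h :=
  div_pos (mul_pos (Real.exp_pos _) (pn_hW_pos' H hG.b_pos _)) (pn_Z_pos H hG fL)

theorem pn_pw_summable {b : ℝ} (hG : Gd H b) (fL : G.V → ℝ) : Summable fun h : H.Λ => pn_pw H b fL (h : G.V → ℤ) :=
  (pn_summable0 H hG fL).div_const _

theorem pn_pw_tsum {b : ℝ} (hG : Gd H b) (fL : G.V → ℝ) : ∑' h : H.Λ, pn_pw H b fL (h : G.V → ℤ) = 1 := by
  unfold pn_pw
  rw [tsum_div_const, div_self (pn_Z_pos H hG fL).ne']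

theorem pn_latM_prob' {b : ℝ} (hG : Gd H b) (fL : G.V → ℝ) : IsProbabilityMeasure (latM H b fL) := by
  constructor
  rw [pn_latM_def, Measure.sum_apply _ MeasurableSet.univ]
  simp only [Measure.smul_apply, measure_univ, smul_eq_mul, mul_one]
  rw [← ENNReal.ofReal_tsum_of_nonneg (fun h => (pn_pw_pos H hG fL _).le) (pn_pw_summable H hG fL), pn_pw_tsum H hG,
    ENNReal.ofReal_one]

theorem pn_integrable_iff {b : ℝ} (hG : Gd H b) (fL : G.V → ℝ) (Ψ : (G.V → ℤ) → ℝ) :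
    Integrable Ψ (latM H b fL) ↔ Summable fun h : H.Λ => Ψ (h : G.V → ℤ) * (Real.exp (lin fL (h : G.V → ℤ)) * hW H b (h : G.V → ℤ)) := by
  rw [pn_latM_def, integrable_sum_dirac_iff (fun _ => ENNReal.ofReal_ne_top), ← summable_abs_iff (f := fun h : H.Λ => Ψ (h : G.V → ℤ) * _)]
  have hZ := pn_Z_pos H hG fL
  constructor
  · intro h
    refine (h.mul_left (∑' h' : H.Λ, Real.exp (lin fL (h' : G.V → ℤ)) * hW H b (h' : G.V → ℤ))).congr fun k => ?_
    rw [ENNReal.toReal_ofReal (pn_pw_pos H hG fL _).le, abs_mul, abs_of_pos (mul_pos (Real.exp_pos _) (pn_hW_pos' H hG.b_pos _)),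
      Real.norm_eq_abs]
    unfold pn_pw
    field_simp
  · intro h
    refine (h.div_const (∑' h' : H.Λ, Real.exp (lin fL (h' : G.V → ℤ)) * hW H b (h' : G.V → ℤ))).congr fun k => ?_
    rw [ENNReal.toReal_ofReal (pn_pw_pos H hG fL _).le, abs_mul, abs_of_pos (mul_pos (Real.exp_pos _) (pn_hW_pos' H hG.b_pos _)),
      Real.norm_eq_abs]
    unfold pn_pw
    field_simp

theorem pn_integrable' {b : ℝ} (hG : Gd H b) (fL f : G.V → ℝ) (C : ℝ) (Ψ : (G.V → ℤ) → ℝ) (hΨ : ∀ h, |Ψ h| ≤ C * Real.exp (lin f h)) :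
    Integrable Ψ (latM H b fL) := by
  rw [pn_integrable_iff H hG, ← summable_abs_iff]
  refine Summable.of_nonneg_of_le (fun _ => abs_nonneg _) (fun h => ?_) ((pn_summable0 H hG (fL + f)).mul_left C)
  have hp := mul_pos (Real.exp_pos (lin fL (h : G.V → ℤ))) (pn_hW_pos' H hG.b_pos (h : G.V → ℤ))
  rw [abs_mul, abs_of_pos hp, pn_lin_add_left, Real.exp_add]
  calc |Ψ h| * (Real.exp (lin fL (h : G.V → ℤ)) * hW H b (h : G.V → ℤ))
      ≤ (C * Real.exp (lin f h)) * (Real.exp (lin fL (h : G.V → ℤ)) * hW H b (h : G.V → ℤ)) :=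
        mul_le_mul_of_nonneg_right (hΨ _) hp.le
    _ = _ := by ring

theorem pn_ExT_eq' {b : ℝ} (hG : Gd H b) (fL : G.V → ℝ) (Ψ : (G.V → ℤ) → ℝ) :
    C3.ExT H b fL Ψ = ∫ h, Ψ h ∂(latM H b fL) := by
  rw [pn_ExT_ratio, pn_latM_def, integral_sum_dirac (fun _ => ENNReal.ofReal_ne_top), ← tsum_div_const]
  refine tsum_congr fun h => ?_
  rw [ENNReal.toReal_ofReal (pn_pw_pos H hG fL _).le, smul_eq_mul]
  unfold pn_pw
  ring

theorem pn_exp_hLap {b : ℝ} (hG : Gd H b) (f : G.V → ℝ) :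
    Real.exp (hLap H b f) = (∑' h : H.Λ, Real.exp (lin f (h : G.V → ℤ)) * hW H b (h : G.V → ℤ)) / ∑' h : H.Λ, hW H b (h : G.V → ℤ) := by
  rw [pn_hLap_eq, Real.exp_log (div_pos (pn_Z_pos H hG f) (pn_ZW_pos H hG))]

theorem pn_withDensity_dirac {α : Type*} [MeasurableSpace α] [MeasurableSingletonClass α] (a : α) (f : α → ENNReal) :
    (Measure.dirac a).withDensity f = f a • Measure.dirac a := by
  ext s hs
  rw [withDensity_apply _ hs, ← lintegral_indicator hs, lintegral_dirac, Measure.smul_apply, Measure.dirac_apply' _ hs, smul_eq_mul]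
  by_cases ha : a ∈ s <;> simp [ha]

theorem pn_latM_tilt' {b : ℝ} (hG : Gd H b) (fL : G.V → ℝ) :
    latM H b fL = (latM H b 0).withDensity fun h => ENNReal.ofReal (Real.exp (lin fL h - hLap H b fL)) := by
  rw [pn_latM_def, pn_latM_def, withDensity_sum]
  congr 1
  funext h
  rw [withDensity_smul_measure, pn_withDensity_dirac, smul_smul, ← ENNReal.ofReal_mul (pn_pw_pos H hG 0 _).le]
  congr 2
  rw [Real.exp_sub, pn_exp_hLap H hG]
  unfold pn_pw
  simp only [pn_lin_zero_left, Real.exp_zero, one_mul]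
  have h1 := (pn_Z_pos H hG fL).ne'
  have h2 := (pn_ZW_pos H hG).ne'
  field_simp

theorem pn_mgf_latM' {b : ℝ} (hG : Gd H b) (fL f : G.V → ℝ) :
    ∫ h, Real.exp (lin f h) ∂(latM H b fL) = Real.exp (hLap H b (fL + f) - hLap H b fL) := by
  rw [← pn_ExT_eq' H hG, pn_ExT_ratio, Real.exp_sub, pn_exp_hLap H hG, pn_exp_hLap H hG]
  have h1 := (pn_Z_pos H hG fL).ne'
  have h2 := (pn_ZW_pos H hG).ne'
  have e : ∀ h : H.Λ, Real.exp (lin f (h : G.V → ℤ)) * (Real.exp (lin fL (h : G.V → ℤ)) * hW H b (h : G.V → ℤ))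
      = Real.exp (lin (fL + f) (h : G.V → ℤ)) * hW H b (h : G.V → ℤ) := by
    intro h
    rw [pn_lin_add_left, Real.exp_add]
    ring
  simp only [e]
  field_simp

theorem pn_resZ_resZ (P : Set G.V) (h : G.V → ℤ) : C3.resZ P (C3.resZ P h) = C3.resZ P h := by
  funext v
  unfold C3.resZ
  by_cases hv : v ∈ P <;> simp [hv]

theorem pn_cE_loc' (b : ℝ) (P : Set G.V) (F : (G.V → ℝ) → ℝ) : LocP P (cE H b P F) := by
  intro h
  unfold cE C3.ZC
  rw [pn_resZ_resZ]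

theorem pn_lin_loc' (P : Set G.V) (β : G.V → ℝ) (hβ : ∀ x ∉ P, β x = 0) (h : G.V → ℤ) : lin β (C3.resZ P h) = lin β h := by
  unfold lin HLaw.pair C3.phys C3.resZ
  refine Finset.sum_congr rfl fun x _ => ?_
  by_cases hx : x ∈ P
  · simp [hx]
  · simp [hβ x hx]

theorem pn_resZ_add_of_mem (P : Set G.V) (u k : G.V → ℤ) (hu : u ∈ HLaw.pinned (G := G) Pᶜ) (hk : k ∈ HLaw.pinned (G := G) P) :
    C3.resZ P (k + u) = u := by
  funext v
  unfold C3.resZ
  by_cases hv : v ∈ P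
  · simp [hv, hk v hv]
  · simp [hv, hu v hv]

/-- the splitting of the constraint lattice into the data on `P` and the pinned part -/
def pn_split (P : Set G.V) (hsp : Splits H P) : (↥(H.Λ ⊓ HLaw.pinned Pᶜ) × ↥(H.Λ ⊓ HLaw.pinned P)) ≃ H.Λ where
  toFun x := ⟨(x.2 : G.V → ℤ) + (x.1 : G.V → ℤ), H.Λ.add_mem x.2.2.1 x.1.2.1⟩
  invFun h := (⟨C3.resZ P h, hsp h h.2, fun v hv => by simp only [C3.resZ]; rw [if_neg hv]⟩,
    ⟨(h : G.V → ℤ) - C3.resZ P h, H.Λ.sub_mem h.2 (hsp h h.2), fun v hv => by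
      simp only [C3.resZ, Pi.sub_apply]; rw [if_pos hv, sub_self]⟩)
  left_inv x := by
    have h1 := pn_resZ_add_of_mem P x.1 x.2 x.1.2.2 x.2.2.2
    refine Prod.ext (Subtype.ext h1) (Subtype.ext ?_)
    show (x.2 : G.V → ℤ) + (x.1 : G.V → ℤ) - C3.resZ P ((x.2 : G.V → ℤ) + (x.1 : G.V → ℤ)) = x.2
    rw [h1, add_sub_cancel_right]
  right_inv h := Subtype.ext (sub_add_cancel _ _)

theorem pn_split_coe (P : Set G.V) (hsp : Splits H P) (x : ↥(H.Λ ⊓ HLaw.pinned Pᶜ) × ↥(H.Λ ⊓ HLaw.pinned P)) :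
    ((pn_split H P hsp x : H.Λ) : G.V → ℤ) = (x.2 : G.V → ℤ) + (x.1 : G.V → ℤ) := rfl

theorem pn_ZC_one_pos {b : ℝ} (hG : Gd H b) (P : Set G.V) (u : G.V → ℤ) : 0 < C3.ZC H b P u fun _ => 1 := by
  rw [pn_ZC_eq']
  have hs : Summable fun h : ↥(H.Λ ⊓ HLaw.pinned P) => (1 : ℝ) * hW H b ((h : G.V → ℤ) + C3.resZ P u) := by
    have := pn_summable' (H.addPin P) (pn_gd_addPin' H hG P) (C3.resZ P u) 0
    simp only [pn_lin_zero_left, Real.exp_zero] at this
    exact this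
  exact hs.tsum_pos (fun h => by rw [one_mul]; exact (pn_hW_pos' H hG.b_pos _).le) 0 (by rw [one_mul]; exact pn_hW_pos' H hG.b_pos _)

theorem pn_int0 {b : ℝ} (hG : Gd H b) (Φ : (G.V → ℤ) → ℝ) :
    ∫ h, Φ h ∂(latM H b 0) = (∑' h : H.Λ, Φ (h : G.V → ℤ) * hW H b (h : G.V → ℤ)) / ∑' h : H.Λ, hW H b (h : G.V → ℤ) := by
  rw [← pn_ExT_eq' H hG, pn_ExT0_ratio]

theorem pn_integrable0_iff {b : ℝ} (hG : Gd H b) (Φ : (G.V → ℤ) → ℝ) :
    Integrable Φ (latM H b 0) ↔ Summable fun h : H.Λ => Φ (h : G.V → ℤ) * hW H b (h : G.V → ℤ) := by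
  rw [pn_integrable_iff H hG]
  simp only [pn_lin_zero_left, Real.exp_zero, one_mul]

theorem pn_tower' {b : ℝ} (hG : Gd H b) (P : Set G.V) (hsp : Splits H P) (Ψ : (G.V → ℤ) → ℝ) (hΨ : LocP P Ψ) (F : (G.V → ℝ) → ℝ)
    (f : G.V → ℝ) (C : ℝ) (hb : ∀ h, |Ψ h * F (C3.phys h)| ≤ C * Real.exp (lin f h)) :
    Integrable (fun h => Ψ h * cE H b P F h) (latM H b 0) ∧
    ∫ h, Ψ h * F (C3.phys h) ∂(latM H b 0) = ∫ h, Ψ h * cE H b P F h ∂(latM H b 0) := by
  set e := pn_split H P hsp with he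
  have hres : ∀ x : ↥(H.Λ ⊓ HLaw.pinned Pᶜ) × ↥(H.Λ ⊓ HLaw.pinned P), C3.resZ P ((x.2 : G.V → ℤ) + (x.1 : G.V → ℤ)) = x.1 :=
    fun x => pn_resZ_add_of_mem P x.1 x.2 x.1.2.2 x.2.2.2
  have hresu : ∀ u : ↥(H.Λ ⊓ HLaw.pinned Pᶜ), C3.resZ P (u : G.V → ℤ) = u := by
    intro u
    have := pn_resZ_add_of_mem P u 0 u.2.2 (AddSubgroup.zero_mem _)
    rwa [zero_add] at this
  have hloc : ∀ (Φ : (G.V → ℤ) → ℝ), LocP P Φ → ∀ x : ↥(H.Λ ⊓ HLaw.pinned Pᶜ) × ↥(H.Λ ⊓ HLaw.pinned P),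
      Φ ((x.2 : G.V → ℤ) + (x.1 : G.V → ℤ)) = Φ (x.1 : G.V → ℤ) := by
    intro Φ hΦ x
    rw [← hΦ, hres]
  -- the two families on the product
  have sA0 : Summable fun h : H.Λ => (Ψ (h : G.V → ℤ) * F (C3.phys (h : G.V → ℤ))) * hW H b (h : G.V → ℤ) :=
    (pn_integrable0_iff H hG _).1 (pn_integrable' H hG 0 f C _ hb)
  have sA : Summable fun x : ↥(H.Λ ⊓ HLaw.pinned Pᶜ) × ↥(H.Λ ⊓ HLaw.pinned P) =>
      (Ψ (x.1 : G.V → ℤ) * F (C3.phys ((x.2 : G.V → ℤ) + (x.1 : G.V → ℤ)))) * hW H b ((x.2 : G.V → ℤ) + (x.1 : G.V → ℤ)) := by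
    refine (e.summable_iff.2 sA0).congr fun x => ?_
    simp only [Function.comp, he, pn_split_coe]
    rw [hloc Ψ hΨ]
  have sW : Summable fun x : ↥(H.Λ ⊓ HLaw.pinned Pᶜ) × ↥(H.Λ ⊓ HLaw.pinned P) => hW H b ((x.2 : G.V → ℤ) + (x.1 : G.V → ℤ)) :=
    (e.summable_iff.2 (pn_summableW H hG)).congr fun x => by simp only [Function.comp, he, pn_split_coe]
  have tA : ∀ u : ↥(H.Λ ⊓ HLaw.pinned Pᶜ), ∑' k : ↥(H.Λ ⊓ HLaw.pinned P),
      (Ψ (u : G.V → ℤ) * F (C3.phys ((k : G.V → ℤ) + (u : G.V → ℤ)))) * hW H b ((k : G.V → ℤ) + (u : G.V → ℤ))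
      = Ψ (u : G.V → ℤ) * C3.ZC H b P u F := by
    intro u
    rw [pn_ZC_eq', hresu, ← tsum_mul_left]
    exact tsum_congr fun k => by ring
  have tB : ∀ u : ↥(H.Λ ⊓ HLaw.pinned Pᶜ), ∑' k : ↥(H.Λ ⊓ HLaw.pinned P),
      (Ψ (u : G.V → ℤ) * cE H b P F (u : G.V → ℤ)) * hW H b ((k : G.V → ℤ) + (u : G.V → ℤ))
      = Ψ (u : G.V → ℤ) * C3.ZC H b P u F := by
    intro u
    rw [tsum_mul_left]
    have h1 : ∑' k : ↥(H.Λ ⊓ HLaw.pinned P), hW H b ((k : G.V → ℤ) + (u : G.V → ℤ)) = C3.ZC H b P u fun _ => 1 := by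
      rw [pn_ZC_eq', hresu]
      exact tsum_congr fun k => by rw [one_mul]
    rw [h1]
    unfold cE
    have := (pn_ZC_one_pos H hG P u).ne'
    field_simp
  have sB : Summable fun x : ↥(H.Λ ⊓ HLaw.pinned Pᶜ) × ↥(H.Λ ⊓ HLaw.pinned P) =>
      (Ψ (x.1 : G.V → ℤ) * cE H b P F (x.1 : G.V → ℤ)) * hW H b ((x.2 : G.V → ℤ) + (x.1 : G.V → ℤ)) := by
    rw [← summable_abs_iff, summable_prod_of_nonneg (fun _ => abs_nonneg _)]
    constructor
    · intro u
      have h0 : Summable fun k : ↥(H.Λ ⊓ HLaw.pinned P) => hW H b ((k : G.V → ℤ) + (u : G.V → ℤ)) := sW.prod_factor u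
      exact (h0.mul_left (Ψ (u : G.V → ℤ) * cE H b P F (u : G.V → ℤ))).abs
    have sA' := sA.abs.prod
    refine Summable.of_nonneg_of_le (fun u => tsum_nonneg fun _ => abs_nonneg _) (fun u => ?_) sA'
    have h1 : ∑' k : ↥(H.Λ ⊓ HLaw.pinned P), |(Ψ (u : G.V → ℤ) * cE H b P F (u : G.V → ℤ)) * hW H b ((k : G.V → ℤ) + (u : G.V → ℤ))|
        = |Ψ (u : G.V → ℤ) * C3.ZC H b P u F| := by
      rw [← tB u, tsum_mul_left, abs_mul, abs_of_nonneg (tsum_nonneg fun _ => (pn_hW_pos' H hG.b_pos _).le), ← tsum_mul_left]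
      exact tsum_congr fun k => by rw [abs_mul, abs_of_pos (pn_hW_pos' H hG.b_pos _)]
    show ∑' k : ↥(H.Λ ⊓ HLaw.pinned P), |(Ψ (u : G.V → ℤ) * cE H b P F (u : G.V → ℤ)) * hW H b ((k : G.V → ℤ) + (u : G.V → ℤ))| ≤ _
    rw [h1, ← tA u]
    have h0 : Summable fun k : ↥(H.Λ ⊓ HLaw.pinned P) =>
      (Ψ (u : G.V → ℤ) * F (C3.phys ((k : G.V → ℤ) + (u : G.V → ℤ)))) * hW H b ((k : G.V → ℤ) + (u : G.V → ℤ)) := sA.prod_factor u
    have := norm_tsum_le_tsum_norm h0.norm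
    simpa only [Real.norm_eq_abs] using this
  have sB0 : Summable fun h : H.Λ => (Ψ (h : G.V → ℤ) * cE H b P F (h : G.V → ℤ)) * hW H b (h : G.V → ℤ) := by
    refine e.summable_iff.1 (sB.congr fun x => ?_)
    simp only [Function.comp, he, pn_split_coe]
    rw [hloc Ψ hΨ, hloc _ (pn_cE_loc' H b P F)]
  refine ⟨(pn_integrable0_iff H hG _).2 sB0, ?_⟩
  rw [pn_int0 H hG, pn_int0 H hG]
  congr 1
  rw [← e.tsum_eq, ← e.tsum_eq (fun h : H.Λ => (Ψ (h : G.V → ℤ) * cE H b P F (h : G.V → ℤ)) * hW H b (h : G.V → ℤ))]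
  have c1 : ∀ x, (Ψ ((e x : H.Λ) : G.V → ℤ) * F (C3.phys ((e x : H.Λ) : G.V → ℤ))) * hW H b ((e x : H.Λ) : G.V → ℤ)
      = (Ψ (x.1 : G.V → ℤ) * F (C3.phys ((x.2 : G.V → ℤ) + (x.1 : G.V → ℤ)))) * hW H b ((x.2 : G.V → ℤ) + (x.1 : G.V → ℤ)) := by
    intro x
    simp only [he, pn_split_coe]
    rw [hloc Ψ hΨ]
  have c2 : ∀ x, (Ψ ((e x : H.Λ) : G.V → ℤ) * cE H b P F ((e x : H.Λ) : G.V → ℤ)) * hW H b ((e x : H.Λ) : G.V → ℤ)
      = (Ψ (x.1 : G.V → ℤ) * cE H b P F (x.1 : G.V → ℤ)) * hW H b ((x.2 : G.V → ℤ) + (x.1 : G.V → ℤ)) := by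
    intro x
    simp only [he, pn_split_coe]
    rw [hloc Ψ hΨ, hloc _ (pn_cE_loc' H b P F)]
  rw [tsum_congr c1, tsum_congr c2, sA.tsum_prod, sB.tsum_prod]
  exact tsum_congr fun u => by rw [tA u, tB u]

/-! ## 1. Unfolding, summability, the law as a measure -/

/-- **L-PN-L1** (~150 l. for the block `pn_ZI_zero` .. `pn_summable`).  Unfolding of the definitions of C3. -/
theorem pn_ZI_zero (b : ℝ) (F : (G.V → ℤ) → ℝ) :
    C3.ZI H b (HLaw.Aff.zero H) F = ∑' h : H.Λ, F (h : G.V → ℤ) * hW H b (h : G.V → ℤ) := pn_ZI_zero' H b F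

theorem pn_ZC_eq (b : ℝ) (P : Set G.V) (u : G.V → ℤ) (F : (G.V → ℝ) → ℝ) :
    C3.ZC H b P u F = ∑' h : ↥(H.Λ ⊓ HLaw.pinned P),
      F (C3.phys ((h : G.V → ℤ) + C3.resZ P u)) * hW H b ((h : G.V → ℤ) + C3.resZ P u) := pn_ZC_eq' H b P u F

theorem pn_hW_pos {b : ℝ} (hb : 0 < b) (h : G.V → ℤ) : 0 < hW H b h := pn_hW_pos' H hb h

/-- all exponential moments of all translates are summable (from `lsys_summable` / `kit_summable_of_exp_bound` through `coordL`) -/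
theorem pn_summable {b : ℝ} (hG : Gd H b) (u : G.V → ℤ) (f : G.V → ℝ) :
    Summable fun h : H.Λ => Real.exp (lin f ((h : G.V → ℤ) + u)) * hW H b ((h : G.V → ℤ) + u) := pn_summable' H hG u f

/-- **L-PN-L2** (~200 l. for the block `pn_latM_prob` .. `pn_mgf_latM`).  The law as a measure. -/
theorem pn_latM_prob {b : ℝ} (hG : Gd H b) (fL : G.V → ℝ) : IsProbabilityMeasure (latM H b fL) := pn_latM_prob' H hG fL

/-- integrability under an exponential bound -/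
theorem pn_integrable {b : ℝ} (hG : Gd H b) (fL f : G.V → ℝ) (C : ℝ) (Ψ : (G.V → ℤ) → ℝ) (hΨ : ∀ h, |Ψ h| ≤ C * Real.exp (lin f h)) :
    Integrable Ψ (latM H b fL) := pn_integrable' H hG fL f C Ψ hΨ

/-- `ExT` is the integral (for every `Ψ`: both sides vanish when `Ψ` is not integrable) -/
theorem pn_ExT_eq {b : ℝ} (hG : Gd H b) (fL : G.V → ℝ) (Ψ : (G.V → ℤ) → ℝ) :
    C3.ExT H b fL Ψ = ∫ h, Ψ h ∂(latM H b fL) := pn_ExT_eq' H hG fL Ψ

/-- the tilted law is the centred law with a density -/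
theorem pn_latM_tilt {b : ℝ} (hG : Gd H b) (fL : G.V → ℝ) :
    latM H b fL = (latM H b 0).withDensity fun h => ENNReal.ofReal (Real.exp (lin fL h - hLap H b fL)) := pn_latM_tilt' H hG fL

/-- the moment generating function of a linear statistic under a tilted law -/
theorem pn_mgf_latM {b : ℝ} (hG : Gd H b) (fL f : G.V → ℝ) :
    ∫ h, Real.exp (lin f h) ∂(latM H b fL) = Real.exp (hLap H b (fL + f) - hLap H b fL) := pn_mgf_latM' H hG fL f

/-- **L-PN-L3** (~150 l. for the block `pn_exists_lift` .. `pn_hLap_holder`).  Tests on the image lattice; elementary properties of `hLap`, `hPhi`. -/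
theorem pn_exists_lift (hP : H.Proper) (b : ℝ) (f : G.V → ℝ) : ∃ X : (H.sys b).L →+ ℝ, H.Lift b f X := pn_exists_lift' H hP b f

theorem pn_hLap_eq_logLap (hP : H.Proper) (b : ℝ) (f : G.V → ℝ) (X : (H.sys b).L →+ ℝ) (hX : H.Lift b f X) :
    hLap H b f = H.logLap b X := pn_hLap_eq_logLap' H hP b f X hX

theorem pn_hPhi_eq_phi (hP : H.Proper) (b : ℝ) (f : G.V → ℝ) (X : (H.sys b).L →+ ℝ) (hX : H.Lift b f X) :
    hPhi H b f = (H.sys b).phi X := pn_hPhi_eq_phi' H hP b f X hX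

theorem pn_hLap_neg {b : ℝ} (hG : Gd H b) (f : G.V → ℝ) : hLap H b (-f) = hLap H b f := pn_hLap_neg' H hG f

/-- `E e^X ≥ 1` (inversion symmetry + `cosh ≥ 1`) -/
theorem pn_hLap_nonneg {b : ℝ} (hG : Gd H b) (f : G.V → ℝ) : 0 ≤ hLap H b f := pn_hLap_nonneg' H hG f

/-- Hoelder -/
theorem pn_hLap_holder {b : ℝ} (hG : Gd H b) (f g : G.V → ℝ) (p q : ℝ) (hp : 1 < p) (hpq : 1 / p + 1 / q = 1) :
    hLap H b (f + g) ≤ hLap H b (p • f) / p + hLap H b (q • g) / q := pn_hLap_holder' H hG f g p q hp hpq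

/-- **L-PN-L4** (~120 l.).  Pins and rows preserve the standing hypotheses. -/
theorem pn_gd_addPin {b : ℝ} (hG : Gd H b) (P : Set G.V) : Gd (H.addPin P) b := pn_gd_addPin' H hG P

theorem pn_gd_ext {G' : HGraph} {H' : HLaw G'} {A : Set G.V} (x : Ext H H' A) {b : ℝ} (hG : Gd H b) : Gd H' b := pn_gd_ext' H x hG

/-! ## 2. The tower property -/

/-- **L-PN-L5** (~250 l.).  `E[Ψ(h_P) F(2π h)] = E[Ψ(h_P) E(F | h_P)]`.
PROOF: `Λ ≃ Σ (classes of Λ modulo Λ ⊓ pinned P)`; `h ↦ resZ P h` is a section (`Splits`): `h - resZ P h ∈ Λ ⊓ pinned P`.  `tsum` over `Equiv.sigmaFiberEquiv (fun h : Λ => resZ P h)`; on the fibre of `u` both `Ψ` and `cE` are constant;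
the fibre is `(Λ ⊓ pinned P) + u`.  Summability: `pn_summable`. -/
theorem pn_tower {b : ℝ} (hG : Gd H b) (P : Set G.V) (hsp : Splits H P) (Ψ : (G.V → ℤ) → ℝ) (hΨ : LocP P Ψ) (F : (G.V → ℝ) → ℝ)
    (f : G.V → ℝ) (C : ℝ) (hb : ∀ h, |Ψ h * F (C3.phys h)| ≤ C * Real.exp (lin f h)) :
    Integrable (fun h => Ψ h * cE H b P F h) (latM H b 0) ∧
    ∫ h, Ψ h * F (C3.phys h) ∂(latM H b 0) = ∫ h, Ψ h * cE H b P F h ∂(latM H b 0) := pn_tower' H hG P hsp Ψ hΨ F f C hb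

/-- conditional quantities are local -/
theorem pn_cE_loc (b : ℝ) (P : Set G.V) (F : (G.V → ℝ) → ℝ) : LocP P (cE H b P F) := pn_cE_loc' H b P F

theorem pn_lin_loc (P : Set G.V) (β : G.V → ℝ) (hβ : ∀ x ∉ P, β x = 0) (h : G.V → ℤ) : lin β (C3.resZ P h) = lin β h := pn_lin_loc' P β hβ h

/-! ## 3. The three conditional inequalities -/

/-! ### bridge for the conditional sums (helper64) -/

/-- the affine datum of the conditional sum given `h_P = u_P` -/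
def pnAl (b : ℝ) (P : Set G.V) (u : G.V → ℤ) : ((H.addPin P).sys b).Amb :=
  HLaw.Aff.amb (H := H.addPin P) ⟨C3.resZ P u, 0, 0⟩ b

theorem pn_ZC_Zf (hP : H.Proper) (b : ℝ) (P : Set G.V) (u : G.V → ℤ) (F : (G.V → ℝ) → ℝ)
    (F' : ((H.addPin P).sys b).L → ℝ)
    (hF : ∀ h : (H.addPin P).Λ, F (C3.phys ((h : G.V → ℤ) + C3.resZ P u)) = F' (Rsd.coordL (H.addPin P) b h)) :
    C3.ZC H b P u F = ((H.addPin P).sys b).Zf (pnAl H b P u) F' :=
  Rsd.hlaw_Z_eq_Zf (H.addPin P) (pn_pin_proper H hP P) b ⟨C3.resZ P u, 0, 0⟩ F F' hF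

theorem pn_ZC_one (hP : H.Proper) (b : ℝ) (P : Set G.V) (u : G.V → ℤ) :
    C3.ZC H b P u (fun _ => 1) = ((H.addPin P).sys b).w (pnAl H b P u) :=
  pn_ZC_Zf H hP b P u (fun _ => 1) (fun _ => 1) fun _ => rfl

theorem pn_pair_phys_add (f : G.V → ℝ) (h r : G.V → ℤ) :
    HLaw.pair f (C3.phys (h + r)) = HLaw.pair f (C3.phys h) + HLaw.pair f (C3.phys r) := by
  unfold HLaw.pair C3.phys
  rw [← Finset.sum_add_distrib]
  refine Finset.sum_congr rfl fun x _ => ?_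
  simp only [Pi.add_apply, Int.cast_add]
  ring

theorem pn_lift_apply {b : ℝ} {f : G.V → ℝ} {X : (H.sys b).L →+ ℝ} (hX : H.Lift b f X) (h : H.Λ) :
    X (Rsd.coordL H b h) = HLaw.pair f (C3.phys (h : G.V → ℤ)) := hX h h.2


/-- **L-PN-L6** (~150 l.).  Conditional characters are dominated by the centred pinned one (`lsys_phi_affine` for `(H.addPin P).sys b`, `α = coord (resZ P u)`; the factor `e^{i⟨f, 2π resZ P u⟩}` is unimodular). -/
theorem pn_cond_char_le {b : ℝ} (hG : Gd H b) (P : Set G.V) (f : G.V → ℝ) (u : G.V → ℤ) :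
    cE H b P (fun φ => Real.cos (HLaw.pair f φ)) u ^ 2 + cE H b P (fun φ => Real.sin (HLaw.pair f φ)) u ^ 2
      ≤ hPhi (H.addPin P) b f ^ 2 := by
  have hPp := pn_pin_proper H hG.proper P
  have hS := pn_pin_ok H hG.ok P
  obtain ⟨X, hX⟩ := pn_exists_lift (H.addPin P) hPp b f
  rw [pn_hPhi_eq_phi (H.addPin P) hPp b f X hX]
  have e1 : C3.ZC H b P u (fun φ => Real.cos (HLaw.pair f φ))
      = ((H.addPin P).sys b).Zf (pnAl H b P u) fun z => Real.cos (X z + HLaw.pair f (C3.phys (C3.resZ P u))) :=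
    pn_ZC_Zf H hG.proper b P u _ _ fun h => by
      rw [pn_pair_phys_add, pn_lift_apply (H.addPin P) hX h]
  have e2 : C3.ZC H b P u (fun φ => Real.sin (HLaw.pair f φ))
      = ((H.addPin P).sys b).Zf (pnAl H b P u) fun z => Real.sin (X z + HLaw.pair f (C3.phys (C3.resZ P u))) :=
    pn_ZC_Zf H hG.proper b P u _ _ fun h => by
      rw [pn_pair_phys_add, pn_lift_apply (H.addPin P) hX h]
  have e3 := pn_ZC_one H hG.proper b P u
  have hw : 0 < ((H.addPin P).sys b).w (pnAl H b P u) := rd_w_pos hS _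
  have hsq := pn_char_sq hS (pnAl H b P u) X (HLaw.pair f (C3.phys (C3.resZ P u)))
  unfold cE
  rw [e1, e2, e3, div_pow, div_pow, ← add_div, div_le_iff₀ (by positivity)]
  calc _ ≤ _ := hsq
    _ = _ := by ring

/-- **L-PN-L7** (~150 l.).  `E(e^X | u) E(e^{-X} | u) ≥ (E_p e^X)²`: `lsys_master` with `X = X' = 0`, `β = 0`, `Y = 0`, `Y' = X`:  `w(α)² wT(0,X)² ≤ wT(α,X) wT(α,-X) w(0)²`. -/
theorem pn_cond_lap_prod {b : ℝ} (hG : Gd H b) (P : Set G.V) (f : G.V → ℝ) (u : G.V → ℤ) :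
    2 * hLap (H.addPin P) b f ≤ C3.cLap H b P f u + C3.cLap H b P (-f) u := by
  have hPp := pn_pin_proper H hG.proper P
  have hS := pn_pin_ok H hG.ok P
  obtain ⟨X, hX⟩ := pn_exists_lift (H.addPin P) hPp b f
  rw [pn_hLap_eq_logLap (H.addPin P) hPp b f X hX]
  have e1 : C3.ZC H b P u (fun φ => Real.exp (HLaw.pair f φ))
      = Real.exp (HLaw.pair f (C3.phys (C3.resZ P u))) * ((H.addPin P).sys b).wT (pnAl H b P u) X := by
    rw [LSys.wT, ← rd_Zf_smul]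
    exact pn_ZC_Zf H hG.proper b P u _ _ fun h => by
      rw [pn_pair_phys_add, pn_lift_apply (H.addPin P) hX h, Real.exp_add, mul_comm]
  have e2 : C3.ZC H b P u (fun φ => Real.exp (HLaw.pair (-f) φ))
      = Real.exp (-HLaw.pair f (C3.phys (C3.resZ P u))) * ((H.addPin P).sys b).wT (pnAl H b P u) (-X) := by
    rw [LSys.wT, ← rd_Zf_smul]
    exact pn_ZC_Zf H hG.proper b P u _ _ fun h => by
      have hn : ∀ φ, HLaw.pair (-f) φ = -HLaw.pair f φ := fun φ => by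
        simp [HLaw.pair, Finset.sum_neg_distrib]
      rw [hn, pn_pair_phys_add, AddMonoidHom.neg_apply, pn_lift_apply (H.addPin P) hX h, neg_add, Real.exp_add, mul_comm]
  have e3 := pn_ZC_one H hG.proper b P u
  have hw : 0 < ((H.addPin P).sys b).w (pnAl H b P u) := rd_w_pos hS _
  have hw0 : 0 < ((H.addPin P).sys b).w 0 := rd_w_pos hS _
  have hT1 := lsys_pos _ hS (pnAl H b P u) X
  have hT2 := lsys_pos _ hS (pnAl H b P u) (-X)
  have hT0 := lsys_pos _ hS 0 X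
  have hm := pn_lap_prod hS (pnAl H b P u) X
  unfold C3.cLap HLaw.logLap
  rw [e1, e2, e3, rd_E0_exp, ← Real.log_mul (by positivity) (by positivity),
    show (2 : ℝ) * Real.log (((H.addPin P).sys b).wT 0 X / ((H.addPin P).sys b).w 0)
      = Real.log ((((H.addPin P).sys b).wT 0 X / ((H.addPin P).sys b).w 0) ^ 2) by
      rw [Real.log_pow]; norm_num]
  refine Real.log_le_log (by positivity) ?_
  have hee : Real.exp (HLaw.pair f (C3.phys (C3.resZ P u))) * Real.exp (-HLaw.pair f (C3.phys (C3.resZ P u))) = 1 := by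
    rw [← Real.exp_add, add_neg_cancel, Real.exp_zero]
  have hr : Real.exp (HLaw.pair f (C3.phys (C3.resZ P u))) * ((H.addPin P).sys b).wT (pnAl H b P u) X
        / ((H.addPin P).sys b).w (pnAl H b P u)
      * (Real.exp (-HLaw.pair f (C3.phys (C3.resZ P u))) * ((H.addPin P).sys b).wT (pnAl H b P u) (-X)
        / ((H.addPin P).sys b).w (pnAl H b P u))
      = ((H.addPin P).sys b).wT (pnAl H b P u) X * ((H.addPin P).sys b).wT (pnAl H b P u) (-X)
        / ((H.addPin P).sys b).w (pnAl H b P u) ^ 2 := by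
    rw [div_mul_div_comm, ← sq]
    congr 1
    calc _ = (Real.exp (HLaw.pair f (C3.phys (C3.resZ P u))) * Real.exp (-HLaw.pair f (C3.phys (C3.resZ P u))))
          * (((H.addPin P).sys b).wT (pnAl H b P u) X * ((H.addPin P).sys b).wT (pnAl H b P u) (-X)) := by ring
      _ = _ := by rw [hee, one_mul]
  rw [hr, div_pow, div_le_div_iff₀ (by positivity) (by positivity)]
  calc _ = ((H.addPin P).sys b).w (pnAl H b P u) ^ 2 * ((H.addPin P).sys b).wT 0 X ^ 2 := by ring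
    _ ≤ _ := hm

/-- `0 < φ ≤ 1` -/
theorem pn_hPhi_mem {b : ℝ} (hG : Gd H b) (f : G.V → ℝ) : 0 < hPhi H b f ∧ hPhi H b f ≤ 1 := by
  obtain ⟨X, hX⟩ := pn_exists_lift H hG.proper b f
  rw [pn_hPhi_eq_phi H hG.proper b f X hX]
  exact ⟨lt_of_lt_of_le (Real.exp_pos _) (lsys_phi_lower _ hG.ok X), lsys_phi_le_one _ hG.ok X⟩

theorem pn_resZ_union (P A : Set G.V) (u : G.V → ℤ) : C3.resZ (P ∪ A) (C3.resZ P u) = C3.resZ P u := by
  funext v
  unfold C3.resZ
  by_cases hv : v ∈ P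
  · simp [hv]
  · simp [hv]

theorem pn_resZ_zero (P : Set G.V) : C3.resZ P (0 : G.V → ℤ) = 0 := by
  funext v
  simp [C3.resZ]

theorem pn_pnAl_zero (b : ℝ) (P : Set G.V) : pnAl H b P 0 = 0 := by
  unfold pnAl
  rw [pn_resZ_zero]
  exact pn_amb_zero (H.addPin P) b

theorem pn_pnAl_res (b : ℝ) (P A : Set G.V) (u : G.V → ℤ) :
    (pnRefPin H b (Set.subset_union_left : P ⊆ P ∪ A)).res (pnAl H b (P ∪ A) (C3.resZ P u)) = pnAl H b P u := by
  unfold pnAl
  rw [pn_resZ_union]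
  rfl

/-- `cPin` in image form -/
theorem pn_cPin_eq (hP : H.Proper) (b : ℝ) (P A : Set G.V) (u : G.V → ℤ) :
    C3.cPin H b P A u = ((H.addPin (P ∪ A)).sys b).w (pnAl H b (P ∪ A) (C3.resZ P u))
      / ((H.addPin P).sys b).w (pnAl H b P u) := by
  unfold C3.cPin
  rw [pn_ZC_one H hP, pn_ZC_one H hP]

theorem pn_cPin_zero (hP : H.Proper) (b : ℝ) (P A : Set G.V) :
    C3.cPin H b P A 0 = ((H.addPin (P ∪ A)).sys b).w 0 / ((H.addPin P).sys b).w 0 := by
  rw [pn_cPin_eq H hP, pn_resZ_zero, pn_pnAl_zero, pn_pnAl_zero]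

theorem pn_cPin_pos {b : ℝ} (hG : Gd H b) (P A : Set G.V) (u : G.V → ℤ) : 0 < C3.cPin H b P A u := by
  rw [pn_cPin_eq H hG.proper]
  exact div_pos (rd_w_pos (pn_pin_ok H hG.ok _) _) (rd_w_pos (pn_pin_ok H hG.ok _) _)

/-- **L-PN-L8** (~200 l.).  `0 < r ≤ 1` (`lsys_ratio_mono` for the `Ref` "pin `A`"), for arbitrary data. -/
theorem pn_rPin_mem {b : ℝ} (hG : Gd H b) (P A : Set G.V) (u : G.V → ℤ) :
    0 < C3.rPin H b P A u ∧ C3.rPin H b P A u ≤ 1 := by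
  have h0 := pn_cPin_pos H hG P A 0
  refine ⟨div_pos (pn_cPin_pos H hG P A u) h0, ?_⟩
  unfold C3.rPin
  rw [div_le_one h0, pn_cPin_zero H hG.proper, pn_cPin_eq H hG.proper]
  have hS := pn_pin_ok H hG.ok P
  have hS' := pn_pin_ok H hG.ok (P ∪ A)
  have h := lsys_ratio_mono (pnRefPin H b (Set.subset_union_left : P ⊆ P ∪ A)) hS hS'
    (pnAl H b (P ∪ A) (C3.resZ P u)) 0
  rw [pn_pnAl_res, AddMonoidHom.zero_comp, rd_wT_zero, rd_wT_zero] at h
  have w1 := rd_w_pos hS (pnAl H b P u)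
  have w2 := rd_w_pos hS 0
  have w3 := rd_w_pos hS' 0
  rw [div_le_div_iff₀ w3 w2] at h
  rw [div_le_div_iff₀ w1 w2]
  linarith

/-- **L-PN-L9** (~200 l.).  `D(A,P) ≥ 0` (`lsys_event_mono`). -/
theorem pn_dPin_nonneg {b : ℝ} (hG : Gd H b) (A P : Set G.V) : 0 ≤ H.dPin b A P :=
  pn_dPin_nonneg_gen H b hG.ok hG.proper A P

theorem pn_Z_zero_hW (b : ℝ) : H.Z b (HLaw.Aff.zero H) (fun _ => 1) = ∑' h : H.Λ, hW H b (h : G.V → ℤ) := by
  unfold HLaw.Z
  refine tsum_congr fun h => ?_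
  rw [pn_amb_zero, add_zero, one_mul]
  rfl

/-- `pPin` as the expectation of the indicator of the pin event -/
theorem pn_pPin_int {b : ℝ} (hG : Gd H b) (A : Set G.V) :
    ∫ h, (if ∀ v ∈ A, C3.phys h v = 0 then (1 : ℝ) else 0) ∂(latM H b 0) = H.pPin b A := by
  rw [pn_int0 H hG]
  unfold HLaw.pPin
  rw [pn_Z_zero_hW, pn_Z_zero_hW]
  congr 1
  have h1 := Rsd.cs_tsum_inf H.Λ (HLaw.pinned A) (fun h => hW H b h)
  refine Eq.trans ?_ h1.symm
  refine tsum_congr fun h => ?_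
  have hiff : (∀ v ∈ A, C3.phys (h : G.V → ℤ) v = 0) ↔ (h : G.V → ℤ) ∈ HLaw.pinned A := by
    refine forall₂_congr fun v _ => ?_
    simp [C3.phys, Real.pi_ne_zero]
  by_cases hh : (h : G.V → ℤ) ∈ HLaw.pinned A
  · rw [if_pos hh, if_pos (hiff.2 hh), one_mul]
  · rw [if_neg hh, if_neg (fun h' => hh (hiff.1 h')), zero_mul]

theorem pn_pinned_union (P A : Set G.V) : (H.Λ ⊓ HLaw.pinned P) ⊓ HLaw.pinned A = H.Λ ⊓ HLaw.pinned (P ∪ A) := by
  ext h
  constructor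
  · rintro ⟨⟨h1, h2⟩, h3⟩
    refine ⟨h1, ?_⟩
    rintro v (hv | hv)
    · exact h2 v hv
    · exact h3 v hv
  · rintro ⟨h1, h2⟩
    exact ⟨⟨h1, fun v hv => h2 v (Or.inl hv)⟩, fun v hv => h2 v (Or.inr hv)⟩

/-- the conditional probability of the pin event is `cPin` -/
theorem pn_cE_pin (b : ℝ) (P A : Set G.V) (hd : Disjoint A P) (u : G.V → ℤ) :
    cE H b P (fun φ => if ∀ v ∈ A, φ v = 0 then (1 : ℝ) else 0) u = C3.cPin H b P A u := by
  unfold cE C3.cPin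
  congr 1
  rw [pn_ZC_eq, pn_ZC_eq, pn_resZ_union, ← pn_pinned_union]
  have h1 := Rsd.cs_tsum_inf (H.Λ ⊓ HLaw.pinned P) (HLaw.pinned A) (fun h => 1 * hW H b (h + C3.resZ P u))
  refine Eq.trans ?_ h1.symm
  refine tsum_congr fun h => ?_
  have hiff : (∀ v ∈ A, C3.phys ((h : G.V → ℤ) + C3.resZ P u) v = 0) ↔ (h : G.V → ℤ) ∈ HLaw.pinned A := by
    refine forall₂_congr fun v hv => ?_
    have hvP : v ∉ P := fun hvP => Set.disjoint_left.1 hd hv hvP
    simp [C3.phys, C3.resZ, hvP, Real.pi_ne_zero]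
  by_cases hh : (h : G.V → ℤ) ∈ HLaw.pinned A
  · rw [if_pos hh, if_pos (hiff.2 hh)]
  · rw [if_neg hh, if_neg (fun h' => hh (hiff.1 h')), zero_mul]

/-- **L-PN-L10** (~250 l.).  `E r = e^{-D}` (tower with `F = 1{φ_A = 0}`; `∑_{h' ∈ Λ_P} 1{(h'+u)_A = 0} W = ∑_{h' ∈ Λ_{P ∪ A}} W` for `u = resZ P u`, `A ∩ P = ∅`). -/
theorem pn_rPin_mean {b : ℝ} (hG : Gd H b) (P A : Set G.V) (hsp : Splits H P) (hd : Disjoint A P) :
    ∫ h, C3.rPin H b P A h ∂(latM H b 0) = Real.exp (-H.dPin b A P) := by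
  have ht := (pn_tower H hG P hsp (fun _ => 1) (fun _ => rfl) (fun φ => if ∀ v ∈ A, φ v = 0 then (1 : ℝ) else 0) 0 1
    (fun h => by
      rw [pn_lin_zero_left, Real.exp_zero, one_mul, mul_one]
      split_ifs <;> simp)).2
  simp only [one_mul] at ht
  rw [pn_pPin_int H hG A] at ht
  have hc : ∀ h, cE H b P (fun φ => if ∀ v ∈ A, φ v = 0 then (1 : ℝ) else 0) h = C3.cPin H b P A h :=
    fun h => pn_cE_pin H b P A hd h
  simp only [hc] at ht
  unfold C3.rPin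
  rw [integral_div, ← ht]
  have p1 := pn_pPin_pos H hG.proper hG.ok A
  have p2 := pn_pPin_pos H hG.proper hG.ok P
  have p3 := pn_pPin_pos H hG.proper hG.ok (A ∪ P)
  have hc0 : C3.cPin H b P A 0 = H.pPin b (A ∪ P) / H.pPin b P := by
    rw [pn_cPin_zero H hG.proper, pn_pPin_eq H hG.proper, pn_pPin_eq H hG.proper, Set.union_comm A P]
    have w0 := rd_w_pos hG.ok 0
    have w1 := rd_w_pos (pn_pin_ok H hG.ok P) 0
    field_simp
  rw [hc0]
  unfold HLaw.dPin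
  rw [show -(Real.log (H.pPin b (A ∪ P)) - Real.log (H.pPin b A) - Real.log (H.pPin b P))
      = Real.log (H.pPin b A) + Real.log (H.pPin b P) - Real.log (H.pPin b (A ∪ P)) by ring,
    Real.exp_sub, Real.exp_add, Real.exp_log p1, Real.exp_log p2, Real.exp_log p3]
  field_simp

/-! ## 4. More precision inside the core -/

section ext

variable {G' : HGraph} {H' : HLaw G'} {A : Set G.V} (x : Ext H H' A)

/-- the weight of the new coordinates of `H'` as a functional of the height on `G` -/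
def pn_l11_dens (b : ℝ) (h : G.V → ℤ) : ℝ :=
  (∏ x' ∈ (Finset.univ.map x.iE)ᶜ, bes b (h (x.e (G'.tgt x')) - h (x.e (G'.src x')))) *
    Real.exp (-(∑ o' ∈ (Finset.univ.map x.iO)ᶜ, (∑ v, H'.B o' v * (2 * Real.pi * (h (x.e v) : ℝ))) ^ 2) / 2)

/-- factorisation of the weight -/
theorem pn_l11_hW (b : ℝ) (h : G.V → ℤ) : hW H' b (h ∘ x.e) = hW H b h * pn_l11_dens H x b h := by
  have hE : (∏ x' : G'.E, bes b (h (x.e (G'.tgt x')) - h (x.e (G'.src x'))))
      = (∏ y : G.E, bes b (h (G.tgt y) - h (G.src y)))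
        * ∏ x' ∈ (Finset.univ.map x.iE)ᶜ, bes b (h (x.e (G'.tgt x')) - h (x.e (G'.src x'))) := by
    rw [← Finset.prod_mul_prod_compl (Finset.univ.map x.iE), Finset.prod_map]
    simp only [x.src_eq, x.tgt_eq]
  have hO : (∑ o' : H'.O, (∑ v, H'.B o' v * (2 * Real.pi * (h (x.e v) : ℝ))) ^ 2)
      = (∑ o : H.O, (∑ v, H.B o v * (2 * Real.pi * (h v : ℝ))) ^ 2)
        + ∑ o' ∈ (Finset.univ.map x.iO)ᶜ, (∑ v, H'.B o' v * (2 * Real.pi * (h (x.e v) : ℝ))) ^ 2 := by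
    rw [← Finset.sum_add_sum_compl (Finset.univ.map x.iO), Finset.sum_map]
    congr 1
    refine Finset.sum_congr rfl fun o _ => ?_
    congr 1
    simp only [x.row_eq]
    exact x.e.sum_comp fun v => H.B o v * (2 * Real.pi * (h v : ℝ))
  have h1 : hW H' b (h ∘ x.e) = (∏ x' : G'.E, bes b (h (x.e (G'.tgt x')) - h (x.e (G'.src x'))))
      * Real.exp (-(∑ o' : H'.O, (∑ v, H'.B o' v * (2 * Real.pi * (h (x.e v) : ℝ))) ^ 2) / 2) := rfl
  have h2 : hW H b h = (∏ y : G.E, bes b (h (G.tgt y) - h (G.src y)))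
      * Real.exp (-(∑ o : H.O, (∑ v, H.B o v * (2 * Real.pi * (h v : ℝ))) ^ 2) / 2) := rfl
  rw [h1, h2, hE, hO, pn_l11_dens, neg_add, add_div, Real.exp_add]
  ring

/-- transport of the pinned constraint lattices -/
def pn_l11_equiv (P : Set G.V) : ↥(H.Λ ⊓ HLaw.pinned P) ≃ ↥(H'.Λ ⊓ HLaw.pinned (x.e ⁻¹' P)) where
  toFun h := ⟨(h : G.V → ℤ) ∘ x.e, (x.lam _).2 h.2.1, fun v hv => h.2.2 _ hv⟩
  invFun h' := ⟨(h' : G'.V → ℤ) ∘ x.e.symm, (x.lam _).1 (by
      have : ((h' : G'.V → ℤ) ∘ x.e.symm) ∘ x.e = (h' : G'.V → ℤ) := by ext v; simp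
      rw [this]; exact h'.2.1), fun v hv => h'.2.2 _ (by simpa using hv)⟩
  left_inv h := by ext v; simp
  right_inv h' := by ext v; simp

theorem pn_l11_resZ (P : Set G.V) (u : G.V → ℤ) : C3.resZ (x.e ⁻¹' P) (u ∘ x.e) = C3.resZ P u ∘ x.e := by
  ext v; simp [C3.resZ]

/-- the conditional sums of `H'` in the variables of `H` -/
theorem pn_l11_ZC (b : ℝ) (P : Set G.V) (u : G.V → ℤ) :
    C3.ZC H' b (x.e ⁻¹' P) (u ∘ x.e) (fun _ => 1)
      = ∑' h : ↥(H.Λ ⊓ HLaw.pinned P),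
          pn_l11_dens H x b ((h : G.V → ℤ) + C3.resZ P u) * hW H b ((h : G.V → ℤ) + C3.resZ P u) := by
  rw [pn_ZC_eq, ← (pn_l11_equiv H x P).tsum_eq]
  refine tsum_congr fun h => ?_
  have : ((pn_l11_equiv H x P h : ↥(H'.Λ ⊓ HLaw.pinned (x.e ⁻¹' P))) : G'.V → ℤ) + C3.resZ (x.e ⁻¹' P) (u ∘ x.e)
      = ((h : G.V → ℤ) + C3.resZ P u) ∘ x.e := by
    rw [pn_l11_resZ]; rfl
  rw [this, pn_l11_hW, one_mul, mul_comm]

/-- the integer height of a physical height -/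
def pn_l11_unphys (φ : G.V → ℝ) : G.V → ℤ := fun v => round (φ v / (2 * Real.pi))

theorem pn_l11_unphys_phys (h : G.V → ℤ) : pn_l11_unphys (C3.phys h) = h := by
  ext v
  have : (2 * Real.pi * (h v : ℝ)) / (2 * Real.pi) = (h v : ℝ) := by
    field_simp
  simp [pn_l11_unphys, C3.phys, this]

theorem pn_l11_ZC' (b : ℝ) (P : Set G.V) (u : G.V → ℤ) :
    C3.ZC H' b (x.e ⁻¹' P) (u ∘ x.e) (fun _ => 1) = C3.ZC H b P u fun φ => pn_l11_dens H x b (pn_l11_unphys φ) := by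
  rw [pn_l11_ZC, pn_ZC_eq]
  simp only [pn_l11_unphys_phys]

/-- conditional sums in image form -/
theorem pn_l11_ZC_w {b : ℝ} (hG : Gd H b) (P : Set G.V) (u : G.V → ℤ) :
    C3.ZC H b P u (fun _ => 1) = ((H.addPin P).sys b).w ((H.addPin P).coordA b (C3.resZ P u)) := by
  have h := HLaw.Z_eq_w (H.addPin P) (pn_gd_addPin H hG P).proper b ⟨C3.resZ P u, 0, 0⟩
  have e : (HLaw.Aff.amb (H := H.addPin P) ⟨C3.resZ P u, 0, 0⟩ b) = (H.addPin P).coordA b (C3.resZ P u) := by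
    refine Prod.ext ?_ ?_
    · funext y
      exact add_zero _
    · funext o
      change _ + -(0 : ℝ) = _
      rw [neg_zero, add_zero]
  rw [e] at h
  exact h

theorem pn_l11_ZC_pos {b : ℝ} (hG : Gd H b) (P : Set G.V) (u : G.V → ℤ) : 0 < C3.ZC H b P u fun _ => 1 := by
  rw [pn_l11_ZC_w H hG]
  have := lsys_pos _ (pn_gd_addPin H hG P).ok ((H.addPin P).coordA b (C3.resZ P u)) 0
  rwa [Rsd.cs_wT_zero] at this

theorem pn_l11_coord (Q : Set G'.V) (P : Set G.V) (h : G.V → ℤ) :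
    ((fun y => ((H'.addPin Q).coord (h ∘ x.e)).1 (x.iE y), fun o => ((H'.addPin Q).coord (h ∘ x.e)).2 (x.iO o)) :
      (G.E → ℤ) × (H.O → ℝ)) = (H.addPin P).coord h := by
  refine Prod.ext ?_ ?_
  · funext y
    change h (x.e (G'.tgt (x.iE y))) - h (x.e (G'.src (x.iE y))) = h (G.tgt y) - h (G.src y)
    rw [x.src_eq, x.tgt_eq]
  · funext o
    change ∑ v, H'.B (x.iO o) v * (2 * Real.pi * (h (x.e v) : ℝ)) = ∑ v, H.B o v * (2 * Real.pi * (h v : ℝ))
    simp only [x.row_eq]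
    exact x.e.sum_comp fun v => H.B o v * (2 * Real.pi * (h v : ℝ))

/-- the refinement from `H` pinned on `P` to `H'` pinned on `Q ⊇ e⁻¹ P` -/
def pn_l11_ref (b : ℝ) (P : Set G.V) (Q : Set G'.V) (hPQ : x.e ⁻¹' P ⊆ Q) :
    LSys.Ref ((H.addPin P).sys b) ((H'.addPin Q).sys b) where
  iE := x.iE
  iO := x.iO
  hb _ := rfl
  map_mem := by
    rintro z ⟨h', hh', rfl⟩
    have e1 : (h' ∘ x.e.symm) ∘ x.e = h' := by ext v; simp
    refine ⟨h' ∘ x.e.symm, ⟨(x.lam _).1 (by rw [e1]; exact hh'.1), fun v hv => hh'.2 _ (hPQ (by simpa using hv))⟩, ?_⟩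
    have := pn_l11_coord H x Q P (h' ∘ x.e.symm)
    rw [e1] at this
    exact this.symm

theorem pn_l11_ref_res (b : ℝ) (P : Set G.V) (Q : Set G'.V) (hPQ : x.e ⁻¹' P ⊆ Q) (h : G.V → ℤ) :
    (pn_l11_ref H x b P Q hPQ).res ((H'.addPin Q).coordA b (h ∘ x.e)) = (H.addPin P).coordA b h :=
  pn_l11_coord H x Q P h

/-- the trivial extension -/
def pn_l11_id (A : Set G.V) : Ext H H A where
  e := Equiv.refl _
  iE := Function.Embedding.refl _
  iO := Function.Embedding.refl _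
  src_eq _ := rfl
  tgt_eq _ := rfl
  row_eq _ _ := rfl
  lam _ := Iff.rfl
  newE x' hx' := (hx' ⟨x', rfl⟩).elim
  newO o' ho' := (ho' ⟨o', rfl⟩).elim

/-- ratio monotonicity in height variables -/
theorem pn_l11_ratio {b : ℝ} (hG : Gd H b) (P : Set G.V) (Q : Set G'.V) (hPQ : x.e ⁻¹' P ⊆ Q) (u : G.V → ℤ)
    (hu : C3.resZ Q (u ∘ x.e) = C3.resZ P u ∘ x.e) :
    C3.ZC H' b Q (u ∘ x.e) (fun _ => 1) / C3.ZC H' b Q 0 (fun _ => 1)
      ≤ C3.ZC H b P u (fun _ => 1) / C3.ZC H b P 0 fun _ => 1 := by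
  have hG' : Gd H' b := pn_gd_ext H x hG
  have h0 : ∀ {G₁ : HGraph} (R : Set G₁.V), C3.resZ R (0 : G₁.V → ℤ) = 0 := by
    intro G₁ R; ext v; simp [C3.resZ]
  rw [pn_l11_ZC_w H' hG', pn_l11_ZC_w H' hG', pn_l11_ZC_w H hG, pn_l11_ZC_w H hG, h0, h0, map_zero, map_zero, hu]
  have := lsys_ratio_mono (pn_l11_ref H x b P Q hPQ) (pn_gd_addPin H hG P).ok (pn_gd_addPin H' hG' Q).ok
    ((H'.addPin Q).coordA b (C3.resZ P u ∘ x.e)) 0
  rwa [AddMonoidHom.zero_comp, Rsd.cs_wT_zero, Rsd.cs_wT_zero, pn_l11_ref_res] at this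

/-- the new coordinates are frozen on heights vanishing on `A` -/
theorem pn_l11_dens_const (b : ℝ) (k : G.V → ℤ) (hk : ∀ v ∈ A, k v = 0) :
    pn_l11_dens H x b k = ∏ _x' ∈ (Finset.univ.map x.iE)ᶜ, bes b 0 := by
  have h1 : (∏ x' ∈ (Finset.univ.map x.iE)ᶜ, bes b (k (x.e (G'.tgt x')) - k (x.e (G'.src x'))))
      = ∏ _x' ∈ (Finset.univ.map x.iE)ᶜ, bes b 0 := by
    refine Finset.prod_congr rfl fun x' hx' => ?_
    have hx : x' ∉ Set.range x.iE := by
      simpa using hx'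
    rw [hk _ (x.newE x' hx).1, hk _ (x.newE x' hx).2, sub_zero]
  have h2 : (∑ o' ∈ (Finset.univ.map x.iO)ᶜ, (∑ v, H'.B o' v * (2 * Real.pi * (k (x.e v) : ℝ))) ^ 2) = 0 := by
    refine Finset.sum_eq_zero fun o' ho' => ?_
    have ho : o' ∉ Set.range x.iO := by
      simpa using ho'
    have : (∑ v, H'.B o' v * (2 * Real.pi * (k (x.e v) : ℝ))) = 0 := by
      refine Finset.sum_eq_zero fun v _ => ?_
      by_cases hv : x.e v ∈ A
      · rw [hk _ hv]; simp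
      · rw [x.newO o' ho v hv, zero_mul]
    rw [this]; simp
  rw [pn_l11_dens, h1, h2]
  simp

/-- **L-PN-L11** (~300 l.).  `r_A ≤ r_Δ ≤ 1`.  Upper bound: `lsys_ratio_mono` for the `Ref` from `(H.addPin P).sys b` to `(H'.addPin P').sys b`.  Lower bound: `lsys_ratio_mono` for the `Ref` "pin `A`" of `H'`, and
`Z'_{P ∪ A}(u) = q₀ Z_{P ∪ A}(u)` with the constant `q₀ = ∏_{new bonds} bes b 0` because all new coordinates vanish on heights which vanish on `A`. -/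
theorem pn_ext_sandwich {b : ℝ} (hG : Gd H b) (P : Set G.V) (hd : Disjoint A P) (u : G.V → ℤ) :
    C3.rPin H b P A u ≤ x.rr b P u ∧ x.rr b P u ≤ 1 ∧ 0 < x.zr b P u := by
  have hG' : Gd H' b := pn_gd_ext H x hG
  have e0 : (0 : G.V → ℤ) ∘ x.e = 0 := rfl
  have ha := pn_l11_ZC_pos H hG P u
  have ha0 := pn_l11_ZC_pos H hG P 0
  have ha' := pn_l11_ZC_pos H' hG' (x.e ⁻¹' P) (u ∘ x.e)
  have ha0' := pn_l11_ZC_pos H' hG' (x.e ⁻¹' P) 0
  have hc := pn_l11_ZC_pos H hG (P ∪ A) (C3.resZ P u)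
  have hc0 := pn_l11_ZC_pos H hG (P ∪ A) (C3.resZ P 0)
  -- upper bound
  have hup := pn_l11_ratio H x hG P (x.e ⁻¹' P) subset_rfl u (pn_l11_resZ H x P u)
  -- the frozen coordinates
  have hq : 0 < ∏ _x' ∈ (Finset.univ.map x.iE)ᶜ, bes b 0 := Finset.prod_pos fun _ _ => bes_pos b hG.b_pos 0
  have hfr : ∀ w : G.V → ℤ, C3.ZC H' b (x.e ⁻¹' (P ∪ A)) (C3.resZ P w ∘ x.e) (fun _ => 1)
      = (∏ _x' ∈ (Finset.univ.map x.iE)ᶜ, bes b 0) * C3.ZC H b (P ∪ A) (C3.resZ P w) fun _ => 1 := by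
    intro w
    rw [pn_l11_ZC, pn_ZC_eq, ← tsum_mul_left]
    refine tsum_congr fun h => ?_
    rw [pn_l11_dens_const, one_mul]
    intro v hv
    have hvP : v ∉ P := fun hvP => (Set.disjoint_left.1 hd) hv hvP
    have h1 : (h : G.V → ℤ) v = 0 := h.2.2 v (Or.inr hv)
    simp [C3.resZ, hvP, h1]
  -- lower bound
  have hlo := pn_l11_ratio H' (pn_l11_id H' (x.e ⁻¹' A)) hG' (x.e ⁻¹' P) (x.e ⁻¹' (P ∪ A))
    (fun v hv => Or.inl hv) (C3.resZ P u ∘ x.e) (by
      ext v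
      by_cases hv : x.e v ∈ P <;> simp [C3.resZ, pn_l11_id, hv])
  have e1 : (C3.resZ P u ∘ x.e) ∘ (pn_l11_id H' (x.e ⁻¹' A)).e = C3.resZ P u ∘ x.e := rfl
  have e2 : C3.ZC H' b (x.e ⁻¹' P) (C3.resZ P u ∘ x.e) (fun _ => 1) = C3.ZC H' b (x.e ⁻¹' P) (u ∘ x.e) fun _ => 1 := by
    unfold C3.ZC
    congr 2
    ext v
    by_cases hv : x.e v ∈ P <;> simp [C3.resZ, hv]
  have e3 : C3.resZ P (0 : G.V → ℤ) = 0 := by ext v; simp [C3.resZ]
  have e4 := hfr 0
  rw [e3, e0] at e4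
  rw [e3] at hc0
  rw [e1, e2, hfr u, e4, mul_div_mul_left _ _ hq.ne'] at hlo
  unfold C3.rPin C3.cPin Ext.rr Ext.zr
  rw [e3, e0]
  generalize C3.ZC H b P u (fun _ => 1) = a at *
  generalize C3.ZC H b P 0 (fun _ => 1) = a0 at *
  generalize C3.ZC H' b (x.e ⁻¹' P) (u ∘ x.e) (fun _ => 1) = a' at *
  generalize C3.ZC H' b (x.e ⁻¹' P) 0 (fun _ => 1) = a0' at *
  generalize C3.ZC H b (P ∪ A) (C3.resZ P u) (fun _ => 1) = c at *
  generalize C3.ZC H b (P ∪ A) 0 (fun _ => 1) = c0 at *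
  refine ⟨?_, ?_, div_pos ha' ha⟩
  · have h1 : c / a / (c0 / a0) = c / c0 * (a0 / a) := by field_simp
    have h2 : a' / a / (a0' / a0) = a' / a0' * (a0 / a) := by field_simp
    rw [h1, h2]
    exact mul_le_mul_of_nonneg_right hlo (div_pos ha0 ha).le
  · have h2 : a' / a / (a0' / a0) = a' / a0' / (a / a0) := by field_simp
    rw [h2]
    exact (div_le_one (div_pos ha ha0)).2 hup

theorem pn_l11_dens_mem {b : ℝ} (hb : 0 < b) (h : G.V → ℤ) : 0 ≤ pn_l11_dens H x b h ∧ pn_l11_dens H x b h ≤ 1 := by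
  have hle : ∀ k : ℤ, bes b k ≤ 1 := fun k =>
    le_hasSum (by simpa using bes_hasSum_exp b 0 : HasSum (fun k : ℤ => bes b k) 1) k fun j _ => bes_nonneg b hb.le j
  have h1 : 0 ≤ ∏ x' ∈ (Finset.univ.map x.iE)ᶜ, bes b (h (x.e (G'.tgt x')) - h (x.e (G'.src x'))) :=
    Finset.prod_nonneg fun _ _ => bes_nonneg b hb.le _
  have h2 : ∏ x' ∈ (Finset.univ.map x.iE)ᶜ, bes b (h (x.e (G'.tgt x')) - h (x.e (G'.src x'))) ≤ 1 :=
    Finset.prod_le_one (fun _ _ => bes_nonneg b hb.le _) fun _ _ => hle _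
  have h3 : Real.exp (-(∑ o' ∈ (Finset.univ.map x.iO)ᶜ, (∑ v, H'.B o' v * (2 * Real.pi * (h (x.e v) : ℝ))) ^ 2) / 2) ≤ 1 := by
    rw [Real.exp_le_one_iff]
    have : 0 ≤ ∑ o' ∈ (Finset.univ.map x.iO)ᶜ, (∑ v, H'.B o' v * (2 * Real.pi * (h (x.e v) : ℝ))) ^ 2 :=
      Finset.sum_nonneg fun _ _ => sq_nonneg _
    linarith
  exact ⟨mul_nonneg h1 (Real.exp_pos _).le, mul_le_one₀ h2 (Real.exp_pos _).le h3⟩

/-- transport of the constraint lattices -/
def pn_l11_equiv0 : H.Λ ≃ H'.Λ where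
  toFun h := ⟨(h : G.V → ℤ) ∘ x.e, (x.lam _).2 h.2⟩
  invFun h' := ⟨(h' : G'.V → ℤ) ∘ x.e.symm, (x.lam _).1 (by
      have : ((h' : G'.V → ℤ) ∘ x.e.symm) ∘ x.e = (h' : G'.V → ℤ) := by ext v; simp
      rw [this]; exact h'.2)⟩
  left_inv h := by ext v; simp
  right_inv h' := by ext v; simp

/-- no pin -/
theorem pn_l11_tsum_nopin (f : (G.V → ℤ) → ℝ) :
    ∑' h : ↥(H.Λ ⊓ HLaw.pinned (∅ : Set G.V)), f ((h : G.V → ℤ) + C3.resZ ∅ 0) = ∑' h : H.Λ, f (h : G.V → ℤ) := by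
  have e1 : H.Λ ⊓ HLaw.pinned (∅ : Set G.V) = H.Λ := by
    refine inf_eq_left.2 fun h _ v hv => ?_
    exact hv.elim
  have e2 : C3.resZ (∅ : Set G.V) (0 : G.V → ℤ) = 0 := by ext v; simp [C3.resZ]
  rw [e1, e2]
  simp only [add_zero]

/-- centred expectations as ratios of sums -/
theorem pn_l11_int_eq {b : ℝ} (hG : Gd H b) (Ψ : (G.V → ℤ) → ℝ) :
    ∫ h, Ψ h ∂(latM H b 0) = (∑' h : H.Λ, Ψ (h : G.V → ℤ) * hW H b (h : G.V → ℤ)) / ∑' h : H.Λ, hW H b (h : G.V → ℤ) := by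
  rw [← pn_ExT_eq H hG, C3.ExT, pn_ZI_zero, pn_ZI_zero]
  have : ∀ φ : G.V → ℝ, HLaw.pair (0 : G.V → ℝ) φ = 0 := fun φ => by simp [HLaw.pair]
  simp only [this, Real.exp_zero, mul_one, one_mul]

/-- **L-PN-L12** (~250 l.).  Change of the guard marginal: `E_ν Ψ = E_μ [Ψ Z'_P/Z_P] / (Z'/Z)` for `Ψ` local, bounded. -/
theorem pn_ext_density {b : ℝ} (hG : Gd H b) (P : Set G.V) (hsp : Splits H P) (Ψ : (G.V → ℤ) → ℝ) (hΨ : LocP P Ψ) (C : ℝ) (hC : ∀ h, |Ψ h| ≤ C) :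
    ∫ h', Ψ (h' ∘ x.e.symm) ∂(latM H' b 0) = (∫ h, Ψ h * x.zr b P h ∂(latM H b 0)) / x.zr b ∅ 0 := by
  have hG' : Gd H' b := pn_gd_ext H x hG
  have hC0 : 0 ≤ C := (abs_nonneg _).trans (hC 0)
  -- the tower property
  have ht := (pn_tower H hG P hsp Ψ hΨ (fun φ => pn_l11_dens H x b (pn_l11_unphys φ)) 0 C (by
    intro h
    have h0 : lin (0 : G.V → ℝ) h = 0 := by simp [lin, HLaw.pair]
    have hm := pn_l11_dens_mem H x hG.b_pos (pn_l11_unphys (C3.phys h))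
    rw [h0, Real.exp_zero, mul_one, abs_mul, abs_of_nonneg hm.1]
    calc |Ψ h| * pn_l11_dens H x b (pn_l11_unphys (C3.phys h)) ≤ C * 1 :=
          mul_le_mul (hC h) hm.2 hm.1 hC0
      _ = C := mul_one C)).2
  have hcE : ∀ h, cE H b P (fun φ => pn_l11_dens H x b (pn_l11_unphys φ)) h = x.zr b P h := by
    intro h
    rw [cE, Ext.zr, pn_l11_ZC']
  simp only [hcE, pn_l11_unphys_phys] at ht
  rw [← ht, pn_l11_int_eq H hG, pn_l11_int_eq H' hG', Ext.zr]
  -- the two normalisations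
  have hN : C3.ZC H b ∅ 0 (fun _ => 1) = ∑' h : H.Λ, hW H b (h : G.V → ℤ) := by
    rw [pn_ZC_eq]
    simp only [one_mul]
    exact pn_l11_tsum_nopin H fun h => hW H b h
  have hN' : C3.ZC H' b (x.e ⁻¹' ∅) ((0 : G.V → ℤ) ∘ x.e) (fun _ => 1) = ∑' h : H.Λ, pn_l11_dens H x b (h : G.V → ℤ) * hW H b (h : G.V → ℤ) := by
    rw [pn_l11_ZC]
    exact pn_l11_tsum_nopin H fun h => pn_l11_dens H x b h * hW H b h
  have hpos : 0 < ∑' h : H.Λ, hW H b (h : G.V → ℤ) := hN ▸ pn_l11_ZC_pos H hG ∅ 0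
  have hr : ∀ f : (G.V → ℤ) → ℝ, ∑' h' : H'.Λ, f ((h' : G'.V → ℤ) ∘ x.e.symm) * hW H' b (h' : G'.V → ℤ)
      = ∑' h : H.Λ, f (h : G.V → ℤ) * pn_l11_dens H x b (h : G.V → ℤ) * hW H b (h : G.V → ℤ) := by
    intro f
    rw [← (pn_l11_equiv0 H x).tsum_eq]
    refine tsum_congr fun h => ?_
    have e1 : ((pn_l11_equiv0 H x h : H'.Λ) : G'.V → ℤ) = (h : G.V → ℤ) ∘ x.e := rfl
    have e2 : ((h : G.V → ℤ) ∘ x.e) ∘ x.e.symm = (h : G.V → ℤ) := by ext v; simp
    rw [e1, e2, pn_l11_hW]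
    ring
  have hr1 := hr fun _ => 1
  simp only [one_mul] at hr1
  rw [hN, hN', hr, hr1]
  field_simp

/-- bounded functions are integrable under the centred law -/
theorem pn_integrable_bdd {b : ℝ} (hG : Gd H b) (fL : G.V → ℝ) (C : ℝ) (Ψ : (G.V → ℤ) → ℝ) (hΨ : ∀ h, |Ψ h| ≤ C) :
    Integrable Ψ (latM H b fL) :=
  pn_integrable H hG fL 0 C Ψ fun h => by rw [pn_lin_zero_left, Real.exp_zero, mul_one]; exact hΨ h

theorem pn_ext_zr_eq {b : ℝ} (hG : Gd H b) (P : Set G.V) (hd : Disjoint A P) (u : G.V → ℤ) :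
    x.zr b P u = x.zr b P 0 * x.rr b P u := by
  have h0 := (pn_ext_sandwich H x hG P hd 0).2.2
  unfold Ext.rr
  field_simp

theorem pn_ext_rr_mem {b : ℝ} (hG : Gd H b) (P : Set G.V) (hd : Disjoint A P) (u : G.V → ℤ) :
    0 < x.rr b P u ∧ x.rr b P u ≤ 1 :=
  ⟨lt_of_lt_of_le (pn_rPin_mem H hG P A u).1 (pn_ext_sandwich H x hG P hd u).1, (pn_ext_sandwich H x hG P hd u).2.1⟩

/-- the guard marginal of the extension, in terms of `rr` -/
theorem pn_ext_density_rr {b : ℝ} (hG : Gd H b) (P : Set G.V) (hsp : Splits H P) (hd : Disjoint A P)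
    (Ψ : (G.V → ℤ) → ℝ) (hΨ : LocP P Ψ) (C : ℝ) (hC : ∀ h, |Ψ h| ≤ C) :
    ∫ h', Ψ (h' ∘ x.e.symm) ∂(latM H' b 0) = x.zr b P 0 / x.zr b ∅ 0 * ∫ h, Ψ h * x.rr b P h ∂(latM H b 0) := by
  rw [pn_ext_density H x hG P hsp Ψ hΨ C hC]
  have e : ∀ h, Ψ h * x.zr b P h = x.zr b P 0 * (Ψ h * x.rr b P h) := by
    intro h
    rw [pn_ext_zr_eq H x hG P hd h]
    ring
  simp only [e]
  rw [integral_const_mul]
  ring

/-- **L-PN-L13** (~150 l., from L8, L10, L11, L12).  `1 ≤ [Z'_P(0)/Z_P(0)] / [Z'/Z] ≤ e^{D(A,P)}`. -/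
theorem pn_ext_const {b : ℝ} (hG : Gd H b) (P : Set G.V) (hsp : Splits H P) (hd : Disjoint A P) :
    1 ≤ x.zr b P 0 / x.zr b ∅ 0 ∧ x.zr b P 0 / x.zr b ∅ 0 ≤ Real.exp (H.dPin b A P) := by
  have := pn_latM_prob H hG 0
  have := pn_latM_prob H' (pn_gd_ext H x hG) 0
  have h1 := pn_ext_density_rr H x hG P hsp hd (fun _ => 1) (fun _ => rfl) 1 (fun _ => by simp)
  simp only [integral_const, probReal_univ, smul_eq_mul, mul_one, one_mul] at h1
  have hP0 := (pn_ext_sandwich H x hG P hd 0).2.2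
  have hE0 := (pn_ext_sandwich H x hG ∅ (Set.disjoint_empty A) 0).2.2
  have hc : 0 < x.zr b P 0 / x.zr b ∅ 0 := div_pos hP0 hE0
  have irr : Integrable (fun h => x.rr b P h) (latM H b 0) :=
    pn_integrable_bdd H hG 0 1 _ fun h => by
      rw [abs_of_pos (pn_ext_rr_mem H x hG P hd h).1]; exact (pn_ext_rr_mem H x hG P hd h).2
  have irp : Integrable (fun h => C3.rPin H b P A h) (latM H b 0) :=
    pn_integrable_bdd H hG 0 1 _ fun h => by
      rw [abs_of_pos (pn_rPin_mem H hG P A h).1]; exact (pn_rPin_mem H hG P A h).2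
  have u1 : ∫ h, x.rr b P h ∂(latM H b 0) ≤ 1 := by
    calc ∫ h, x.rr b P h ∂(latM H b 0) ≤ ∫ _h, (1 : ℝ) ∂(latM H b 0) :=
          integral_mono irr (integrable_const _) fun h => (pn_ext_rr_mem H x hG P hd h).2
      _ = 1 := by simp
  have l1 : Real.exp (-H.dPin b A P) ≤ ∫ h, x.rr b P h ∂(latM H b 0) := by
    rw [← pn_rPin_mean H hG P A hsp hd]
    exact integral_mono irp irr fun h => (pn_ext_sandwich H x hG P hd h).1
  constructor
  · nlinarith
  · rw [Real.exp_neg] at l1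
    have he := Real.exp_pos (H.dPin b A P)
    have : x.zr b P 0 / x.zr b ∅ 0 * (Real.exp (H.dPin b A P))⁻¹ ≤ 1 := by
      rw [h1]; exact mul_le_mul_of_nonneg_left l1 hc.le
    rwa [← div_eq_mul_inv, div_le_one he] at this

/-- two-way comparison of the guard marginals (from L11-L13) -/
theorem pn_ext_upper {b : ℝ} (hG : Gd H b) (P : Set G.V) (hsp : Splits H P) (hd : Disjoint A P)
    (Ψ : (G.V → ℤ) → ℝ) (hΨ : LocP P Ψ) (h01 : ∀ h, 0 ≤ Ψ h ∧ Ψ h ≤ 1) :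
    ∫ h', Ψ (h' ∘ x.e.symm) ∂(latM H' b 0) ≤ Real.exp (H.dPin b A P) * ∫ h, Ψ h ∂(latM H b 0) := by
  have hC : ∀ h, |Ψ h| ≤ 1 := fun h => by rw [abs_of_nonneg (h01 h).1]; exact (h01 h).2
  rw [pn_ext_density_rr H x hG P hsp hd Ψ hΨ 1 hC]
  have i1 : Integrable (fun h => Ψ h * x.rr b P h) (latM H b 0) :=
    pn_integrable_bdd H hG 0 1 _ fun h => by
      rw [abs_of_nonneg (mul_nonneg (h01 h).1 (pn_ext_rr_mem H x hG P hd h).1.le)]
      exact mul_le_one₀ (h01 h).2 (pn_ext_rr_mem H x hG P hd h).1.le (pn_ext_rr_mem H x hG P hd h).2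
  have i2 : Integrable Ψ (latM H b 0) := pn_integrable_bdd H hG 0 1 _ hC
  have m1 : ∫ h, Ψ h * x.rr b P h ∂(latM H b 0) ≤ ∫ h, Ψ h ∂(latM H b 0) :=
    integral_mono i1 i2 fun h => mul_le_of_le_one_right (h01 h).1 (pn_ext_rr_mem H x hG P hd h).2
  have m0 : 0 ≤ ∫ h, Ψ h * x.rr b P h ∂(latM H b 0) :=
    integral_nonneg fun h => mul_nonneg (h01 h).1 (pn_ext_rr_mem H x hG P hd h).1.le
  exact mul_le_mul (pn_ext_const H x hG P hsp hd).2 m1 m0 (Real.exp_pos _).le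

theorem pn_ext_lower {b : ℝ} (hG : Gd H b) (P : Set G.V) (hsp : Splits H P) (hd : Disjoint A P)
    (Ψ : (G.V → ℤ) → ℝ) (hΨ : LocP P Ψ) (h01 : ∀ h, 0 ≤ Ψ h ∧ Ψ h ≤ 1) :
    ∫ h, Ψ h * C3.rPin H b P A h ∂(latM H b 0) ≤ ∫ h', Ψ (h' ∘ x.e.symm) ∂(latM H' b 0) := by
  have hC : ∀ h, |Ψ h| ≤ 1 := fun h => by rw [abs_of_nonneg (h01 h).1]; exact (h01 h).2
  rw [pn_ext_density_rr H x hG P hsp hd Ψ hΨ 1 hC]
  have i1 : Integrable (fun h => Ψ h * x.rr b P h) (latM H b 0) :=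
    pn_integrable_bdd H hG 0 1 _ fun h => by
      rw [abs_of_nonneg (mul_nonneg (h01 h).1 (pn_ext_rr_mem H x hG P hd h).1.le)]
      exact mul_le_one₀ (h01 h).2 (pn_ext_rr_mem H x hG P hd h).1.le (pn_ext_rr_mem H x hG P hd h).2
  have i3 : Integrable (fun h => Ψ h * C3.rPin H b P A h) (latM H b 0) :=
    pn_integrable_bdd H hG 0 1 _ fun h => by
      rw [abs_of_nonneg (mul_nonneg (h01 h).1 (pn_rPin_mem H hG P A h).1.le)]
      exact mul_le_one₀ (h01 h).2 (pn_rPin_mem H hG P A h).1.le (pn_rPin_mem H hG P A h).2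
  have m1 : ∫ h, Ψ h * C3.rPin H b P A h ∂(latM H b 0) ≤ ∫ h, Ψ h * x.rr b P h ∂(latM H b 0) :=
    integral_mono i3 i1 fun h => mul_le_mul_of_nonneg_left (pn_ext_sandwich H x hG P hd h).1 (h01 h).1
  have m0 : 0 ≤ ∫ h, Ψ h * x.rr b P h ∂(latM H b 0) :=
    integral_nonneg fun h => mul_nonneg (h01 h).1 (pn_ext_rr_mem H x hG P hd h).1.le
  calc _ ≤ ∫ h, Ψ h * x.rr b P h ∂(latM H b 0) := m1
    _ = 1 * ∫ h, Ψ h * x.rr b P h ∂(latM H b 0) := (one_mul _).symm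
    _ ≤ _ := mul_le_mul_of_nonneg_right (pn_ext_const H x hG P hsp hd).1 m0

end ext

/-! ## 5. Soft probes: Fourier representation -/

/-- **L-PN-L14** (~250 l. for the two).  The new Gaussian coordinates are a functional of the height. -/
theorem pn_rows_weight (b : ℝ) (P : Set G.V) (u : G.V → ℤ) {n : ℕ} (R : Fin n → G.V → ℝ) (F : (G.V → ℝ) → ℝ) :
    C3.ZC (addRows H R) b P u F = C3.ZC H b P u fun φ => F φ * Real.exp (-(∑ d, HLaw.pair (R d) φ ^ 2) / 2) := by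
  unfold C3.ZC HLaw.Z
  refine tsum_congr fun h => ?_
  rw [mul_assoc]
  congr 1
  unfold LSys.W
  have e : ∑ o, (((addRows H R).addPin P).coordA b (h : G.V → ℤ) + (⟨C3.resZ P u, 0, 0⟩ : ((addRows H R).addPin P).Aff).amb b).2 o ^ 2
      = ∑ o, ((H.addPin P).coordA b (h : G.V → ℤ) + (⟨C3.resZ P u, 0, 0⟩ : (H.addPin P).Aff).amb b).2 o ^ 2
        + ∑ d, HLaw.pair (R d) (fun v => 2 * Real.pi * (((h : G.V → ℤ) v + C3.resZ P u v : ℤ) : ℝ)) ^ 2 := by
    refine (Fintype.sum_sum_type _).trans ?_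
    congr 1
    refine Finset.sum_congr rfl fun d _ => ?_
    congr 1
    show (∑ v, R d v * (2 * Real.pi * (((h : G.V → ℤ) v : ℤ) : ℝ))) + ((∑ v, R d v * (2 * Real.pi * ((C3.resZ P u v : ℤ) : ℝ))) + - 0) = _
    unfold HLaw.pair
    rw [neg_zero, add_zero, ← Finset.sum_add_distrib]
    refine Finset.sum_congr rfl fun v _ => ?_
    push_cast
    ring
  rw [e, neg_add, add_div, Real.exp_add]
  exact (fun A B C : ℝ => (by ring : A * (B * C) = C * (A * B))) _ _ _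

theorem pn_lat_stdG_prob (n : ℕ) : IsProbabilityMeasure (stdG n) := by
  unfold stdG
  infer_instance

theorem pn_lat_gauss_cexp (t : ℝ) :
    ∫ x, Complex.exp (t * x * Complex.I) ∂(ProbabilityTheory.gaussianReal 0 1) = ((Real.exp (-(t ^ 2 / 2)) : ℝ) : ℂ) := by
  rw [← charFun_apply_real, ProbabilityTheory.charFun_gaussianReal, Complex.ofReal_exp]
  congr 1
  push_cast
  ring

theorem pn_lat_gauss_cosn {n : ℕ} (y : Fin n → ℝ) :
    ∫ τ, Real.cos (∑ d, τ d * y d) ∂(stdG n) = Real.exp (-(∑ d, y d ^ 2) / 2) := by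
  have hprob := pn_lat_stdG_prob n
  have e : ∀ τ : Fin n → ℝ, Real.cos (∑ d, τ d * y d) = (∏ d, Complex.exp (y d * τ d * Complex.I)).re := by
    intro τ
    rw [← Complex.exp_sum]
    have : ∑ d, (y d : ℂ) * τ d * Complex.I = ((∑ d, τ d * y d : ℝ) : ℂ) * Complex.I := by
      push_cast
      rw [Finset.sum_mul]
      exact Finset.sum_congr rfl fun d _ => by ring
    rw [this, Complex.exp_ofReal_mul_I_re]
  have hint : Integrable (fun τ : Fin n → ℝ => ∏ d, Complex.exp (y d * τ d * Complex.I)) (stdG n) := by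
    have hc : Continuous fun τ : Fin n → ℝ => ∏ d, Complex.exp (y d * τ d * Complex.I) := by fun_prop
    refine Integrable.mono' (integrable_const (1 : ℝ)) hc.aestronglyMeasurable (Filter.Eventually.of_forall fun τ => ?_)
    rw [norm_prod]
    refine le_of_eq (Finset.prod_eq_one fun d _ => ?_)
    have : (y d : ℂ) * τ d * Complex.I = ((y d * τ d : ℝ) : ℂ) * Complex.I := by push_cast; ring
    rw [this, Complex.norm_exp_ofReal_mul_I]
  simp only [e]
  have h1 := integral_re hint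
  simp only [RCLike.re_to_complex] at h1
  rw [h1]
  unfold stdG
  rw [integral_fintype_prod_eq_prod (𝕜 := ℂ) (fun d (x : ℝ) => Complex.exp (y d * x * Complex.I))]
  simp only [pn_lat_gauss_cexp]
  rw [← Complex.ofReal_prod, Complex.ofReal_re, ← Real.exp_sum]
  congr 1
  rw [neg_div, Finset.sum_div, ← Finset.sum_neg_distrib]

theorem pn_lat_pair_sum {n : ℕ} (R : Fin n → G.V → ℝ) (τ : Fin n → ℝ) (φ : G.V → ℝ) :
    HLaw.pair (∑ d, τ d • R d) φ = ∑ d, τ d * HLaw.pair (R d) φ := by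
  unfold HLaw.pair
  simp only [Finset.sum_apply, Pi.smul_apply, smul_eq_mul, Finset.sum_mul, Finset.mul_sum]
  rw [Finset.sum_comm]
  exact Finset.sum_congr rfl fun d _ => Finset.sum_congr rfl fun x _ => by ring

/-- `e^{-|y|²/2} = ∫ cos(τ·y) γ(dτ)` (characteristic function of `gaussianReal 0 1`, product over `d`, real part), then `tsum`/integral exchange (dominated by `W`). -/
theorem pn_rows_fourier {b : ℝ} (hG : Gd H b) (P : Set G.V) (u : G.V → ℤ) {n : ℕ} (R : Fin n → G.V → ℝ) :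
    cE H b P (fun φ => Real.exp (-(∑ d, HLaw.pair (R d) φ ^ 2) / 2)) u
      = ∫ τ, cE H b P (fun φ => Real.cos (HLaw.pair (∑ d, τ d • R d) φ)) u ∂(stdG n) := by
  have hprob := pn_lat_stdG_prob n
  unfold cE
  rw [integral_div]
  congr 1
  simp only [pn_ZC_eq]
  have hsum : Summable fun h : ↥(H.Λ ⊓ HLaw.pinned P) => hW H b ((h : G.V → ℤ) + C3.resZ P u) := by
    have h0 := pn_summable (H.addPin P) (pn_gd_addPin H hG P) (C3.resZ P u) 0
    refine h0.congr fun h => ?_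
    have : lin (0 : G.V → ℝ) ((h : G.V → ℤ) + C3.resZ P u) = 0 := by
      unfold lin HLaw.pair
      simp
    rw [this, Real.exp_zero, one_mul]
    rfl
  have hpos : ∀ h : G.V → ℤ, 0 ≤ hW H b h := fun h => (pn_hW_pos H hG.b_pos h).le
  have hint : ∀ h : ↥(H.Λ ⊓ HLaw.pinned P), Integrable (fun τ : Fin n → ℝ =>
      Real.cos (HLaw.pair (∑ d, τ d • R d) (C3.phys ((h : G.V → ℤ) + C3.resZ P u))) * hW H b ((h : G.V → ℤ) + C3.resZ P u)) (stdG n) := by
    intro h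
    refine Integrable.mul_const ?_ _
    simp only [pn_lat_pair_sum]
    have hc : Continuous fun τ : Fin n → ℝ => Real.cos (∑ d, τ d * HLaw.pair (R d) (C3.phys ((h : G.V → ℤ) + C3.resZ P u))) := by fun_prop
    refine Integrable.mono' (integrable_const (1 : ℝ)) hc.aestronglyMeasurable (Filter.Eventually.of_forall fun τ => ?_)
    rw [Real.norm_eq_abs]
    exact Real.abs_cos_le_one _
  rw [← integral_tsum_of_summable_integral_norm hint]
  · refine tsum_congr fun h => ?_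
    rw [integral_mul_const]
    simp only [pn_lat_pair_sum]
    rw [pn_lat_gauss_cosn]
  · refine Summable.of_nonneg_of_le (fun h => integral_nonneg fun τ => norm_nonneg _) (fun h => ?_) hsum
    have : ∫ τ, ‖Real.cos (HLaw.pair (∑ d, τ d • R d) (C3.phys ((h : G.V → ℤ) + C3.resZ P u))) * hW H b ((h : G.V → ℤ) + C3.resZ P u)‖ ∂(stdG n)
        ≤ ∫ _τ, hW H b ((h : G.V → ℤ) + C3.resZ P u) ∂(stdG n) := by
      refine integral_mono (hint h).norm (integrable_const _) fun τ => ?_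
      simp only
      rw [norm_mul, Real.norm_eq_abs, Real.norm_eq_abs, abs_of_nonneg (hpos _)]
      exact mul_le_of_le_one_left (hpos _) (Real.abs_cos_le_one _)
    simpa using this

/-! ## 6. Change of measure by a tilt -/

theorem pn_hLap_zero {b : ℝ} (hG : Gd H b) : hLap H b 0 = 0 := by
  have h := pn_exp_hLap H hG 0
  simp only [pn_lin_zero_left, Real.exp_zero, one_mul] at h
  rw [div_self (pn_ZW_pos H hG).ne'] at h
  have := congrArg Real.log h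
  rwa [Real.log_exp, Real.log_one] at this

/-- **L-PN-L15** (~150 l. for the two; `pn_cs_event`, `pn_latM_tilt`, `pn_mgf_latM`). -/
theorem pn_tilt_event {b : ℝ} (hG : Gd H b) (fL : G.V → ℝ) (E : Set (G.V → ℤ)) :
    (latM H b fL).real E ≤ Real.exp (hLap H b ((2 : ℝ) • fL) / 2 - hLap H b fL) * Real.sqrt ((latM H b 0).real E) := by
  have := pn_latM_prob H hG 0
  have hsq : ∀ h, Real.exp (lin fL h - hLap H b fL) ^ 2 = Real.exp (-(2 * hLap H b fL)) * Real.exp (lin ((2 : ℝ) • fL) h) := by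
    intro h
    rw [← Real.exp_nat_mul, ← Real.exp_add, pn_lin_smul_left]
    congr 1
    push_cast
    ring
  have hint : Integrable (fun h => Real.exp (lin fL h - hLap H b fL) ^ 2) (latM H b 0) := by
    simp only [hsq]
    exact (pn_integrable H hG 0 ((2 : ℝ) • fL) 1 _ fun h => by rw [abs_of_pos (Real.exp_pos _), one_mul]).const_mul _
  have hval : ∫ h, Real.exp (lin fL h - hLap H b fL) ^ 2 ∂(latM H b 0)
      ≤ Real.exp (hLap H b ((2 : ℝ) • fL) / 2 - hLap H b fL) ^ 2 := by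
    simp only [hsq]
    rw [integral_const_mul, pn_mgf_latM H hG, zero_add, pn_hLap_zero H hG, sub_zero, ← Real.exp_add, ← Real.exp_nat_mul]
    apply le_of_eq
    congr 1
    push_cast
    ring
  have h := pn_cs_event (latM H b 0) (fun h => Real.exp (lin fL h - hLap H b fL)) (fun _ => (Real.exp_pos _).le)
    (Measurable.of_discrete) hint _ hval (Real.exp_pos _).le E (MeasurableSet.of_discrete)
  rwa [← pn_latM_tilt H hG fL] at h

theorem pn_untilt_event {b : ℝ} (hG : Gd H b) (fL : G.V → ℝ) (E : Set (G.V → ℤ)) :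
    (latM H b 0).real E ≤ Real.exp (hLap H b fL) * Real.sqrt ((latM H b fL).real E) := by
  have := pn_latM_prob H hG fL
  have hsq : ∀ h, Real.exp (hLap H b fL - lin fL h) ^ 2 = Real.exp (2 * hLap H b fL) * Real.exp (lin ((-2 : ℝ) • fL) h) := by
    intro h
    rw [← Real.exp_nat_mul, ← Real.exp_add, pn_lin_smul_left]
    congr 1
    push_cast
    ring
  have hint : Integrable (fun h => Real.exp (hLap H b fL - lin fL h) ^ 2) (latM H b fL) := by
    simp only [hsq]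
    exact (pn_integrable H hG fL ((-2 : ℝ) • fL) 1 _ fun h => by rw [abs_of_pos (Real.exp_pos _), one_mul]).const_mul _
  have hval : ∫ h, Real.exp (hLap H b fL - lin fL h) ^ 2 ∂(latM H b fL) ≤ Real.exp (hLap H b fL) ^ 2 := by
    simp only [hsq]
    have e : fL + (-2 : ℝ) • fL = -fL := by
      funext v
      simp only [Pi.add_apply, Pi.smul_apply, Pi.neg_apply, smul_eq_mul]
      ring
    rw [integral_const_mul, pn_mgf_latM H hG, e, pn_hLap_neg H hG, sub_self, Real.exp_zero, mul_one, ← Real.exp_nat_mul]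
    apply le_of_eq
    congr 1
  have h := pn_cs_event (latM H b fL) (fun h => Real.exp (hLap H b fL - lin fL h)) (fun _ => (Real.exp_pos _).le)
    (Measurable.of_discrete) hint _ hval (Real.exp_pos _).le E (MeasurableSet.of_discrete)
  have hback : (latM H b fL).withDensity (fun h => ENNReal.ofReal (Real.exp (hLap H b fL - lin fL h))) = latM H b 0 := by
    conv_lhs => rw [pn_latM_tilt H hG fL]
    rw [← withDensity_mul _ Measurable.of_discrete Measurable.of_discrete]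
    have : ((fun h => ENNReal.ofReal (Real.exp (lin fL h - hLap H b fL))) * fun h => ENNReal.ofReal (Real.exp (hLap H b fL - lin fL h)))
        = fun _ : G.V → ℤ => (1 : ENNReal) := by
      funext h
      rw [Pi.mul_apply, ← ENNReal.ofReal_mul (Real.exp_pos _).le, ← Real.exp_add]
      simp
    rw [this]
    exact withDensity_one
  rwa [hback] at h

end

end Claimed.Agent.R285.Pins.T32
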