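import Claimed.Agent.R285.Pins.FpGeo
import Claimed.Agent.R285.Free.Lap

/-!
# ROW 285, PINS / FREE POLYGONS (post BP-PINS-FP; [C] 30-pins l.150-170, [B] an:forms last part).   Author: helper279.   FILE 4: THE LIMITS.   No sorry.

EXPORTS (interface agreed with helper217, T31, msg 21535), for EVERY pin-free geometry `Γ` (`Γ.T ∩ Γ.pin = ∅`; any cells, any cuts; neither `NoDiag` nor connectedness is used), every admissible grid sequence (any position),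
no rows, and every AMBIENT shift `u` with `C2.Reg ν (fun k => Pot.roRc (g k)) u`:
* `pn_fp_var`  : `V0 (gradT Γ noRow (g k) (b k) (u k)) - a * dirT Γ (g k) (u k) → 0`            (hypothesis `C2.ScaleCoef b ν a`)
* `pn_fp_lap`  : `log E0 exp (gradT …) - a / 2 * dirT Γ (g k) (u k) → 0`                          (hypothesis `C2.ScaleCoef b ν a`)
* `pn_fp_phase`: `C3.mixed_phase` for `noRow`, `U = Γ.T`                                            (hypothesis `C3.FreeIn a b ν`, temperatures positive)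
PROOFS.  Upper bound: cut `Γ` into its cells (`pn_fp_geo_upper`: `Ref` + Hölder against the seams), `C2.free_laplace` in the cells.   Lower bound: `Γ` + the complementary cells are a cut of the enclosing rectangle
(`pn_fp_geo_lower`), `C2.free_var` in the rectangle (saturation), upper bound in the complementary cells; subtract.   `V0/2 ≤ log E0 exp`.   Phase: `Γ → rect` is a `Ref`, characteristic coefficients increase with precision.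
-/

set_option autoImplicit false

namespace Claimed.Agent.R285.Pins

/-! ## 0. (former `Pins/FpTr.lean`) `C2.free_var`, `C2.free_laplace`, `C2.reg_bdd` WITHOUT the condition on the position of the rectangles (`Adm` asks `|o| ≤ K n`; grids of `Admissible` sequences sit anywhere) -/

section FpTr

open Filter Topology C2 Free

noncomputable section

/-- the rectangle moved to the origin -/
def fpR0 (R : Rc) : Rc := ⟨(0, 0), R.p, R.q⟩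

/-- the shift moved with it -/
def fpU0 (R : Rc) (u : ℤ × ℤ → ℝ) : ℤ × ℤ → ℝ := fun v => u (v + R.o)

theorem pn_fp_snd_add (e : Bond) (o : ℤ × ℤ) : Bond.snd (e.1 + o, e.2) = e.snd + o := by
  obtain ⟨⟨x, y⟩, d⟩ := e
  obtain ⟨o1, o2⟩ := o
  cases d <;> simp [Bond.snd] <;> ring

theorem pn_fp_tr_set (R : Rc) (v : ℤ × ℤ) : v ∈ (fpR0 R).set ↔ v + R.o ∈ R.set := by
  rw [fr_mem_set, fr_mem_set]
  simp only [fpR0, Prod.fst_add, Prod.snd_add]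
  constructor <;> intro h <;> refine ⟨⟨?_, ?_⟩, ?_, ?_⟩ <;> omega

theorem pn_fp_tr_bd (R : Rc) (e : Bond) : e ∈ (fpR0 R).bd ↔ (e.1 + R.o, e.2) ∈ R.bd := by
  rw [mem_bd, mem_bd, pn_fp_snd_add, pn_fp_tr_set, pn_fp_tr_set]

theorem pn_fp_tr_gd (R : Rc) (u : ℤ × ℤ → ℝ) (e : Bond) : gd (fpU0 R u) e = gd u (e.1 + R.o, e.2) := by
  unfold gd fpU0
  rw [pn_fp_snd_add]

theorem pn_fp_tr_sum (R : Rc) (f : Bond → ℝ) : ∑ e ∈ (fpR0 R).bd, f (e.1 + R.o, e.2) = ∑ e ∈ R.bd, f e := by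
  refine Finset.sum_nbij' (fun e => (e.1 + R.o, e.2)) (fun e => (e.1 - R.o, e.2)) ?_ ?_ ?_ ?_ ?_
  · intro e he
    exact (pn_fp_tr_bd R e).1 he
  · intro e he
    rw [pn_fp_tr_bd]
    simpa using he
  · intro e _
    simp
  · intro e _
    simp
  · intro e _
    rfl

theorem pn_fp_tr_dir (R : Rc) (u : ℤ × ℤ → ℝ) : (fpR0 R).dir (fpU0 R u) = R.dir u := by
  unfold Rc.dir Rc.cost
  rw [← pn_fp_tr_sum R fun e => gd u e ^ 2]
  exact Finset.sum_congr rfl fun e _ => by rw [pn_fp_tr_gd]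

theorem pn_fp_tr_E0 (R : Rc) (b : ℝ) (u : ℤ × ℤ → ℝ) (F : ℝ → ℝ) :
    ((fpR0 R).sys b).E0 (fun z => F ((fpR0 R).flowX b (gd (fpU0 R u)) z)) = (R.sys b).E0 fun z => F (R.flowX b (gd u) z) := by
  have h := fr_translate (fpR0 R) R.o b (gd (fpU0 R u)) F
  have e1 : (fun e : Bond => gd (fpU0 R u) (e.1 - R.o, e.2)) = gd u := by
    funext e
    rw [pn_fp_tr_gd]
    simp
  have e2 : Rc.mk ((fpR0 R).o + R.o) (fpR0 R).p (fpR0 R).q = R := by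
    obtain ⟨o, p, q⟩ := R
    simp [fpR0]
  rw [e1, e2] at h
  exact h.symm

theorem pn_fp_tr_var (R : Rc) (b : ℝ) (u : ℤ × ℤ → ℝ) : (fpR0 R).var b (gd (fpU0 R u)) = R.var b (gd u) := by
  unfold Rc.var
  rw [rd_V0_eq, rd_V0_eq]
  exact pn_fp_tr_E0 R b u fun x => x ^ 2

theorem pn_fp_tr_lmgf (R : Rc) (b : ℝ) (u : ℤ × ℤ → ℝ) : (fpR0 R).lmgf b (gd (fpU0 R u)) = R.lmgf b (gd u) := by
  unfold Rc.lmgf
  rw [pn_fp_tr_E0 R b u Real.exp]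

theorem pn_fp_tr_c2bd {M : ℝ} {n : ℕ} {R : Rc} {u : ℤ × ℤ → ℝ} (h : C2bd M n R u) : C2bd M n (fpR0 R) (fpU0 R u) := by
  refine ⟨fun e he => ?_, fun e he d hd he' => ?_⟩
  · rw [pn_fp_tr_gd]
    exact h.1 _ ((pn_fp_tr_bd R e).1 he)
  · rw [pn_fp_tr_gd, pn_fp_tr_gd]
    have h1 := (pn_fp_tr_bd R _).1 he'
    have e1 : e.1 + d + R.o = e.1 + R.o + d := by abel
    simp only at h1 ⊢
    rw [e1] at h1 ⊢
    exact h.2 (e.1 + R.o, e.2) ((pn_fp_tr_bd R e).1 he) d hd h1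

theorem pn_fp_tr_adm {n : ℕ → ℕ} {R : ℕ → Rc} (K : ℝ) (hR : ∀ k, ((R k).p : ℝ) ≤ K * n k ∧ ((R k).q : ℝ) ≤ K * n k) :
    Adm n fun k => fpR0 (R k) := by
  refine ⟨K, fun k => ?_⟩
  have h0 : (0 : ℝ) ≤ K * n k := (Nat.cast_nonneg _).trans (hR k).1
  refine ⟨?_, ?_, (hR k).1, (hR k).2⟩ <;> simpa [fpR0] using h0

theorem pn_fp_tr_reg {n : ℕ → ℕ} {R : ℕ → Rc} {u : ℕ → ℤ × ℤ → ℝ} (h : Reg n R u) :
    Reg n (fun k => fpR0 (R k)) fun k => fpU0 (R k) (u k) := by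
  intro ε hε
  obtain ⟨M, γ, hγ, h1⟩ := h ε hε
  refine ⟨M, fun k => fpU0 (R k) (γ k), fun k => pn_fp_tr_c2bd (hγ k), ?_⟩
  filter_upwards [h1] with k a1
  have : (fun v => fpU0 (R k) (u k) v - fpU0 (R k) (γ k) v) = fpU0 (R k) fun v => u k v - γ k v := rfl
  rw [this, pn_fp_tr_dir]
  exact a1

variable {b : ℕ → ℝ} {n : ℕ → ℕ} {a : ℝ}

/-- `C2.free_var`, any position -/
theorem pn_fp_free_var (hS : ScaleCoef b n a) {R : ℕ → Rc} (K : ℝ)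
    (hR : ∀ k, ((R k).p : ℝ) ≤ K * n k ∧ ((R k).q : ℝ) ≤ K * n k) {u : ℕ → ℤ × ℤ → ℝ} (hu : Reg n R u) :
    Tendsto (fun k => (R k).var (b k) (gd (u k)) - a * (R k).dir (u k)) atTop (𝓝 0) := by
  have h := fr_free_var hS (pn_fp_tr_adm K hR) (pn_fp_tr_reg hu)
  refine h.congr fun k => ?_
  rw [pn_fp_tr_var, pn_fp_tr_dir]

/-- `C2.free_laplace`, any position -/
theorem pn_fp_free_lap (hS : ScaleCoef b n a) {R : ℕ → Rc} (K : ℝ)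
    (hR : ∀ k, ((R k).p : ℝ) ≤ K * n k ∧ ((R k).q : ℝ) ≤ K * n k) {u : ℕ → ℤ × ℤ → ℝ} (hu : Reg n R u) :
    Tendsto (fun k => (R k).lmgf (b k) (gd (u k)) - a / 2 * (R k).dir (u k)) atTop (𝓝 0) := by
  have h := fr_free_laplace hS (pn_fp_tr_adm K hR) (pn_fp_tr_reg hu)
  refine h.congr fun k => ?_
  rw [pn_fp_tr_lmgf, pn_fp_tr_dir]

/-- `C2.reg_bdd`, any position -/
theorem pn_fp_reg_bdd (hn : Tendsto n atTop atTop) {R : ℕ → Rc} (K : ℝ)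
    (hR : ∀ k, ((R k).p : ℝ) ≤ K * n k ∧ ((R k).q : ℝ) ≤ K * n k) {u : ℕ → ℤ × ℤ → ℝ} (hu : Reg n R u) :
    ∃ C : ℝ, ∀ᶠ k in atTop, (R k).dir (u k) ≤ C := by
  obtain ⟨C, hC⟩ := fr_reg_bdd hn (pn_fp_tr_adm K hR) (pn_fp_tr_reg hu)
  refine ⟨C, hC.mono fun k hk => ?_⟩
  rw [pn_fp_tr_dir] at hk
  exact hk

theorem pn_fp_tr_eqns_cite : True := by
  have := @fpR0.eq_1; have := @fpU0.eq_1
  trivial

end

end FpTr

open Filter Topology C2 Free Pot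
open scoped Classical

noncomputable section

variable {m₁ m₂ : ℕ} {a : ℝ} {b : ℕ → ℝ} {ν : ℕ → ℕ}

/-! ## 1. Sizes, seams -/

theorem pn_fp_adm_rc {K : ℕ} {g : ℕ → DGrid m₁ m₂} (hg : Admissible K g ν) (k : ℕ) :
    ((roRc (g k)).p : ℝ) ≤ (((m₁ : ℝ) + m₂) * K) * ν k ∧ ((roRc (g k)).q : ℝ) ≤ (((m₁ : ℝ) + m₂) * K) * ν k := by
  obtain ⟨h1, h2⟩ := pn_fp_rc_size (g k) (hg.2 k).2
  push_cast at h1 h2
  have h0 : (0 : ℝ) ≤ (K : ℝ) * ν k := by positivity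
  constructor
  · nlinarith [(Nat.cast_nonneg m₂ : (0 : ℝ) ≤ m₂)]
  · nlinarith [(Nat.cast_nonneg m₁ : (0 : ℝ) ≤ m₁)]

theorem pn_fp_adm_cell {K : ℕ} {g : ℕ → DGrid m₁ m₂} (hg : Admissible K g ν) (κ : Fin m₁ × Fin m₂) (k : ℕ) :
    ((fpCell (g k) κ).p : ℝ) ≤ (K : ℝ) * ν k ∧ ((fpCell (g k) κ).q : ℝ) ≤ (K : ℝ) * ν k := by
  have := pn_fp_cell_size (g k) (hg.2 k).2 κ
  push_cast at this
  exact this

theorem pn_fp_reg_cell {g : ℕ → DGrid m₁ m₂} {u : ℕ → ℤ × ℤ → ℝ} (hu : Reg ν (fun k => roRc (g k)) u) (κ : Fin m₁ × Fin m₂) :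
    Reg ν (fun k => fpCell (g k) κ) u :=
  fr_reg_restrict (fun k => by rw [pn_fp_cell_set]; exact pn_fp_cell_sub_rc (g k) κ) hu

/-- the cost of a regular shift on the seams tends to zero -/
theorem pn_fp_seam_small {K : ℕ} {g : ℕ → DGrid m₁ m₂} (hg : Admissible K g ν) {u : ℕ → ℤ × ℤ → ℝ}
    (hu : Reg ν (fun k => roRc (g k)) u) (ε : ℝ) (hε : 0 < ε) :
    ∀ᶠ k in atTop, ∑ e ∈ fpSeamB (g k), gd (u k) e ^ 2 ≤ ε := by
  obtain ⟨M, γ, hγ, h1⟩ := hu (ε / 4) (by positivity)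
  obtain ⟨c, hc⟩ : ∃ c : ℝ, c = (((m₁ : ℝ) + 1) + ((m₂ : ℝ) + 1)) * (((m₁ : ℝ) + m₂) * K) := ⟨_, rfl⟩
  have h2 : Tendsto (fun k => 2 * (c * M ^ 2) / (ν k : ℝ)) atTop (𝓝 0) :=
    (tendsto_const_div_atTop_nhds_zero_nat _).comp hg.1
  filter_upwards [h1, h2.eventually (gt_mem_nhds (by positivity : 0 < ε / 2)), hg.1.eventually_ge_atTop 1] with k a1 a2 a3
  have hν : (0 : ℝ) < ν k := by exact_mod_cast a3
  have s1 : ∑ e ∈ fpSeamB (g k), gd (u k) e ^ 2 ≤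
      2 * ∑ e ∈ fpSeamB (g k), gd (γ k) e ^ 2 + 2 * ∑ e ∈ fpSeamB (g k), gd (fun v => u k v - γ k v) e ^ 2 := by
    rw [Finset.mul_sum, Finset.mul_sum, ← Finset.sum_add_distrib]
    refine Finset.sum_le_sum fun e _ => ?_
    rw [frp_gd_sub]
    nlinarith [sq_nonneg (gd (u k) e - 2 * gd (γ k) e)]
  have s2 : ∑ e ∈ fpSeamB (g k), gd (fun v => u k v - γ k v) e ^ 2 ≤ (roRc (g k)).dir fun v => u k v - γ k v :=
    Finset.sum_le_sum_of_subset_of_nonneg (Finset.filter_subset _ _) fun _ _ _ => sq_nonneg _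
  have s3 : ∑ e ∈ fpSeamB (g k), gd (γ k) e ^ 2 ≤ ((fpSeamB (g k)).card : ℝ) * (M / ν k) ^ 2 := by
    calc ∑ e ∈ fpSeamB (g k), gd (γ k) e ^ 2 ≤ ∑ _e ∈ fpSeamB (g k), (M / ν k) ^ 2 :=
          Finset.sum_le_sum fun e he => by
            rw [← sq_abs (gd (γ k) e)]
            exact pow_le_pow_left₀ (abs_nonneg _) ((hγ k).1 e (Finset.mem_filter.1 he).1) 2
      _ = _ := by rw [Finset.sum_const, nsmul_eq_mul]
  have s4 : ((fpSeamB (g k)).card : ℝ) ≤ c * ν k := by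
    refine (pn_fp_seam_card (g k)).trans ?_
    obtain ⟨p1, p2⟩ := pn_fp_adm_rc hg k
    rw [hc]
    have q1 : ((m₁ : ℝ) + 1) * (roRc (g k)).q ≤ ((m₁ : ℝ) + 1) * ((((m₁ : ℝ) + m₂) * K) * ν k) :=
      mul_le_mul_of_nonneg_left p2 (by positivity)
    have q2 : ((m₂ : ℝ) + 1) * (roRc (g k)).p ≤ ((m₂ : ℝ) + 1) * ((((m₁ : ℝ) + m₂) * K) * ν k) :=
      mul_le_mul_of_nonneg_left p1 (by positivity)
    linarith
  have s5 : ((fpSeamB (g k)).card : ℝ) * (M / ν k) ^ 2 ≤ c * M ^ 2 / ν k := by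
    refine (mul_le_mul_of_nonneg_right s4 (sq_nonneg _)).trans (le_of_eq ?_)
    field_simp
  have s6 : 2 * (c * M ^ 2) / (ν k : ℝ) = 2 * (c * M ^ 2 / ν k) := by ring
  rw [s6] at a2
  linarith

/-! ## 2. The upper bound -/

theorem pn_fp_exists_seam (β q ε : ℝ) (hε : 0 < ε) : ∃ s : ℝ, 0 < s ∧
    q⁻¹ * (β * (Real.cosh (Real.sqrt (4 * Real.pi ^ 2 * (q ^ 2 * s))) - 1)) ≤ ε := by
  have hc : Continuous fun s : ℝ => q⁻¹ * (β * (Real.cosh (Real.sqrt (4 * Real.pi ^ 2 * (q ^ 2 * s))) - 1)) := by fun_prop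
  have ht : Tendsto (fun s : ℝ => q⁻¹ * (β * (Real.cosh (Real.sqrt (4 * Real.pi ^ 2 * (q ^ 2 * s))) - 1))) (𝓝 0) (𝓝 0) := by
    have := hc.tendsto 0
    simpa using this
  have h1 : ∀ᶠ s in 𝓝[>] (0:ℝ), q⁻¹ * (β * (Real.cosh (Real.sqrt (4 * Real.pi ^ 2 * (q ^ 2 * s))) - 1)) < ε :=
    eventually_nhdsWithin_of_eventually_nhds (ht.eventually (gt_mem_nhds hε))
  obtain ⟨s, h2, h3⟩ := (h1.and self_mem_nhdsWithin).exists
  exact ⟨s, h3, h2.le⟩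

theorem pn_fp_lap_upper (hS : ScaleCoef b ν a) (Γ : CGeom m₁ m₂) (hpin : Γ.T ∩ Γ.pin = ∅) {K : ℕ} {g : ℕ → DGrid m₁ m₂}
    (hg : Admissible K g ν) {u : ℕ → ℤ × ℤ → ℝ} (hu : Reg ν (fun k => roRc (g k)) u) (ε : ℝ) (hε : 0 < ε) :
    ∀ᶠ k in atTop, Real.log (((C3.lawR Γ (g k) C3.noRow).sys (b k)).E0 fun z =>
        Real.exp (C3.gradT Γ C3.noRow (g k) (b k) (u k) z)) ≤ a / 2 * C3.dirT Γ (g k) (u k) + ε := by
  have ha : 0 ≤ a := fr_scaleCoef_nonneg hS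
  obtain ⟨β₀, β₁, hβ₀, hβ⟩ := hS.1
  obtain ⟨C, hC⟩ := pn_fp_reg_bdd hg.1 _ (pn_fp_adm_rc hg) hu
  obtain ⟨C', hC'⟩ : ∃ C' : ℝ, C' = |C| + 1 := ⟨_, rfl⟩
  have hC'0 : 0 < C' := by rw [hC']; positivity
  obtain ⟨δ, hδ⟩ : ∃ δ : ℝ, δ = ε / (3 * (a / 2 * C' + 1)) := ⟨_, rfl⟩
  have hδ0 : 0 < δ := by rw [hδ]; positivity
  have hδ1 : a / 2 * δ * C' ≤ ε / 3 := by
    rw [hδ]
    rw [show a / 2 * (ε / (3 * (a / 2 * C' + 1))) * C' = ε / 3 * ((a / 2 * C') / (a / 2 * C' + 1)) by field_simp]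
    have : (a / 2 * C') / (a / 2 * C' + 1) ≤ 1 := by
      rw [div_le_one (by positivity)]
      linarith
    nlinarith
  obtain ⟨p, hp⟩ : ∃ p : ℝ, p = 1 + δ := ⟨_, rfl⟩
  have hp1 : 1 < p := by rw [hp]; linarith
  have hp0 : 0 < p := by linarith
  have hpq := Real.HolderConjugate.conjExponent hp1
  obtain ⟨q, hq⟩ : ∃ q : ℝ, q = Real.conjExponent p := ⟨_, rfl⟩
  rw [← hq] at hpq
  obtain ⟨η, hη⟩ : ∃ η : ℝ, η = ε / (3 * ((Γ.T.card : ℝ) + 1)) := ⟨_, rfl⟩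
  have hη0 : 0 < η := by rw [hη]; positivity
  have hη1 : (Γ.T.card : ℝ) * η ≤ ε / 3 := by
    rw [hη]
    rw [show (Γ.T.card : ℝ) * (ε / (3 * ((Γ.T.card : ℝ) + 1))) = ε / 3 * ((Γ.T.card : ℝ) / ((Γ.T.card : ℝ) + 1)) by field_simp]
    have : (Γ.T.card : ℝ) / ((Γ.T.card : ℝ) + 1) ≤ 1 := by
      rw [div_le_one (by positivity)]
      linarith
    nlinarith
  obtain ⟨s₀, hs₀, hs₁⟩ := pn_fp_exists_seam β₁ q (ε / 3) (by positivity)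
  have hcell : ∀ κ : Fin m₁ × Fin m₂, ∀ᶠ k in atTop,
      (fpCell (g k) κ).lmgf (b k) (gd fun v => p * u k v) - a / 2 * (fpCell (g k) κ).dir (fun v => p * u k v) < η := by
    intro κ
    have h1 := pn_fp_free_lap hS (K : ℝ) (pn_fp_adm_cell hg κ)
      (fr_reg_smul (pn_fp_reg_cell hu κ) (fun _ => p) |p| fun _ => le_rfl)
    exact h1.eventually (gt_mem_nhds hη0)
  filter_upwards [hC, Filter.eventually_all.2 hcell, pn_fp_seam_small hg hu s₀ hs₀] with k k1 k2 k3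
  have hb : 0 < b k := lt_of_lt_of_le hβ₀ (hβ k).1
  have h := pn_fp_geo_upper Γ hpin (g k) (b k) hb (u k) p q hpq
  have hq0 : 0 < q := hpq.symm.pos
  -- the seam term
  have t2 : q⁻¹ * (b k * (Real.cosh (Real.sqrt (4 * Real.pi ^ 2 * (q ^ 2 * ∑ e ∈ fpSeamB (g k), gd (u k) e ^ 2))) - 1)) ≤ ε / 3 := by
    refine le_trans ?_ hs₁
    refine mul_le_mul_of_nonneg_left ?_ (inv_nonneg.2 hq0.le)
    have c1 : Real.cosh (Real.sqrt (4 * Real.pi ^ 2 * (q ^ 2 * ∑ e ∈ fpSeamB (g k), gd (u k) e ^ 2))) - 1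
        ≤ Real.cosh (Real.sqrt (4 * Real.pi ^ 2 * (q ^ 2 * s₀))) - 1 :=
      sub_le_sub_right (pn_fp_cosh_mono (mul_le_mul_of_nonneg_left (mul_le_mul_of_nonneg_left k3 (sq_nonneg q)) (by positivity))) _
    have c2 : 0 ≤ Real.cosh (Real.sqrt (4 * Real.pi ^ 2 * (q ^ 2 * ∑ e ∈ fpSeamB (g k), gd (u k) e ^ 2))) - 1 :=
      sub_nonneg.2 (Real.one_le_cosh _)
    exact mul_le_mul (hβ k).2 c1 c2 (hb.le.trans (hβ k).2)
  -- the cells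
  have t1 : ∑ κ ∈ Γ.T, (fpCell (g k) κ).lmgf (b k) (fun e => p * gd (u k) e)
      ≤ a / 2 * p ^ 2 * ∑ κ ∈ Γ.T, (fpCell (g k) κ).dir (u k) + (Γ.T.card : ℝ) * η := by
    have : ∀ κ ∈ Γ.T, (fpCell (g k) κ).lmgf (b k) (fun e => p * gd (u k) e) ≤ a / 2 * p ^ 2 * (fpCell (g k) κ).dir (u k) + η := by
      intro κ _
      have h3 := k2 κ
      rw [frp_dir_smul] at h3
      have e1 : (gd fun v => p * u k v) = fun e => p * gd (u k) e := funext fun e => frp_gd_smul p (u k) e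
      rw [e1] at h3
      linarith
    refine (Finset.sum_le_sum this).trans (le_of_eq ?_)
    rw [Finset.sum_add_distrib, Finset.mul_sum, Finset.sum_const, nsmul_eq_mul]
  have d1 := pn_fp_dir_cells Γ (g k) (u k)
  have d2 := pn_fp_dirT_le Γ (g k) (u k)
  have d0 : 0 ≤ ∑ κ ∈ Γ.T, (fpCell (g k) κ).dir (u k) := Finset.sum_nonneg fun _ _ => pn_fp_dir_nonneg _ _
  have d3 : ∑ κ ∈ Γ.T, (fpCell (g k) κ).dir (u k) ≤ C' := by
    rw [hC']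
    have := le_abs_self C
    linarith
  have t3 : p⁻¹ * ∑ κ ∈ Γ.T, (fpCell (g k) κ).lmgf (b k) (fun e => p * gd (u k) e)
      ≤ a / 2 * p * ∑ κ ∈ Γ.T, (fpCell (g k) κ).dir (u k) + ε / 3 := by
    have h4 := mul_le_mul_of_nonneg_left t1 (inv_nonneg.2 hp0.le)
    have h5 : p⁻¹ * (a / 2 * p ^ 2 * ∑ κ ∈ Γ.T, (fpCell (g k) κ).dir (u k) + (Γ.T.card : ℝ) * η)
        = a / 2 * p * ∑ κ ∈ Γ.T, (fpCell (g k) κ).dir (u k) + p⁻¹ * ((Γ.T.card : ℝ) * η) := by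
      field_simp
    have h6 : p⁻¹ * ((Γ.T.card : ℝ) * η) ≤ (Γ.T.card : ℝ) * η := by
      have : p⁻¹ ≤ 1 := inv_le_one_of_one_le₀ hp1.le
      have h7 : 0 ≤ (Γ.T.card : ℝ) * η := by positivity
      nlinarith
    linarith
  have t4 : a / 2 * p * ∑ κ ∈ Γ.T, (fpCell (g k) κ).dir (u k) ≤ a / 2 * C3.dirT Γ (g k) (u k) + ε / 3 := by
    rw [hp]
    have h8 : a / 2 * δ * ∑ κ ∈ Γ.T, (fpCell (g k) κ).dir (u k) ≤ a / 2 * δ * C' :=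
      mul_le_mul_of_nonneg_left d3 (by positivity)
    have h9 : a / 2 * ∑ κ ∈ Γ.T, (fpCell (g k) κ).dir (u k) ≤ a / 2 * C3.dirT Γ (g k) (u k) :=
      mul_le_mul_of_nonneg_left d1 (by positivity)
    nlinarith
  linarith

/-! ## 3. The lower bound -/

theorem pn_fp_var_lower (hS : ScaleCoef b ν a) (Γ : CGeom m₁ m₂) (hpin : Γ.T ∩ Γ.pin = ∅) {K : ℕ} {g : ℕ → DGrid m₁ m₂}
    (hg : Admissible K g ν) {u : ℕ → ℤ × ℤ → ℝ} (hu : Reg ν (fun k => roRc (g k)) u) (ε : ℝ) (hε : 0 < ε) :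
    ∀ᶠ k in atTop, a * C3.dirT Γ (g k) (u k) - ε ≤
      ((C3.lawR Γ (g k) C3.noRow).sys (b k)).V0 (C3.gradT Γ C3.noRow (g k) (b k) (u k)) := by
  have ha : 0 ≤ a := fr_scaleCoef_nonneg hS
  obtain ⟨β₀, β₁, hβ₀, hβ⟩ := hS.1
  have hβ₁ : 0 < β₁ := lt_of_lt_of_le hβ₀ ((hβ 0).1.trans (hβ 0).2)
  obtain ⟨C, hC⟩ := pn_fp_reg_bdd hg.1 _ (pn_fp_adm_rc hg) hu
  obtain ⟨η, hη⟩ : ∃ η : ℝ, η = ε / (3 * ((Γ.Tᶜ.card : ℝ) + 1)) := ⟨_, rfl⟩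
  have hη0 : 0 < η := by rw [hη]; positivity
  have hη1 : (Γ.Tᶜ.card : ℝ) * η ≤ ε / 3 := by
    rw [hη]
    rw [show (Γ.Tᶜ.card : ℝ) * (ε / (3 * ((Γ.Tᶜ.card : ℝ) + 1))) = ε / 3 * ((Γ.Tᶜ.card : ℝ) / ((Γ.Tᶜ.card : ℝ) + 1)) by field_simp]
    have : (Γ.Tᶜ.card : ℝ) / ((Γ.Tᶜ.card : ℝ) + 1) ≤ 1 := by
      rw [div_le_one (by positivity)]
      linarith
    nlinarith
  obtain ⟨s₀, hs₀, hs₁⟩ := sat_exists_eta (4 * Real.pi ^ 2 * β₁ * C) (4 * Real.pi ^ 2 * β₁) (ε / 3) (by positivity)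
  have hcell : ∀ κ : Fin m₁ × Fin m₂, ∀ᶠ k in atTop,
      (fpCell (g k) κ).var (b k) (gd (u k)) - a * (fpCell (g k) κ).dir (u k) < η := fun κ =>
    (pn_fp_free_var hS (K : ℝ) (pn_fp_adm_cell hg κ) (pn_fp_reg_cell hu κ)).eventually (gt_mem_nhds hη0)
  have hrc : ∀ᶠ k in atTop, -(ε / 3) < (roRc (g k)).var (b k) (gd (u k)) - a * (roRc (g k)).dir (u k) :=
    (pn_fp_free_var hS _ (pn_fp_adm_rc hg) hu).eventually (lt_mem_nhds (by linarith))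
  filter_upwards [hC, Filter.eventually_all.2 hcell, hrc, pn_fp_seam_small hg hu s₀ hs₀] with k k1 k2 k3 k4
  have hb : 0 < b k := lt_of_lt_of_le hβ₀ (hβ k).1
  have h := pn_fp_geo_lower Γ hpin (g k) (b k) hb (u k)
  have hπ : 0 ≤ 4 * Real.pi ^ 2 := by positivity
  have v0 : 0 ≤ ((C3.lawR Γ (g k) C3.noRow).sys (b k)).V0 (C3.gradT Γ C3.noRow (g k) (b k) (u k)) :=
    rd_V0_nonneg (pn_fp_geo_ok Γ (g k) (b k) hb) _
  have v1 : ((C3.lawR Γ (g k) C3.noRow).sys (b k)).V0 (C3.gradT Γ C3.noRow (g k) (b k) (u k))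
      ≤ 4 * Real.pi ^ 2 * b k * C3.dirT Γ (g k) (u k) := by
    rw [pn_fp_dirT]
    exact pn_fp_ref_var (fpGGeo Γ hpin (g k) (b k) hb) (gd (u k))
  have v2 : ∑ κ ∈ Γ.Tᶜ, (fpCell (g k) κ).var (b k) (gd (u k)) ≤ 4 * Real.pi ^ 2 * b k * ∑ κ ∈ Γ.Tᶜ, (fpCell (g k) κ).dir (u k) := by
    rw [Finset.mul_sum]
    exact Finset.sum_le_sum fun κ _ => fr_var_ref _ _ hb _
  have v3 : 0 ≤ ∑ κ ∈ Γ.Tᶜ, (fpCell (g k) κ).var (b k) (gd (u k)) := Finset.sum_nonneg fun κ _ => fr_var_nonneg _ _ hb _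
  have d1 := pn_fp_dir_encl Γ (g k) (u k)
  have d0 : 0 ≤ (roRc (g k)).dir (u k) := pn_fp_dir_nonneg _ _
  have hA₀ : ((C3.lawR Γ (g k) C3.noRow).sys (b k)).V0 (C3.gradT Γ C3.noRow (g k) (b k) (u k))
      + ∑ κ ∈ Γ.Tᶜ, (fpCell (g k) κ).var (b k) (gd (u k)) ≤ 4 * Real.pi ^ 2 * β₁ * C := by
    have e1 : 4 * Real.pi ^ 2 * b k * (C3.dirT Γ (g k) (u k) + ∑ κ ∈ Γ.Tᶜ, (fpCell (g k) κ).dir (u k))
        ≤ 4 * Real.pi ^ 2 * b k * (roRc (g k)).dir (u k) := mul_le_mul_of_nonneg_left d1 (by positivity)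
    have e2 : 4 * Real.pi ^ 2 * b k * (roRc (g k)).dir (u k) ≤ 4 * Real.pi ^ 2 * β₁ * C :=
      mul_le_mul (mul_le_mul_of_nonneg_left (hβ k).2 hπ) k1 d0 (by positivity)
    linarith
  have s0 : 0 ≤ ∑ e ∈ fpSeamB (g k), gd (u k) e ^ 2 := Finset.sum_nonneg fun _ _ => sq_nonneg _
  have hE : 0 ≤ 4 * Real.pi ^ 2 * b k * ∑ e ∈ fpSeamB (g k), gd (u k) e ^ 2 := by positivity
  have h2 := sq_of_sqrt_le (add_nonneg v0 v3) hE hA₀ h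
  have hE1 : 4 * Real.pi ^ 2 * b k * ∑ e ∈ fpSeamB (g k), gd (u k) e ^ 2 ≤ 4 * Real.pi ^ 2 * β₁ * s₀ :=
    mul_le_mul (mul_le_mul_of_nonneg_left (hβ k).2 hπ) k4 s0 (by positivity)
  have hC0 : 0 ≤ 4 * Real.pi ^ 2 * β₁ * C := le_trans (add_nonneg v0 v3) hA₀
  have hE2 : Real.sqrt (4 * Real.pi ^ 2 * β₁ * C * (4 * Real.pi ^ 2 * b k * ∑ e ∈ fpSeamB (g k), gd (u k) e ^ 2))
      ≤ Real.sqrt (4 * Real.pi ^ 2 * β₁ * C * (4 * Real.pi ^ 2 * β₁ * s₀)) :=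
    Real.sqrt_le_sqrt (mul_le_mul_of_nonneg_left hE1 hC0)
  have c1 : ∑ κ ∈ Γ.Tᶜ, (fpCell (g k) κ).var (b k) (gd (u k)) ≤ a * ∑ κ ∈ Γ.Tᶜ, (fpCell (g k) κ).dir (u k) + (Γ.Tᶜ.card : ℝ) * η := by
    have : ∀ κ ∈ Γ.Tᶜ, (fpCell (g k) κ).var (b k) (gd (u k)) ≤ a * (fpCell (g k) κ).dir (u k) + η := by
      intro κ _
      have := k2 κ
      linarith
    refine (Finset.sum_le_sum this).trans (le_of_eq ?_)
    rw [Finset.sum_add_distrib, Finset.mul_sum, Finset.sum_const, nsmul_eq_mul]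
  have c2 : a * (C3.dirT Γ (g k) (u k) + ∑ κ ∈ Γ.Tᶜ, (fpCell (g k) κ).dir (u k)) ≤ a * (roRc (g k)).dir (u k) :=
    mul_le_mul_of_nonneg_left d1 ha
  linarith

/-! ## 4. The limits -/

/-- **FP, variances.** -/
theorem pn_fp_var (hS : ScaleCoef b ν a) (Γ : CGeom m₁ m₂) (hpin : Γ.T ∩ Γ.pin = ∅) (K : ℕ) (g : ℕ → DGrid m₁ m₂)
    (hg : Admissible K g ν) (u : ℕ → ℤ × ℤ → ℝ) (hu : Reg ν (fun k => roRc (g k)) u) :
    Tendsto (fun k => ((C3.lawR Γ (g k) C3.noRow).sys (b k)).V0 (C3.gradT Γ C3.noRow (g k) (b k) (u k))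
      - a * C3.dirT Γ (g k) (u k)) atTop (𝓝 0) := by
  obtain ⟨β₀, β₁, hβ₀, hβ⟩ := hS.1
  refine tendsto_order.2 ⟨fun c hc => ?_, fun c hc => ?_⟩
  · filter_upwards [pn_fp_var_lower hS Γ hpin hg hu (-c / 2) (by linarith)] with k k1
    linarith
  · filter_upwards [pn_fp_lap_upper hS Γ hpin hg hu (c / 4) (by linarith)] with k k1
    have hb : 0 < b k := lt_of_lt_of_le hβ₀ (hβ k).1
    have := lsys_laplace_lower _ (pn_fp_geo_ok Γ (g k) (b k) hb) (C3.gradT Γ C3.noRow (g k) (b k) (u k))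
    linarith

/-- **FP, Laplace transforms** (`lLap` of `Pins/T31Lib.lean` unfolded). -/
theorem pn_fp_lap (hS : ScaleCoef b ν a) (Γ : CGeom m₁ m₂) (hpin : Γ.T ∩ Γ.pin = ∅) (K : ℕ) (g : ℕ → DGrid m₁ m₂)
    (hg : Admissible K g ν) (u : ℕ → ℤ × ℤ → ℝ) (hu : Reg ν (fun k => roRc (g k)) u) :
    Tendsto (fun k => Real.log (((C3.lawR Γ (g k) C3.noRow).sys (b k)).E0 fun z =>
        Real.exp (C3.gradT Γ C3.noRow (g k) (b k) (u k) z)) - a / 2 * C3.dirT Γ (g k) (u k)) atTop (𝓝 0) := by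
  obtain ⟨β₀, β₁, hβ₀, hβ⟩ := hS.1
  refine tendsto_order.2 ⟨fun c hc => ?_, fun c hc => ?_⟩
  · filter_upwards [pn_fp_var_lower hS Γ hpin hg hu (-c) (by linarith)] with k k1
    have hb : 0 < b k := lt_of_lt_of_le hβ₀ (hβ k).1
    have := lsys_laplace_lower _ (pn_fp_geo_ok Γ (g k) (b k) hb) (C3.gradT Γ C3.noRow (g k) (b k) (u k))
    linarith
  · filter_upwards [pn_fp_lap_upper hS Γ hpin hg hu (c / 2) (by linarith)] with k k1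
    linarith

end

end Claimed.Agent.R285.Pins
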