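import Claimed.Agent.R285.Pins.T31If
import Claimed.Agent.R285.Pins.Fp
import Claimed.Agent.R285.Pot.RegOpt
import Claimed.Agent.R285.Pot.LinPin
import Claimed.Agent.R285.Free.Pos

/-!
# ROW 285, PINS, package T31 = [C] Theorem 3.1.   FILE `T31Den` = items 2, 3 of the plan in `T31Geo.lean` (SHIFTS and DENSITY ON ONE POLYGON).   Architect helper115 (18:10Z).   PAPER-FREE.

Every `sorry` is a LEAF (`L-T31D-*`, name in the docstring); statements frozen (tell helper115 at once if one looks false or awkward); prove IN PLACE, helpers directly above, prefix `pn_t31d_<leaf>_`.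

## EXITS
* `pn_t31d_shift` : `FPLap` + `CoreLow` ⟹ `ShiftLimOn a b ν U Pn` for every polygon.
* `pn_t31d_cell`  : `ShiftLimOn a b ν U Pn` ⟹ Gaussian Laplace limit (`LapLim`) on the polygon for all liftable tests `cellTest (t k) + ∑_i s k i • gRow (u i k)` (bounded moving coefficients, `u i` of the class `ShiftOK`).
* `pn_t31d_bd`    : the reference variances of these tests are bounded (eventually in `k`, uniformly in the coefficients).
## PROOF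
 (D) ABSTRACT DENSITY, any graphs, no rows: `gX H β w` = gradient test of the field `w`, `dE w` = its energy.   `pn_t31d_stab` (one graph: convexity of `lLap` + `C2.ref_mgf`), `pn_t31d_dense_flow` (limit), `pn_t31d_lift_opt`, `pn_t31d_gVar_opt`
     (a lifted test is the gradient test of `a⁻¹ •` its optimiser), `pn_t31d_dense`.
 (G) GEOMETRY: the optimiser of a cell test, extended by zero, satisfies the hypotheses of `Pot.pot_regopt` (`pn_t31d_opt_zero`, `pn_t31d_opt_lap`, `pn_t31d_cell_bd`); the ambient approximation is `C2.Reg` (`pn_t31d_reg_of_lap`: `C2.reg_smear_s`);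
     the optimiser of `gRow u` is `a • amb u` (`pn_t31d_grow_opt`); the class `ShiftOK` is a vector space (`pn_t31d_shift_*`).
-/

set_option autoImplicit false

namespace Claimed.Agent.R285.Pins

open Filter Topology MeasureTheory Pot
open scoped Classical

noncomputable section

/-! ## 0. (former `Pins/T31Shift.lean`, helper279) SHIFTS ON ONE POLYGON: `pn_t31_shiftLim : FPLap a b ν → CoreLow a b ν → Poly U → ShiftLimOn a b ν U Pn`.
Free polygon: `FPLap`.   Pinned polygon: upper bound = release the pins (`t31RelRef`, `lsys_mgf_mono`) + `FPLap` for `Pn = ∅`; lower bound = `lsys_laplace_lower` + `CoreLow`. -/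

section T31Shift

variable {m₁ m₂ : ℕ}

/-- releasing the pins of a polygon -/
def t31RelRef (U Pn : Finset (C3.Cell m₁ m₂)) (g : DGrid m₁ m₂) (β : ℝ) : LSys.Ref (psys U ∅ g β) (psys U Pn g β) where
  iE := ⟨fun e => e, fun _ _ h => h⟩
  iO := ⟨fun o => o, fun _ _ h => h⟩
  hb := fun _ => rfl
  map_mem := by
    intro z hz
    obtain ⟨h, _, rfl⟩ := AddSubgroup.mem_map.1 hz
    exact AddSubgroup.mem_map.2 ⟨h, pn_fp_mem_top (polyG U ∅) (Finset.inter_empty _) g h,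
      Prod.ext rfl (funext fun o => o.elim0)⟩

theorem pn_t31_rel_grad (U Pn : Finset (C3.Cell m₁ m₂)) (g : DGrid m₁ m₂) (β : ℝ) (u : ℤ × ℤ → ℝ) :
    (pgrad U ∅ g β u).comp (t31RelRef U Pn g β).psi = pgrad U Pn g β u := rfl

theorem pn_t31_rel_dir (U Pn : Finset (C3.Cell m₁ m₂)) (g : DGrid m₁ m₂) (u : ℤ × ℤ → ℝ) : pdir U Pn g u = pdir U ∅ g u := rfl

theorem pn_t31_psys_ok (U Pn : Finset (C3.Cell m₁ m₂)) (g : DGrid m₁ m₂) (β : ℝ) (hβ : 0 < β) : (psys U Pn g β).Ok :=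
  pn_fp_geo_ok (polyG U Pn) g β hβ

/-- releasing the pins increases the Laplace transform -/
theorem pn_t31_rel_lap (U Pn : Finset (C3.Cell m₁ m₂)) (g : DGrid m₁ m₂) (β : ℝ) (hβ : 0 < β) (u : ℤ × ℤ → ℝ) :
    lLap (psys U Pn g β) (pgrad U Pn g β u) ≤ lLap (psys U ∅ g β) (pgrad U ∅ g β u) := by
  have h := lsys_mgf_mono (t31RelRef U Pn g β) (pn_t31_psys_ok U ∅ g β hβ) (pn_t31_psys_ok U Pn g β hβ) (pgrad U ∅ g β u)
  unfold lLap
  exact Real.log_le_log (Free.frs_E0_exp_pos _ (pn_t31_psys_ok U Pn g β hβ) _) h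

/-- **SHIFTS ON ONE POLYGON.** -/
theorem pn_t31_shiftLim {a : ℝ} {b : ℕ → ℝ} {ν : ℕ → ℕ} (hb : ∀ k, 0 < b k) (hFP : FPLap a b ν) (hC : CoreLow a b ν)
    {U : Finset (C3.Cell m₁ m₂)} (Pn : Finset (C3.Cell m₁ m₂)) (hU : Pot.Poly U) : ShiftLimOn a b ν U Pn := by
  intro K g hg u hu
  by_cases hUP : U ∩ Pn = ∅
  · exact hFP m₁ m₂ U Pn hU hUP K g hg u hu.1
  · have hne : (U ∩ Pn).Nonempty := Finset.nonempty_iff_ne_empty.2 hUP
    have h0 := hFP m₁ m₂ U ∅ hU (Finset.inter_empty _) K g hg u hu.1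
    refine tendsto_order.2 ⟨fun c hc => ?_, fun c hc => ?_⟩
    · filter_upwards [hC m₁ m₂ U Pn hU hne K g hg u hu (-c) (by linarith)] with k k1
      have h2 := lsys_laplace_lower _ (pn_t31_psys_ok U Pn (g k) (b k) (hb k)) (pgrad U Pn (g k) (b k) (u k))
      have h3 : (psys U Pn (g k) (b k)).V0 (pgrad U Pn (g k) (b k) (u k)) / 2 ≤ lLap (psys U Pn (g k) (b k)) (pgrad U Pn (g k) (b k) (u k)) := h2
      linarith
    · filter_upwards [h0.eventually (gt_mem_nhds hc)] with k k1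
      have h2 := pn_t31_rel_lap U Pn (g k) (b k) (hb k) (u k)
      rw [pn_t31_rel_dir U Pn]
      linarith

/-- the variances: upper bound from the Laplace limit -/
theorem pn_t31_shiftVar_le {a : ℝ} {b : ℕ → ℝ} {ν : ℕ → ℕ} (hb : ∀ k, 0 < b k) {U Pn : Finset (C3.Cell m₁ m₂)}
    (h : ShiftLimOn a b ν U Pn) (K : ℕ) (g : ℕ → DGrid m₁ m₂) (hg : Admissible K g ν) (u : ℕ → ℤ × ℤ → ℝ)
    (hu : ShiftOK ν U Pn g u) (ε : ℝ) (hε : 0 < ε) :
    ∀ᶠ k in atTop, (psys U Pn (g k) (b k)).V0 (pgrad U Pn (g k) (b k) (u k)) ≤ a * pdir U Pn (g k) (u k) + ε := by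
  filter_upwards [(h K g hg u hu).eventually (gt_mem_nhds (by linarith : 0 < ε / 2))] with k k1
  have h2 := lsys_laplace_lower _ (pn_t31_psys_ok U Pn (g k) (b k) (hb k)) (pgrad U Pn (g k) (b k) (u k))
  have h3 : (psys U Pn (g k) (b k)).V0 (pgrad U Pn (g k) (b k) (u k)) / 2 ≤ lLap (psys U Pn (g k) (b k)) (pgrad U Pn (g k) (b k) (u k)) := h2
  linarith

theorem pn_t31_shift_eqns_cite : True := by
  have := @t31RelRef.eq_1
  trivial

end T31Shift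

/-! ## 1. Abstract density (any graph, no rows) -/

section Abstract

/-- the gradient test `∑_e ∇_e w ∇_e (2π h)` of a field `w` -/
def gX {G : HGraph} (H : HLaw G) (β : ℝ) (w : G.V → ℝ) : (H.sys β).L →+ ℝ :=
  C2.flowS (H.sys β) fun e => 2 * Real.pi * plGrad w e

/-- the Dirichlet energy of a field -/
def dE {G : HGraph} (w : G.V → ℝ) : ℝ := ∑ e, plGrad w e ^ 2

theorem pn_t31d_dE_nonneg {G : HGraph} (w : G.V → ℝ) : 0 ≤ dE w := Finset.sum_nonneg fun _ _ => sq_nonneg _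

theorem pn_t31d_dE_smul {G : HGraph} (s : ℝ) (w : G.V → ℝ) : dE (s • w) = s ^ 2 * dE w := by
  unfold dE
  rw [Finset.mul_sum]
  refine Finset.sum_congr rfl fun e _ => ?_
  rw [pl_grad_smul]
  simp only [Pi.smul_apply, smul_eq_mul]
  ring

/-- **L-T31D-E** (~60 l.).  Minkowski / Cauchy-Schwarz for the seminorm `√dE`: expand `∇w = ∇v - ∇(v - w)`, `2|xy| ≤ …`; or `Finset.inner_mul_le_norm_mul_norm` / `Finset.sum_mul_sq_le_sq_mul_sq`. -/
theorem pn_t31d_dE_close {G : HGraph} (v w : G.V → ℝ) : |dE w - dE v| ≤ 2 * Real.sqrt (dE v * dE (v - w)) + dE (v - w) := by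
  have e : dE w - dE v = dE (v - w) - 2 * ∑ e, plGrad v e * plGrad (v - w) e := by
    unfold dE
    rw [Finset.mul_sum, ← Finset.sum_sub_distrib, ← Finset.sum_sub_distrib]
    refine Finset.sum_congr rfl fun e _ => ?_
    rw [pl_grad_sub]
    simp only [Pi.sub_apply]
    ring
  have hcs : |∑ e, plGrad v e * plGrad (v - w) e| ≤ Real.sqrt (dE v * dE (v - w)) := by
    apply Real.abs_le_sqrt
    exact Finset.sum_mul_sq_le_sq_mul_sq _ _ _
  have h0 := pn_t31d_dE_nonneg (v - w)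
  rw [e]
  have h1 := abs_le.1 hcs
  rw [abs_le]
  constructor <;> linarith [h1.1, h1.2]

theorem pn_t31d_dE_add_le {G : HGraph} (v w : G.V → ℝ) : dE (v + w) ≤ 2 * dE v + 2 * dE w := by
  unfold dE
  rw [Finset.mul_sum, Finset.mul_sum, ← Finset.sum_add_distrib]
  refine Finset.sum_le_sum fun e _ => ?_
  rw [pl_grad_add]
  simp only [Pi.add_apply]
  nlinarith [sq_nonneg (plGrad v e - plGrad w e)]

theorem pn_t31d_gX_add {G : HGraph} (H : HLaw G) (β : ℝ) (v w : G.V → ℝ) : gX H β (v + w) = gX H β v + gX H β w := by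
  ext z
  simp only [gX, C2.flowS, AddMonoidHom.coe_mk, ZeroHom.coe_mk, AddMonoidHom.add_apply, pl_grad_add]
  rw [← Finset.sum_add_distrib]
  refine Finset.sum_congr rfl fun e _ => ?_
  have h : (plGrad v + plGrad w) e = plGrad v e + plGrad w e := rfl
  rw [h]
  ring

theorem pn_t31d_gX_smul {G : HGraph} (H : HLaw G) (β : ℝ) (s : ℝ) (w : G.V → ℝ) : gX H β (s • w) = s • gX H β w := by
  ext z
  simp only [gX, C2.flowS, AddMonoidHom.coe_mk, ZeroHom.coe_mk, AddMonoidHom.smul_apply, pl_grad_smul, smul_eq_mul]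
  rw [Finset.mul_sum]
  refine Finset.sum_congr rfl fun e _ => ?_
  have h : (s • plGrad w) e = s * plGrad w e := rfl
  rw [h]
  ring

/-- **L-T31D-REF** (~50 l.).  `C2.ref_mgf (H.sys β) hOk β₁ (fun _ => hβ) t` with `t e = 2π ∇_e w`: `∑ t² = 4π² dE w`, `Real.sqrt_mul_self`, `Real.log_le_log`/`Real.log_exp`; positivity of `E0 exp` by `lsys_pos` or `pn_t31_V_exp`. -/
theorem pn_t31d_ref {G : HGraph} (H : HLaw G) (β β₁ : ℝ) (hOk : (H.sys β).Ok) (hβ : β ≤ β₁) (w : G.V → ℝ) :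
    lLap (H.sys β) (gX H β w) ≤ β₁ * (Real.cosh (2 * Real.pi * Real.sqrt (dE w)) - 1) := by
  have h1 := C2.ref_mgf (H.sys β) hOk β₁ (fun _ => hβ) (fun e => 2 * Real.pi * plGrad w e)
  have e1 : Real.sqrt (∑ e : (H.sys β).E, (2 * Real.pi * plGrad w e) ^ 2) = 2 * Real.pi * Real.sqrt (dE w) := by
    have : ∑ e : (H.sys β).E, (2 * Real.pi * plGrad w e) ^ 2 = (2 * Real.pi) ^ 2 * dE w := by
      unfold dE
      rw [Finset.mul_sum]
      exact Finset.sum_congr rfl fun e _ => by ring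
    rw [this, Real.sqrt_mul (sq_nonneg _), Real.sqrt_sq (by positivity)]
  rw [e1] at h1
  have h2 : Real.exp (lLap (H.sys β) (gX H β w)) ≤ Real.exp (β₁ * (Real.cosh (2 * Real.pi * Real.sqrt (dE w)) - 1)) := by
    rw [pn_t31_V_exp _ hOk]
    exact h1
  exact Real.exp_le_exp.1 h2

theorem pn_t31d_stab_B {G : HGraph} (H : HLaw G) (β β₁ : ℝ) (hOk : (H.sys β).Ok) (hβ : β ≤ β₁) (hβ₁ : 0 ≤ β₁) (d : G.V → ℝ) (θ : ℝ)
    (h0 : 0 < θ) (s : ℝ) (hs : |s| ≤ 1 / θ) :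
    lLap (H.sys β) (gX H β (s • d)) ≤ β₁ * (Real.cosh (2 * Real.pi * Real.sqrt (dE d) / θ) - 1) := by
  have hpi := Real.pi_pos
  refine (pn_t31d_ref H β β₁ hOk hβ _).trans (mul_le_mul_of_nonneg_left (sub_le_sub_right ?_ 1) hβ₁)
  have e1 : 0 ≤ 2 * Real.pi * (|s| * Real.sqrt (dE d)) := by positivity
  have e2 : 0 ≤ 2 * Real.pi * Real.sqrt (dE d) / θ := by positivity
  rw [pn_t31d_dE_smul, Real.sqrt_mul (sq_nonneg s), Real.sqrt_sq_eq_abs, Real.cosh_le_cosh, abs_of_nonneg e1, abs_of_nonneg e2]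
  calc 2 * Real.pi * (|s| * Real.sqrt (dE d)) ≤ 2 * Real.pi * (1 / θ * Real.sqrt (dE d)) := by gcongr
    _ = 2 * Real.pi * Real.sqrt (dE d) / θ := by ring

/-- **L-T31D-STAB** (~100 l.).  ONE GRAPH.  `pn_t31_S_convex` with (i) `A = gX ((1-θ)⁻¹ • w)`, `B = gX (θ⁻¹ • (v - w))`: `(1-θ) • A + θ • B = gX v`; (ii) `A = gX v`, `B = gX ((-(1-θ)/θ) • (v - w))`: `(1-θ) • A + θ • B = gX ((1-θ) • w)`
(`pn_t31d_gX_add`, `pn_t31d_gX_smul`).   `lLap B` by `pn_t31d_ref`, `pn_t31d_dE_smul`, `Real.sqrt_mul_self`, `Real.cosh_le_cosh` (`|(1-θ)/θ| ≤ 1/θ`). -/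
theorem pn_t31d_stab {G : HGraph} (H : HLaw G) (β β₁ : ℝ) (hOk : (H.sys β).Ok) (hβ : β ≤ β₁) (hβ₁ : 0 ≤ β₁) (v w : G.V → ℝ) (θ : ℝ)
    (h0 : 0 < θ) (h1 : θ < 1) :
    lLap (H.sys β) (gX H β v) ≤ (1 - θ) * lLap (H.sys β) (gX H β ((1 - θ)⁻¹ • w))
        + θ * (β₁ * (Real.cosh (2 * Real.pi * Real.sqrt (dE (v - w)) / θ) - 1)) ∧
      lLap (H.sys β) (gX H β ((1 - θ) • w)) ≤ (1 - θ) * lLap (H.sys β) (gX H β v)
        + θ * (β₁ * (Real.cosh (2 * Real.pi * Real.sqrt (dE (v - w)) / θ) - 1)) := by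
  have hθ1 : 0 < 1 - θ := by linarith
  constructor
  · have h := pn_t31_S_convex (H.sys β) hOk (gX H β ((1 - θ)⁻¹ • w)) (gX H β (θ⁻¹ • (v - w))) θ h0 h1
    have e : (1 - θ) • gX H β ((1 - θ)⁻¹ • w) + θ • gX H β (θ⁻¹ • (v - w)) = gX H β v := by
      rw [← pn_t31d_gX_smul, ← pn_t31d_gX_smul, ← pn_t31d_gX_add, smul_smul, smul_smul, mul_inv_cancel₀ hθ1.ne',
        mul_inv_cancel₀ h0.ne', one_smul, one_smul]
      congr 1
      abel
    rw [e] at h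
    have h2 := pn_t31d_stab_B H β β₁ hOk hβ hβ₁ (v - w) θ h0 θ⁻¹ (by rw [abs_of_pos (inv_pos.2 h0), one_div])
    exact h.trans (add_le_add_right (mul_le_mul_of_nonneg_left h2 h0.le) _)
  · have h := pn_t31_S_convex (H.sys β) hOk (gX H β v) (gX H β ((-(1 - θ) / θ) • (v - w))) θ h0 h1
    have e : (1 - θ) • gX H β v + θ • gX H β ((-(1 - θ) / θ) • (v - w)) = gX H β ((1 - θ) • w) := by
      rw [← pn_t31d_gX_smul, ← pn_t31d_gX_smul, ← pn_t31d_gX_add, smul_smul,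
        show θ * (-(1 - θ) / θ) = -(1 - θ) by field_simp]
      congr 1
      rw [neg_smul, smul_sub]
      abel
    rw [e] at h
    have h2 := pn_t31d_stab_B H β β₁ hOk hβ hβ₁ (v - w) θ h0 (-(1 - θ) / θ) (by
      rw [abs_div, abs_neg, abs_of_pos hθ1, abs_of_pos h0]
      gcongr
      linarith)
    exact h.trans (add_le_add_right (mul_le_mul_of_nonneg_left h2 h0.le) _)

/-- choice of `ε` in `pn_t31d_dense_flow` -/
theorem pn_t31d_lim_eps (a β₁ θ E₁ η : ℝ) (hη : 0 < η) :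
    ∃ ε : ℝ, 0 < ε ∧ ε ≤ 1 ∧
      θ * (β₁ * (Real.cosh (2 * Real.pi * Real.sqrt ε / θ) - 1)) + 2 * a * (2 * Real.sqrt (E₁ * ε) + ε) < η := by
  have hc : Continuous fun ε : ℝ =>
      θ * (β₁ * (Real.cosh (2 * Real.pi * Real.sqrt ε / θ) - 1)) + 2 * a * (2 * Real.sqrt (E₁ * ε) + ε) := by
    have h1 : Continuous fun ε : ℝ => Real.cosh (2 * Real.pi * Real.sqrt ε / θ) :=
      Real.continuous_cosh.comp ((continuous_const.mul Real.continuous_sqrt).div_const θ)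
    have h2 : Continuous fun ε : ℝ => Real.sqrt (E₁ * ε) := Real.continuous_sqrt.comp (continuous_const.mul continuous_id)
    exact (continuous_const.mul (continuous_const.mul (h1.sub continuous_const))).add
      (continuous_const.mul ((continuous_const.mul h2).add continuous_id))
  have h0 : θ * (β₁ * (Real.cosh (2 * Real.pi * Real.sqrt 0 / θ) - 1)) + 2 * a * (2 * Real.sqrt (E₁ * 0) + 0) = 0 := by
    simp
  have ht := hc.tendsto 0
  simp only [h0] at ht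
  obtain ⟨δ, hδ, hδ'⟩ := Metric.eventually_nhds_iff.1 (ht.eventually (gt_mem_nhds hη))
  have hm : 0 < min (δ / 2) 1 := lt_min (by positivity) one_pos
  refine ⟨min (δ / 2) 1, hm, min_le_right _ _, hδ' ?_⟩
  rw [Real.dist_eq, sub_zero, abs_of_pos hm]
  exact lt_of_le_of_lt (min_le_left _ _) (by linarith)

/-- the arithmetic of `pn_t31d_dense_flow` on one graph -/
theorem pn_t31d_lim_arith {a θ η E₁ ρ T Lv Lu Ll Ev Ew : ℝ} (ha : 0 ≤ a) (hθ0 : 0 < θ) (hθ2 : θ ≤ 1 / 2) (hη : 0 < η)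
    (hθη : a * E₁ * (2 * θ) ≤ η / 16) (hρ : 0 ≤ ρ) (hT : T ≤ η / 8) (haρ : 2 * a * ρ ≤ η / 8)
    (hu : Lv ≤ (1 - θ) * Lu + T) (hl : Ll ≤ (1 - θ) * Lv + T) (hLv : 0 ≤ Lv) (hEv0 : 0 ≤ Ev) (hEv : Ev ≤ E₁)
    (hcl : |Ew - Ev| ≤ ρ) (h1 : |Lu - a / 2 * (((1 - θ)⁻¹) ^ 2 * Ew)| < η / 8) (h2 : |Ll - a / 2 * ((1 - θ) ^ 2 * Ew)| < η / 8) :
    |Lv - a / 2 * Ev| < η := by
  have hθ' : 0 < 1 - θ := by linarith
  obtain ⟨hc1, hc2⟩ := abs_le.1 hcl
  obtain ⟨h1a, h1b⟩ := abs_lt.1 h1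
  obtain ⟨h2a, h2b⟩ := abs_lt.1 h2
  set r : ℝ := (1 - θ)⁻¹ with hr
  have hr1 : (1 - θ) * r = 1 := mul_inv_cancel₀ hθ'.ne'
  have hr0 : 0 < r := inv_pos.2 hθ'
  have hr2 : r ≤ 2 := by
    have : r = (1 - θ) * r * r := by rw [hr1, one_mul]
    nlinarith
  have hrθ : r - 1 ≤ 2 * θ := by
    have : r - 1 = θ * r := by linarith
    rw [this]
    nlinarith
  have hθE : 0 ≤ a * θ := by positivity
  rw [abs_lt]
  constructor
  · -- lower bound
    have e1 : (1 - θ) * Lv ≤ Lv := by nlinarith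
    have e2 : Ev - 2 * θ * E₁ - ρ ≤ (1 - θ) ^ 2 * Ew := by
      have e3 : (1 - θ) ^ 2 * (Ev - ρ) ≤ (1 - θ) ^ 2 * Ew := mul_le_mul_of_nonneg_left (by linarith) (sq_nonneg _)
      have e4 : (1 - θ) ^ 2 ≤ 1 := by nlinarith
      have e5 : (1 - θ) ^ 2 * ρ ≤ ρ := by nlinarith
      have e6 : θ * Ev ≤ θ * E₁ := mul_le_mul_of_nonneg_left hEv hθ0.le
      have e7 : 0 ≤ θ ^ 2 * Ev := by positivity
      have e9 : (1 - θ) ^ 2 * (Ev - ρ) = Ev - 2 * (θ * Ev) + θ ^ 2 * Ev - (1 - θ) ^ 2 * ρ := by ring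
      linarith
    have e8 : a / 2 * (Ev - 2 * θ * E₁ - ρ) ≤ a / 2 * ((1 - θ) ^ 2 * Ew) := mul_le_mul_of_nonneg_left e2 (by linarith)
    linarith
  · -- upper bound
    have e1 : (1 - θ) * Lu ≤ (1 - θ) * (a / 2 * (r ^ 2 * Ew) + η / 8) := mul_le_mul_of_nonneg_left (by linarith) hθ'.le
    have e2 : (1 - θ) * (a / 2 * (r ^ 2 * Ew)) = a / 2 * (r * Ew) := by
      calc (1 - θ) * (a / 2 * (r ^ 2 * Ew)) = ((1 - θ) * r) * (a / 2 * (r * Ew)) := by ring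
        _ = a / 2 * (r * Ew) := by rw [hr1, one_mul]
    have e3 : r * Ew ≤ Ev + 2 * θ * E₁ + 2 * ρ := by
      have e4 : r * Ew ≤ r * (Ev + ρ) := mul_le_mul_of_nonneg_left (by linarith) hr0.le
      have e5 : (r - 1) * Ev ≤ 2 * θ * E₁ := by
        calc (r - 1) * Ev ≤ 2 * θ * Ev := mul_le_mul_of_nonneg_right hrθ hEv0
          _ ≤ 2 * θ * E₁ := mul_le_mul_of_nonneg_left hEv (by positivity)
      have e6 : r * ρ ≤ 2 * ρ := mul_le_mul_of_nonneg_right hr2 hρ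
      have e9 : r * (Ev + ρ) = Ev + (r - 1) * Ev + r * ρ := by ring
      linarith
    have e7 : a / 2 * (r * Ew) ≤ a / 2 * (Ev + 2 * θ * E₁ + 2 * ρ) := mul_le_mul_of_nonneg_left e3 (by linarith)
    have e8 : (1 - θ) * (η / 8) ≤ η / 8 := by nlinarith
    have e10 : (1 - θ) * (a / 2 * (r ^ 2 * Ew) + η / 8) = (1 - θ) * (a / 2 * (r ^ 2 * Ew)) + (1 - θ) * (η / 8) := by ring
    linarith

/-- **L-T31D-LIM** (~220 l.; pure `ε`-management).  Given `η > 0`.  Put `E₁ = |E₀| + 1`.  Choose `θ ∈ (0, 1/2]` with `a E₁ (1/(1-θ) - 1) ≤ η/8` and `a E₁ (1 - (1-θ)²) ≤ η/8`  (e.g. `θ = min (1/2) (η/(32 (a E₁ + 1)))`);  then `ε ∈ (0,1]` with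
`θ β₁ (cosh (2π √ε/θ) - 1) ≤ η/8` (continuity of `cosh ∘ √` at `0`, cf. `pn_fp_exists_seam` in `Pins/Fp.lean`) and `2 a (2 √(E₁ ε) + ε) ≤ η/8`.   `w` from `happ ε`; use `happ` at `s = (1-θ)⁻¹` and `s = 1-θ`, `pn_t31d_stab`, `pn_t31d_dE_close`,
`pn_t31_S_nonneg` (`0 ≤ lLap`; needed to pass from `(1-θ) lLap (gX v)` to `lLap (gX v)`).
UPPER: `lLap (gX v) ≤ (1-θ)(a/2 (1-θ)⁻² dE w + o(1)) + η/8 = a/2 dE w/(1-θ) + …`.   LOWER: `lLap (gX v) ≥ (1-θ) lLap (gX v) ≥ a/2 (1-θ)² dE w - o(1) - η/8`. -/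
theorem pn_t31d_dense_flow {a β₁ : ℝ} (ha : 0 ≤ a) {G : ℕ → HGraph} (H : ∀ k, HLaw (G k)) (b : ℕ → ℝ) (hb : ∀ k, b k ≤ β₁) (hβ₁ : 0 ≤ β₁)
    (hOk : ∀ k, ((H k).sys (b k)).Ok) (v : ∀ k, (G k).V → ℝ) (E₀ : ℝ) (hE : ∀ᶠ k in atTop, dE (v k) ≤ E₀)
    (happ : ∀ ε : ℝ, 0 < ε → ∃ w : ∀ k, (G k).V → ℝ, (∀ᶠ k in atTop, dE (v k - w k) ≤ ε) ∧
      ∀ s : ℝ, Tendsto (fun k => lLap ((H k).sys (b k)) (gX (H k) (b k) (s • w k)) - a / 2 * (s ^ 2 * dE (w k))) atTop (𝓝 0)) :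
    Tendsto (fun k => lLap ((H k).sys (b k)) (gX (H k) (b k) (v k)) - a / 2 * dE (v k)) atTop (𝓝 0) := by
  refine Metric.tendsto_nhds.2 fun η hη => ?_
  set E₁ : ℝ := |E₀| + 1 with hE₁
  have hE₁1 : 1 ≤ E₁ := by have := abs_nonneg E₀; linarith
  have hE₀ : E₀ ≤ E₁ := by have := le_abs_self E₀; linarith
  have haE : 0 ≤ a * E₁ := mul_nonneg ha (by linarith)
  set θ : ℝ := min (1 / 2) (η / (32 * (a * E₁ + 1))) with hθ
  have hθ0 : 0 < θ := lt_min (by norm_num) (by positivity)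
  have hθ2 : θ ≤ 1 / 2 := min_le_left _ _
  have hθ1 : θ < 1 := by linarith
  have hθη : a * E₁ * (2 * θ) ≤ η / 16 := by
    have h1 : θ ≤ η / (32 * (a * E₁ + 1)) := min_le_right _ _
    have h2 : θ * (32 * (a * E₁ + 1)) ≤ η := by rwa [le_div_iff₀ (by positivity)] at h1
    nlinarith
  obtain ⟨ε, hε0, hε1, hεF⟩ := pn_t31d_lim_eps a β₁ θ E₁ (η / 8) (by positivity)
  obtain ⟨w, hw, hs⟩ := happ ε hε0
  have hη8 : 0 < η / 8 := by positivity
  have hs1 := Metric.tendsto_nhds.1 (hs (1 - θ)⁻¹) (η / 8) hη8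
  have hs2 := Metric.tendsto_nhds.1 (hs (1 - θ)) (η / 8) hη8
  have hρ : 0 ≤ 2 * Real.sqrt (E₁ * ε) + ε := by positivity
  have hT0 : 0 ≤ θ * (β₁ * (Real.cosh (2 * Real.pi * Real.sqrt ε / θ) - 1)) :=
    mul_nonneg hθ0.le (mul_nonneg hβ₁ (by linarith [Real.one_le_cosh (2 * Real.pi * Real.sqrt ε / θ)]))
  have haρ : 0 ≤ 2 * a * (2 * Real.sqrt (E₁ * ε) + ε) := by positivity
  filter_upwards [hE, hw, hs1, hs2] with k hk1 hk2 hk3 hk4
  rw [Real.dist_eq, sub_zero] at hk3 hk4 ⊢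
  obtain ⟨hu, hl⟩ := pn_t31d_stab (H k) (b k) β₁ (hOk k) (hb k) hβ₁ (v k) (w k) θ hθ0 hθ1
  have hcl := pn_t31d_dE_close (v k) (w k)
  have hnn := pn_t31_S_nonneg _ (hOk k) (gX (H k) (b k) (v k))
  have hD0 : 0 ≤ dE (v k - w k) := pn_t31d_dE_nonneg _
  have hEv0 : 0 ≤ dE (v k) := pn_t31d_dE_nonneg _
  have hT : θ * (β₁ * (Real.cosh (2 * Real.pi * Real.sqrt (dE (v k - w k)) / θ) - 1))
      ≤ θ * (β₁ * (Real.cosh (2 * Real.pi * Real.sqrt ε / θ) - 1)) := by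
    have h1 : Real.cosh (2 * Real.pi * Real.sqrt (dE (v k - w k)) / θ) ≤ Real.cosh (2 * Real.pi * Real.sqrt ε / θ) := by
      rw [Real.cosh_le_cosh, abs_of_nonneg (by positivity), abs_of_nonneg (by positivity)]
      have := Real.sqrt_le_sqrt hk2
      gcongr
    exact mul_le_mul_of_nonneg_left (mul_le_mul_of_nonneg_left (by linarith) hβ₁) hθ0.le
  have hcl' : |dE (w k) - dE (v k)| ≤ 2 * Real.sqrt (E₁ * ε) + ε := by
    refine hcl.trans ?_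
    have h1 : dE (v k) * dE (v k - w k) ≤ E₁ * ε := mul_le_mul (hk1.trans hE₀) hk2 hD0 (by linarith)
    have := Real.sqrt_le_sqrt h1
    linarith
  exact pn_t31d_lim_arith ha hθ0 hθ2 hη hθη hρ (hT.trans (by linarith)) (by linarith) hu hl hnn hEv0 (hk1.trans hE₀) hcl' hk3 hk4

/-- **L-T31D-OPT** (~80 l. for the two).  `pl_rep_of_opt hv : plRep H f (a⁻¹ • plGrad v) (H.obs v)`, no rows (`Finset.univ_eq_empty`/`Fintype.sum_empty`): `⟨f,u⟩ = ⟨plDiv (a⁻¹ • ∇v), u⟩` on `rspan` (`pl_pair_div`);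
`pn_t31_lift_flow`, `pn_t31_lift_congr`, `pn_t31_lift_unique`; `plGrad (a⁻¹ • v) = a⁻¹ • plGrad v`. -/
theorem pn_t31d_lift_opt {a : ℝ} {G : HGraph} (H : HLaw G) [IsEmpty H.O] (β : ℝ) {f v : G.V → ℝ} (hv : plIsOpt H a f v)
    {X : (H.sys β).L →+ ℝ} (hX : H.Lift β f X) : X = gX H β (a⁻¹ • v) := by
  have h1 := pn_t31_lift_flow H β (a⁻¹ • plGrad v)
  have h2 : H.Lift β (plDiv (a⁻¹ • plGrad v)) X := pn_t31_lift_congr H β hX fun u hu => by
    rw [pl_pair_div, pl_rep_of_opt H hv u hu, Finset.univ_eq_empty (α := H.O), Finset.sum_empty, add_zero]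
  rw [pn_t31_lift_unique H β h2 h1]
  unfold gX
  rw [pl_grad_smul]

/-- `pl_gVar_eq_form`, `pl_form_expand`, no rows -/
theorem pn_t31d_gVar_opt {a : ℝ} (ha : 0 < a) {G : HGraph} (H : HLaw G) [IsEmpty H.O] {f v : G.V → ℝ} (hv : plIsOpt H a f v) :
    H.gVar a f = a * dE (a⁻¹ • v) := by
  rw [pl_gVar_eq_form H ha hv, pl_form_expand, Finset.univ_eq_empty (α := H.O), Finset.sum_empty, add_zero, pn_t31d_dE_smul]
  unfold dE
  field_simp

/-- **abstract density lemma**: Gaussian Laplace limit of a sequence of tests whose optimisers are approximable in energy by fields with saturated gradient tests -/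
theorem pn_t31d_dense {a β₁ : ℝ} (ha : 0 < a) {G : ℕ → HGraph} (H : ∀ k, HLaw (G k)) [∀ k, IsEmpty (H k).O] (b : ℕ → ℝ)
    (hb0 : ∀ k, 0 < b k) (hb : ∀ k, b k ≤ β₁) (f v : ∀ k, (G k).V → ℝ) (hv : ∀ k, plIsOpt (H k) a (f k) (v k))
    (E₀ : ℝ) (hE : ∀ᶠ k in atTop, dE (v k) ≤ E₀)
    (happ : ∀ ε : ℝ, 0 < ε → ∃ w : ∀ k, (G k).V → ℝ, (∀ᶠ k in atTop, dE (v k - w k) ≤ ε) ∧
      ∀ s : ℝ, Tendsto (fun k => lLap ((H k).sys (b k)) (gX (H k) (b k) (s • w k)) - a / 2 * (s ^ 2 * dE (w k))) atTop (𝓝 0)) :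
    LapLim a H b f := by
  intro X hX
  have hOk : ∀ k, ((H k).sys (b k)).Ok := fun k => HLaw.ok_of_isEmpty (H k) (b k) (hb0 k)
  have hβ₁ : 0 ≤ β₁ := (hb0 0).le.trans (hb 0)
  have h := pn_t31d_dense_flow ha.le H b hb hβ₁ hOk (fun k => a⁻¹ • v k) ((a⁻¹) ^ 2 * E₀)
    (by
      filter_upwards [hE] with k hk
      rw [pn_t31d_dE_smul]
      exact mul_le_mul_of_nonneg_left hk (sq_nonneg _))
    (by
      intro ε hε
      obtain ⟨w, h1, h2⟩ := happ (a ^ 2 * ε) (by positivity)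
      refine ⟨fun k => a⁻¹ • w k, ?_, fun s => ?_⟩
      · filter_upwards [h1] with k hk
        rw [← smul_sub, pn_t31d_dE_smul]
        calc (a⁻¹) ^ 2 * dE (v k - w k) ≤ (a⁻¹) ^ 2 * (a ^ 2 * ε) := mul_le_mul_of_nonneg_left hk (sq_nonneg _)
          _ = ε := by field_simp
      · refine (h2 (s * a⁻¹)).congr fun k => ?_
        rw [smul_smul, pn_t31d_dE_smul]
        ring)
  refine h.congr fun k => ?_
  rw [pn_t31d_lift_opt (H k) (b k) (hv k) (hX k), pn_t31d_gVar_opt ha (H k) (hv k)]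
  ring

end Abstract

/-! ## 2. One polygon: vocabulary -/

variable {m₁ m₂ : ℕ}

/-- extension by zero of a field on the vertices of a geometry -/
def ext0 (Γ : CGeom m₁ m₂) (g : DGrid m₁ m₂) (v : (Γ.graph g).V → ℝ) : ℤ × ℤ → ℝ :=
  fun x => if h : x ∈ g.region Γ.T then v (vmk Γ g x h) else 0

theorem pn_t31d_amb_ext0 (Γ : CGeom m₁ m₂) (g : DGrid m₁ m₂) (v : (Γ.graph g).V → ℝ) : amb Γ g (ext0 Γ g v) = v := by
  funext x
  have hx : vpos Γ g x ∈ g.region Γ.T := x.2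
  show (if h : vpos Γ g x ∈ g.region Γ.T then v (vmk Γ g _ h) else 0) = v x
  rw [dif_pos hx]
  rfl

theorem pn_t31d_pgrad_eq (U Pn : Finset (C3.Cell m₁ m₂)) (g : DGrid m₁ m₂) (β : ℝ) (u : ℤ × ℤ → ℝ) :
    pgrad U Pn g β u = gX (plaw U Pn g) β (amb (polyG U Pn) g u) := rfl

theorem pn_t31d_pdir_eq (U Pn : Finset (C3.Cell m₁ m₂)) (g : DGrid m₁ m₂) (u : ℤ × ℤ → ℝ) :
    pdir U Pn g u = dE (amb (polyG U Pn) g u) := rfl

instance pn_t31d_isEmpty (U Pn : Finset (C3.Cell m₁ m₂)) (g : DGrid m₁ m₂) : IsEmpty (plaw U Pn g).O :=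
  (inferInstance : IsEmpty (Fin 0))

/-- **L-T31D-G0** (~70 l.).  `pn_t31g_poly_bonds` (leaf of `T31Geo.lean`; cite it), `Finset.sum_coe_sort` / `Finset.sum_subtype`: the sum over the edge type `{e // e ∈ domBonds ..}` is the sum over the finset. -/
theorem pn_t31d_dE_amb (U Pn : Finset (C3.Cell m₁ m₂)) (g : DGrid m₁ m₂) (u : ℤ × ℤ → ℝ) :
    dE (amb (polyG U Pn) g u) = roDir (g.region U) u := by
  unfold roDir dE
  rw [← pn_t31g_poly_bonds U Pn g]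
  exact Finset.sum_coe_sort (domBonds (g.region (polyG U Pn).T) ((polyG U Pn).cutB g)) (fun e => C2.gd u e ^ 2)

theorem pn_t31d_mem_rspan (U Pn : Finset (C3.Cell m₁ m₂)) (g : DGrid m₁ m₂) (v : ((polyG U Pn).graph g).V → ℝ) :
    v ∈ (plaw U Pn g).rspan ↔ ∀ x ∈ (polyG U Pn).sites g Pn, v x = 0 :=
  pl_mem_rspan_pin (plaw U Pn g) ((polyG U Pn).sites g Pn) v

/-- **L-T31D-G1** (~60 l.).  A vertex lies in `sites g Pn` iff its position lies in `g.region Pn`; a position in `g.region U` and in `g.region Pn` lies in `g.region (U ∩ Pn)` (`Pot.ro_cell_unique` / `Sec.sec_cell_unique`). -/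
theorem pn_t31d_sites_iff (U Pn : Finset (C3.Cell m₁ m₂)) (g : DGrid m₁ m₂) (x : ((polyG U Pn).graph g).V) :
    x ∈ (polyG U Pn).sites g Pn ↔ vpos (polyG U Pn) g x ∈ g.region (U ∩ Pn) := by
  have hx : vpos (polyG U Pn) g x ∈ g.region U := x.2
  have h1 : x ∈ (polyG U Pn).sites g Pn ↔ vpos (polyG U Pn) g x ∈ g.region Pn := by
    show vpos (polyG U Pn) g x ∈ (↑(g.region Pn) : Set (ℤ × ℤ)) ↔ _
    exact Finset.mem_coe
  rw [h1]
  unfold DGrid.region at hx ⊢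
  simp only [Finset.mem_biUnion, Finset.mem_inter] at hx ⊢
  constructor
  · rintro ⟨κ, hκ, hm⟩
    obtain ⟨κ', hκ', hm'⟩ := hx
    have := ro_cell_unique g hm hm'
    subst this
    exact ⟨κ, ⟨hκ', hκ⟩, hm⟩
  · rintro ⟨κ, ⟨_, hκ⟩, hm⟩
    exact ⟨κ, hκ, hm⟩

/-! ## 3. The optimiser of a cell test and `pot_regopt` -/

/-- the optimiser vanishes on the pinned cells -/
theorem pn_t31d_opt_zero {a : ℝ} (U Pn : Finset (C3.Cell m₁ m₂)) (g : DGrid m₁ m₂) {f v : ((polyG U Pn).graph g).V → ℝ}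
    (hv : plIsOpt (plaw U Pn g) a f v) : ∀ y ∈ g.region (U ∩ Pn), ext0 (polyG U Pn) g v y = 0 := by
  intro y hy
  have hyU : y ∈ g.region (polyG U Pn).T := pn_t31g_region_mono g Finset.inter_subset_left hy
  show (if h : y ∈ g.region (polyG U Pn).T then v (vmk (polyG U Pn) g y h) else 0) = 0
  rw [dif_pos hyU]
  exact (pn_t31d_mem_rspan U Pn g v).1 hv.1 _ ((pn_t31d_sites_iff U Pn g _).2 hy)

/-- the extension by zero at the position of a vertex -/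
theorem pn_t31d_G2_ext0 (Γ : CGeom m₁ m₂) (g : DGrid m₁ m₂) (v : (Γ.graph g).V → ℝ) (y : ℤ × ℤ) (hy : y ∈ g.region Γ.T) :
    ext0 Γ g v y = v (vmk Γ g y hy) := by
  show (if h : y ∈ g.region Γ.T then v (vmk Γ g y h) else 0) = _
  rw [dif_pos hy]

/-- the sum over the edge type of a geometry is the sum over its bonds -/
theorem pn_t31d_G2_sum (Γ : CGeom m₁ m₂) (g : DGrid m₁ m₂) (F : Bond → ℝ) :
    ∑ e : (Γ.graph g).E, F (domBond (D := g.region Γ.T) (cut := Γ.cutB g) e) = ∑ e ∈ domBonds (g.region Γ.T) (Γ.cutB g), F e :=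
  (Finset.sum_subtype (domBonds (g.region Γ.T) (Γ.cutB g)) (fun _ => Iff.rfl) F).symm

/-- **L-T31D-G2** (~150 l.).  Test the normal equations `hv.2` with the indicator `δ_x` of the vertex `x` (in `rspan` by `pn_t31d_mem_rspan`, `pn_t31d_sites_iff`): `plB (plaw ..) a v δ_x = a⁻¹ ∑_e ∇_e v ((tgt e = x) - (src e = x))` (no rows),
`pair f δ_x = f x`.  The sum over the edge type is the sum over `domBonds (g.region U) ∅` (`pn_t31g_poly_bonds`, `Finset.sum_coe_sort`), `∇_e v = C2.gd (ext0 v) e` (`pn_t31d_amb_ext0`), positions determine vertices (`Subtype.ext`). -/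
theorem pn_t31d_opt_lap {a : ℝ} (ha : 0 < a) (U Pn : Finset (C3.Cell m₁ m₂)) (g : DGrid m₁ m₂) {f v : ((polyG U Pn).graph g).V → ℝ}
    (hv : plIsOpt (plaw U Pn g) a f v) (x : ℤ × ℤ) (hx : x ∈ g.region U) (hxP : x ∉ g.region (U ∩ Pn)) :
    roLap (g.region U) (ext0 (polyG U Pn) g v) x = a * f (vmk (polyG U Pn) g x hx) := by
  obtain ⟨X, hX⟩ : ∃ X, X = vmk (polyG U Pn) g x hx := ⟨_, rfl⟩
  obtain ⟨δ, hδ⟩ : ∃ δ : ((polyG U Pn).graph g).V → ℝ, δ = fun y => if y = X then 1 else 0 := ⟨_, rfl⟩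
  have hmem : δ ∈ (plaw U Pn g).rspan := by
    rw [pn_t31d_mem_rspan]
    intro y hy
    rw [hδ]
    show (if y = X then (1 : ℝ) else 0) = 0
    rw [if_neg]
    rintro rfl
    rw [pn_t31d_sites_iff, hX] at hy
    exact hxP hy
  have h1 := hv.2 δ hmem
  have h2 : HLaw.pair f δ = f X := by
    unfold HLaw.pair
    rw [hδ]
    simp
  have h3 : ∑ e, plGrad v e * plGrad δ e = roLap (g.region U) (ext0 (polyG U Pn) g v) x := by
    unfold roLap
    rw [← pn_t31g_poly_bonds U Pn g, ← pn_t31d_G2_sum]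
    refine Finset.sum_congr rfl fun e _ => ?_
    have hs : (domBond (D := g.region (polyG U Pn).T) (cut := (polyG U Pn).cutB g) e).1 ∈ g.region (polyG U Pn).T := domBonds_fst e.2
    have ht : (domBond (D := g.region (polyG U Pn).T) (cut := (polyG U Pn).cutB g) e).snd ∈ g.region (polyG U Pn).T := domBonds_snd e.2
    have e1 : plGrad v e = C2.gd (ext0 (polyG U Pn) g v) (domBond (D := g.region (polyG U Pn).T) (cut := (polyG U Pn).cutB g) e) := by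
      unfold C2.gd
      rw [pn_t31d_G2_ext0 _ _ _ _ hs, pn_t31d_G2_ext0 _ _ _ _ ht]
      rfl
    have e2 : (((polyG U Pn).graph g).tgt e = X) ↔ (domBond (D := g.region (polyG U Pn).T) (cut := (polyG U Pn).cutB g) e).snd = x := by
      rw [hX]
      exact Subtype.ext_iff
    have e3 : (((polyG U Pn).graph g).src e = X) ↔ (domBond (D := g.region (polyG U Pn).T) (cut := (polyG U Pn).cutB g) e).1 = x := by
      rw [hX]
      exact Subtype.ext_iff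
    rw [e1]
    congr 1
    unfold plGrad
    rw [hδ]
    show (if _ = X then (1 : ℝ) else 0) - (if _ = X then (1 : ℝ) else 0) = _
    simp only [e2, e3]
  unfold plB at h1
  rw [h2, h3, Finset.univ_eq_empty, Finset.sum_empty, add_zero] at h1
  rw [← hX, ← h1]
  field_simp

theorem pn_t31d_G3_card (g : DGrid m₁ m₂) (ν : ℕ) (hν : g.SideGe ν) (κ : C3.Cell m₁ m₂) :
    (ν : ℝ) ^ 2 ≤ ((g.cell κ).card : ℝ) := by
  have h1 := hν.1 κ.1
  have h2 := hν.2 κ.2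
  rw [DGrid.cell, Finset.card_product, Int.card_Ico, Int.card_Ico]
  have e1 : ν ≤ (g.x₁ κ.1.succ - g.x₁ κ.1.castSucc).toNat := by omega
  have e2 : ν ≤ (g.x₂ κ.2.succ - g.x₂ κ.2.castSucc).toNat := by omega
  have := Nat.mul_le_mul e1 e2
  have h3 : ((ν * ν : ℕ) : ℝ) ≤ (((g.x₁ κ.1.succ - g.x₁ κ.1.castSucc).toNat * (g.x₂ κ.2.succ - g.x₂ κ.2.castSucc).toNat : ℕ) : ℝ) := by
    exact_mod_cast this
  rw [sq]
  exact_mod_cast h3

/-- **L-T31D-G3** (~80 l.).  At a vertex of the cell `κ₀ ∈ U` only the term `κ = κ₀` survives (`Pot.ro_cell_unique`), `avgRow = ((g.region ({κ₀} ∩ U)).card)⁻¹ = ((g.cell κ₀).card)⁻¹`, `(g.cell κ₀).card ≥ ν²` (`Finset.card_product`, `Int.card_Ico`, `hν`;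
cf. `Tor.lk_card_cell`, `Tor.lk_cellTest`). -/
theorem pn_t31d_cell_bd (U Pn : Finset (C3.Cell m₁ m₂)) (g : DGrid m₁ m₂) (ν : ℕ) (hν0 : 0 < ν) (hν : g.SideGe ν)
    (t : C3.Cell m₁ m₂ → ℝ) (Tb : ℝ) (ht : ∀ κ, |t κ| ≤ Tb) (x : ((polyG U Pn).graph g).V) :
    |(polyG U Pn).cellTest g t x| ≤ Tb / (ν : ℝ) ^ 2 := by
  have hx : vpos (polyG U Pn) g x ∈ g.region U := x.2
  obtain ⟨κ₀, hκ₀, hxκ⟩ := Finset.mem_biUnion.1 hx
  have hsite : ∀ κ, x ∈ (polyG U Pn).sites g {κ} ↔ κ = κ₀ := by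
    intro κ
    have : x ∈ (polyG U Pn).sites g {κ} ↔ vpos (polyG U Pn) g x ∈ g.cell κ := by
      show vpos (polyG U Pn) g x ∈ (↑(g.region {κ}) : Set (ℤ × ℤ)) ↔ _
      simp [DGrid.region]
    rw [this]
    exact ⟨fun h => ro_cell_unique g h hxκ, fun h => h ▸ hxκ⟩
  have hreg : g.region ({κ₀} ∩ (polyG U Pn).T) = g.cell κ₀ := by
    have : ({κ₀} ∩ (polyG U Pn).T : Finset (Fin m₁ × Fin m₂)) = {κ₀} := by
      rw [Finset.inter_eq_left]
      exact Finset.singleton_subset_iff.2 hκ₀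
    rw [this]
    simp [DGrid.region]
  have hval : (polyG U Pn).cellTest g t x = t κ₀ * ((g.cell κ₀).card : ℝ)⁻¹ := by
    unfold CGeom.cellTest
    rw [Finset.sum_eq_single κ₀]
    · unfold CGeom.avgRow
      rw [if_pos ((hsite κ₀).2 rfl), hreg]
    · intro κ _ hne
      unfold CGeom.avgRow
      rw [if_neg fun h => hne ((hsite κ).1 h), mul_zero]
    · intro h
      exact absurd (Finset.mem_univ _) h
  have hν2 : (0 : ℝ) < (ν : ℝ) ^ 2 := by positivity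
  have hcard := pn_t31d_G3_card g ν hν κ₀
  have hTb : 0 ≤ Tb := (abs_nonneg _).trans (ht κ₀)
  rw [hval, abs_mul, abs_of_nonneg (a := ((g.cell κ₀).card : ℝ)⁻¹) (inv_nonneg.2 (Nat.cast_nonneg _)), div_eq_mul_inv]
  exact mul_le_mul (ht κ₀) (inv_anti₀ hν2 hcard) (inv_nonneg.2 (Nat.cast_nonneg _)) hTb

/-- one axis: the whole side is at least one cell side -/
theorem pn_t31d_G4_side {m : ℕ} (hm : 0 < m) (x : Fin (m + 1) → ℤ) (hx : StrictMono x) (n : ℕ)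
    (h : ∀ i : Fin m, (n : ℤ) ≤ x i.succ - x i.castSucc) : n ≤ (x (Fin.last m) - x 0).toNat := by
  have h1 := h ⟨0, hm⟩
  have e : (Fin.castSucc (⟨0, hm⟩ : Fin m)) = 0 := rfl
  rw [e] at h1
  have h2 : x (Fin.succ (⟨0, hm⟩ : Fin m)) ≤ x (Fin.last m) := hx.monotone (Fin.le_last _)
  omega

/-- the Laplacian is additive -/
theorem pn_t31d_G4_lap_sub (R : C2.Rc) (u v : ℤ × ℤ → ℝ) (x : ℤ × ℤ) :
    R.lap (fun y => u y - v y) x = R.lap u x - R.lap v x := by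
  unfold C2.Rc.lap
  rw [← Finset.sum_sub_distrib]
  refine Finset.sum_congr rfl fun e _ => ?_
  unfold C2.gd
  ring

/-- a field with vanishing free Laplacian has no gradient -/
theorem pn_t31d_G4_flat (R : C2.Rc) (d : ℤ × ℤ → ℝ) (h : ∀ x ∈ R.set, R.lap d x = 0) : ∀ e ∈ R.bd, C2.gd d e = 0 := by
  have h1 : roDir R.set d = 0 := by
    rw [ro_dir_eq_parts]
    refine Finset.sum_eq_zero fun x hx => ?_
    have : roLap R.set d x = 0 := h x hx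
    rw [this, zero_mul]
  unfold roDir at h1
  intro e he
  have h2 := (Finset.sum_eq_zero_iff_of_nonneg (fun e _ => sq_nonneg (C2.gd d e))).1 h1 e he
  exact pow_eq_zero_iff (two_ne_zero) |>.1 h2

/-- **L-T31D-G4** (~170 l.).  `C2.reg_smear_s` (Free/Pos.lean) on `R k = roRc (g k)` with `f₁ k = (R k).lap (w k)`, `f₂ = 0`: `h0` = `Pot.ro_lap_sum_zero` (`C2.Rc.lap R = roLap R.set` by `rfl`); `AdmSN`: `pn_fp_adm_rc` (Pins/Fp.lean) and
`ν k ≤ p, q` (telescoping, `0 < m₁, m₂`; cf. `Tor.lk_admN`, `Tor.lk_side`).   It gives a `Reg` sequence `γ` with `lap γ = lap w` on `R.set`; then `d = w - γ` has `lap d = 0` on `R.set`, so `R.dir d = ∑ lap d · d = 0` (`Pot.ro_dir_eq_parts`), all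
gradients of `d` on `R.bd` vanish, `R.dir (w - γ') = R.dir (γ - γ')` for every `γ'`: `Reg` passes from `γ` to `w`. -/
theorem pn_t31d_reg_of_lap {ν : ℕ → ℕ} {K : ℕ} {g : ℕ → DGrid m₁ m₂} (hg : Admissible K g ν) (hm₁ : 0 < m₁) (hm₂ : 0 < m₂)
    (w : ℕ → ℤ × ℤ → ℝ) (C : ℝ) (h : ∀ k, (ν k : ℝ) ^ 2 * ∑ x ∈ (roRc (g k)).set, (roRc (g k)).lap (w k) x ^ 2 ≤ C) :
    C2.Reg ν (fun k => roRc (g k)) w := by
  have hC : 0 ≤ C := le_trans (mul_nonneg (sq_nonneg _) (Finset.sum_nonneg fun _ _ => sq_nonneg _)) (h 0)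
  have hR : C2.AdmSN ν (fun k => roRc (g k)) := by
    refine ⟨⟨_, pn_fp_adm_rc hg⟩, 1, one_pos, fun k => ?_⟩
    have h1 : ν k ≤ (roRc (g k)).p := pn_t31d_G4_side hm₁ (g k).x₁ (g k).mono₁ (ν k) (hg.2 k).1.1
    have h2 : ν k ≤ (roRc (g k)).q := pn_t31d_G4_side hm₂ (g k).x₂ (g k).mono₂ (ν k) (hg.2 k).1.2
    rw [one_mul]
    exact ⟨by exact_mod_cast h1, by exact_mod_cast h2⟩
  obtain ⟨γ, hγ, hl⟩ := C2.reg_smear_s hg.1 hR (fun k => (roRc (g k)).lap (w k)) (fun _ _ => 0) C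
    (fun k => by
      simp only [add_zero]
      exact ro_lap_sum_zero _ _)
    h
    (fun k => by simpa using hC)
    (fun _ _ _ _ => rfl)
  intro ε hε
  obtain ⟨M, γ', hb, hev⟩ := hγ ε hε
  refine ⟨M, γ', hb, ?_⟩
  filter_upwards [hev] with k hk
  refine le_of_eq_of_le ?_ hk
  have hflat := pn_t31d_G4_flat (roRc (g k)) (fun y => w k y - γ k y) (fun x hx => by
    rw [pn_t31d_G4_lap_sub, hl k x hx]
    simp)
  unfold C2.Rc.dir C2.Rc.cost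
  refine Finset.sum_congr rfl fun e he => ?_
  have h3 := hflat e he
  unfold C2.gd at h3 ⊢
  have : w k e.snd - γ' k e.snd - (w k e.1 - γ' k e.1) = γ k e.snd - γ' k e.snd - (γ k e.1 - γ' k e.1) := by linarith
  rw [this]

/-- **L-T31D-G5** (~60 l.).  `a • amb u ∈ rspan` (`pn_t31d_mem_rspan`, `pn_t31d_sites_iff`, `hu`); `plB H a (a • amb u) φ = ∑_e ∇_e u ∇_e φ = pair (gradRow (amb u)) φ` (`pl_gradRow_eq`, `pl_pair_div`, no rows). -/
theorem pn_t31d_grow_opt {a : ℝ} (ha : 0 < a) (U Pn : Finset (C3.Cell m₁ m₂)) (g : DGrid m₁ m₂) (u : ℤ × ℤ → ℝ)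
    (hu : ∀ y ∈ g.region (U ∩ Pn), u y = 0) :
    plIsOpt (plaw U Pn g) a (gRow (polyG U Pn) g u) (a • amb (polyG U Pn) g u) := by
  refine ⟨?_, fun φ _ => ?_⟩
  · rw [pn_t31d_mem_rspan]
    intro x hx
    have h0 : u (vpos (polyG U Pn) g x) = 0 := hu _ ((pn_t31d_sites_iff U Pn g x).1 hx)
    show a * u (vpos (polyG U Pn) g x) = 0
    rw [h0, mul_zero]
  · have e1 : gRow (polyG U Pn) g u = plDiv (plGrad (amb (polyG U Pn) g u)) := rfl
    rw [e1, pl_pair_div, pl_B_smul_left]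
    unfold plB
    rw [Finset.univ_eq_empty (α := (plaw U Pn g).O), Finset.sum_empty, add_zero, ← mul_assoc, mul_inv_cancel₀ ha.ne', one_mul]

/-! ## 4. The class of shifts is a vector space -/

/-- a point of the pinned cells lies in every collar -/
theorem pn_t31d_shift_zero {ν : ℕ → ℕ} {U Pn : Finset (C3.Cell m₁ m₂)} {g : ℕ → DGrid m₁ m₂} {u : ℕ → ℤ × ℤ → ℝ}
    (hu : ShiftOK ν U Pn g u) (k : ℕ) : ∀ y ∈ (g k).region (U ∩ Pn), u k y = 0 := by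
  obtain ⟨-, δ, hδ, h⟩ := hu
  intro y hy
  refine h k y (pn_t31g_region_mono (g k) Finset.inter_subset_left hy) ⟨y, hy, ?_, ?_⟩ <;>
    · simp only [sub_self, Int.cast_zero, abs_zero]
      positivity

theorem pn_t31d_S_near_mono {S : Finset (ℤ × ℤ)} {r r' : ℝ} (h : r ≤ r') {x : ℤ × ℤ} (hx : roNear S r x) : roNear S r' x := by
  obtain ⟨y, hy, h1, h2⟩ := hx
  exact ⟨y, hy, h1.trans h, h2.trans h⟩

/-- **L-T31D-S** (~100 l. for the three).  `C2.reg_add`, `C2.reg_smul`; collars: `min δ δ'` (`roNear` is monotone in the radius). -/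
theorem pn_t31d_shift_add {ν : ℕ → ℕ} {U Pn : Finset (C3.Cell m₁ m₂)} {g : ℕ → DGrid m₁ m₂} {u u' : ℕ → ℤ × ℤ → ℝ}
    (hu : ShiftOK ν U Pn g u) (hu' : ShiftOK ν U Pn g u') : ShiftOK ν U Pn g fun k x => u k x + u' k x := by
  obtain ⟨h1, δ, hδ, h2⟩ := hu
  obtain ⟨h1', δ', hδ', h2'⟩ := hu'
  refine ⟨Free.fr_reg_add h1 h1', min δ δ', lt_min hδ hδ', fun k x hx hn => ?_⟩
  have hν : (0 : ℝ) ≤ ν k := Nat.cast_nonneg _
  show u k x + u' k x = 0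
  rw [h2 k x hx (pn_t31d_S_near_mono (mul_le_mul_of_nonneg_right (min_le_left _ _) hν) hn),
    h2' k x hx (pn_t31d_S_near_mono (mul_le_mul_of_nonneg_right (min_le_right _ _) hν) hn), add_zero]

theorem pn_t31d_shift_smul {ν : ℕ → ℕ} {U Pn : Finset (C3.Cell m₁ m₂)} {g : ℕ → DGrid m₁ m₂} {u : ℕ → ℤ × ℤ → ℝ}
    (hu : ShiftOK ν U Pn g u) (s : ℕ → ℝ) (M : ℝ) (hs : ∀ k, |s k| ≤ M) : ShiftOK ν U Pn g fun k x => s k * u k x := by
  obtain ⟨h1, δ, hδ, h2⟩ := hu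
  refine ⟨Free.fr_reg_smul h1 s M hs, δ, hδ, fun k x hx hn => ?_⟩
  show s k * u k x = 0
  rw [h2 k x hx hn, mul_zero]

theorem pn_t31d_S_zero {ν : ℕ → ℕ} {U Pn : Finset (C3.Cell m₁ m₂)} {g : ℕ → DGrid m₁ m₂} :
    ShiftOK ν U Pn g fun _ _ => 0 := by
  refine ⟨Free.fr_reg_c2 _ 0 fun k => ⟨fun e _ => ?_, fun e _ d _ _ => ?_⟩, 1, one_pos, fun _ _ _ _ => rfl⟩
  · simp [C2.gd]
  · simp [C2.gd]

/-- induction on `J` (`Fin.sum_univ_succ`) or `Finset.induction_on`; the zero shift: `C2.reg_c2` with `M = 0` -/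
theorem pn_t31d_shift_sum {ν : ℕ → ℕ} {U Pn : Finset (C3.Cell m₁ m₂)} {g : ℕ → DGrid m₁ m₂} {J : ℕ} {u : Fin J → ℕ → ℤ × ℤ → ℝ}
    (hu : ∀ i, ShiftOK ν U Pn g (u i)) (s : ℕ → Fin J → ℝ) (M : ℝ) (hs : ∀ k i, |s k i| ≤ M) :
    ShiftOK ν U Pn g fun k x => ∑ i, s k i * u i k x := by
  have key : ∀ T : Finset (Fin J), ShiftOK ν U Pn g fun k x => ∑ i ∈ T, s k i * u i k x := by
    intro T
    induction T using Finset.induction_on with
    | empty => simpa using pn_t31d_S_zero (ν := ν) (U := U) (Pn := Pn) (g := g)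
    | insert i T hi ih =>
      have h1 := pn_t31d_shift_add (pn_t31d_shift_smul (hu i) (fun k => s k i) M fun k => hs k i) ih
      have e : (fun k x => ∑ j ∈ insert i T, s k j * u j k x) = fun k x => s k i * u i k x + ∑ j ∈ T, s k j * u j k x := by
        funext k x
        rw [Finset.sum_insert hi]
      rw [e]
      exact h1
  exact key Finset.univ

/-- **L-T31D-B** (~60 l.).  `C2.reg_bdd_s` on `roRc (g k)` (`AdmS` by `pn_fp_adm_rc`), `pn_fp_dirT_le` (Pins/FpGeo: `dirT Γ g u ≤ (roRc g).dir u`). -/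
theorem pn_t31d_shift_bdd {ν : ℕ → ℕ} {U Pn : Finset (C3.Cell m₁ m₂)} {K : ℕ} {g : ℕ → DGrid m₁ m₂} (hg : Admissible K g ν)
    {u : ℕ → ℤ × ℤ → ℝ} (hu : ShiftOK ν U Pn g u) : ∃ C : ℝ, ∀ᶠ k in atTop, pdir U Pn (g k) (u k) ≤ C := by
  obtain ⟨C, hC⟩ := pn_fp_reg_bdd hg.1 _ (pn_fp_adm_rc hg) hu.1
  exact ⟨C, hC.mono fun k hk => (pn_fp_dirT_le (polyG U Pn) (g k) (u k)).trans hk⟩

/-! ## 5. SHIFTS: `ShiftLimOn` from the inputs -/

/-- **L-T31D-A1** (~90 l.).  ONE GRAPH: releasing the pins increases the transform.  The two graphs are equal by `rfl` (`polyG U Pn` and `polyG U ∅` have the same cells and cuts), `plaw U Pn g = glaw (pinned ..) noB`-like (rows `Fin 0`):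
`r := refSub (Λ := HLaw.pinned (sites ∅)) (Λ' := HLaw.pinned (sites Pn)) (by every height vanishes on the empty set of sites) B β`, `lsys_mgf_mono r`, `HLaw.ok_of_isEmpty`, `Real.log_le_log`;
`(pgrad U ∅ g β u).comp r.psi = pgrad U Pn g β u` (both are `flowS` of the same coefficients and `r.psi` is the identity on the Bessel coordinates; or `pn_t31_lift_refSub` + `pn_t31_lift_flow` + `pn_t31_lift_unique`). -/
theorem pn_t31d_release (U Pn : Finset (C3.Cell m₁ m₂)) (g : DGrid m₁ m₂) (β : ℝ) (hβ : 0 < β) (u : ℤ × ℤ → ℝ) :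
    lLap (psys U Pn g β) (pgrad U Pn g β u) ≤ lLap (psys U ∅ g β) (pgrad U ∅ g β u) := pn_t31_rel_lap U Pn g β hβ u

theorem pn_t31d_pdir_pin (U Pn : Finset (C3.Cell m₁ m₂)) (g : DGrid m₁ m₂) (u : ℤ × ℤ → ℝ) : pdir U Pn g u = pdir U ∅ g u := rfl

/-- **EXIT 1.** -/
theorem pn_t31d_shift {a : ℝ} {b : ℕ → ℝ} {ν : ℕ → ℕ} (hb : ∀ k, 0 < b k) (hFP : FPLap a b ν) (hCore : CoreLow a b ν)
    (U Pn : Finset (C3.Cell m₁ m₂)) (hU : Pot.Poly U) : ShiftLimOn a b ν U Pn := by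
  intro K g hg u hu
  by_cases hP : U ∩ Pn = ∅
  · exact hFP m₁ m₂ U Pn hU hP K g hg u hu.1
  · have hne : (U ∩ Pn).Nonempty := Finset.nonempty_iff_ne_empty.2 hP
    have hup := hFP m₁ m₂ U ∅ hU (Finset.inter_empty U) K g hg u hu.1
    refine tendsto_order.2 ⟨fun c hc => ?_, fun c hc => ?_⟩
    · filter_upwards [hCore m₁ m₂ U Pn hU hne K g hg u hu (-c) (by linarith)] with k hk
      have h1 := lsys_laplace_lower _ (HLaw.ok_of_isEmpty (plaw U Pn (g k)) (b k) (hb k)) (pgrad U Pn (g k) (b k) (u k))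
      have h2 : lLap (psys U Pn (g k) (b k)) (pgrad U Pn (g k) (b k) (u k))
          = Real.log ((psys U Pn (g k) (b k)).E0 fun z => Real.exp (pgrad U Pn (g k) (b k) (u k) z)) := rfl
      have h3 : (psys U Pn (g k) (b k)).V0 (pgrad U Pn (g k) (b k) (u k)) / 2
          ≤ Real.log ((psys U Pn (g k) (b k)).E0 fun z => Real.exp (pgrad U Pn (g k) (b k) (u k) z)) := h1
      rw [h2]
      linarith
    · filter_upwards [hup.eventually (gt_mem_nhds hc)] with k hk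
      have h1 := pn_t31d_release U Pn (g k) (b k) (hb k) (u k)
      rw [pn_t31d_pdir_pin U Pn]
      linarith

/-! ## 6. DENSITY on one polygon -/

theorem pn_t31d_amb_smul (Γ : CGeom m₁ m₂) (g : DGrid m₁ m₂) (s : ℝ) (u : ℤ × ℤ → ℝ) :
    amb Γ g (fun x => s * u x) = s • amb Γ g u := rfl

theorem pn_t31d_amb_add (Γ : CGeom m₁ m₂) (g : DGrid m₁ m₂) (u u' : ℤ × ℤ → ℝ) :
    amb Γ g (fun x => u x + u' x) = amb Γ g u + amb Γ g u' := rfl

theorem pn_t31d_amb_sub (Γ : CGeom m₁ m₂) (g : DGrid m₁ m₂) (u u' : ℤ × ℤ → ℝ) :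
    amb Γ g (fun x => u x - u' x) = amb Γ g u - amb Γ g u' := rfl

/-- the gradient row is linear in the shift -/
theorem pn_t31d_gRow_sum (Γ : CGeom m₁ m₂) (g : DGrid m₁ m₂) {J : ℕ} (s : Fin J → ℝ) (u : Fin J → ℤ × ℤ → ℝ) :
    ∑ i, s i • gRow Γ g (u i) = gRow Γ g fun x => ∑ i, s i * u i x := by
  funext x
  simp only [gRow, HLaw.gradRow, amb, domFn, Finset.sum_apply, Pi.smul_apply, smul_eq_mul, Finset.mul_sum]
  rw [Finset.sum_comm]
  refine Finset.sum_congr rfl fun e _ => ?_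
  rw [← Finset.sum_sub_distrib, Finset.sum_mul]
  exact Finset.sum_congr rfl fun i _ => by ring

theorem pn_t31d_nu_pos {U : Finset (C3.Cell m₁ m₂)} (hne : U.Nonempty) (g : DGrid m₁ m₂) {K ν : ℕ} (hK : g.SideLe (K * ν)) : 0 < ν := by
  obtain ⟨κ, -⟩ := hne
  rcases Nat.eq_zero_or_pos ν with h | h
  · exfalso
    have h1 := hK.1 κ.1
    have h2 : g.x₁ κ.1.castSucc < g.x₁ κ.1.succ := g.mono₁ (Fin.castSucc_lt_succ)
    rw [h] at h1
    simp only [mul_zero, Nat.cast_zero] at h1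
    omega
  · exact h

/-- the optimiser of a cell test satisfies the hypotheses of `pot_regopt`, `ro_apriori` -/
theorem pn_t31d_opt_hyp {a : ℝ} (ha : 0 < a) (U Pn : Finset (C3.Cell m₁ m₂)) (g : DGrid m₁ m₂) (ν : ℕ) (hν0 : 0 < ν) (hν : g.SideGe ν)
    (t : C3.Cell m₁ m₂ → ℝ) (Tb : ℝ) (ht : ∀ κ, |t κ| ≤ Tb) {v : ((polyG U Pn).graph g).V → ℝ}
    (hv : plIsOpt (plaw U Pn g) a ((polyG U Pn).cellTest g t) v) :
    ∀ x ∈ g.region U, x ∉ g.region (U ∩ Pn) → |roLap (g.region U) (ext0 (polyG U Pn) g v) x| ≤ a * Tb / (ν : ℝ) ^ 2 := by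
  intro x hx hxP
  rw [pn_t31d_opt_lap ha U Pn g hv x hx hxP, abs_mul, abs_of_pos ha, mul_div_assoc]
  exact mul_le_mul_of_nonneg_left (pn_t31d_cell_bd U Pn g ν hν0 hν t Tb ht _) ha.le

theorem pn_t31d_dE_ext0 (U Pn : Finset (C3.Cell m₁ m₂)) (g : DGrid m₁ m₂) (v : ((polyG U Pn).graph g).V → ℝ) :
    dE v = roDir (g.region U) (ext0 (polyG U Pn) g v) := by
  rw [← pn_t31d_dE_amb U Pn g, pn_t31d_amb_ext0]

/-- a priori bound of the optimiser of a cell test -/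
theorem pn_t31d_opt_energy (m₁ m₂ K : ℕ) : ∃ C : ℝ, 0 ≤ C ∧ ∀ (a : ℝ), 0 < a → ∀ (U Pn : Finset (C3.Cell m₁ m₂)), roConn U → U.Nonempty →
    ∀ (g : DGrid m₁ m₂) (ν : ℕ), g.SideGe ν → g.SideLe (K * ν) → ∀ (t : C3.Cell m₁ m₂ → ℝ) (Tb : ℝ), (∀ κ, |t κ| ≤ Tb) →
    ∀ v : ((polyG U Pn).graph g).V → ℝ, plIsOpt (plaw U Pn g) a ((polyG U Pn).cellTest g t) v → dE v ≤ C * (a * Tb) ^ 2 := by
  obtain ⟨C, hC, h⟩ := ro_apriori m₁ m₂ K
  refine ⟨C, hC, fun a ha U Pn hU hne g ν hν hK t Tb ht v hv => ?_⟩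
  have hν0 := pn_t31d_nu_pos hne g hK
  have hTb : 0 ≤ Tb := (abs_nonneg _).trans (ht hne.choose)
  rw [pn_t31d_dE_ext0]
  exact h U Pn hU g ν hν0 hν hK (a * Tb) (by positivity) _ (pn_t31d_opt_zero U Pn g hv)
    (pn_t31d_opt_hyp ha U Pn g ν hν0 hν t Tb ht hv)

/-- **EXIT 2: DENSITY.**  Gaussian Laplace limit on one polygon for cell tests and gradient tests with bounded moving coefficients. -/
theorem pn_t31d_cell {a : ℝ} {b : ℕ → ℝ} {ν : ℕ → ℕ} (ha : 0 < a) (hb : ∃ b₀ b₁ : ℝ, 0 < b₀ ∧ ∀ k, b₀ ≤ b k ∧ b k ≤ b₁)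
    (U Pn : Finset (C3.Cell m₁ m₂)) (hU : Pot.Poly U) (hne : U.Nonempty) (hSL : ShiftLimOn a b ν U Pn)
    (K : ℕ) (g : ℕ → DGrid m₁ m₂) (hg : Admissible K g ν) {J : ℕ} (u : Fin J → ℕ → ℤ × ℤ → ℝ) (hu : ∀ i, ShiftOK ν U Pn g (u i))
    (t : ℕ → C3.Cell m₁ m₂ → ℝ) (s : ℕ → Fin J → ℝ) (Tb : ℝ) (ht : ∀ k κ, |t k κ| ≤ Tb) (hs : ∀ k i, |s k i| ≤ Tb) :
    LapLim a (fun k => plaw U Pn (g k)) b
      (fun k => (polyG U Pn).cellTest (g k) (t k) + ∑ i, s k i • gRow (polyG U Pn) (g k) (u i k)) := by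
  intro X hX
  obtain ⟨b₀, b₁, hb₀, hbb⟩ := hb
  have hb0 : ∀ k, 0 < b k := fun k => lt_of_lt_of_le hb₀ (hbb k).1
  have hm : 0 < m₁ ∧ 0 < m₂ := by
    obtain ⟨κ, -⟩ := hne
    exact ⟨κ.1.pos, κ.2.pos⟩
  have hν0 : ∀ k, 0 < ν k := fun k => pn_t31d_nu_pos hne (g k) (hg.2 k).2
  -- the gradient part
  obtain ⟨Ug, hUgd⟩ : ∃ Ug : ℕ → ℤ × ℤ → ℝ, Ug = fun k x => ∑ i, s k i * u i k x := ⟨_, rfl⟩
  have hUg : ShiftOK ν U Pn g Ug := by rw [hUgd]; exact pn_t31d_shift_sum hu s Tb hs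
  have hfg : ∀ k, ∑ i, s k i • gRow (polyG U Pn) (g k) (u i k) = gRow (polyG U Pn) (g k) (Ug k) := by
    intro k
    rw [hUgd]
    exact pn_t31d_gRow_sum (polyG U Pn) (g k) (s k) fun i => u i k
  have hoptg : ∀ k, plIsOpt (plaw U Pn (g k)) a (gRow (polyG U Pn) (g k) (Ug k)) (a • amb (polyG U Pn) (g k) (Ug k)) :=
    fun k => pn_t31d_grow_opt ha U Pn (g k) (Ug k) (pn_t31d_shift_zero hUg k)
  -- the cell part
  have hadm : ∀ k, plAdm (plaw U Pn (g k)) ((polyG U Pn).cellTest (g k) (t k)) := by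
    intro k
    have h1 : plAdm (plaw U Pn (g k)) ((polyG U Pn).cellTest (g k) (t k) + ∑ i, s k i • gRow (polyG U Pn) (g k) (u i k)) :=
      pn_t31_lift_adm (plaw U Pn (g k)) (b k) (HLaw.ok_of_isEmpty _ _ (hb0 k)) (hX k)
    have h2 := pl_adm_sub _ h1 (pl_adm_of_opt _ (hoptg k))
    rw [hfg k, add_sub_cancel_right] at h2
    exact h2
  choose vc hvc using fun k => pl_opt_exists (plaw U Pn (g k)) ha (hadm k)
  have hv : ∀ k, plIsOpt (plaw U Pn (g k)) a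
      ((polyG U Pn).cellTest (g k) (t k) + ∑ i, s k i • gRow (polyG U Pn) (g k) (u i k))
      (vc k + a • amb (polyG U Pn) (g k) (Ug k)) := by
    intro k
    rw [hfg k]
    exact pl_opt_add _ (hvc k) (hoptg k)
  -- energies
  obtain ⟨C₁, hC₁, hap⟩ := pn_t31d_opt_energy m₁ m₂ K
  obtain ⟨C₂, hC₂⟩ := pn_t31d_shift_bdd hg hUg
  have hE : ∀ᶠ k in atTop, dE (vc k + a • amb (polyG U Pn) (g k) (Ug k)) ≤ 2 * (C₁ * (a * Tb) ^ 2) + 2 * (a ^ 2 * C₂) := by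
    filter_upwards [hC₂] with k hk
    have h1 := pn_t31d_dE_add_le (vc k) (a • amb (polyG U Pn) (g k) (Ug k))
    have h2 := hap a ha U Pn hU.conn hne (g k) (ν k) (hg.2 k).1 (hg.2 k).2 (t k) Tb (ht k) (vc k) (hvc k)
    have h3 : dE (a • amb (polyG U Pn) (g k) (Ug k)) ≤ a ^ 2 * C₂ := by
      rw [pn_t31d_dE_smul]
      exact mul_le_mul_of_nonneg_left hk (sq_nonneg _)
    linarith
  have : ∀ k, IsEmpty ((fun k => plaw U Pn (g k)) k).O := fun k => pn_t31d_isEmpty U Pn (g k)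
  refine pn_t31d_dense ha (fun k => plaw U Pn (g k)) b hb0 (fun k => (hbb k).2) _ _ hv _ hE ?_ X hX
  -- the approximation
  intro ε hε
  obtain ⟨C, δ, ν₀, hδ, hreg⟩ := pot_regopt U Pn hU K (a * Tb) ε hε
  have hex : ∀ k, ∃ w : ℤ × ℤ → ℝ, (∀ x, roNear ((g k).region (U ∩ Pn)) (δ * ν k) x → w x = 0) ∧
      (ν₀ ≤ ν k → roDir ((g k).region U) (fun x => ext0 (polyG U Pn) (g k) (vc k) x - w x) ≤ ε) ∧
      (ν k : ℝ) ^ 2 * ∑ x ∈ (roRc (g k)).set, (roRc (g k)).lap w x ^ 2 ≤ max C 0 := by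
    intro k
    by_cases hk : ν₀ ≤ ν k
    · obtain ⟨w, h1, h2, h3⟩ := hreg (g k) (ν k) hk (hg.2 k).1 (hg.2 k).2 (ext0 (polyG U Pn) (g k) (vc k))
        (pn_t31d_opt_zero U Pn (g k) (hvc k)) (pn_t31d_opt_hyp ha U Pn (g k) (ν k) (hν0 k) (hg.2 k).1 (t k) Tb (ht k) (hvc k))
      exact ⟨w, h1, fun _ => h2, h3.trans (le_max_left _ _)⟩
    · refine ⟨fun _ => 0, fun _ _ => rfl, fun h => absurd h hk, ?_⟩
      have : ∀ x, (roRc (g k)).lap (fun _ => 0) x = 0 := by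
        intro x
        simp [C2.Rc.lap, C2.gd]
      simp only [this]
      simp
  choose w hw1 hw2 hw3 using hex
  have hwS : ShiftOK ν U Pn g w :=
    ⟨pn_t31d_reg_of_lap hg hm.1 hm.2 w (max C 0) hw3, δ, hδ, fun k x _ hx => hw1 k x hx⟩
  have hWS : ShiftOK ν U Pn g fun k x => w k x + a * Ug k x :=
    pn_t31d_shift_add hwS (pn_t31d_shift_smul hUg (fun _ => a) |a| fun _ => le_rfl)
  refine ⟨fun k => amb (polyG U Pn) (g k) fun x => w k x + a * Ug k x, ?_, fun s' => ?_⟩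
  · filter_upwards [hg.1.eventually_ge_atTop ν₀] with k hk
    have e1 : vc k + a • amb (polyG U Pn) (g k) (Ug k) - amb (polyG U Pn) (g k) (fun x => w k x + a * Ug k x)
        = amb (polyG U Pn) (g k) (fun x => ext0 (polyG U Pn) (g k) (vc k) x - w k x) := by
      rw [pn_t31d_amb_sub, pn_t31d_amb_ext0, pn_t31d_amb_add, pn_t31d_amb_smul]
      abel
    rw [e1, pn_t31d_dE_amb]
    exact hw2 k hk
  · have h := hSL K g hg (fun k x => s' * (w k x + a * Ug k x)) (pn_t31d_shift_smul hWS (fun _ => s') |s'| fun _ => le_rfl)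
    refine h.congr fun k => ?_
    rw [pn_t31d_pgrad_eq, pn_t31d_pdir_eq, pn_t31d_amb_smul, pn_t31d_dE_smul]
    rfl

/-- Cauchy-Schwarz for the energy of a linear combination -/
theorem pn_t31d_bd_sum {G : HGraph} {J : ℕ} (s : Fin J → ℝ) (w : Fin J → G.V → ℝ) (Tb E : ℝ) (hs : ∀ i, |s i| ≤ Tb)
    (hw : ∀ i, dE (w i) ≤ E) : dE (fun x => ∑ i, s i * w i x) ≤ (J : ℝ) ^ 2 * Tb ^ 2 * E := by
  have h1 : ∀ e : G.E, plGrad (fun x => ∑ i, s i * w i x) e ^ 2 ≤ (J : ℝ) * ∑ i, (s i * plGrad (w i) e) ^ 2 := by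
    intro e
    have e1 : plGrad (fun x => ∑ i, s i * w i x) e = ∑ i, s i * plGrad (w i) e := by
      unfold plGrad
      rw [← Finset.sum_sub_distrib]
      exact Finset.sum_congr rfl fun i _ => by ring
    rw [e1]
    have := sq_sum_le_card_mul_sum_sq (s := (Finset.univ : Finset (Fin J))) (f := fun i => s i * plGrad (w i) e)
    simpa using this
  have h2 : ∀ i, s i ^ 2 * dE (w i) ≤ Tb ^ 2 * E := by
    intro i
    have h3 : s i ^ 2 ≤ Tb ^ 2 := by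
      rw [← sq_abs (s i)]
      exact pow_le_pow_left₀ (abs_nonneg _) (hs i) 2
    calc s i ^ 2 * dE (w i) ≤ Tb ^ 2 * dE (w i) := mul_le_mul_of_nonneg_right h3 (pn_t31d_dE_nonneg _)
      _ ≤ Tb ^ 2 * E := mul_le_mul_of_nonneg_left (hw i) (sq_nonneg _)
  calc dE (fun x => ∑ i, s i * w i x) ≤ ∑ e : G.E, (J : ℝ) * ∑ i, (s i * plGrad (w i) e) ^ 2 := Finset.sum_le_sum fun e _ => h1 e
    _ = (J : ℝ) * ∑ i, s i ^ 2 * dE (w i) := by
        rw [← Finset.mul_sum, Finset.sum_comm]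
        congr 1
        refine Finset.sum_congr rfl fun i _ => ?_
        unfold dE
        rw [Finset.mul_sum]
        exact Finset.sum_congr rfl fun e _ => by ring
    _ ≤ (J : ℝ) * ∑ _i : Fin J, Tb ^ 2 * E := mul_le_mul_of_nonneg_left (Finset.sum_le_sum fun i _ => h2 i) (Nat.cast_nonneg _)
    _ = (J : ℝ) ^ 2 * Tb ^ 2 * E := by
        rw [Finset.sum_const, Finset.card_univ, Fintype.card_fin, nsmul_eq_mul]
        ring

/-- **L-T31D-BD** (~150 l.).  **EXIT 3: reference bound on ONE graph.**  If the test is not admissible: `pl_gVar_of_not_adm`, the right side is `≥ 0`.  Otherwise as in the proof of `pn_t31d_cell`: `∑ s_i • gRow (u i) = gRow Ug` (`pn_t31d_gRow_sum`),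
optimiser `v = vc + a • amb Ug` (`pn_t31d_grow_opt`, `pl_opt_exists`, `pl_opt_add`), `gVar = a dE (a⁻¹ • v) = a⁻¹ dE v` (`pn_t31d_gVar_opt`, `pn_t31d_dE_smul`), `dE v ≤ 2 dE vc + 2 a² dE (amb Ug)` (`pn_t31d_dE_add_le`),
`dE vc ≤ C (a Tb)²` (`C` from `pn_t31d_opt_energy`), `dE (amb Ug) ≤ J ∑_i s_i² dE (amb (u i)) ≤ J² Tb² E` (Cauchy-Schwarz per edge: `(∑_i s_i x_i)² ≤ J ∑_i s_i² x_i²`, `sq_sum_le_card_mul_sum_sq`). -/
theorem pn_t31d_bd (m₁ m₂ K : ℕ) : ∃ C : ℝ, 0 ≤ C ∧ ∀ (a : ℝ), 0 < a → ∀ (U Pn : Finset (C3.Cell m₁ m₂)), roConn U → U.Nonempty →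
    ∀ (g : DGrid m₁ m₂) (ν : ℕ), g.SideGe ν → g.SideLe (K * ν) → ∀ (J : ℕ) (u : Fin J → ℤ × ℤ → ℝ) (E : ℝ),
    (∀ i, ∀ y ∈ g.region (U ∩ Pn), u i y = 0) → (∀ i, pdir U Pn g (u i) ≤ E) →
    ∀ (t : C3.Cell m₁ m₂ → ℝ) (s : Fin J → ℝ) (Tb : ℝ), (∀ κ, |t κ| ≤ Tb) → (∀ i, |s i| ≤ Tb) →
      (plaw U Pn g).gVar a ((polyG U Pn).cellTest g t + ∑ i, s i • gRow (polyG U Pn) g (u i)) ≤ 2 * a * Tb ^ 2 * (C + (J : ℝ) ^ 2 * E) := by
  obtain ⟨C, hC, hap⟩ := pn_t31d_opt_energy m₁ m₂ K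
  refine ⟨C, hC, fun a ha U Pn hU hne g ν hν hK J u E hu0 huE t s Tb ht hs => ?_⟩
  have hJE : 0 ≤ (J : ℝ) ^ 2 * E := by
    rcases Nat.eq_zero_or_pos J with h | h
    · rw [h]; simp
    · have : 0 ≤ E := (pn_t31d_dE_nonneg (amb (polyG U Pn) g (u ⟨0, h⟩))).trans (huE ⟨0, h⟩)
      positivity
  by_cases hadm0 : plAdm (plaw U Pn g) ((polyG U Pn).cellTest g t + ∑ i, s i • gRow (polyG U Pn) g (u i))
  swap
  · rw [pl_gVar_of_not_adm _ ha hadm0]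
    positivity
  obtain ⟨Ug, hUgd⟩ : ∃ Ug : ℤ × ℤ → ℝ, Ug = fun x => ∑ i, s i * u i x := ⟨_, rfl⟩
  have hfg : ∑ i, s i • gRow (polyG U Pn) g (u i) = gRow (polyG U Pn) g Ug := by
    rw [hUgd]
    exact pn_t31d_gRow_sum (polyG U Pn) g s u
  have hUg0 : ∀ y ∈ g.region (U ∩ Pn), Ug y = 0 := by
    intro y hy
    rw [hUgd]
    exact Finset.sum_eq_zero fun i _ => by rw [hu0 i y hy, mul_zero]
  have hoptg : plIsOpt (plaw U Pn g) a (gRow (polyG U Pn) g Ug) (a • amb (polyG U Pn) g Ug) :=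
    pn_t31d_grow_opt ha U Pn g Ug hUg0
  have hadm : plAdm (plaw U Pn g) ((polyG U Pn).cellTest g t) := by
    have h2 := pl_adm_sub _ hadm0 (pl_adm_of_opt _ hoptg)
    rw [hfg, add_sub_cancel_right] at h2
    exact h2
  obtain ⟨vc, hvc⟩ := pl_opt_exists (plaw U Pn g) ha hadm
  have hv : plIsOpt (plaw U Pn g) a ((polyG U Pn).cellTest g t + ∑ i, s i • gRow (polyG U Pn) g (u i))
      (vc + a • amb (polyG U Pn) g Ug) := by
    rw [hfg]
    exact pl_opt_add _ hvc hoptg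
  have h1 := pn_t31d_dE_add_le vc (a • amb (polyG U Pn) g Ug)
  have h2 := hap a ha U Pn hU hne g ν hν hK t Tb ht vc hvc
  have h3 : dE (amb (polyG U Pn) g Ug) ≤ (J : ℝ) ^ 2 * Tb ^ 2 * E := by
    rw [hUgd]
    exact pn_t31d_bd_sum s (fun i => amb (polyG U Pn) g (u i)) Tb E hs huE
  rw [pn_t31d_gVar_opt ha _ hv, pn_t31d_dE_smul]
  rw [pn_t31d_dE_smul] at h1
  have h4 : dE (vc + a • amb (polyG U Pn) g Ug) ≤ 2 * (C * (a * Tb) ^ 2) + 2 * (a ^ 2 * ((J : ℝ) ^ 2 * Tb ^ 2 * E)) := by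
    have := mul_le_mul_of_nonneg_left h3 (sq_nonneg a)
    linarith
  calc a * (a⁻¹ ^ 2 * dE (vc + a • amb (polyG U Pn) g Ug))
      ≤ a * (a⁻¹ ^ 2 * (2 * (C * (a * Tb) ^ 2) + 2 * (a ^ 2 * ((J : ℝ) ^ 2 * Tb ^ 2 * E)))) :=
        mul_le_mul_of_nonneg_left (mul_le_mul_of_nonneg_left h4 (sq_nonneg _)) ha.le
    _ = 2 * a * Tb ^ 2 * (C + (J : ℝ) ^ 2 * E) := by
        field_simp

/-! ## 7. The names of the interface `Pins/T31If.lean` -/

/-- the empty polygon -/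
theorem pn_t31d_empty {a : ℝ} (ha : 0 < a) (b : ℕ → ℝ) (hb0 : ∀ k, 0 < b k) (Pn : Finset (C3.Cell m₁ m₂)) (g : ℕ → DGrid m₁ m₂)
    (f : ∀ k, ((polyG ∅ Pn).graph (g k)).V → ℝ) : LapLim a (fun k => plaw ∅ Pn (g k)) b f := by
  intro X hX
  have key : ∀ k, lLap ((plaw ∅ Pn (g k)).sys (b k)) (X k) - (plaw ∅ Pn (g k)).gVar a (f k) / 2 = 0 := by
    intro k
    have hE : IsEmpty ((polyG ∅ Pn).graph (g k)).V := ⟨fun v => by
      have h : vpos (polyG ∅ Pn) (g k) v ∈ (g k).region ∅ := v.2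
      simp [DGrid.region] at h⟩
    have hv : plIsOpt (plaw ∅ Pn (g k)) a (f k) 0 :=
      ⟨Submodule.zero_mem _, fun u _ => by rw [pl_B_zero_left]; simp [HLaw.pair]⟩
    have hOk := HLaw.ok_of_isEmpty (plaw ∅ Pn (g k)) (b k) (hb0 k)
    have h0 : dE (0 : ((polyG ∅ Pn).graph (g k)).V → ℝ) = 0 := by
      have := pn_t31d_dE_smul (0 : ℝ) (0 : ((polyG ∅ Pn).graph (g k)).V → ℝ)
      simpa using this
    rw [pn_t31d_lift_opt (plaw ∅ Pn (g k)) (b k) hv (hX k), pn_t31d_gVar_opt ha (plaw ∅ Pn (g k)) hv, smul_zero, h0]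
    have h1 := pn_t31d_ref (plaw ∅ Pn (g k)) (b k) (b k) hOk le_rfl 0
    have h2 := pn_t31_S_nonneg _ hOk (gX (plaw ∅ Pn (g k)) (b k) 0)
    rw [h0] at h1
    simp only [Real.sqrt_zero, mul_zero, Real.cosh_zero, sub_self] at h1
    have h3 : lLap ((plaw ∅ Pn (g k)).sys (b k)) (gX (plaw ∅ Pn (g k)) (b k) 0) = 0 := le_antisymm h1 h2
    rw [h3]
    ring
  exact (tendsto_const_nhds (x := (0 : ℝ))).congr fun k => (key k).symm

theorem pn_t31d_shift_free {a : ℝ} {b : ℕ → ℝ} {ν : ℕ → ℕ} {U Pn : Finset (C3.Cell m₁ m₂)} (hFP : FPLap a b ν) (hU : Pot.Poly U)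
    (hP : U ∩ Pn = ∅) : ShiftLimOn a b ν U Pn := fun K g hg u hu => hFP m₁ m₂ U Pn hU hP K g hg u hu.1

theorem pn_t31d_shift_pin {a : ℝ} {b : ℕ → ℝ} {ν : ℕ → ℕ} {U Pn : Finset (C3.Cell m₁ m₂)} (hS : C3.Scen a b ν) (hFP : FPLap a b ν)
    (hCore : CoreLow a b ν) (hU : Pot.Poly U) (_hP : (U ∩ Pn).Nonempty) : ShiftLimOn a b ν U Pn := by
  obtain ⟨b₀, b₁, hb₀, hbb⟩ := hS.b_cpt
  exact pn_t31d_shift (fun k => lt_of_lt_of_le hb₀ (hbb k).1) hFP hCore U Pn hU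

theorem pn_t31d_compLim {a : ℝ} {b : ℕ → ℝ} {ν : ℕ → ℕ} {U Pn : Finset (C3.Cell m₁ m₂)} (hS : C3.Scen a b ν) (hU : Pot.Poly U)
    (hSL : ShiftLimOn a b ν U Pn) : CompLimOn a b ν U Pn := by
  intro K g hg t Tb ht u hu _
  rcases U.eq_empty_or_nonempty with rfl | hne
  · obtain ⟨b₀, b₁, hb₀, hbb⟩ := hS.b_cpt
    exact pn_t31d_empty hS.a_pos b (fun k => lt_of_lt_of_le hb₀ (hbb k).1) Pn g _
  · have h := pn_t31d_cell hS.a_pos hS.b_cpt U Pn hU hne hSL K g hg (J := 1) (fun _ => u) (fun _ => hu) t (fun _ _ => 1) (max Tb 1)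
      (fun k κ => (ht k κ).trans (le_max_left _ _)) (fun _ _ => by simp)
    have e : (fun k => (polyG U Pn).cellTest (g k) (t k) + ∑ _i : Fin 1, (1 : ℝ) • gRow (polyG U Pn) (g k) (u k))
        = fun k => (polyG U Pn).cellTest (g k) (t k) + gRow (polyG U Pn) (g k) (u k) := by
      funext k
      simp
    rw [e] at h
    exact h

end

end Claimed.Agent.R285.Pins
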