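import Claimed.Agent.R285.Pins.T31Geo

/-!
# ROW 285, PINS, package T31 (architect helper217).  FILE 3b: THE INTERFACE BETWEEN DENSITY (helper115, helper170: `Pins/T31Den*.lean`) AND COMPONENTS/ROWS (`Pins/T31Main.lean`).

DENSITY delivers (names fixed, file `Pins/T31Den.lean`):
 * `pn_t31d_shift_free : FPLap a b ν → Pot.Poly U → U ∩ Pn = ∅ → ShiftLimOn a b ν U Pn`
 * `pn_t31d_shift_pin  : C3.Scen a b ν → FPLap a b ν → CoreLow a b ν → Pot.Poly U → (U ∩ Pn).Nonempty → ShiftLimOn a b ν U Pn`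
 * `pn_t31d_compLim    : C3.Scen a b ν → Pot.Poly U → ShiftLimOn a b ν U Pn → CompLimOn a b ν U Pn`
`T31Main` consumes `CompLimOn` for the components of a `NoDiag` geometry as a HYPOTHESIS (so the pin-free case, which CORE-LIM needs, does not depend on `CoreLow`).
-/

set_option autoImplicit false

namespace Claimed.Agent.R285.Pins

open Filter Topology MeasureTheory Pot
open scoped Classical

noncomputable section

variable {m₁ m₂ : ℕ}

/-- **DENSITY**: Gaussian Laplace limit on ONE polygon for (bounded moving cell test) + (gradient test of one shift of the class, energy bounded for ALL `k`), all lifts. -/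
def CompLimOn (a : ℝ) (b : ℕ → ℝ) (ν : ℕ → ℕ) (U Pn : Finset (C3.Cell m₁ m₂)) : Prop :=
  ∀ (K : ℕ) (g : ℕ → DGrid m₁ m₂), Admissible K g ν → ∀ (t : ℕ → C3.Cell m₁ m₂ → ℝ) (Tb : ℝ), (∀ k κ, |t k κ| ≤ Tb) →
    ∀ u : ℕ → ℤ × ℤ → ℝ, ShiftOK ν U Pn g u → (∃ Eb : ℝ, ∀ k, pdir U Pn (g k) (u k) ≤ Eb) →
      LapLim a (fun k => plaw U Pn (g k)) b (fun k => (polyG U Pn).cellTest (g k) (t k) + gRow (polyG U Pn) (g k) (u k))

end

end Claimed.Agent.R285.Pins
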