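import Claimed.Agent.R285.Pins.T31Ref
import Claimed.Agent.R285.Pins.T31If
import Claimed.Agent.R285.Free.Grid

/-!
# ROW 285, PINS, package T31 (architect helper217).  FILE 6: COMPONENTS + ROWS ⟹ THE GAUSSIAN LIMITS OF A GEOMETRY.   PAPER-FREE.     Plan of the package: header of `Pins/T31Geo.lean`.

INPUT = `GeoIn a b ν Γ` (a HYPOTHESIS here): `CompLimOn` on every component (DENSITY, `Pins/T31Den.lean`), `PhaseOn` on every free component (FP).      For a pin-free `Γ` it does not depend on the exploration core.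
OUTPUT = `pn_t31_geo_*`: law `C3.lawR Γ (g k) (R k)` with MOVING bounded rows (uniformly confining, `UConf1`), tests = `cellTest (t k) + gRow (∑_j s k j • u j k)`, bounded moving coefficients: Laplace, tilt, variance, characters.
Every `sorry` is a LEAF (`L-T31M-*`, name in the docstring); statements frozen (tell helper217 at once if one looks false or awkward); prove IN PLACE, helpers directly above, prefix `pn_t31m_<leaf>_`.
-/

set_option autoImplicit false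

namespace Claimed.Agent.R285.Pins

open Filter Topology MeasureTheory Pot
open scoped Classical

noncomputable section

variable {m₁ m₂ : ℕ}

/-! ## 1. Vocabulary -/

/-- what the geometry needs from DENSITY and FP -/
structure GeoIn (a : ℝ) (b : ℕ → ℝ) (ν : ℕ → ℕ) (Γ : CGeom m₁ m₂) : Prop where
  comp : ∀ U ∈ comps Γ, CompLimOn a b ν U Γ.pin
  phase : ∀ U ∈ freeC Γ, PhaseOn b ν U Γ.pin

/-- a finite family of shifts of the class, energies bounded for ALL `k` -/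
structure ShFam (Γ : CGeom m₁ m₂) (ν : ℕ → ℕ) (g : ℕ → DGrid m₁ m₂) {J : ℕ} (u : Fin J → ℕ → ℤ × ℤ → ℝ) : Prop where
  ok : ∀ j, ∀ U ∈ comps Γ, ShiftOK ν U Γ.pin g (u j)
  en : ∃ E : ℝ, ∀ k j, C3.dirT Γ (g k) (u j k) ≤ E

/-- variance limit of ONE sequence of tests in a sequence of laws (all lifts) -/
def VarLim (a : ℝ) {G : ℕ → HGraph} (H : ∀ k, HLaw (G k)) (b : ℕ → ℝ) (f : ∀ k, (G k).V → ℝ) : Prop :=
  ∀ X : ∀ k, ((H k).sys (b k)).L →+ ℝ, (∀ k, (H k).Lift (b k) (f k) (X k)) →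
    Tendsto (fun k => ((H k).sys (b k)).V0 (X k) - (H k).gVar a (f k)) atTop (𝓝 0)

/-- limit of the characters -/
def PhiLim (a : ℝ) {G : ℕ → HGraph} (H : ∀ k, HLaw (G k)) (b : ℕ → ℝ) (f : ∀ k, (G k).V → ℝ) : Prop :=
  ∀ X : ∀ k, ((H k).sys (b k)).L →+ ℝ, (∀ k, (H k).Lift (b k) (f k) (X k)) →
    Tendsto (fun k => ((H k).sys (b k)).phi (X k) - Real.exp (-(H k).gVar a (f k) / 2)) atTop (𝓝 0)

/-- tilted limit with observation centres -/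
def TiltLim (a : ℝ) {G : ℕ → HGraph} (H : ∀ k, HLaw (G k)) (b : ℕ → ℝ) (f : ∀ k, (G k).V → ℝ) (c : ∀ k, (H k).O → ℝ) : Prop :=
  ∀ X : ∀ k, ((H k).sys (b k)).L →+ ℝ, (∀ k, (H k).Lift (b k) (f k) (X k)) →
    Tendsto (fun k => 2 * Real.log (((H k).sys (b k)).wT (HLaw.Aff.amb (H := H k) ⟨0, 0, c k⟩ (b k)) (X k) / ((H k).sys (b k)).w 0)
        - (H k).gTilt a 0 (c k) (f k)) atTop (𝓝 0)

/-- the tests of the exits -/
def geoT (Γ : CGeom m₁ m₂) (g : ℕ → DGrid m₁ m₂) {J : ℕ} (u : Fin J → ℕ → ℤ × ℤ → ℝ) (t : ℕ → C3.Cell m₁ m₂ → ℝ) (s : ℕ → Fin J → ℝ) :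
    ∀ k, (Γ.graph (g k)).V → ℝ := fun k => Γ.cellTest (g k) (t k) + gRow Γ (g k) (cmbU u s k)

/-! ## 2. Scales -/

theorem pn_t31m_sc_trans {ν ν' ν'' : ℕ → ℕ} (h : C3.Comp ν ν') (h' : C3.Comp ν' ν'') : C3.Comp ν ν'' := by
  obtain ⟨c, hc⟩ := h
  obtain ⟨c', hc'⟩ := h'
  refine ⟨c * c', fun k => ⟨?_, ?_⟩⟩
  · calc ν k ≤ c * ν' k := (hc k).1
      _ ≤ c * (c' * ν'' k) := Nat.mul_le_mul_left c (hc' k).1
      _ = c * c' * ν'' k := by ring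
  · calc ν'' k ≤ c' * ν' k := (hc' k).2
      _ ≤ c' * (c * ν k) := Nat.mul_le_mul_left c' (hc k).2
      _ = c * c' * ν k := by ring

/-- **L-T31M-SC** (~80 l.).  Comparable scales.   `a_pos`, `b_cpt`: the same.   `free`: `C3.Comp` is transitive (constants multiply).   `coef`: `Free.fr_scaleCoef_comparable` (look at its statement in `Free/Grid.lean`; `c = 0` in `Comp` is impossible eventually since `ν → ∞`:
use `1 / max c 1` and `max c 1`). -/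
theorem pn_t31_scen_comp {a : ℝ} {b : ℕ → ℝ} {ν ν' : ℕ → ℕ} (hS : C3.Scen a b ν) (h : C3.Comp ν ν') : C3.Scen a b ν' := by
  refine ⟨hS.a_pos, hS.b_cpt, ?_, ?_⟩
  · intro m₁ m₂ K g ν'' hg hc
    exact hS.free m₁ m₂ K g ν'' hg (pn_t31m_sc_trans h hc)
  · obtain ⟨c, hc⟩ := h
    have hm : (0 : ℝ) < max (c : ℝ) 1 := lt_of_lt_of_le one_pos (le_max_right _ _)
    refine Free.fr_scaleCoef_comparable hS.coef (1 / max (c : ℝ) 1) (max (c : ℝ) 1) (by positivity) (Eventually.of_forall fun k => ⟨?_, ?_⟩)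
    · have h1 : (ν k : ℝ) ≤ (c : ℝ) * ν' k := by exact_mod_cast (hc k).1
      have h2 : (c : ℝ) * ν' k ≤ max (c : ℝ) 1 * ν' k := mul_le_mul_of_nonneg_right (le_max_left _ _) (Nat.cast_nonneg _)
      rw [one_div, inv_mul_le_iff₀ hm]
      exact h1.trans h2
    · have h1 : (ν' k : ℝ) ≤ (c : ℝ) * ν k := by exact_mod_cast (hc k).2
      exact h1.trans (mul_le_mul_of_nonneg_right (le_max_left _ _) (Nat.cast_nonneg _))

/-! ## 3. Shifts -/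

theorem pn_t31m_sh_gd {J : ℕ} (c : Fin J → ℝ) (w : Fin J → ℤ × ℤ → ℝ) (e : Bond) :
    C2.gd (fun x => ∑ j, c j * w j x) e = ∑ j, c j * C2.gd (w j) e := by
  unfold C2.gd
  rw [← Finset.sum_sub_distrib]
  exact Finset.sum_congr rfl fun j _ => by ring

theorem pn_t31m_sh_abs {J : ℕ} (c : Fin J → ℝ) (x : Fin J → ℝ) (M : Fin J → ℝ) (Tb d : ℝ) (hd : 0 ≤ d) (hc : ∀ j, |c j| ≤ Tb)
    (hx : ∀ j, |x j| ≤ M j / d) : |∑ j, c j * x j| ≤ (∑ j, |Tb| * |M j|) / d := by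
  calc |∑ j, c j * x j| ≤ ∑ j, |c j * x j| := Finset.abs_sum_le_sum_abs _ _
    _ ≤ ∑ j, |Tb| * |M j| / d := by
        refine Finset.sum_le_sum fun j _ => ?_
        rw [abs_mul, mul_div_assoc]
        refine mul_le_mul ((hc j).trans (le_abs_self _)) ?_ (abs_nonneg _) (abs_nonneg _)
        exact (hx j).trans (div_le_div_of_nonneg_right (le_abs_self _) hd)
    _ = (∑ j, |Tb| * |M j|) / d := by rw [Finset.sum_div]

theorem pn_t31m_sh_c2 {J : ℕ} (c : Fin J → ℝ) (γ : Fin J → ℤ × ℤ → ℝ) (M : Fin J → ℝ) (Tb : ℝ) (n : ℕ) (R : C2.Rc) (hc : ∀ j, |c j| ≤ Tb)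
    (h : ∀ j, C2.C2bd (M j) n R (γ j)) : C2.C2bd (∑ j, |Tb| * |M j|) n R (fun x => ∑ j, c j * γ j x) := by
  refine ⟨fun e he => ?_, fun e he u hu he' => ?_⟩
  · rw [pn_t31m_sh_gd]
    exact pn_t31m_sh_abs c _ M Tb n (Nat.cast_nonneg _) hc fun j => (h j).1 e he
  · rw [pn_t31m_sh_gd, pn_t31m_sh_gd, ← Finset.sum_sub_distrib]
    have e1 : ∀ j, c j * C2.gd (γ j) (e.1 + u, e.2) - c j * C2.gd (γ j) e = c j * (C2.gd (γ j) (e.1 + u, e.2) - C2.gd (γ j) e) := fun j => by ring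
    simp only [e1]
    exact pn_t31m_sh_abs c _ M Tb ((n : ℝ) ^ 2) (by positivity) hc fun j => (h j).2 e he u hu he'

theorem pn_t31m_sh_dir {J : ℕ} (c : Fin J → ℝ) (w : Fin J → ℤ × ℤ → ℝ) (Tb E : ℝ) (R : C2.Rc) (hc : ∀ j, |c j| ≤ Tb)
    (h : ∀ j, R.dir (w j) ≤ E) : R.dir (fun x => ∑ j, c j * w j x) ≤ (J : ℝ) ^ 2 * Tb ^ 2 * E := by
  unfold C2.Rc.dir C2.Rc.cost at h ⊢
  calc ∑ e ∈ R.bd, C2.gd (fun x => ∑ j, c j * w j x) e ^ 2
      ≤ ∑ e ∈ R.bd, (J : ℝ) * ∑ j, Tb ^ 2 * C2.gd (w j) e ^ 2 := by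
        refine Finset.sum_le_sum fun e _ => ?_
        rw [pn_t31m_sh_gd]
        have h1 := sq_sum_le_card_mul_sum_sq (s := (Finset.univ : Finset (Fin J))) (f := fun j => c j * C2.gd (w j) e)
        rw [Finset.card_univ, Fintype.card_fin] at h1
        refine h1.trans (mul_le_mul_of_nonneg_left (Finset.sum_le_sum fun j _ => ?_) (Nat.cast_nonneg _))
        rw [mul_pow]
        refine mul_le_mul_of_nonneg_right ?_ (sq_nonneg _)
        rw [← sq_abs (c j)]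
        exact pow_le_pow_left₀ (abs_nonneg _) (hc j) 2
    _ = (J : ℝ) * Tb ^ 2 * ∑ j, ∑ e ∈ R.bd, C2.gd (w j) e ^ 2 := by
        rw [← Finset.mul_sum, Finset.sum_comm, mul_assoc]
        congr 1
        rw [Finset.mul_sum]
        refine Finset.sum_congr rfl fun j _ => ?_
        rw [Finset.mul_sum]
    _ ≤ (J : ℝ) * Tb ^ 2 * ∑ _j : Fin J, E := by
        refine mul_le_mul_of_nonneg_left (Finset.sum_le_sum fun j _ => h j) (by positivity)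
    _ = (J : ℝ) ^ 2 * Tb ^ 2 * E := by
        rw [Finset.sum_const, Finset.card_univ, Fintype.card_fin, nsmul_eq_mul]
        ring

theorem pn_t31m_sh_min {J : ℕ} (δ : Fin J → ℝ) (h : ∀ j, 0 < δ j) : ∃ d : ℝ, 0 < d ∧ ∀ j, d ≤ δ j := by
  rcases Nat.eq_zero_or_pos J with rfl | hJ
  · exact ⟨1, one_pos, fun j => j.elim0⟩
  · have : Nonempty (Fin J) := ⟨⟨0, hJ⟩⟩
    obtain ⟨j0, hj0⟩ := Finite.exists_min δ
    exact ⟨δ j0, h j0, hj0⟩

/-- **L-T31M-SH** (~200 l.).  The class of shifts is stable under bounded MOVING combinations.   `Reg`: given `ε`, take `(M_j, γ_j)` for `ε' = ε / (J² Tb² + 1)`; `γ k = ∑_j s k j γ_j k` has `C2bd (∑_j |Tb| M_j)` (`C2.gd` is linear; triangle inequality; NOTE `M_j ≥ 0` is not given: if `R.bd` is empty all is trivial,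
otherwise `0 ≤ |gd| ≤ M_j / n`; simplest: replace `M_j` by `|M_j|`, `div_le_div_of_nonneg_right`), and `dir (∑_j s_j w_j) ≤ J ∑_j s_j² dir w_j` (Cauchy-Schwarz `sq_sum_le_card_mul_sum_sq` bond by bond).
Collar: `δ = ` the minimum of the `δ_j` (induction on `J`, or `Finset.exists_min_image`; `J = 0`: `δ = 1`), `roNear` is monotone in the radius. -/
theorem pn_t31m_shift_cmb {ν : ℕ → ℕ} (U Pn : Finset (C3.Cell m₁ m₂)) (g : ℕ → DGrid m₁ m₂) {J : ℕ} (u : Fin J → ℕ → ℤ × ℤ → ℝ)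
    (hu : ∀ j, ShiftOK ν U Pn g (u j)) (s : ℕ → Fin J → ℝ) (Tb : ℝ) (hs : ∀ k j, |s k j| ≤ Tb) : ShiftOK ν U Pn g (cmbU u s) := by
  refine ⟨?_, ?_⟩
  · intro ε hε
    have hp : 0 < (J : ℝ) ^ 2 * Tb ^ 2 + 1 := by positivity
    have h1 := fun j => (hu j).1 (ε / ((J : ℝ) ^ 2 * Tb ^ 2 + 1)) (div_pos hε hp)
    choose M γ hM hγ using h1
    refine ⟨∑ j, |Tb| * |M j|, fun k x => ∑ j, s k j * γ j k x, fun k => ?_, ?_⟩
    · exact pn_t31m_sh_c2 (s k) (fun j => γ j k) M Tb (ν k) (roRc (g k)) (hs k) fun j => hM j k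
    · have h2 : ∀ᶠ k in atTop, ∀ j, (roRc (g k)).dir (fun v => u j k v - γ j k v) ≤ ε / ((J : ℝ) ^ 2 * Tb ^ 2 + 1) :=
        eventually_all.2 hγ
      refine h2.mono fun k hk => ?_
      have e1 : (fun v => cmbU u s k v - ∑ j, s k j * γ j k v) = fun x => ∑ j, s k j * (fun v => u j k v - γ j k v) x := by
        funext v
        unfold cmbU
        rw [← Finset.sum_sub_distrib]
        exact Finset.sum_congr rfl fun j _ => by ring
      show (roRc (g k)).dir (fun v => cmbU u s k v - ∑ j, s k j * γ j k v) ≤ ε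
      rw [e1]
      refine (pn_t31m_sh_dir (s k) _ Tb _ (roRc (g k)) (hs k) hk).trans ?_
      rw [← mul_div_assoc, div_le_iff₀ hp]
      nlinarith [hε.le]
  · have h1 := fun j => (hu j).2
    choose δ hδ h2 using h1
    obtain ⟨d, hd, hdj⟩ := pn_t31m_sh_min δ hδ
    refine ⟨d, hd, fun k x hx hn => ?_⟩
    unfold cmbU
    refine Finset.sum_eq_zero fun j _ => ?_
    rw [h2 j k x hx ?_, mul_zero]
    obtain ⟨y, hy, a1, a2⟩ := hn
    have h3 : d * (ν k : ℝ) ≤ δ j * ν k := mul_le_mul_of_nonneg_right (hdj j) (Nat.cast_nonneg _)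
    exact ⟨y, hy, a1.trans h3, a2.trans h3⟩

/-- **L-T31M-EN** (~100 l.).  The bonds of the polygon of a component are bonds of `Γ` (`pn_t31g_bond_of_comp`, `pn_t31g_poly_bonds`): inject the edges (`Finset.sum_le_sum_of_subset_of_nonneg` after rewriting both `Fintype` sums over subtypes as sums over the `Finset`s `domBonds ..`). -/
theorem pn_t31m_pdir_le (Γ : CGeom m₁ m₂) (hΓ : Γ.NoDiag) (g : DGrid m₁ m₂) {U : Finset (C3.Cell m₁ m₂)} (hU : U ∈ comps Γ) (w : ℤ × ℤ → ℝ) :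
    pdir U Γ.pin g w ≤ C3.dirT Γ g w := by
  have e1 : pdir U Γ.pin g w = ∑ e ∈ domBonds (g.region (polyG U Γ.pin).T) ((polyG U Γ.pin).cutB g), C2.gd w e ^ 2 :=
    Finset.sum_coe_sort (domBonds (g.region (polyG U Γ.pin).T) ((polyG U Γ.pin).cutB g)) fun e => C2.gd w e ^ 2
  have e2 : C3.dirT Γ g w = ∑ e ∈ domBonds (g.region Γ.T) (Γ.cutB g), C2.gd w e ^ 2 :=
    Finset.sum_coe_sort (domBonds (g.region Γ.T) (Γ.cutB g)) fun e => C2.gd w e ^ 2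
  rw [e1, e2, pn_t31g_poly_bonds]
  exact Finset.sum_le_sum_of_subset_of_nonneg (fun e he => pn_t31g_bond_of_comp Γ hΓ g hU he) fun _ _ _ => sq_nonneg _

/-! ## 4. No rows: the product of the components -/

/-- the law without rows of the scenario -/
theorem pn_t31m_law0 (Γ : CGeom m₁ m₂) (g : ℕ → DGrid m₁ m₂) (b : ℕ → ℝ) {J : ℕ} (u : Fin J → ℕ → ℤ × ℤ → ℝ) :
    (geoX Γ g b u).law (geoX Γ g b u).R0 = fun k => C3.lawR Γ (g k) C3.noRow := by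
  rw [pn_t31r_R0, pn_t31s_law]
  rfl

/-- **L-T31M-G0** (~200 l., GLUE).  ONE sequence of tests, law without rows.   For a lift `X`: `Y k U` from `pn_t31g_split_lift` (choose; junk `0` for `U ∉ comps Γ`); `pullV (cellTest t + gRow w) = cellTest t + gRow w` on the polygon (`pn_t31g_pull_add`, `pn_t31g_pull_cellTest`, `pn_t31g_pull_gRow`);
`hC U` gives the limit on every component (`pn_t31m_pdir_le` for the energy); `pn_t31g_split_le/ge` give `lLap_Γ X = ∑_U lLap_U (Y U)`, `pn_t31g_split_gVar` (admissible: `pn_t31_lift_adm`, `pn_t31g_split_ok`) the same for `gVar`; `tendsto_finset_sum`. -/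
theorem pn_t31m_lap0 (Γ : CGeom m₁ m₂) (hΓ : Γ.NoDiag) {a : ℝ} (ha : 0 < a) {b : ℕ → ℝ} (hb : ∀ k, 0 < b k) {ν : ℕ → ℕ}
    (hC : ∀ U ∈ comps Γ, CompLimOn a b ν U Γ.pin) (K : ℕ) (g : ℕ → DGrid m₁ m₂) (hg : Admissible K g ν)
    (t : ℕ → C3.Cell m₁ m₂ → ℝ) (Tb : ℝ) (ht : ∀ k κ, |t k κ| ≤ Tb) (w : ℕ → ℤ × ℤ → ℝ) (hw : ∀ U ∈ comps Γ, ShiftOK ν U Γ.pin g w)
    (hE : ∃ E : ℝ, ∀ k, C3.dirT Γ (g k) (w k) ≤ E) :
    LapLim a (fun k => C3.lawR Γ (g k) C3.noRow) b (fun k => Γ.cellTest (g k) (t k) + gRow Γ (g k) (w k)) := by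
  intro X hX
  obtain ⟨E, hE⟩ := hE
  have hex : ∀ (k : ℕ) (U : Finset (C3.Cell m₁ m₂)), ∃ Y : (psys U Γ.pin (g k) (b k)).L →+ ℝ, U ∈ comps Γ →
      (plaw U Γ.pin (g k)).Lift (b k) (pullV Γ U (g k) (Γ.cellTest (g k) (t k) + gRow Γ (g k) (w k))) Y := by
    intro k U
    by_cases hU : U ∈ comps Γ
    · obtain ⟨Y, hY⟩ := pn_t31g_split_lift Γ hΓ (g k) (b k) hU _ (X k) (hX k)
      exact ⟨Y, fun _ => hY⟩
    · exact ⟨0, fun h => absurd h hU⟩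
  choose Y hY using hex
  have hpull : ∀ (k : ℕ), ∀ U ∈ comps Γ, pullV Γ U (g k) (Γ.cellTest (g k) (t k) + gRow Γ (g k) (w k))
      = (polyG U Γ.pin).cellTest (g k) (t k) + gRow (polyG U Γ.pin) (g k) (w k) := by
    intro k U hU
    rw [pn_t31g_pull_add, pn_t31g_pull_cellTest Γ (g k) hU, pn_t31g_pull_gRow Γ hΓ (g k) hU]
  have hlim : ∀ U ∈ comps Γ, Tendsto (fun k => lLap (psys U Γ.pin (g k) (b k)) (Y k U)
      - (plaw U Γ.pin (g k)).gVar a (pullV Γ U (g k) (Γ.cellTest (g k) (t k) + gRow Γ (g k) (w k))) / 2) atTop (𝓝 0) := by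
    intro U hU
    have h := hC U hU K g hg t Tb ht w (hw U hU) ⟨E, fun k => (pn_t31m_pdir_le Γ hΓ (g k) hU (w k)).trans (hE k)⟩
      (fun k => Y k U) (fun k => by
        have := hY k U hU
        rw [hpull k U hU] at this
        exact this)
    refine h.congr fun k => ?_
    rw [hpull k U hU]
    rfl
  have hsum := tendsto_finsetSum (comps Γ) hlim
  rw [Finset.sum_const_zero] at hsum
  refine hsum.congr fun k => ?_
  have h1 : lLap ((C3.lawR Γ (g k) C3.noRow).sys (b k)) (X k) = ∑ U ∈ comps Γ, lLap (psys U Γ.pin (g k) (b k)) (Y k U) :=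
    le_antisymm (pn_t31g_split_le Γ hΓ (g k) (b k) (hb k) _ (X k) (hX k) (Y k) (hY k))
      (pn_t31g_split_ge Γ hΓ (g k) (b k) (hb k) _ (X k) (hX k) (Y k) (hY k))
  have h2 := pn_t31g_split_gVar Γ hΓ (g k) ha _ (pn_t31_lift_adm _ (b k) (pn_t31g_split_ok Γ (g k) (b k) (hb k)) (hX k))
  rw [h1, h2, Finset.sum_div, Finset.sum_sub_distrib]

/-- the Gaussian limit of the scenario without rows -/
theorem pn_t31m_GL0 (Γ : CGeom m₁ m₂) (hΓ : Γ.NoDiag) {a : ℝ} (ha : 0 < a) {b : ℕ → ℝ} (hb : ∀ k, 0 < b k) {ν : ℕ → ℕ}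
    (hC : ∀ U ∈ comps Γ, CompLimOn a b ν U Γ.pin) (K : ℕ) (g : ℕ → DGrid m₁ m₂) (hg : Admissible K g ν)
    {J : ℕ} (u : Fin J → ℕ → ℤ × ℤ → ℝ) (hu : ShFam Γ ν g u) : (geoX Γ g b u).GLim a (geoX Γ g b u).R0 := by
  rw [pn_t31s_GLim_iff]
  intro t Tb ht
  rw [pn_t31m_law0]
  obtain ⟨E, hE⟩ := hu.en
  have h := pn_t31m_lap0 Γ hΓ ha hb hC K g hg (fun k κ => t k (Sum.inl κ)) Tb (fun k κ => ht k _)
    (cmbU u fun k j => t k (Sum.inr j))
    (fun U hU => pn_t31m_shift_cmb U Γ.pin g u (fun j => hu.ok j U hU) _ Tb fun k j => ht k _)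
    ⟨(J : ℝ) ^ 2 * Tb ^ 2 * E, fun k => pn_t31r_dir_cmb Γ (g k) (fun j => u j k) _ Tb E (fun j => ht k _) (fun j => hE k j)⟩
  have e : (fun k => (geoX Γ g b u).tst k (t k)) =
      fun k => Γ.cellTest (g k) (fun κ => t k (Sum.inl κ)) + gRow Γ (g k) (cmbU u (fun k j => t k (Sum.inr j)) k) := by
    funext k
    exact pn_t31s_tst' Γ g b u k (t k)
  rw [e]
  exact h

/-! ## 5. Rows -/

theorem pn_t31m_bdd (Γ : CGeom m₁ m₂) (g : ℕ → DGrid m₁ m₂) (b : ℕ → ℝ) {J : ℕ} (u : Fin J → ℕ → ℤ × ℤ → ℝ) {N : ℕ}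
    (R : ℕ → Fin N → C3.Cell m₁ m₂ → ℝ) (hR : ∃ Rb : ℝ, ∀ k o κ, |R k o κ| ≤ Rb) : (geoX Γ g b u).Bdd (rX R) := by
  obtain ⟨Rb, hRb⟩ := hR
  refine ⟨|Rb|, fun k o κ => ?_⟩
  rcases κ with κ | j
  · exact (hRb k o κ).trans (le_abs_self _)
  · show |(0 : ℝ)| ≤ _
    rw [abs_zero]
    exact abs_nonneg _

theorem pn_t31m_allOk (Γ : CGeom m₁ m₂) (g : ℕ → DGrid m₁ m₂) (b : ℕ → ℝ) {J : ℕ} (u : Fin J → ℕ → ℤ × ℤ → ℝ) {N : ℕ}
    (R : ℕ → Fin N → C3.Cell m₁ m₂ → ℝ) (hOk : ∀ k, ((C3.lawR Γ (g k) (R k)).sys (b k)).Ok) : (geoX Γ g b u).AllOk (rX R) := by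
  intro k
  have e := congrFun (pn_t31s_law Γ g b u R) k
  show (((geoX Γ g b u).law (rX R) k).sys (b k)).Ok
  rw [e]
  exact hOk k

/-- **THE MAIN THEOREM AT THE LEVEL OF SCENARIOS.** -/
theorem pn_t31m_GL {a : ℝ} {b : ℕ → ℝ} {ν : ℕ → ℕ} (ha : 0 < a) (hb : ∀ k, 0 < b k) (Γ : CGeom m₁ m₂) (hΓ : Γ.NoDiag) (hIn : GeoIn a b ν Γ)
    (K : ℕ) (g : ℕ → DGrid m₁ m₂) (hg : Admissible K g ν) {J : ℕ} (u : Fin J → ℕ → ℤ × ℤ → ℝ) (hu : ShFam Γ ν g u) {N : ℕ}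
    (R : ℕ → Fin N → C3.Cell m₁ m₂ → ℝ) (hR : ∃ Rb : ℝ, ∀ k o κ, |R k o κ| ≤ Rb) (hU : UConf1 Γ R)
    (hOk : ∀ k, ((C3.lawR Γ (g k) (R k)).sys (b k)).Ok) : (geoX Γ g b u).GLim a (rX R) := by
  have hBD0 : (geoX Γ g b u).BD a (geoX Γ g b u).R0 := by
    rw [pn_t31r_R0]
    exact pn_t31r_BD Γ K g hg b u hu.en ha _ ⟨0, fun _ o _ => o.elim0⟩ ⟨1, one_pos, fun _ => pn_t31r_conf_zero Γ 1 _⟩
  exact pn_t31_rows (geoX Γ g b u) (geoFrc Γ g b u) ha hb (pn_t31s_PH Γ hΓ K g hg b hb u hIn.phase) hBD0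
    (pn_t31m_GL0 Γ hΓ ha hb hIn.comp K g hg u hu) (rX R) (pn_t31m_bdd Γ g b u R hR) (pn_t31m_allOk Γ g b u R hOk)
    (pn_t31r_BD Γ K g hg b u hu.en ha R hR hU) (pn_t31r_OB Γ K g hg b u hu.en ha R hR hU)

/-! ## 6. EXITS on `C3.lawR` -/

section Exits

variable {a : ℝ} {b : ℕ → ℝ} {ν : ℕ → ℕ} (ha : 0 < a) (hb : ∀ k, 0 < b k) (Γ : CGeom m₁ m₂) (hΓ : Γ.NoDiag) (hIn : GeoIn a b ν Γ)
    (K : ℕ) (g : ℕ → DGrid m₁ m₂) (hg : Admissible K g ν) {J : ℕ} (u : Fin J → ℕ → ℤ × ℤ → ℝ) (hu : ShFam Γ ν g u) {N : ℕ}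
    (R : ℕ → Fin N → C3.Cell m₁ m₂ → ℝ) (hR : ∃ Rb : ℝ, ∀ k o κ, |R k o κ| ≤ Rb) (hU : UConf1 Γ R)
    (hOk : ∀ k, ((C3.lawR Γ (g k) (R k)).sys (b k)).Ok)
    (t : ℕ → C3.Cell m₁ m₂ → ℝ) (s : ℕ → Fin J → ℝ) (Tb : ℝ) (ht : ∀ k κ, |t k κ| ≤ Tb) (hs : ∀ k j, |s k j| ≤ Tb)

theorem pn_t31m_tst_eq : (fun k => (geoX Γ g b u).tst k (Sum.elim (t k) (s k))) = geoT Γ g u t s := by
  funext k
  exact pn_t31s_tst Γ g b u k (t k) (s k)

theorem pn_t31m_elim_bd (k : ℕ) (i : C3.Cell m₁ m₂ ⊕ Fin J) (ht : ∀ k κ, |t k κ| ≤ Tb) (hs : ∀ k j, |s k j| ≤ Tb) :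
    |(Sum.elim (t k) (s k) : C3.Cell m₁ m₂ ⊕ Fin J → ℝ) i| ≤ Tb := by
  rcases i with κ | j
  · exact ht k κ
  · exact hs k j

include ha hb hΓ hIn hg hu hR hU hOk ht hs

/-- **EXIT: Laplace.** -/
theorem pn_t31_geo_lap : LapLim a (fun k => C3.lawR Γ (g k) (R k)) b (geoT Γ g u t s) := by
  have h := (pn_t31s_GLim_iff _ a _).1 (pn_t31m_GL ha hb Γ hΓ hIn K g hg u hu R hR hU hOk) (fun k => Sum.elim (t k) (s k)) Tb
    (fun k i => pn_t31m_elim_bd t s Tb k i ht hs)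
  rw [pn_t31s_law, pn_t31m_tst_eq] at h
  exact h

/-- **EXIT: variances.** -/
theorem pn_t31_geo_var : VarLim a (fun k => C3.lawR Γ (g k) (R k)) b (geoT Γ g u t s) := by
  have h : VarLim a ((geoX Γ g b u).law (rX R)) b (fun k => (geoX Γ g b u).tst k (Sum.elim (t k) (s k))) := fun X hX =>
    pn_t31_exit_var (geoX Γ g b u) ha (rX R) (pn_t31m_allOk Γ g b u R hOk) (pn_t31r_BD Γ K g hg b u hu.en ha R hR hU)
      (pn_t31m_GL ha hb Γ hΓ hIn K g hg u hu R hR hU hOk) (fun k => Sum.elim (t k) (s k)) Tb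
      (fun k i => pn_t31m_elim_bd t s Tb k i ht hs) X hX
  rw [pn_t31s_law, pn_t31m_tst_eq] at h
  exact h

/-- **EXIT: characters.** -/
theorem pn_t31_geo_phi : PhiLim a (fun k => C3.lawR Γ (g k) (R k)) b (geoT Γ g u t s) := by
  have h : PhiLim a ((geoX Γ g b u).law (rX R)) b (fun k => (geoX Γ g b u).tst k (Sum.elim (t k) (s k))) := fun X hX =>
    pn_t31_exit_phi (geoX Γ g b u) ha (rX R) (pn_t31m_allOk Γ g b u R hOk) (pn_t31r_BD Γ K g hg b u hu.en ha R hR hU)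
      (pn_t31m_GL ha hb Γ hΓ hIn K g hg u hu R hR hU hOk) (fun k => Sum.elim (t k) (s k)) Tb
      (fun k i => pn_t31m_elim_bd t s Tb k i ht hs) X hX
  rw [pn_t31s_law, pn_t31m_tst_eq] at h
  exact h

/-- **EXIT: tilts with moving observation centres.** -/
theorem pn_t31_geo_tilt (c : ℕ → Fin N → ℝ) (hc : ∀ k o, |c k o| ≤ Tb) :
    TiltLim a (fun k => C3.lawR Γ (g k) (R k)) b (geoT Γ g u t s) c := by
  have h : ∀ c : ∀ k, ((geoX Γ g b u).law (rX R) k).O → ℝ, (∀ k o, |c k o| ≤ Tb) →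
      TiltLim a ((geoX Γ g b u).law (rX R)) b (fun k => (geoX Γ g b u).tst k (Sum.elim (t k) (s k))) c := fun c hc X hX =>
    pn_t31_exit_tilt (geoX Γ g b u) ha (rX R) (pn_t31m_bdd Γ g b u R hR) (pn_t31m_allOk Γ g b u R hOk)
      (pn_t31m_GL ha hb Γ hΓ hIn K g hg u hu R hR hU hOk) (fun k => Sum.elim (t k) (s k)) c Tb
      (fun k i => pn_t31m_elim_bd t s Tb k i ht hs) hc X hX
  rw [pn_t31s_law, pn_t31m_tst_eq] at h
  exact h c hc

end Exits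

end

end Claimed.Agent.R285.Pins
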