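import Claimed.Agent.R285.Pins.SignDefs

/-!
# ROW 285, PINS: common DEFINITIONS of blueprint v2 (`Pins/Plan.lean`, sections 1-7).   Owner helper235.   No sorry here.

Vocabulary of `FkDefs` (helper85) and of the first part of `SignDefs` (helper64): ONE finite graph `G`, integer heights, band rows `d i : G.V → ℝ` with weights `a i ≥ 0` (`a i = (2π)² λ |d_i|`),
`bq a d h = ∑ a_i ⟨d_i,h⟩²`, `bW = exp(-bq/2)`, `bI / bZ / bE` (values in `ℝ≥0∞`), `bVal d h = (⟨d_i,h⟩)_i`, `bRow a d c = ∑ a_i c_i d_i`.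
New here:
* `FlowLe G U f R t₀` : the test `f`, on functions vanishing on `U`, is a flow with squared `ℓ²` norm `≤ R` and sup norm `≤ t₀`;
* `bIr`, `bEr`, `bSm`  : REAL band integral / expectation / absolute summability (for signed integrands: covariances, cosines);
* `BOk G P a d`        : the pins and the rows control every constant (all band laws pinned on supersets of `P`, at all temperatures, are then proper `LSys` laws);
* `linA f h = ∑ f_v |h_v|`;  `bTilt a d u k = L_u(k) = - ∑ a_i ⟨d_i,u⟩⟨d_i,k⟩`  (`bq (u+k) = bq u + bq k - 2 L_u(k)`);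
* `bGd d T u` (regime of the exposed part), `bBad d T h` (bad event);
* `ACon G A U` : `U` is a possible visited set of an exploration from `A`;   `AnchF` : the anchoring hypothesis in FLOW form ((AN2) of the blueprint);
* `Post G b U β'` : `β'` is an admissible vector of posterior temperatures.
-/

set_option autoImplicit false

namespace Claimed.Agent.R285.Pins

open scoped Classical ENNReal

noncomputable section

variable (G : HGraph) {ι : Type} [Fintype ι]

/-- on functions vanishing on `U` the test `f` is the flow `t`: `⟨f,v⟩ = ∑_e t_e ∇_e v` -/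
def IsFlow (U : Set G.V) (f : G.V → ℝ) (t : G.E → ℝ) : Prop :=
  ∀ v : G.V → ℝ, (∀ x ∈ U, v x = 0) → ∑ x, f x * v x = ∑ e, t e * (v (G.tgt e) - v (G.src e))

/-- reference cost in FLOW form with a sup bound -/
def FlowLe (U : Set G.V) (f : G.V → ℝ) (R t₀ : ℝ) : Prop :=
  ∃ t : G.E → ℝ, IsFlow G U f t ∧ ∑ e, t e ^ 2 ≤ R ∧ ∀ e, |t e| ≤ t₀

/-- real band integral of a signed function -/
def bIr (β : G.E → ℝ) (P : Set G.V) (a : ι → ℝ) (d : ι → G.V → ℝ) (Φ : (G.V → ℤ) → (G.E → Bool) → ℝ) : ℝ :=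
  ∑' h : HLaw.pinned P, ∑ ω : G.E → Bool, Φ h ω * (bW G a d h * fkW G β h ω)

/-- real expectation under the band law -/
def bEr (β : G.E → ℝ) (P : Set G.V) (a : ι → ℝ) (d : ι → G.V → ℝ) (Φ : (G.V → ℤ) → (G.E → Bool) → ℝ) : ℝ :=
  bIr G β P a d Φ / bIr G β P a d fun _ _ => 1

/-- absolute summability under the band law -/
def bSm (β : G.E → ℝ) (P : Set G.V) (a : ι → ℝ) (d : ι → G.V → ℝ) (Φ : (G.V → ℤ) → (G.E → Bool) → ℝ) : Prop :=
  Summable fun h : HLaw.pinned P => ∑ ω : G.E → Bool, |Φ h ω| * (bW G a d h * fkW G β h ω)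

/-- probability of an event under the band law -/
def bPr (β : G.E → ℝ) (P : Set G.V) (a : ι → ℝ) (d : ι → G.V → ℝ) (Ev : (G.V → ℤ) → (G.E → Bool) → Prop) : ℝ :=
  bEr G β P a d fun h ω => if Ev h ω then 1 else 0

/-- the pins `P` and the rows control every real constant -/
def BOk (P : Set G.V) (a : ι → ℝ) (d : ι → G.V → ℝ) : Prop :=
  ∀ v : G.V → ℝ, (∀ x ∈ P, v x = 0) → (∀ e, v (G.tgt e) = v (G.src e)) → (∀ i, a i * (∑ x, d i x * v x) ^ 2 = 0) → v = 0

variable {G}

/-- `∑_v f_v |h_v|` -/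
def linA (f : G.V → ℝ) (h : G.V → ℤ) : ℝ := ∑ v, f v * |(h v : ℝ)|

/-- gradient of an integer height along a bond, as a real number -/
def grd (h : G.V → ℤ) (e : G.E) : ℝ := ((h (G.tgt e) - h (G.src e) : ℤ) : ℝ)

variable (G)

/-- the tilt `L_u(k) = - ∑_i a_i ⟨d_i,u⟩ ⟨d_i,k⟩` left by the exposed part `u` -/
def bTilt (a : ι → ℝ) (d : ι → G.V → ℝ) (u k : G.V → ℤ) : ℝ := - lin (bRow G a d (bVal G d u)) k

/-- regime of an exposed part -/
def bGd (d : ι → G.V → ℝ) (T : ℝ) (u : G.V → ℤ) : Prop := ∀ i, |lin (d i) u| ≤ T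

/-- the bad event -/
def bBad (d : ι → G.V → ℝ) (T : ℝ) (h : G.V → ℤ) : Prop := ∃ i, T < linA (d i) h

/-- joined by a bond of the graph -/
def bAdj (x y : G.V) : Prop := ∃ e, (G.src e = x ∧ G.tgt e = y) ∨ (G.src e = y ∧ G.tgt e = x)

/-- a path of `G` from `p` to `q`, all sites after `p` in `U` -/
def bJoin (U : Set G.V) (p q : G.V) : Prop := Relation.ReflTransGen (fun x y => bAdj G x y ∧ y ∈ U) p q

/-- `U` is a possible visited set of an exploration from `A` -/
def ACon (A U : Set G.V) : Prop := A ⊆ U ∧ ∀ v ∈ U, ∃ x ∈ A, bJoin G U x v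

/-- admissible posterior temperatures after the exposure of `U` -/
def Post (b : ℝ) (U : Set G.V) (β' : G.E → ℝ) : Prop :=
  (∀ e, 0 < β' e ∧ β' e ≤ b) ∧ ∀ e, ¬ bdry G U e → β' e = b

/-- **anchoring hypothesis, flow form** ((AN2) = [C](3.9)): for every visited set `U` of the class `𝒰` and all coefficients which vanish on the untouched rows,
`∑ a_i c_i d_i` is a flow of squared norm `≤ w ∑ a_i c_i²` and sup norm `≤ t₁ max |c_i|`. -/
def AnchF (a : ι → ℝ) (d : ι → G.V → ℝ) (𝒰 : Set (Set G.V)) (w t₁ : ℝ) : Prop :=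
  ∀ U ∈ 𝒰, ∀ c : ι → ℝ, (∀ i, (∀ v ∈ U, d i v = 0) → c i = 0) → ∀ M : ℝ, (∀ i, |c i| ≤ M) →
    FlowLe G U (bRow G a d c) (w * ∑ i, a i * c i ^ 2) (t₁ * M)

/-- a test with a reference representation which needs no anchoring: flow part + combination of the rows.  `cY² = b R + |s|²/2` is its cost. -/
def RepLe (a : ι → ℝ) (d : ι → G.V → ℝ) (f : G.V → ℝ) (R t₀ σ : ℝ) : Prop :=
  ∃ s : ι → ℝ, ∑ i, s i ^ 2 ≤ σ ∧ FlowLe G ∅ (fun x => f x - ∑ i, s i * (Real.sqrt (a i) * d i x)) R t₀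

/-- the exposed part of the exploration from `A` -/
def exU (A : Set G.V) (h : G.V → ℤ) (ω : G.E → Bool) : G.V → ℤ := resZ G (vis G ω A) h

/-- the unexposed part -/
def exK (A : Set G.V) (h : G.V → ℤ) (ω : G.E → Bool) : G.V → ℤ := resZ G (vis G ω A)ᶜ h

/-- `ε²` of the exploration from `A`: `b w ∑ a_i ⟨d_i, e⟩²` -/
def exEps (b w : ℝ) (a : ι → ℝ) (d : ι → G.V → ℝ) (A : Set G.V) (h : G.V → ℤ) (ω : G.E → Bool) : ℝ :=
  b * w * bq G a d (exU G A h ω)

end

end Claimed.Agent.R285.Pins
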