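import Claimed.Agent.R285.Pins.Anchor
import Claimed.Agent.R285.Pins.BandDefs

/-!
# ROW 285, PINS / ANCHOR: the exits of `Pins/Anchor.lean` in the vocabulary of `Pins/BandDefs.lean` (helper80)

* `AnFlow.flowLe`   : `AnFlow U f R s W → FlowLe (domG D cut) U f R s`.
* `pn_an_bJoin`     : `bJoin = AnJoin` (same definition);  `pn_an_join_symm`: a path inside `U` can be reversed.
* `pn_an_touch_of_acon` : `ACon G A U`, `A` far from the cell `d` (no site of `A` in the `3 × 3` block of `d`), `U` meets `d`  ⟹  `AnTouch U g ν d`.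
* `pn_an_anchF`     : **(AN2) as `AnchF`**: band rows `d i = anRho (g.cell (κ i))` (`κ` injective), weights `0 ≤ a i ≤ amax`, explorations from a far set `A`:
                      `AnchF G a d {U | ACon G A U} (9 anF1 K amax) (378 amax / ν)`.
* `FlowLe.convex`   : convex combinations of flows keep both bounds;   `pn_an_repLe` : a test with flows `(R, t₀)` to EVERY band row satisfies `RepLe G a d f R t₀ (1/∑ a_i)` (Plan s4 (CR), s5 INPUT `th`).
                      [flows `f - d_i`: `pn_an_fine` / `pn_an_point` / `pn_fl_sub` to the coarse cells, `pn_an_conn` between coarse cells, `AnFlow.add/sub`.]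
* `pn_an_gVar`      : `RefLe G Q f R → H.gVar 1 f ≤ R` for every law pinned on `Q` (with `AnFlow.refLe`: link with the Gaussian references).
-/

set_option autoImplicit false

namespace Claimed.Agent.R285.Pins

open scoped Classical

noncomputable section

variable {D : Finset (ℤ × ℤ)} {cut : Set Bond} {m₁ m₂ : ℕ} {Γ : CGeom m₁ m₂} {g : DGrid m₁ m₂}

theorem AnFlow.flowLe {U : Set (domG D cut).V} {f : (domG D cut).V → ℝ} {R s : ℝ} {W : Finset (ℤ × ℤ)}
    (h : AnFlow U f R s W) : FlowLe (domG D cut) U f R s := by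
  obtain ⟨t, h1, h2, h3, -⟩ := h
  exact ⟨t, h1, h2, h3⟩

theorem pn_an_bJoin (G : HGraph) (U : Set G.V) (p q : G.V) : bJoin G U p q ↔ AnJoin G U p q := Iff.rfl

theorem gAdj_symm {G : HGraph} {x y : G.V} (h : gAdj G x y) : gAdj G y x := by
  obtain ⟨e, he⟩ := h
  exact ⟨e, he.symm⟩

/-- a path inside `U` can be reversed -/
theorem pn_an_join_symm {G : HGraph} {U : Set G.V} {p q : G.V} (hp : p ∈ U) (h : AnJoin G U p q) : AnJoin G U q p := by
  have h1 : Relation.ReflTransGen (fun x y => gAdj G x y ∧ x ∈ U ∧ y ∈ U) p q ∧ q ∈ U := by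
    unfold AnJoin at h
    induction h with
    | refl => exact ⟨Relation.ReflTransGen.refl, hp⟩
    | @tail b c _ hbc ih => exact ⟨ih.1.tail ⟨hbc.1, ih.2, hbc.2⟩, hbc.2⟩
  have hsym : Std.Symm fun x y => gAdj G x y ∧ x ∈ U ∧ y ∈ U := ⟨fun a b h => ⟨gAdj_symm h.1, h.2.2, h.2.1⟩⟩
  have h2 := Relation.ReflTransGen.stdSymm.symm _ _ h1.1
  exact Relation.ReflTransGen.mono (fun a b hab => ⟨hab.1, hab.2.2⟩) q p h2

/-- an exploration from a far set which meets the cell `d` touches it -/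
theorem pn_an_touch_of_acon (hc : AnChart D cut Γ g) (ν : ℕ) (h1 : g.SideGe ν) {A U : Set (domG D cut).V}
    (hU : ACon (domG D cut) A U) {d : Fin m₁ × Fin m₂} (hA : ∀ x ∈ A, ∀ κ', domPos x ∈ g.cell κ' → κ' ∉ anNb d)
    {p : (domG D cut).V} (hp : p ∈ U) (hpd : domPos p ∈ g.cell d) : AnTouch U g ν d := by
  obtain ⟨x, hxA, hj⟩ := hU.2 p hp
  have hxD : domPos x ∈ g.region Γ.T := by
    rw [← hc.dom]
    exact Subtype.property (p := fun v => v ∈ D) x
  obtain ⟨κ', _, hκ'⟩ := Finset.mem_biUnion.1 hxD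
  exact pn_an_touch ν h1 hp hpd hκ' (hA x hxA κ' hκ') (pn_an_join_symm (hU.1 hxA) hj)

/-- **(AN2) as `AnchF`.** -/
theorem pn_an_anchF (hc : AnChart D cut Γ g) (K ν : ℕ) (hν : 1 ≤ ν) (h1 : g.SideGe ν) (h2 : g.SideLe (K * ν))
    {ι : Type} [Fintype ι] [Nonempty ι] (κ : ι → Fin m₁ × Fin m₂) (hκ : Function.Injective κ) (a : ι → ℝ) (ha : ∀ i, 0 ≤ a i)
    (amax : ℝ) (hamax : ∀ i, a i ≤ amax) (A : Set (domG D cut).V)
    (hA : ∀ x ∈ A, ∀ i, ∀ κ', domPos x ∈ g.cell κ' → κ' ∉ anNb (κ i)) :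
    AnchF (domG D cut) a (fun i => anRho (g.cell (κ i))) {U | ACon (domG D cut) A U} (9 * anF1 K * amax)
      (378 * amax / (ν : ℝ)) := by
  intro U hU c hc0 M hM
  have hU' : ACon (domG D cut) A U := hU
  have hν0 : (0 : ℝ) < ν := by exact_mod_cast hν
  obtain ⟨i₀⟩ := (inferInstance : Nonempty ι)
  have hM0 : 0 ≤ M := (abs_nonneg _).trans (hM i₀)
  have hamax0 : 0 ≤ amax := (ha i₀).trans (hamax i₀)
  have hF : 0 ≤ anF1 K := anF1_nonneg K
  -- the touched rows
  set I : Finset ι := Finset.univ.filter fun i => c i ≠ 0 with hI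
  have htouch : ∀ i ∈ I, AnTouch U g ν (κ i) := by
    intro i hi
    have hci : c i ≠ 0 := (Finset.mem_filter.1 hi).2
    have : ¬ ∀ v ∈ U, anRho (D := D) (cut := cut) (g.cell (κ i)) v = 0 := fun hh => hci (hc0 i hh)
    push Not at this
    obtain ⟨p, hp, hne⟩ := this
    have hpd : domPos p ∈ g.cell (κ i) := by
      by_contra hh
      exact hne (if_neg hh)
    exact pn_an_touch_of_acon hc ν h1 hU' (fun x hx κ' hκ' => hA x hx i κ' hκ') hp hpd
  have hover : ∀ z, (I.filter fun i => z ∈ g.region (anNb (κ i))).card ≤ 9 := by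
    intro z
    rw [← Finset.card_image_of_injective _ hκ]
    refine (Finset.card_le_card fun d hd => ?_).trans (pn_an_overlap g (I.image κ) z)
    obtain ⟨i, hi, rfl⟩ := Finset.mem_image.1 hd
    obtain ⟨hi1, hi2⟩ := Finset.mem_filter.1 hi
    exact Finset.mem_filter.2 ⟨Finset.mem_image_of_mem κ hi1, hi2⟩
  have hsum := AnFlow.sum (U := U) (s := amax * M * (42 / (ν : ℝ))) I
    (fun i x => (a i * c i) * anRho (g.cell (κ i)) x) (fun i => (a i * c i) ^ 2 * anF1 K) (by positivity)
    (fun i => g.region (anNb (κ i))) 9 hover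
    (fun i hi => ((pn_an_cell hc K ν hν h1 h2 U (htouch i hi)).smul (a i * c i)).mono le_rfl
      (mul_le_mul_of_nonneg_right (by
        rw [abs_mul, abs_of_nonneg (ha i)]
        exact mul_le_mul (hamax i) (hM i) (abs_nonneg _) hamax0) (by positivity)) (Finset.Subset.refl _))
  refine ((hsum.congr fun x => ?_).mono ?_ (le_of_eq ?_) (Finset.Subset.refl _)).flowLe
  · unfold bRow
    refine Finset.sum_subset (Finset.subset_univ I) fun i _ hi => ?_
    have : c i = 0 := by
      by_contra hh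
      exact hi (Finset.mem_filter.2 ⟨Finset.mem_univ i, hh⟩)
    rw [this]
    ring
  · have e1 : ∑ i ∈ I, (a i * c i) ^ 2 * anF1 K ≤ ∑ i, amax * (a i * c i ^ 2) * anF1 K := by
      refine (Finset.sum_le_sum fun i _ => ?_).trans
        (Finset.sum_le_sum_of_subset_of_nonneg (Finset.subset_univ I) fun i _ _ => ?_)
      · have : (a i * c i) ^ 2 = a i * (a i * c i ^ 2) := by ring
        rw [this]
        exact mul_le_mul_of_nonneg_right
          (mul_le_mul_of_nonneg_right (hamax i) (mul_nonneg (ha i) (sq_nonneg _))) hF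
      · exact mul_nonneg (mul_nonneg hamax0 (mul_nonneg (ha i) (sq_nonneg _))) hF
    have e2 : ∑ i, amax * (a i * c i ^ 2) * anF1 K = anF1 K * amax * ∑ i, a i * c i ^ 2 := by
      rw [Finset.mul_sum]
      exact Finset.sum_congr rfl fun i _ => by ring
    rw [e2] at e1
    push_cast
    linarith
  · push_cast
    ring

/-- **link with the Gaussian references**: `RefLe` bounds `gVar 1` of every law which is pinned on `Q` (any rows). -/
theorem pn_an_gVar {G : HGraph} (H : HLaw G) (Q : Set G.V) (hΛ : H.Λ ≤ HLaw.pinned Q) (f : G.V → ℝ) (R : ℝ) (hR : 0 ≤ R)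
    (hf : RefLe G Q f R) : H.gVar 1 f ≤ R := by
  unfold HLaw.gVar
  refine ciSup_le fun v => ?_
  have hv0 : ∀ x ∈ Q, (v : G.V → ℝ) x = 0 := by
    have hv := v.2
    unfold HLaw.rspan at hv
    refine Submodule.span_induction (p := fun w _ => ∀ x ∈ Q, w x = 0) ?_ ?_ ?_ ?_ hv
    · rintro w ⟨h, hh, rfl⟩ x hx
      have : h x = 0 := hΛ hh x hx
      simp [this]
    · intro x _
      rfl
    · intro w w' _ _ hw hw' x hx
      simp [hw x hx, hw' x hx]
    · intro c w _ hw x hx
      simp [hw x hx]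
  have h1 := hf v hv0
  have hE : dir G (v : G.V → ℝ) ≤ H.form 1 (v : G.V → ℝ) := by
    unfold HLaw.form HLaw.en dir
    have : 0 ≤ ∑ o, H.obs (v : G.V → ℝ) o ^ 2 := Finset.sum_nonneg fun _ _ => sq_nonneg _
    simp only [Pi.zero_apply, add_zero, inv_one, one_mul]
    linarith
  have hE0 : 0 ≤ dir G (v : G.V → ℝ) := Finset.sum_nonneg fun _ _ => sq_nonneg _
  set φ := ∑ x, f x * (v : G.V → ℝ) x with hφ
  set E := dir G (v : G.V → ℝ) with hEd
  have h2 : 2 * φ ≤ R + E := by
    by_contra hlt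
    push Not at hlt
    nlinarith [sq_nonneg (R - E)]
  linarith

/-- convex combinations of flows -/
theorem FlowLe.convex {G : HGraph} {U : Set G.V} {ι : Type} (I : Finset ι) (w : ι → ℝ) (hw : ∀ i ∈ I, 0 ≤ w i)
    (hw1 : ∑ i ∈ I, w i = 1) (F : ι → G.V → ℝ) (R t₀ : ℝ) (h : ∀ i ∈ I, FlowLe G U (F i) R t₀) :
    FlowLe G U (fun x => ∑ i ∈ I, w i * F i x) R t₀ := by
  choose! t ht using h
  refine ⟨fun e => ∑ i ∈ I, w i * t i e, fun v hv => ?_, ?_, fun e => ?_⟩
  · calc ∑ x, (∑ i ∈ I, w i * F i x) * v x = ∑ i ∈ I, w i * ∑ x, F i x * v x := by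
          simp only [Finset.sum_mul, Finset.mul_sum]
          rw [Finset.sum_comm]
          exact Finset.sum_congr rfl fun i _ => Finset.sum_congr rfl fun x _ => by ring
      _ = ∑ i ∈ I, w i * ∑ e, t i e * (v (G.tgt e) - v (G.src e)) :=
          Finset.sum_congr rfl fun i hi => by rw [(ht i hi).1 v hv]
      _ = _ := by
          simp only [Finset.sum_mul, Finset.mul_sum]
          rw [Finset.sum_comm]
          exact Finset.sum_congr rfl fun i _ => Finset.sum_congr rfl fun x _ => by ring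
  · have hj : ∀ e, (∑ i ∈ I, w i * t i e) ^ 2 ≤ ∑ i ∈ I, w i * t i e ^ 2 := by
      intro e
      have := (Even.convexOn_pow (𝕜 := ℝ) (n := 2) even_two).map_sum_le (t := I) (w := w) (p := fun i => t i e) hw hw1
        (fun _ _ => Set.mem_univ _)
      simpa [smul_eq_mul] using this
    calc ∑ e, (∑ i ∈ I, w i * t i e) ^ 2 ≤ ∑ e, ∑ i ∈ I, w i * t i e ^ 2 := Finset.sum_le_sum fun e _ => hj e
      _ = ∑ i ∈ I, w i * ∑ e, t i e ^ 2 := by
          rw [Finset.sum_comm]
          exact Finset.sum_congr rfl fun i _ => (Finset.mul_sum _ _ _).symm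
      _ ≤ ∑ i ∈ I, w i * R := Finset.sum_le_sum fun i hi => mul_le_mul_of_nonneg_left (ht i hi).2.1 (hw i hi)
      _ = R := by rw [← Finset.sum_mul, hw1, one_mul]
  · calc |∑ i ∈ I, w i * t i e| ≤ ∑ i ∈ I, |w i * t i e| := Finset.abs_sum_le_sum_abs _ _
      _ ≤ ∑ i ∈ I, w i * t₀ := Finset.sum_le_sum fun i hi => by
          rw [abs_mul, abs_of_nonneg (hw i hi)]
          exact mul_le_mul_of_nonneg_left ((ht i hi).2.2 e) (hw i hi)
      _ = t₀ := by rw [← Finset.sum_mul, hw1, one_mul]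

/-- **reference representation without anchoring** (Plan s4 (CR), s5 INPUT): a test which has a flow to every band row is a flow plus the combination `∑ (a_i/∑a) d_i` of the rows, of cost `σ = 1/∑ a_i`. -/
theorem pn_an_repLe {G : HGraph} {ι : Type} [Fintype ι] [Nonempty ι] (a : ι → ℝ) (ha : ∀ i, 0 < a i) (d : ι → G.V → ℝ)
    (f : G.V → ℝ) (R t₀ : ℝ) (h : ∀ i, FlowLe G ∅ (fun x => f x - d i x) R t₀) :
    RepLe G a d f R t₀ (1 / ∑ i, a i) := by
  have hS : 0 < ∑ i, a i := Finset.sum_pos (fun i _ => ha i) Finset.univ_nonempty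
  refine ⟨fun i => Real.sqrt (a i) / ∑ j, a j, ?_, ?_⟩
  · have : ∀ i, (Real.sqrt (a i) / ∑ j, a j) ^ 2 = a i / (∑ j, a j) ^ 2 := fun i => by
      rw [div_pow, Real.sq_sqrt (ha i).le]
    rw [Finset.sum_congr rfl fun i _ => this i, ← Finset.sum_div]
    apply le_of_eq
    field_simp
  · have hc := FlowLe.convex (G := G) (U := ∅) Finset.univ (fun i => a i / ∑ j, a j) (fun i _ => (div_pos (ha i) hS).le)
      (by rw [← Finset.sum_div]; exact div_self hS.ne') (fun i x => f x - d i x) R t₀ (fun i _ => h i)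
    have e : (fun x => ∑ i, a i / (∑ j, a j) * (f x - d i x))
        = fun x => f x - ∑ i, Real.sqrt (a i) / (∑ j, a j) * (Real.sqrt (a i) * d i x) := by
      funext x
      have e1 : ∑ i, a i / (∑ j, a j) * (f x - d i x) = (∑ i, a i / ∑ j, a j) * f x - ∑ i, a i / (∑ j, a j) * d i x := by
        rw [Finset.sum_mul, ← Finset.sum_sub_distrib]
        exact Finset.sum_congr rfl fun i _ => by ring
      rw [e1, ← Finset.sum_div, div_self hS.ne', one_mul]
      congr 1
      refine Finset.sum_congr rfl fun i _ => ?_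
      have : Real.sqrt (a i) * Real.sqrt (a i) = a i := Real.mul_self_sqrt (ha i).le
      calc a i / (∑ j, a j) * d i x = (Real.sqrt (a i) * Real.sqrt (a i)) / (∑ j, a j) * d i x := by rw [this]
        _ = _ := by ring
    rw [e] at hc
    exact hc

end

end Claimed.Agent.R285.Pins
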