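import Claimed.Agent.R285.Pins.ReachDefs
import Claimed.Agent.R285.Pins.BandDefs

/-!
# ROW 285, PINS-CLUS2 + CR (blueprint v2, `Pins/Plan.lean` s4-s5): second moments of exposed parts and of clusters under the band law.   DEFINITIONS (architect helper74; chief of PINS helper235).

Vocabulary: `ReachDefs` (helper121: law `H : HLaw G` with rows, `rhI`, `rhRow`, `rhW`, `rhTilt`, `rhU`, `rhK`, `AConn`, `PostT`), `FlowLe`, `linA` (`BandDefs`), `csz` (`SignDefs`), `FkDefs`.   ONE finite graph, explicit constants, values in `ℝ≥0∞`.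
DICTIONARY with the blueprint:  `y_o(h) = rhRow H h o = lin (rhT (H.B o)) h`,  `|y(h)|² = clY H h`,  `|y(|h|)|² = clYA H h`,  `L_u(k) = clL H u k`,  `Gd(e) = clGd H T e`,  `Bad = clBad H T h`,  far set `A'`,
class of the visited sets `clFar G A'`,  `ν(e^L Φ)` (unnormalised, times `rhW H u`) `= clJ H β' Q u Φ` (`Q = P ∪ U`),   `∑_{C far, Gd} |y(e_C)|² = clS2`,   `e^{fg} = resZ (clGs ..) h`.
A signed integrand `Ψ` is split as `ofReal Ψ` (positive part) and `ofReal (-Ψ)` (negative part); "`E Ψ₁ ≤ E Ψ₂`" is written with the negative parts on the other side.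
-/

set_option autoImplicit false

namespace Claimed.Agent.R285.Pins

open scoped Classical ENNReal

noncomputable section

variable {G : HGraph}

/-- `|y(h)|² = ∑_o (B_o 2π h)²` -/
def clY (H : HLaw G) (h : G.V → ℤ) : ℝ := ∑ o, rhRow H h o ^ 2

/-- the value of the row `o` on `|h|` -/
def clRowA (H : HLaw G) (h : G.V → ℤ) (o : H.O) : ℝ := linA (rhT (H.B o)) h

/-- `|y(|h|)|²` -/
def clYA (H : HLaw G) (h : G.V → ℤ) : ℝ := ∑ o, clRowA H h o ^ 2

/-- the `ℓ¹` norm of the row `o` (rows are nonnegative), on the integer height -/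
def clN (H : HLaw G) (o : H.O) : ℝ := ∑ x, rhT (H.B o) x

/-- the regime of an exposed part -/
def clGd (H : HLaw G) (T : ℝ) (u : G.V → ℤ) : Prop := ∀ o, |rhRow H u o| ≤ T

/-- the bad event -/
def clBad (H : HLaw G) (T : ℝ) (h : G.V → ℤ) : Prop := ∃ o, T < clRowA H h o

/-- the remaining linear tilt `L_u(k) = - ∑_o y_o(u) y_o(k)` -/
def clL (H : HLaw G) (u k : G.V → ℤ) : ℝ := lin (rhT (rhTilt H u)) k

/-- the unnormalised posterior integral after exposure of `u`: pins `Q`, boundary temperatures `β'`, weight `rhW H (u + k)` -/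
def clJ (H : HLaw G) (β' : G.E → ℝ) (Q : Set G.V) (u : G.V → ℤ) (Φ : (G.V → ℤ) → ℝ≥0∞) : ℝ≥0∞ :=
  bare G β' Q fun k => Φ k * ENNReal.ofReal (rhW H (u + k))

/-- standing hypotheses on the band law: the pins and the rows control every REAL constant (this gives `H.Proper` and `(H.sys b).Ok` when `H.Λ = pinned P`), the rows are nonnegative -/
structure ClCtx (H : HLaw G) (P : Set G.V) (b : ℝ) : Prop where
  hb : 0 < b
  hInj : ∀ v : G.V → ℝ, (∀ x ∈ P, v x = 0) → (∀ e, v (G.tgt e) = v (G.src e)) → (∀ o, H.obs v o = 0) → v = 0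
  hB : ∀ o x, 0 ≤ H.B o x

/-- a test (on the INTEGER height) with a reference representation: flow part (grounded on `Q`) + combination of the rows; `lin f h = ∑_e t_e ∇_e h + ∑_o s_o y_o(h)` on the heights pinned on `Q`.
Its cost is `b R + σ/2`. -/
def clRep (H : HLaw G) (Q : Set G.V) (f : G.V → ℝ) (R t₀ σ : ℝ) : Prop :=
  ∃ s : H.O → ℝ, ∑ o, s o ^ 2 ≤ σ ∧ FlowLe G Q (fun x => f x - ∑ o, s o * rhT (H.B o) x) R t₀

variable (G)

/-- the class of the far-connected sets: every site of `U` is joined inside `U` to a site of `A' ∩ U`.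
Contains `vis ω A` for `A ⊆ A'` and every cluster which meets `A'`; a cluster belongs to it iff it meets `A'`. -/
def clFar (A' : Set G.V) : Set (Set G.V) := {U | AConn G (A' ∩ U) U}

/-- **anchoring hypothesis in FLOW form** ((AN2) of the blueprint = [C](3.9) with a sup bound): for every visited set of the class `𝒰` the remaining tilt is a flow with squared `ℓ²` norm `≤ w |y(u)|²` and sup norm `≤ t₁ max_o |y_o(u)|` -/
def AncFl (H : HLaw G) (𝒰 : Set (Set G.V)) (w t₁ : ℝ) : Prop :=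
  ∀ U ∈ 𝒰, ∀ u : G.V → ℤ, (∀ x, x ∉ U → u x = 0) → ∀ M : ℝ, 0 ≤ M → (∀ o, |rhRow H u o| ≤ M) →
    FlowLe G U (rhT (rhTilt H u)) (w * clY H u) (t₁ * M)

/-- the cluster of `x` is good: it belongs to the class `𝒰` and its exposed part is in the regime -/
def clGdx (H : HLaw G) (𝒰 : Set (Set G.V)) (T : ℝ) (h : G.V → ℤ) (ω : G.E → Bool) (x : G.V) : Prop :=
  vis G ω {x} ∈ 𝒰 ∧ clGd H T (rhU G {x} h ω)

/-- the union of the good clusters -/
def clGs (H : HLaw G) (𝒰 : Set (Set G.V)) (T : ℝ) (h : G.V → ℤ) (ω : G.E → Bool) : Set G.V := {x | clGdx G H 𝒰 T h ω x}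

/-- `∑_{C good} |y(e_C)|²`, as a plain cluster sum `∑_x 1[C_x good] |y(e_{C_x})|² / |C_x|` -/
def clS2 (H : HLaw G) (𝒰 : Set (Set G.V)) (T : ℝ) (h : G.V → ℤ) (ω : G.E → Bool) : ℝ :=
  ∑ x, if clGdx G H 𝒰 T h ω x then (csz G ω x)⁻¹ * clY H (rhU G {x} h ω) else 0

/-- Stores the on-demand equation lemmas of the definitions above in THIS module (rule 6 hygiene). -/
theorem pn_clusDefs_forced : True := by
  have := @clY.eq_1
  have := @clRowA.eq_1
  have := @clYA.eq_1
  have := @clN.eq_1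
  have := @clGd.eq_1
  have := @clBad.eq_1
  have := @clL.eq_1
  have := @clJ.eq_1
  have := @clRep.eq_1
  have := @clFar.eq_1
  have := @AncFl.eq_1
  have := @clGdx.eq_1
  have := @clGs.eq_1
  have := @clS2.eq_1
  trivial

end

end Claimed.Agent.R285.Pins
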