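import Claimed.Agent.R285.Read.C3Defs
import Claimed.Agent.R285.Sec.Defs
import Claimed.Agent.R285.Pins.ClusDefs
import Claimed.Agent.R285.Pins.AnBand

/-!
# ROW 285, PINS / CORE-LIM (`Pins/Plan.lean` s7-s8): DEFINITIONS      (architect helper249; chief of PINS helper235).   No sorry here.

## Two charts of ONE graph
* MEDIUM geometry `Γ : CGeom n₁ n₂`; its pinned cells `Γ.pin` are THE PIN `p` of the argument.   (T3.1: `Γ = S23.refine r₀ Γ_coarse`;   T3.2: `Γ = {S23.refine r₀ G with pin := S23.fine r₀ p}`.)   `r₀` is chosen BEFORE `lam`, `s`.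
* FINE chart: `shGeo s Γ = S23.refine s (shFree Γ)` (no pins) on ANY grid `g' : DGrid (s n₁) (s n₂)`.   THE graph is `(shGeo s Γ).graph g'`.   The medium grid is `shMed s g'` (every `s`-th line of `g'`).
## Layers (ambient index sup-distance `d` from `p` in the MEDIUM chart, whatever the cuts; one parameter `J`)
  `I`-cells `shCI` = `p`;   `shIn` = `{d ≤ J+1}`;   BAND `shKb` = `{d = J+2}`;   `shOut` = `{d ≥ J+3}`;   far cells `shFarC` = `{d ≤ J} ∪ {d ≥ J+4}`;   `B`-cells `shCB` = `{d = 2J+4}`;   target `shTg` = `{d ≥ 2J+5}`.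
## Band law
  `shRow s Kb lam` : one row per fine cell, `√lam / s ·` (average over the fine cell) if the fine cell lies in a band cell, zero otherwise;   `shLaw s Γ J lam g' = C3.lawR (shGeo s Γ) g' (shRow s (shKb Γ J) lam)`.
  No other rows: the standing hypothesis `ShConf Γ J` says that every component of `Γ` contains a band cell.
## Bad event
  `shBad … = P_W(ε²_A > η  or the exploration from `A = p` reaches the target)`, `ε² = rhEps (b w)`, `w = shW K lam s`.
-/

set_option autoImplicit false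

namespace Claimed.Agent.R285.Pins

open scoped Classical ENNReal

noncomputable section

variable {n₁ n₂ : ℕ}

/-! ## 1. Layers -/

/-- the index sup-distance of two cells is at most `j` -/
def shLe (j : ℕ) (κ κ' : Fin n₁ × Fin n₂) : Prop :=
  κ.1.1 ≤ κ'.1.1 + j ∧ κ'.1.1 ≤ κ.1.1 + j ∧ κ.2.1 ≤ κ'.2.1 + j ∧ κ'.2.1 ≤ κ.2.1 + j

/-- the cells at index sup-distance `≤ j` from `p` -/
def shBall (p : Finset (Fin n₁ × Fin n₂)) (j : ℕ) : Finset (Fin n₁ × Fin n₂) :=
  Finset.univ.filter fun κ => ∃ κ' ∈ p, shLe j κ κ'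

/-- the same geometry without pins -/
def shFree (Γ : CGeom n₁ n₂) : CGeom n₁ n₂ := { Γ with pin := ∅ }

/-- the `I`-cells: the pinned cells -/
def shCI (Γ : CGeom n₁ n₂) : Finset (Fin n₁ × Fin n₂) := Γ.T.filter fun κ => κ ∈ Γ.pin

/-- the inner layer `{d ≤ J+1}` -/
def shIn (Γ : CGeom n₁ n₂) (J : ℕ) : Finset (Fin n₁ × Fin n₂) := shBall Γ.pin (J + 1)

/-- the band `{d = J+2}` -/
def shKb (Γ : CGeom n₁ n₂) (J : ℕ) : Finset (Fin n₁ × Fin n₂) :=
  Γ.T.filter fun κ => κ ∈ shBall Γ.pin (J + 2) ∧ κ ∉ shBall Γ.pin (J + 1)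

/-- the outer layer `{d ≥ J+3}` -/
def shOut (Γ : CGeom n₁ n₂) (J : ℕ) : Finset (Fin n₁ × Fin n₂) := Finset.univ.filter fun κ => κ ∉ shBall Γ.pin (J + 2)

/-- the far cells `{d ≤ J} ∪ {d ≥ J+4}` (not adjacent to a neighbour of the band) -/
def shFarC (Γ : CGeom n₁ n₂) (J : ℕ) : Finset (Fin n₁ × Fin n₂) :=
  Γ.T.filter fun κ => κ ∈ shBall Γ.pin J ∨ κ ∉ shBall Γ.pin (J + 3)

/-- the `B`-cells `{d = 2J+4}` -/
def shCB (Γ : CGeom n₁ n₂) (J : ℕ) : Finset (Fin n₁ × Fin n₂) :=
  Γ.T.filter fun κ => κ ∈ shBall Γ.pin (2 * J + 4) ∧ κ ∉ shBall Γ.pin (2 * J + 3)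

/-- the target cells `{d ≥ 2J+5}` -/
def shTg (Γ : CGeom n₁ n₂) (J : ℕ) : Finset (Fin n₁ × Fin n₂) := Γ.T.filter fun κ => κ ∉ shBall Γ.pin (2 * J + 4)

/-- every component of the geometry contains a band cell -/
def ShConf (Γ : CGeom n₁ n₂) (J : ℕ) : Prop := ∀ κ ∈ Γ.T, ∃ d ∈ shKb Γ J, Γ.Conn κ d

/-! ## 2. The fine chart, the band law -/

/-- the fine chart of the pin-free geometry -/
def shGeo (s : ℕ) (Γ : CGeom n₁ n₂) : CGeom (s * n₁) (s * n₂) := S23.refine s (shFree Γ)

/-- the medium grid: every `s`-th line of the fine grid -/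
def shMed (s : ℕ) (g' : DGrid (s * n₁) (s * n₂)) : DGrid n₁ n₂ :=
  if hs : 0 < s then
    { x₁ := fun i => g'.x₁ ⟨s * i.1, by have := i.2; have := Nat.mul_le_mul_left s (Nat.le_of_lt_succ i.2); omega⟩
      x₂ := fun j => g'.x₂ ⟨s * j.1, by have := j.2; have := Nat.mul_le_mul_left s (Nat.le_of_lt_succ j.2); omega⟩
      mono₁ := fun i i' h => g'.mono₁ (by
        show s * i.1 < s * i'.1
        exact Nat.mul_lt_mul_of_pos_left h hs)
      mono₂ := fun j j' h => g'.mono₂ (by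
        show s * j.1 < s * j'.1
        exact Nat.mul_lt_mul_of_pos_left h hs) }
  else DGrid.unif n₁ n₂ 1 one_pos

/-- the band rows: one row per fine cell; `√lam / s` times the average over the fine cell if it lies in a band cell, zero otherwise -/
def shRow (s : ℕ) (Kb : Finset (Fin n₁ × Fin n₂)) (lam : ℝ) :
    Fin ((s * n₁) * (s * n₂)) → C3.Cell (s * n₁) (s * n₂) → ℝ :=
  fun o κ => if κ = finProdFinEquiv.symm o ∧ S23.coarse s κ ∈ Kb then Real.sqrt lam / s else 0

/-- THE graph -/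
abbrev shG (s : ℕ) (Γ : CGeom n₁ n₂) (g' : DGrid (s * n₁) (s * n₂)) : HGraph := (shGeo s Γ).graph g'

/-- **the band law** -/
def shLaw (s : ℕ) (Γ : CGeom n₁ n₂) (J : ℕ) (lam : ℝ) (g' : DGrid (s * n₁) (s * n₂)) : HLaw (shG s Γ g') :=
  C3.lawR (shGeo s Γ) g' (shRow s (shKb Γ J) lam)

/-- the sites of a union of MEDIUM cells -/
def shSites (s : ℕ) (Γ : CGeom n₁ n₂) (g' : DGrid (s * n₁) (s * n₂)) (A : Finset (Fin n₁ × Fin n₂)) : Set (shG s Γ g').V :=
  (shGeo s Γ).sites g' (S23.fine s A)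

/-- the average over a MEDIUM cell, as a test on the physical height -/
def shAvg (s : ℕ) (Γ : CGeom n₁ n₂) (g' : DGrid (s * n₁) (s * n₂)) (κ : Fin n₁ × Fin n₂) : (shG s Γ g').V → ℝ :=
  (shGeo s Γ).avgRow g' (S23.fine s {κ})

/-- its coefficients as a combination of the averages over the fine cells (bounded, MOVING with the grid): `|fine cell| / |medium cell|` -/
def shCoef (s : ℕ) (g' : DGrid (s * n₁) (s * n₂)) (κ : Fin n₁ × Fin n₂) : C3.Cell (s * n₁) (s * n₂) → ℝ :=
  fun κ' => if S23.coarse s κ' = κ then ((g'.cell κ').card : ℝ) / ((g'.region (S23.fine s {κ})).card : ℝ) else 0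

/-! ## 3. Constants, the bad event -/

/-- the cost of (AN1) for the test `2π ρ_c` (`c` a medium cell) on the integer height -/
def shR (K : ℕ) : ℝ := (2 * Real.pi) ^ 2 * anF1 K

/-- the constant `w` of (AN2) for the remaining tilt of the band law -/
def shW (K : ℕ) (lam : ℝ) (s : ℕ) : ℝ := 9 * anF1 K * (2 * Real.pi) ^ 2 * lam / (s : ℝ) ^ 2

/-- the constant `t₁` of (AN2) for the remaining tilt of the band law (`ν` = lower bound of the sides of the FINE cells) -/
def shT1 (lam : ℝ) (s ν : ℕ) : ℝ := 378 * (2 * Real.pi) * Real.sqrt lam / ((s : ℝ) * (ν : ℝ))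

/-- **the probability of the bad event** under the band law: `ε² > η`, or the exploration from the pin reaches the target -/
def shBad (K s : ℕ) (Γ : CGeom n₁ n₂) (J : ℕ) (lam : ℝ) (g' : DGrid (s * n₁) (s * n₂)) (b η : ℝ) : ℝ :=
  (rhN (shLaw s Γ J lam g') b ∅ (fun h ω =>
    rhInd (η < rhEps (b * shW K lam s) (shLaw s Γ J lam g') (rhU (shG s Γ g') (shSites s Γ g' Γ.pin) h ω)
      ∨ (vis (shG s Γ g') ω (shSites s Γ g' Γ.pin) ∩ shSites s Γ g' (shTg Γ J)).Nonempty))).toReal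

/-- Stores the on-demand equation lemmas of the definitions above in THIS module (rule 6 hygiene). -/
theorem psh_defs_forced : True := by
  have := @shLe.eq_1; have := @shBall.eq_1; have := @shFree.eq_1; have := @shCI.eq_1; have := @shIn.eq_1; have := @shKb.eq_1
  have := @shOut.eq_1; have := @shFarC.eq_1; have := @shCB.eq_1; have := @shTg.eq_1; have := @ShConf.eq_1; have := @shGeo.eq_1
  have := @shMed.eq_1; have := @shRow.eq_1; have := @shLaw.eq_1; have := @shSites.eq_1; have := @shAvg.eq_1; have := @shCoef.eq_1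
  have := @shR.eq_1; have := @shW.eq_1; have := @shT1.eq_1; have := @shBad.eq_1
  trivial

end

end Claimed.Agent.R285.Pins
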