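import Claimed.Agent.R285.Sec.Rect
import Claimed.Agent.R285.Read.C3Defs
import Claimed.Agent.R285.Pot.LinOk

/-!
# ROW 285, PINS: SUBDIVISION (architect helper178).   Level-`r` cell tests and rows ON THE GRAPH OF THE COARSE GEOMETRY; transport between the coarse chart `(Γ, g)` and the refined chart `(S23.refine r Γ, sbG r g)`.   PAPER-FREE, combinatorial.

On top of `Sec/Grid.lean` (PROVED there: `S23.Refines`, `Sec.region_fine`, `Sec.crossB_fineF`, `Sec.cutB_eq`, `Sec.sec_gr_cell_sub/find`, `Sec.sec_gr_div_gap`, `Sec.sec_gr_build`; `Sec/Fin.lean`: `sec_mem_cell`, `sec_cell_unique`, `sec_cell_const`).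
* `sbCT T g t : ℤ × ℤ → ℝ` = the cell test with coefficients `t`, as a function on `ℤ²`;  `Γ.cellTest g t = domFn (sbCT Γ.T g t)` (`rfl`).
* `sbLaw D cut P R` = the law on `domG D cut` with pins `P ⊂ ℤ²` and rows `R o : ℤ × ℤ → ℝ`;  `C3.lawR Γ g row = sbLaw (g.region Γ.T) (Γ.cutB g) (g.region Γ.pin) (fun o => sbCT Γ.T g (row o))` (`rfl`).
  TRANSPORT PRINCIPLE: write a quantity as a function of `(D, cut, P, R, f)` and rewrite these arguments (`pn_sb_region`, `pn_sb_cut`, `pn_sb_up`); pattern: `Sec.confRatio_refine`.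
* `sbG r g` = the EXPLICIT equal subdivision (lines `x_q + ⌊ρ (x_{q+1} - x_q)/r⌋`), defined for all `g` (fallback: unit grid, when some side is `< r`);  the grids of different levels are NESTED (`pn_sb_nest`).
* `sbUp r g' t` = coarse coefficients read at level `r` (weights `|fine cell| / |coarse cell|`, they move with the grid).
* `CompFn`, `UConf` = uniform confinement of the constants of the components, in combinatorial form.
Every `sorry` is a leaf `L-SB-*`.  Statements frozen; helper lemmas: prefix `pn_sb_`.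
-/

set_option autoImplicit false

namespace Claimed.Agent.R285.Pins

open Filter Topology
open Claimed.Agent.R285.C3 (Cell lawR Comp)
open Claimed.Agent.R285.Pot
open scoped Classical

noncomputable section

variable {m₁ m₂ : ℕ}

/-! ## 1. Tests and laws at the level of `ℤ²` -/

/-- the cell test with coefficients `t`, as a function on `ℤ²` -/
def sbCT (T : Finset (Cell m₁ m₂)) (g : DGrid m₁ m₂) (t : Cell m₁ m₂ → ℝ) (z : ℤ × ℤ) : ℝ :=
  ∑ κ, t κ * @ite ℝ (z ∈ (↑(g.region {κ}) : Set (ℤ × ℤ))) (Classical.propDecidable _) ((g.region ({κ} ∩ T)).card : ℝ)⁻¹ 0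

/-- the law on `domG D cut` with pins `P` and rows `R` -/
def sbLaw (D : Finset (ℤ × ℤ)) (cut : Set Bond) (P : Set (ℤ × ℤ)) {N : ℕ} (R : Fin N → ℤ × ℤ → ℝ) : HLaw (domG D cut) where
  Λ := HLaw.pinned (domSet P)
  O := Fin N
  B o := domFn (R o)

theorem pn_sb_cellTest (Γ : CGeom m₁ m₂) (g : DGrid m₁ m₂) (t : Cell m₁ m₂ → ℝ) :
    Γ.cellTest g t = domFn (D := g.region Γ.T) (cut := Γ.cutB g) (sbCT Γ.T g t) := rfl

theorem pn_sb_lawR (Γ : CGeom m₁ m₂) (g : DGrid m₁ m₂) {N : ℕ} (row : Fin N → Cell m₁ m₂ → ℝ) :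
    lawR Γ g row = sbLaw (g.region Γ.T) (Γ.cutB g) (↑(g.region Γ.pin) : Set (ℤ × ℤ)) (fun o => sbCT Γ.T g (row o)) := rfl

theorem pn_sb_sites (Γ : CGeom m₁ m₂) (g : DGrid m₁ m₂) (A : Finset (Cell m₁ m₂)) :
    Γ.sites g A = domSet (D := g.region Γ.T) (cut := Γ.cutB g) (↑(g.region A) : Set (ℤ × ℤ)) := rfl

theorem pn_sb_CT_add (T : Finset (Cell m₁ m₂)) (g : DGrid m₁ m₂) (t t' : Cell m₁ m₂ → ℝ) : sbCT T g (t + t') = sbCT T g t + sbCT T g t' := by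
  funext z
  simp only [sbCT, Pi.add_apply, add_mul, Finset.sum_add_distrib]

theorem pn_sb_CT_smul (T : Finset (Cell m₁ m₂)) (g : DGrid m₁ m₂) (c : ℝ) (t : Cell m₁ m₂ → ℝ) : sbCT T g (c • t) = c • sbCT T g t := by
  funext z
  simp only [sbCT, Pi.smul_apply, smul_eq_mul, Finset.mul_sum, mul_assoc]

/-! ## 2. The explicit equal subdivision -/

/-- the `i`-th line of the `r`-fold equal subdivision of the lines `x`:  `x_q + ⌊ρ (x_{q+1} - x_q) / r⌋`, `i = q r + ρ` -/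
def sbX {m : ℕ} (r : ℕ) (x : Fin (m + 1) → ℤ) (i : ℕ) : ℤ :=
  Sec.secGrX x (i / r) + ((i % r : ℕ) : ℤ) * (Sec.secGrX x (i / r + 1) - Sec.secGrX x (i / r)) / (r : ℤ)

/-- the subdivision is a grid (true when all sides are `≥ r`) -/
def sbOK (r : ℕ) (g : DGrid m₁ m₂) : Prop :=
  StrictMono (fun i : Fin (r * m₁ + 1) => sbX r g.x₁ i.1) ∧ StrictMono (fun j : Fin (r * m₂ + 1) => sbX r g.x₂ j.1)

/-- the `r`-fold equal subdivision of the grid `g` (fallback: the unit grid) -/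
def sbG (r : ℕ) (g : DGrid m₁ m₂) : DGrid (r * m₁) (r * m₂) :=
  if h : sbOK r g then ⟨fun i => sbX r g.x₁ i.1, fun j => sbX r g.x₂ j.1, h.1, h.2⟩ else DGrid.unif _ _ 1 one_pos

/-- the scale of the subdivision -/
def sbNu (r ν : ℕ) : ℕ := if r ≤ ν then ν / r else min 1 ν

theorem pn_sb_x₁ {r : ℕ} {g : DGrid m₁ m₂} (h : sbOK r g) (i : Fin (r * m₁ + 1)) : (sbG r g).x₁ i = sbX r g.x₁ i.1 := by
  unfold sbG
  rw [dif_pos h]

theorem pn_sb_x₂ {r : ℕ} {g : DGrid m₁ m₂} (h : sbOK r g) (j : Fin (r * m₂ + 1)) : (sbG r g).x₂ j = sbX r g.x₂ j.1 := by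
  unfold sbG
  rw [dif_pos h]

/-- the sides of an equal subdivision: between `a` and `b` if `a r ≤ L ≤ b r` -/
theorem pn_sb_gap {r : ℕ} (hr : 0 < r) (L : ℤ) (ρ : ℕ) (a b : ℤ) (ha : a * r ≤ L) (hb : L ≤ b * r) :
    a ≤ (((ρ + 1 : ℕ) : ℤ) * L) / r - ((ρ : ℤ) * L) / r ∧ (((ρ + 1 : ℕ) : ℤ) * L) / r - ((ρ : ℤ) * L) / r ≤ b := by
  have hr' : (0 : ℤ) < r := by exact_mod_cast hr
  set A : ℤ := ((ρ : ℤ) * L) / r with hA
  set B : ℤ := (((ρ + 1 : ℕ) : ℤ) * L) / r with hB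
  have a1 : (r : ℤ) * A ≤ (ρ : ℤ) * L := Int.mul_ediv_self_le hr'.ne'
  have a2 : (ρ : ℤ) * L < (r : ℤ) * A + r := Int.lt_mul_ediv_self_add hr'
  have b1 : (r : ℤ) * B ≤ ((ρ + 1 : ℕ) : ℤ) * L := Int.mul_ediv_self_le hr'.ne'
  have b2 : ((ρ + 1 : ℕ) : ℤ) * L < (r : ℤ) * B + r := Int.lt_mul_ediv_self_add hr'
  have e : ((ρ + 1 : ℕ) : ℤ) * L = (ρ : ℤ) * L + L := by push_cast; ring
  rw [e] at b1 b2
  constructor
  · by_contra hc
    have hc' : B + 1 ≤ A + a := by omega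
    have := mul_le_mul_of_nonneg_left hc' hr'.le
    nlinarith
  · by_contra hc
    have hc' : A + b + 1 ≤ B := by omega
    have := mul_le_mul_of_nonneg_left hc' hr'.le
    nlinarith

/-- one step of the subdivided lines -/
theorem pn_sb_step {m : ℕ} {r : ℕ} (hr : 0 < r) (x : Fin (m + 1) → ℤ) (i : ℕ) :
    sbX r x (i + 1) - sbX r x i
      = (((i % r + 1 : ℕ) : ℤ) * (Sec.secGrX x (i / r + 1) - Sec.secGrX x (i / r))) / r
        - (((i % r : ℕ) : ℤ) * (Sec.secGrX x (i / r + 1) - Sec.secGrX x (i / r))) / r := by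
  have hr' : (r : ℤ) ≠ 0 := by exact_mod_cast hr.ne'
  unfold sbX
  rcases Sec.sec_gr_divmod hr i with ⟨-, a2, a3⟩ | ⟨a1, a2, a3⟩
  · rw [a2, a3]
    ring
  · rw [a2, a3, a1, Int.mul_ediv_cancel_left _ hr']
    simp
    ring

theorem pn_sb_X_mul {m : ℕ} {r : ℕ} (hr : 0 < r) (x : Fin (m + 1) → ℤ) (q : ℕ) : sbX r x (r * q) = Sec.secGrX x q := by
  unfold sbX
  rw [Nat.mul_div_cancel_left _ hr, Nat.mul_mod_right]
  simp

/-- the sides of the subdivided lines -/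
theorem pn_sb_side {m : ℕ} {r : ℕ} (hr : 0 < r) (x : Fin (m + 1) → ℤ) (a b : ℤ)
    (h : ∀ q : Fin m, a * r ≤ x q.succ - x q.castSucc ∧ x q.succ - x q.castSucc ≤ b * r) (i : Fin (r * m)) :
    a ≤ sbX r x (i.1 + 1) - sbX r x i.1 ∧ sbX r x (i.1 + 1) - sbX r x i.1 ≤ b := by
  have hq : i.1 / r < m := Nat.div_lt_of_lt_mul i.2
  rw [pn_sb_step hr]
  have e := Sec.secGrX_side x ⟨i.1 / r, hq⟩
  simp only at e
  rw [e]
  exact pn_sb_gap hr _ _ a b (h ⟨i.1 / r, hq⟩).1 (h ⟨i.1 / r, hq⟩).2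

theorem pn_sb_mono {m : ℕ} {r : ℕ} (hr : 0 < r) (x : Fin (m + 1) → ℤ) (h : ∀ q : Fin m, (r : ℤ) ≤ x q.succ - x q.castSucc) :
    StrictMono (fun i : Fin (r * m + 1) => sbX r x i.1) := by
  refine Fin.strictMono_iff_lt_succ.2 fun i => ?_
  have hq : i.1 / r < m := Nat.div_lt_of_lt_mul i.2
  have h1 := pn_sb_step hr x i.1
  have e := Sec.secGrX_side x ⟨i.1 / r, hq⟩
  simp only at e
  rw [e] at h1
  have h2 := (pn_sb_gap hr (x (⟨i.1 / r, hq⟩ : Fin m).succ - x (⟨i.1 / r, hq⟩ : Fin m).castSucc) (i.1 % r) 1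
    (x (⟨i.1 / r, hq⟩ : Fin m).succ - x (⟨i.1 / r, hq⟩ : Fin m).castSucc) (by rw [one_mul]; exact h _)
    (by
      have h3 := h ⟨i.1 / r, hq⟩
      have h4 : (1 : ℤ) ≤ r := by exact_mod_cast hr
      nlinarith)).1
  show sbX r x i.1 < sbX r x (i.1 + 1)
  omega

/-- **L-SB-1** (~250 l. for the block `pn_sb_ok` .. `pn_sb_ev`; tools `Sec.sec_gr_div_gap`, `Sec.sec_gr_divmod`, `Sec.sec_gr_build1`, `Sec.secGrX_val`, `Sec.secGrX_side`, `Fin.strictMono_iff_lt_succ`). -/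
theorem pn_sb_ok {r : ℕ} (hr : 0 < r) {g : DGrid m₁ m₂} (h : g.SideGe r) : sbOK r g :=
  ⟨pn_sb_mono hr g.x₁ h.1, pn_sb_mono hr g.x₂ h.2⟩

theorem pn_sb_refines {r : ℕ} (hr : 0 < r) {g : DGrid m₁ m₂} (h : sbOK r g) : S23.Refines r (sbG r g) g := by
  constructor
  · intro i i' e
    rw [pn_sb_x₁ h, e, pn_sb_X_mul hr, Sec.secGrX_val]
  · intro j j' e
    rw [pn_sb_x₂ h, e, pn_sb_X_mul hr, Sec.secGrX_val]

theorem pn_sb_sideGe_mono {g : DGrid m₁ m₂} {n n' : ℕ} (hn : n' ≤ n) (h : g.SideGe n) : g.SideGe n' := by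
  have hn' : (n' : ℤ) ≤ n := by exact_mod_cast hn
  exact ⟨fun i => hn'.trans (h.1 i), fun j => hn'.trans (h.2 j)⟩

/-- one direction of `pn_sb_adm`, subdivision case -/
theorem pn_sb_adm1 {m : ℕ} {r : ℕ} (hr : 0 < r) (x : Fin (m + 1) → ℤ) (hx : StrictMono (fun i : Fin (r * m + 1) => sbX r x i.1)) (K ν : ℕ)
    (h1 : ∀ q : Fin m, (ν : ℤ) ≤ x q.succ - x q.castSucc) (h2 : ∀ q : Fin m, x q.succ - x q.castSucc ≤ ((K * ν : ℕ) : ℤ)) (i : Fin (r * m)) :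
    ((sbNu r ν : ℕ) : ℤ) ≤ sbX r x (i.1 + 1) - sbX r x i.1 ∧ sbX r x (i.1 + 1) - sbX r x i.1 ≤ (((2 * K + 1) * sbNu r ν : ℕ) : ℤ) := by
  have hq : i.1 / r < m := Nat.div_lt_of_lt_mul i.2
  have e := Sec.secGrX_side x ⟨i.1 / r, hq⟩
  simp only at e
  unfold sbNu
  split_ifs with hν
  · rw [pn_sb_step hr, e]
    exact Sec.sec_gr_div_gap hr _ _ ν K hν (h1 _) (h2 _)
  · have hpos : sbX r x i.1 < sbX r x (i.1 + 1) := hx (Fin.castSucc_lt_succ (i := i))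
    have a1 := h1 ⟨i.1 / r, hq⟩
    have a2 := h2 ⟨i.1 / r, hq⟩
    have hup := (pn_sb_gap hr (x (⟨i.1 / r, hq⟩ : Fin m).succ - x (⟨i.1 / r, hq⟩ : Fin m).castSucc) (i.1 % r)
      0 K (by
        have : (0 : ℤ) ≤ ν := Int.natCast_nonneg ν
        omega) (by
        push_cast at a2
        have h3 : (ν : ℤ) ≤ r := by exact_mod_cast (not_le.1 hν).le
        have h4 : (0 : ℤ) ≤ K := Int.natCast_nonneg K
        nlinarith)).2
    rw [← e, ← pn_sb_step hr] at hup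
    rcases Nat.eq_zero_or_pos ν with rfl | hν0
    · exfalso
      have hgap := (pn_sb_gap hr (x (⟨i.1 / r, hq⟩ : Fin m).succ - x (⟨i.1 / r, hq⟩ : Fin m).castSucc) (i.1 % r)
        0 0 (by simpa using a1) (by simpa using a2)).2
      rw [← e, ← pn_sb_step hr] at hgap
      omega
    · have hm : min 1 ν = 1 := min_eq_left hν0
      rw [hm]
      push_cast
      constructor
      · omega
      · have h4 : (0 : ℤ) ≤ K := Int.natCast_nonneg K
        omega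

/-- one direction of `pn_sb_adm`, fallback case -/
theorem pn_sb_adm2 {m : ℕ} {r : ℕ} (x : Fin (m + 1) → ℤ) (hx : StrictMono x) (K ν : ℕ) (hν : ¬ r ≤ ν)
    (h2 : ∀ q : Fin m, x q.succ - x q.castSucc ≤ ((K * ν : ℕ) : ℤ)) (i : Fin (r * m)) :
    ((sbNu r ν : ℕ) : ℤ) ≤ 1 ∧ (1 : ℤ) ≤ (((2 * K + 1) * sbNu r ν : ℕ) : ℤ) := by
  have hq : i.1 / r < m := Nat.div_lt_of_lt_mul i.2
  unfold sbNu
  rw [if_neg hν]
  rcases Nat.eq_zero_or_pos ν with rfl | hν0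
  · exfalso
    have a2 := h2 ⟨i.1 / r, hq⟩
    have a3 := hx (Fin.castSucc_lt_succ (i := (⟨i.1 / r, hq⟩ : Fin m)))
    simp only [mul_zero, Nat.cast_zero] at a2
    omega
  · have hm : min 1 ν = 1 := min_eq_left hν0
    rw [hm]
    have h4 : (0 : ℤ) ≤ K := Int.natCast_nonneg K
    constructor
    · simp
    · push_cast
      linarith

theorem pn_sb_nu_tendsto {ν : ℕ → ℕ} (h : Tendsto ν atTop atTop) {r : ℕ} (hr : 0 < r) : Tendsto (fun k => sbNu r (ν k)) atTop atTop := by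
  refine tendsto_atTop.2 fun b => ?_
  filter_upwards [tendsto_atTop.1 h (r + b * r)] with k hk
  unfold sbNu
  rw [if_pos (by omega)]
  exact (Nat.le_div_iff_mul_le hr).2 (by omega)

/-- In all cases.  `r ≤ ν`: `Sec.sec_gr_div_gap`.  `ν < r`: the sides are `≥ 1` and `≤ K + 1` (subdivision) or `= 1` (fallback); `ν = 0` is impossible if there is a cell. -/
theorem pn_sb_adm {K : ℕ} {g : ℕ → DGrid m₁ m₂} {ν : ℕ → ℕ} (hg : Admissible K g ν) {r : ℕ} (hr : 0 < r) :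
    Admissible (2 * K + 1) (fun k => sbG r (g k)) (fun k => sbNu r (ν k)) := by
  refine ⟨pn_sb_nu_tendsto hg.1 hr, fun k => ?_⟩
  obtain ⟨h1, h2⟩ := hg.2 k
  by_cases hok : sbOK r (g k)
  · have A := pn_sb_adm1 hr (g k).x₁ hok.1 K (ν k) h1.1 h2.1
    have B := pn_sb_adm1 hr (g k).x₂ hok.2 K (ν k) h1.2 h2.2
    refine ⟨⟨fun i => ?_, fun j => ?_⟩, ⟨fun i => ?_, fun j => ?_⟩⟩
    · rw [pn_sb_x₁ hok, pn_sb_x₁ hok]
      exact (A i).1
    · rw [pn_sb_x₂ hok, pn_sb_x₂ hok]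
      exact (B j).1
    · rw [pn_sb_x₁ hok, pn_sb_x₁ hok]
      exact (A i).2
    · rw [pn_sb_x₂ hok, pn_sb_x₂ hok]
      exact (B j).2
  · have hν : ¬ r ≤ ν k := fun hν => hok (pn_sb_ok hr (pn_sb_sideGe_mono hν h1))
    have A := pn_sb_adm2 (r := r) (g k).x₁ (g k).mono₁ K (ν k) hν h2.1
    have B := pn_sb_adm2 (r := r) (g k).x₂ (g k).mono₂ K (ν k) hν h2.2
    have e : sbG r (g k) = DGrid.unif _ _ 1 one_pos := by
      unfold sbG
      rw [dif_neg hok]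
    have s1 : ∀ i : Fin (r * m₁), (sbG r (g k)).x₁ i.succ - (sbG r (g k)).x₁ i.castSucc = 1 := by
      intro i
      rw [e]
      simp [DGrid.unif]
    have s2 : ∀ j : Fin (r * m₂), (sbG r (g k)).x₂ j.succ - (sbG r (g k)).x₂ j.castSucc = 1 := by
      intro j
      rw [e]
      simp [DGrid.unif]
    refine ⟨⟨fun i => ?_, fun j => ?_⟩, ⟨fun i => ?_, fun j => ?_⟩⟩
    · rw [s1]
      exact (A i).1
    · rw [s2]
      exact (B j).1
    · rw [s1]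
      exact (A i).2
    · rw [s2]
      exact (B j).2

theorem pn_sb_comp (ν : ℕ → ℕ) {r : ℕ} (hr : 0 < r) : Comp ν (fun k => sbNu r (ν k)) := by
  refine ⟨2 * r, fun k => ?_⟩
  simp only
  unfold sbNu
  split_ifs with h
  · have f1 : r * (ν k / r) ≤ ν k := Nat.mul_div_le _ _
    have f2 : ν k < r * (ν k / r) + r := by
      have := Nat.lt_mul_div_succ (ν k) hr
      rwa [Nat.mul_add, Nat.mul_one] at this
    have f3 : 1 ≤ ν k / r := (Nat.one_le_div_iff hr).2 h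
    constructor
    · nlinarith
    · have : ν k / r ≤ ν k := Nat.div_le_self _ _
      nlinarith
  · rcases Nat.eq_zero_or_pos (ν k) with h0 | h0
    · rw [h0]
      simp
    · have hm : min 1 (ν k) = 1 := min_eq_left h0
      rw [hm]
      constructor
      · omega
      · nlinarith

theorem pn_sb_ev {K : ℕ} {g : ℕ → DGrid m₁ m₂} {ν : ℕ → ℕ} (hg : Admissible K g ν) {r : ℕ} (hr : 0 < r) : ∀ᶠ k in atTop, sbOK r (g k) := by
  filter_upwards [tendsto_atTop.1 hg.1 r] with k hk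
  exact pn_sb_ok hr (pn_sb_sideGe_mono hk (hg.2 k).1)

/-! ## 3. Transport of the domain -/

theorem pn_sb_region {r : ℕ} {g' : DGrid (r * m₁) (r * m₂)} {g : DGrid m₁ m₂} (h : S23.Refines r g' g) (A : Finset (Cell m₁ m₂)) :
    g'.region (S23.fine r A) = g.region A := Sec.region_fine h A

theorem pn_sb_cut {r : ℕ} {g' : DGrid (r * m₁) (r * m₂)} {g : DGrid m₁ m₂} (h : S23.Refines r g' g) (Γ : CGeom m₁ m₂) :
    (S23.refine r Γ).cutB g' = Γ.cutB g := by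
  rw [Sec.cutB_eq, Sec.cutB_eq]
  exact Sec.crossB_fineF h Γ.cutF

/-! ## 4. Coarse coefficients at level `r`; nested levels -/

/-- the weight of a fine cell in its coarse cell -/
def sbW (r : ℕ) (g' : DGrid (r * m₁) (r * m₂)) (κ' : Cell (r * m₁) (r * m₂)) : ℝ :=
  ((g'.cell κ').card : ℝ) / ((g'.region (S23.fine r {S23.coarse r κ'})).card : ℝ)

/-- coarse coefficients read at level `r` -/
def sbUp (r : ℕ) (g' : DGrid (r * m₁) (r * m₂)) (t : Cell m₁ m₂ → ℝ) : Cell (r * m₁) (r * m₂) → ℝ :=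
  fun κ' => t (S23.coarse r κ') * sbW r g' κ'

theorem pn_sb_cell_card_pos {n₁ n₂ : ℕ} (g : DGrid n₁ n₂) (κ : Cell n₁ n₂) : 0 < (g.cell κ).card := by
  refine Finset.card_pos.2 ⟨(g.x₁ κ.1.castSucc, g.x₂ κ.2.castSucc), ?_⟩
  rw [Sec.sec_mem_cell]
  exact ⟨⟨le_refl _, g.mono₁ Fin.castSucc_lt_succ⟩, ⟨le_refl _, g.mono₂ Fin.castSucc_lt_succ⟩⟩

theorem pn_sb_region_single {n₁ n₂ : ℕ} (g : DGrid n₁ n₂) (κ : Cell n₁ n₂) : g.region {κ} = g.cell κ := by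
  unfold DGrid.region
  rw [Finset.singleton_biUnion]

theorem pn_sb_region_card {n₁ n₂ : ℕ} (g : DGrid n₁ n₂) (A : Finset (Cell n₁ n₂)) : (g.region A).card = ∑ κ ∈ A, (g.cell κ).card := by
  unfold DGrid.region
  refine Finset.card_biUnion fun κ _ κ' _ hne => ?_
  show Disjoint (g.cell κ) (g.cell κ')
  rw [Finset.disjoint_left]
  intro z h1 h2
  exact hne (Sec.sec_cell_unique g h1 h2)

theorem pn_sb_cell_sub_region {n₁ n₂ : ℕ} (g : DGrid n₁ n₂) {A : Finset (Cell n₁ n₂)} {κ : Cell n₁ n₂} (h : κ ∈ A) : g.cell κ ⊆ g.region A := by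
  unfold DGrid.region
  exact Finset.subset_biUnion_of_mem g.cell h

theorem pn_sb_mem_fine (r : ℕ) (A : Finset (Cell m₁ m₂)) (κ' : Cell (r * m₁) (r * m₂)) : κ' ∈ S23.fine r A ↔ S23.coarse r κ' ∈ A := by
  unfold S23.fine
  rw [Finset.mem_filter]
  exact ⟨fun h => h.2, fun h => ⟨Finset.mem_univ _, h⟩⟩

/-- **L-SB-2** (~200 l. for the block `pn_sb_W_mem` .. `pn_sb_up`; cells are disjoint and nonempty: `Sec.sec_cell_unique`, `Finset.card_biUnion`). -/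
theorem pn_sb_W_mem (r : ℕ) (g' : DGrid (r * m₁) (r * m₂)) (κ' : Cell (r * m₁) (r * m₂)) : 0 < sbW r g' κ' ∧ sbW r g' κ' ≤ 1 := by
  have h1 : 0 < (g'.cell κ').card := pn_sb_cell_card_pos g' κ'
  have h2 : (g'.cell κ').card ≤ (g'.region (S23.fine r {S23.coarse r κ'})).card :=
    Finset.card_le_card (pn_sb_cell_sub_region g' ((pn_sb_mem_fine r _ κ').2 (Finset.mem_singleton_self _)))
  have h1' : (0 : ℝ) < (g'.cell κ').card := by exact_mod_cast h1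
  have h2' : ((g'.cell κ').card : ℝ) ≤ (g'.region (S23.fine r {S23.coarse r κ'})).card := by exact_mod_cast h2
  unfold sbW
  exact ⟨div_pos h1' (h1'.trans_le h2'), (div_le_one (h1'.trans_le h2')).2 h2'⟩

theorem pn_sb_W_sum {r : ℕ} (hr : 0 < r) (g' : DGrid (r * m₁) (r * m₂)) (κ : Cell m₁ m₂) : ∑ κ' ∈ S23.fine r {κ}, sbW r g' κ' = 1 := by
  have e : ∀ κ' ∈ S23.fine r {κ}, sbW r g' κ' = ((g'.cell κ').card : ℝ) / ((g'.region (S23.fine r {κ})).card : ℝ) := by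
    intro κ' hκ'
    have : S23.coarse r κ' = κ := Finset.mem_singleton.1 ((pn_sb_mem_fine r _ κ').1 hκ')
    unfold sbW
    rw [this]
  rw [Finset.sum_congr rfl e, ← Finset.sum_div, pn_sb_region_card]
  push_cast
  refine div_self ?_
  -- a fine cell of `κ`
  have b1 : r * κ.1.1 < r * m₁ := Nat.mul_lt_mul_of_pos_left κ.1.2 hr
  have b2 : r * κ.2.1 < r * m₂ := Nat.mul_lt_mul_of_pos_left κ.2.2 hr
  have hmem : ((⟨r * κ.1.1, b1⟩, ⟨r * κ.2.1, b2⟩) : Cell (r * m₁) (r * m₂)) ∈ S23.fine r {κ} := by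
    rw [pn_sb_mem_fine, Finset.mem_singleton]
    unfold S23.coarse
    apply Prod.ext
    · exact Fin.ext (Nat.mul_div_cancel_left _ hr)
    · exact Fin.ext (Nat.mul_div_cancel_left _ hr)
  have h1 : (0 : ℝ) < ((g'.cell (⟨r * κ.1.1, b1⟩, ⟨r * κ.2.1, b2⟩)).card : ℝ) := by exact_mod_cast pn_sb_cell_card_pos g' _
  have h2 := Finset.single_le_sum (f := fun κ' => ((g'.cell κ').card : ℝ)) (fun κ' _ => Nat.cast_nonneg _) hmem
  exact (h1.trans_le h2).ne'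

theorem pn_sb_up_le (r : ℕ) (g' : DGrid (r * m₁) (r * m₂)) (t : Cell m₁ m₂ → ℝ) (κ' : Cell (r * m₁) (r * m₂)) :
    |sbUp r g' t κ'| ≤ |t (S23.coarse r κ')| := by
  obtain ⟨h1, h2⟩ := pn_sb_W_mem r g' κ'
  unfold sbUp
  rw [abs_mul, abs_of_pos h1]
  exact mul_le_of_le_one_right (abs_nonneg _) h2

/-- the value of a cell test in a cell -/
theorem pn_sb_CT_eval {n₁ n₂ : ℕ} (T : Finset (Cell n₁ n₂)) (g : DGrid n₁ n₂) (t : Cell n₁ n₂ → ℝ) {z : ℤ × ℤ} {κ : Cell n₁ n₂} (hz : z ∈ g.cell κ) :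
    sbCT T g t z = t κ * ((g.region ({κ} ∩ T)).card : ℝ)⁻¹ := by
  unfold sbCT
  rw [Finset.sum_eq_single κ]
  · rw [if_pos (by rw [pn_sb_region_single]; exact hz)]
  · intro κ' _ hne
    rw [if_neg (by
      rw [pn_sb_region_single]
      exact fun hc => hne (Sec.sec_cell_unique g hc hz)), mul_zero]
  · intro hc
    exact absurd (Finset.mem_univ κ) hc

/-- the value of a cell test outside the cells -/
theorem pn_sb_CT_zero {n₁ n₂ : ℕ} (T : Finset (Cell n₁ n₂)) (g : DGrid n₁ n₂) (t : Cell n₁ n₂ → ℝ) {z : ℤ × ℤ} (hz : ∀ κ, z ∉ g.cell κ) :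
    sbCT T g t z = 0 := by
  unfold sbCT
  refine Finset.sum_eq_zero fun κ _ => ?_
  rw [if_neg (by rw [pn_sb_region_single]; exact hz κ), mul_zero]

/-- a coarse cell test is a level-`r` cell test.  (`z` in the fine cell `κ'`, `κ = coarse κ'`: both sides are `t κ / |cell κ|` if `κ ∈ T`, and `0` if `κ ∉ T` (`0⁻¹ = 0`); `z` in no cell: `0 = 0`.) -/
theorem pn_sb_up {r : ℕ} {g' : DGrid (r * m₁) (r * m₂)} {g : DGrid m₁ m₂} (h : S23.Refines r g' g) (T : Finset (Cell m₁ m₂)) (t : Cell m₁ m₂ → ℝ) :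
    sbCT (S23.fine r T) g' (sbUp r g' t) = sbCT T g t := by
  funext z
  by_cases hz : ∃ κ', z ∈ g'.cell κ'
  · obtain ⟨κ', hκ'⟩ := hz
    have hκ : z ∈ g.cell (S23.coarse r κ') := Sec.sec_gr_cell_sub h κ' hκ'
    rw [pn_sb_CT_eval _ g' _ hκ', pn_sb_CT_eval _ g _ hκ]
    by_cases hT : S23.coarse r κ' ∈ T
    · have e1 : ({κ'} : Finset (Cell (r * m₁) (r * m₂))) ∩ S23.fine r T = {κ'} :=
        Finset.inter_eq_left.2 (Finset.singleton_subset_iff.2 ((pn_sb_mem_fine r T κ').2 hT))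
      have e2 : ({S23.coarse r κ'} : Finset (Cell m₁ m₂)) ∩ T = {S23.coarse r κ'} :=
        Finset.inter_eq_left.2 (Finset.singleton_subset_iff.2 hT)
      rw [e1, e2, pn_sb_region_single g' κ']
      unfold sbUp sbW
      rw [Sec.region_fine h]
      have h1 : ((g'.cell κ').card : ℝ) ≠ 0 := by exact_mod_cast (pn_sb_cell_card_pos g' κ').ne'
      field_simp
    · have e1 : ({κ'} : Finset (Cell (r * m₁) (r * m₂))) ∩ S23.fine r T = ∅ :=
        Finset.singleton_inter_of_notMem (fun hc => hT ((pn_sb_mem_fine r T κ').1 hc))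
      have e2 : ({S23.coarse r κ'} : Finset (Cell m₁ m₂)) ∩ T = ∅ := Finset.singleton_inter_of_notMem hT
      rw [e1, e2]
      simp [DGrid.region]
  · have hz' : ¬ ∃ κ, z ∈ g.cell κ := by
      rintro ⟨κ, hκ⟩
      obtain ⟨κ', -, h3⟩ := Sec.sec_gr_cell_find h κ hκ
      exact hz ⟨κ', h3⟩
    rw [pn_sb_CT_zero _ g' _ (fun κ' hc => hz ⟨κ', hc⟩), pn_sb_CT_zero _ g _ (fun κ hc => hz' ⟨κ, hc⟩)]

/-- the lines of the level `r₁` are lines of the level `r₁ c` -/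
theorem pn_sb_n3_X_mul {m : ℕ} {c : ℕ} (hc : 0 < c) (r₁ : ℕ) (x : Fin (m + 1) → ℤ) (i : ℕ) : sbX (r₁ * c) x (c * i) = sbX r₁ x i := by
  unfold sbX
  have e1 : c * i / (r₁ * c) = i / r₁ := by rw [mul_comm r₁ c, Nat.mul_div_mul_left _ _ hc]
  have e2 : c * i % (r₁ * c) = c * (i % r₁) := by rw [mul_comm r₁ c, Nat.mul_mod_mul_left]
  rw [e1, e2]
  congr 1
  push_cast
  rw [mul_comm (r₁ : ℤ) (c : ℤ), mul_assoc]
  exact Int.mul_ediv_mul_of_pos _ _ (by exact_mod_cast hc)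

theorem pn_sb_n3_mono {m r₁ c : ℕ} (hc : 0 < c) (x : Fin (m + 1) → ℤ)
    (hmono : StrictMono (fun i : Fin (r₁ * c * m + 1) => sbX (r₁ * c) x i.1)) : StrictMono (fun i : Fin (r₁ * m + 1) => sbX r₁ x i.1) := by
  intro i j hij
  have h1 : i.1 < j.1 := hij
  have h2 : c * i.1 < c * j.1 := Nat.mul_lt_mul_of_pos_left h1 hc
  have h3 : c * j.1 ≤ c * (r₁ * m) := Nat.mul_le_mul_left _ (Nat.lt_succ_iff.1 j.2)
  have h4 : c * (r₁ * m) = r₁ * c * m := by ring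
  show sbX r₁ x i.1 < sbX r₁ x j.1
  rw [← pn_sb_n3_X_mul hc, ← pn_sb_n3_X_mul hc r₁ x j.1]
  exact hmono (a := ⟨c * i.1, by omega⟩) (b := ⟨c * j.1, by omega⟩) h2

/-- a level-`r₁ c` interval lies in its level-`r₁` interval -/
theorem pn_sb_n3_sub {m r₁ c : ℕ} (hc : 0 < c) (x : Fin (m + 1) → ℤ)
    (hmono : StrictMono (fun i : Fin (r₁ * c * m + 1) => sbX (r₁ * c) x i.1)) (i' : ℕ) (hi : i' < r₁ * c * m) :
    sbX r₁ x (i' / c) ≤ sbX (r₁ * c) x i' ∧ sbX (r₁ * c) x (i' + 1) ≤ sbX r₁ x (i' / c + 1) := by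
  rw [← pn_sb_n3_X_mul hc, ← pn_sb_n3_X_mul hc r₁ x (i' / c + 1)]
  have h1 : c * (i' / c) ≤ i' := Nat.mul_div_le _ _
  have h2 : i' < c * (i' / c + 1) := Nat.lt_mul_div_succ i' hc
  have h4 : c * (r₁ * m) = r₁ * c * m := by ring
  have h5 : i' / c < r₁ * m := Nat.div_lt_of_lt_mul (by omega)
  have h3 : c * (i' / c + 1) ≤ c * (r₁ * m) := Nat.mul_le_mul_left _ h5
  constructor
  · exact hmono.monotone (a := ⟨c * (i' / c), by omega⟩) (b := ⟨i', by omega⟩) h1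
  · exact hmono.monotone (a := ⟨i' + 1, by omega⟩) (b := ⟨c * (i' / c + 1), by omega⟩) h2

/-- a point of a level-`r₁` interval lies in a level-`r₁ c` interval -/
theorem pn_sb_n3_find {m r₁ c : ℕ} (hc : 0 < c) (x : Fin (m + 1) → ℤ) (i₁ : ℕ) (hi : i₁ < r₁ * m) (t : ℤ)
    (h1 : sbX r₁ x i₁ ≤ t) (h2 : t < sbX r₁ x (i₁ + 1)) :
    ∃ i' : Fin (r₁ * c * m), sbX (r₁ * c) x i'.1 ≤ t ∧ t < sbX (r₁ * c) x (i'.1 + 1) := by
  rw [← pn_sb_n3_X_mul hc] at h1 h2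
  have h4 : c * (r₁ * m) = r₁ * c * m := by ring
  have h3 : c * (i₁ + 1) ≤ c * (r₁ * m) := Nat.mul_le_mul_left _ hi
  have h5 : c * i₁ ≤ c * (i₁ + 1) := Nat.mul_le_mul_left _ (Nat.le_succ _)
  obtain ⟨i, -, -, a3, a4⟩ := Sec.sec_gr_find (fun i : Fin (r₁ * c * m + 1) => sbX (r₁ * c) x i.1) t (c * i₁) (c * (i₁ + 1))
    (by omega) (by omega) h1 h2 h5
  exact ⟨i, a3, a4⟩

/-- the value of a cell test in a cell -/
theorem pn_sb_n3_CT_mem (T : Finset (Cell m₁ m₂)) (g : DGrid m₁ m₂) (t : Cell m₁ m₂ → ℝ) {z : ℤ × ℤ} {κ : Cell m₁ m₂} (hz : z ∈ g.cell κ) :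
    sbCT T g t z = t κ * (if κ ∈ T then ((g.cell κ).card : ℝ)⁻¹ else 0) := by
  have hreg : ∀ κ' : Cell m₁ m₂, g.region {κ'} = g.cell κ' := fun κ' => by simp [DGrid.region]
  unfold sbCT
  rw [Finset.sum_eq_single κ]
  · rw [if_pos (by rw [hreg]; exact Finset.mem_coe.2 hz)]
    congr 1
    split_ifs with hκ
    · rw [Finset.inter_eq_left.2 (Finset.singleton_subset_iff.2 hκ), hreg]
    · rw [Finset.singleton_inter_of_notMem hκ]
      simp [DGrid.region]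
  · intro κ' _ hne
    rw [if_neg, mul_zero]
    rw [hreg]
    intro h
    exact hne (Sec.sec_cell_unique g (Finset.mem_coe.1 h) hz)
  · intro h
    exact absurd (Finset.mem_univ κ) h

/-- a cell test vanishes outside the cells -/
theorem pn_sb_n3_CT_not (T : Finset (Cell m₁ m₂)) (g : DGrid m₁ m₂) (t : Cell m₁ m₂ → ℝ) {z : ℤ × ℤ} (hz : ∀ κ, z ∉ g.cell κ) :
    sbCT T g t z = 0 := by
  have hreg : ∀ κ' : Cell m₁ m₂, g.region {κ'} = g.cell κ' := fun κ' => by simp [DGrid.region]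
  unfold sbCT
  refine Finset.sum_eq_zero fun κ _ => ?_
  rw [if_neg, mul_zero]
  rw [hreg]
  exact fun h => hz κ (Finset.mem_coe.1 h)

/-- nested grids, abstract form -/
theorem pn_sb_n3_abs {n₁ n₂ k₁ k₂ : ℕ} (g' : DGrid n₁ n₂) (g₁ : DGrid k₁ k₂) (par : Cell n₁ n₂ → Cell k₁ k₂)
    (hsub : ∀ κ' z, z ∈ g'.cell κ' → z ∈ g₁.cell (par κ'))
    (hcov : ∀ κ₁ z, z ∈ g₁.cell κ₁ → ∃ κ', z ∈ g'.cell κ')
    (T' : Finset (Cell n₁ n₂)) (T₁ : Finset (Cell k₁ k₂)) (hT : ∀ κ', κ' ∈ T' ↔ par κ' ∈ T₁) (t₁ : Cell k₁ k₂ → ℝ) :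
    ∃ t : Cell n₁ n₂ → ℝ, (∀ C : ℝ, (∀ κ, |t₁ κ| ≤ C) → ∀ κ, |t κ| ≤ C) ∧ sbCT T' g' t = sbCT T₁ g₁ t₁ := by
  have hpos' : ∀ κ', 0 < ((g'.cell κ').card : ℝ) := fun κ' => by
    have : (g'.x₁ κ'.1.castSucc, g'.x₂ κ'.2.castSucc) ∈ g'.cell κ' := by
      rw [Sec.sec_mem_cell]
      exact ⟨⟨le_rfl, g'.mono₁ Fin.castSucc_lt_succ⟩, ⟨le_rfl, g'.mono₂ Fin.castSucc_lt_succ⟩⟩
    exact Nat.cast_pos.2 (Finset.card_pos.2 ⟨_, this⟩)
  have hle : ∀ κ', ((g'.cell κ').card : ℝ) ≤ ((g₁.cell (par κ')).card : ℝ) := fun κ' =>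
    Nat.cast_le.2 (Finset.card_le_card fun z hz => hsub κ' z hz)
  have hpos₁ : ∀ κ', 0 < ((g₁.cell (par κ')).card : ℝ) := fun κ' => lt_of_lt_of_le (hpos' κ') (hle κ')
  refine ⟨fun κ' => t₁ (par κ') * (((g'.cell κ').card : ℝ) / ((g₁.cell (par κ')).card : ℝ)), ?_, ?_⟩
  · intro C hC κ'
    rw [abs_mul, abs_of_nonneg (div_nonneg (hpos' κ').le (hpos₁ κ').le)]
    exact (mul_le_of_le_one_right (abs_nonneg _) ((div_le_one (hpos₁ κ')).2 (hle κ'))).trans (hC _)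
  · funext z
    by_cases h : ∃ κ', z ∈ g'.cell κ'
    · obtain ⟨κ', hz⟩ := h
      rw [pn_sb_n3_CT_mem _ _ _ hz, pn_sb_n3_CT_mem _ _ _ (hsub _ _ hz)]
      by_cases hκ : κ' ∈ T'
      · rw [if_pos hκ, if_pos ((hT κ').1 hκ)]
        have a1 := (hpos' κ').ne'
        have a2 := (hpos₁ κ').ne'
        field_simp
      · rw [if_neg hκ, if_neg (fun h => hκ ((hT κ').2 h)), mul_zero, mul_zero]
    · rw [pn_sb_n3_CT_not _ _ _ (fun κ' hz => h ⟨κ', hz⟩), pn_sb_n3_CT_not _ _ _ (fun κ₁ hz => h (hcov κ₁ z hz))]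

/-- **L-SB-3** (~300 l.).  NESTED LEVELS.  `r = c r₁`: `sbX r x (c i) = sbX r₁ x i` (`Int.mul_ediv_mul_of_pos`), so the level-`r` cell `(i', j')` lies in the level-`r₁` cell `(i'/c, j'/c)`;
`t κ' = t₁ (parent κ') · |cell_r κ'| / |cell_{r₁} (parent κ')|`.   Work with the `ℕ`-indexed lines `sbX` (no casts between `Fin (c * r₁ * m)` and `Fin (c * (r₁ * m))`). -/
theorem pn_sb_ok_of_dvd {r₁ r : ℕ} (h1 : 0 < r₁) (hd : r₁ ∣ r) (hr : 0 < r) {g : DGrid m₁ m₂} (h : sbOK r g) : sbOK r₁ g := by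
  obtain ⟨c, rfl⟩ := hd
  have hc : 0 < c := Nat.pos_of_mul_pos_left hr
  exact ⟨pn_sb_n3_mono hc g.x₁ h.1, pn_sb_n3_mono hc g.x₂ h.2⟩

theorem pn_sb_nest {r₁ r : ℕ} (h1 : 0 < r₁) (hd : r₁ ∣ r) (hr : 0 < r) {g : DGrid m₁ m₂} (h : sbOK r g) (T : Finset (Cell m₁ m₂))
    (t₁ : Cell (r₁ * m₁) (r₁ * m₂) → ℝ) :
    ∃ t : Cell (r * m₁) (r * m₂) → ℝ, (∀ C : ℝ, (∀ κ, |t₁ κ| ≤ C) → ∀ κ, |t κ| ≤ C) ∧
      sbCT (S23.fine r T) (sbG r g) t = sbCT (S23.fine r₁ T) (sbG r₁ g) t₁ := by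
  have hok₁ := pn_sb_ok_of_dvd h1 hd hr h
  obtain ⟨c, rfl⟩ := hd
  have hc : 0 < c := Nat.pos_of_mul_pos_left hr
  have e₁ : c * (r₁ * m₁) = r₁ * c * m₁ := by ring
  have e₂ : c * (r₁ * m₂) = r₁ * c * m₂ := by ring
  refine pn_sb_n3_abs (sbG (r₁ * c) g) (sbG r₁ g)
    (fun κ' => (⟨κ'.1.1 / c, Nat.div_lt_of_lt_mul (by rw [e₁]; exact κ'.1.2)⟩, ⟨κ'.2.1 / c, Nat.div_lt_of_lt_mul (by rw [e₂]; exact κ'.2.2)⟩))
    ?_ ?_ _ _ ?_ t₁
  · intro κ' z hz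
    rw [Sec.sec_mem_cell] at hz ⊢
    simp only [pn_sb_x₁ h, pn_sb_x₂ h, pn_sb_x₁ hok₁, pn_sb_x₂ hok₁, Fin.val_castSucc, Fin.val_succ] at hz ⊢
    have a := pn_sb_n3_sub hc g.x₁ h.1 κ'.1.1 κ'.1.2
    have b := pn_sb_n3_sub hc g.x₂ h.2 κ'.2.1 κ'.2.2
    exact ⟨⟨a.1.trans hz.1.1, hz.1.2.trans_le a.2⟩, ⟨b.1.trans hz.2.1, hz.2.2.trans_le b.2⟩⟩
  · intro κ₁ z hz
    rw [Sec.sec_mem_cell] at hz
    simp only [pn_sb_x₁ hok₁, pn_sb_x₂ hok₁, Fin.val_castSucc, Fin.val_succ] at hz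
    obtain ⟨i, a1, a2⟩ := pn_sb_n3_find hc g.x₁ κ₁.1.1 κ₁.1.2 z.1 hz.1.1 hz.1.2
    obtain ⟨j, b1, b2⟩ := pn_sb_n3_find hc g.x₂ κ₁.2.1 κ₁.2.2 z.2 hz.2.1 hz.2.2
    refine ⟨(i, j), ?_⟩
    rw [Sec.sec_mem_cell]
    simp only [pn_sb_x₁ h, pn_sb_x₂ h, Fin.val_castSucc, Fin.val_succ]
    exact ⟨⟨a1, a2⟩, ⟨b1, b2⟩⟩
  · intro κ'
    unfold S23.fine
    simp only [Finset.mem_filter, Finset.mem_univ, true_and]
    have : S23.coarse r₁ ((⟨κ'.1.1 / c, Nat.div_lt_of_lt_mul (by rw [e₁]; exact κ'.1.2)⟩, ⟨κ'.2.1 / c, Nat.div_lt_of_lt_mul (by rw [e₂]; exact κ'.2.2)⟩) : Cell (r₁ * m₁) (r₁ * m₂))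
        = S23.coarse (r₁ * c) κ' := by
      unfold S23.coarse
      refine Prod.ext (Fin.ext ?_) (Fin.ext ?_)
      · show κ'.1.1 / c / r₁ = κ'.1.1 / (r₁ * c)
        rw [Nat.div_div_eq_div_mul, Nat.mul_comm c r₁]
      · show κ'.2.1 / c / r₁ = κ'.2.1 / (r₁ * c)
        rw [Nat.div_div_eq_div_mul, Nat.mul_comm c r₁]
    rw [this]

/-! ## 5. Confinement of the constants, combinatorial form -/

/-- functions of the cells which are constant on the components and vanish on the pinned cells -/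
def CompFn (Γ : CGeom m₁ m₂) (s : Cell m₁ m₂ → ℝ) : Prop := (∀ κ κ', Γ.Adj κ κ' → s κ = s κ') ∧ ∀ κ ∈ Γ.pin, s κ = 0

/-- the (moving) rows `R` confine the constants of all unpinned components, uniformly -/
def UConf (Γ : CGeom m₁ m₂) {N : ℕ} (R : ℕ → Fin N → Cell m₁ m₂ → ℝ) : Prop :=
  ∃ c : ℝ, 0 < c ∧ ∀ k s, CompFn Γ s → c * ∑ κ ∈ Γ.T, s κ ^ 2 ≤ ∑ o, (∑ κ ∈ Γ.T, R k o κ * s κ) ^ 2

/-- a bond which leaves the cell `κ` in the direction `d` enters the neighbour of `κ` in this direction  (copy of `T32.pn_gl_cross`) -/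
theorem pn_sb_cross (g : DGrid m₁ m₂) {κ κ' : Cell m₁ m₂} {e : Bond} (h1 : e.1 ∈ g.cell κ) (h2 : e.snd ∉ g.cell κ) (h3 : e.snd ∈ g.cell κ') :
    (e.2 = true ∧ κ.1.1 + 1 = κ'.1.1 ∧ κ.2 = κ'.2) ∨ (e.2 = false ∧ κ.1 = κ'.1 ∧ κ.2.1 + 1 = κ'.2.1) := by
  obtain ⟨⟨x, y⟩, d⟩ := e
  rw [Sec.sec_mem_cell] at h1 h2 h3
  cases d with
  | true =>
    left
    simp only [Bond.snd, if_true] at h1 h2 h3 ⊢
    have e2 : κ.2 = κ'.2 := le_antisymm (Sec.sec_idx_le g.mono₂ h1.2.1 h3.2.2) (Sec.sec_idx_le g.mono₂ h3.2.1 h1.2.2)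
    refine ⟨trivial, ?_, e2⟩
    have h4 : g.x₁ κ.1.succ ≤ x + 1 := by
      by_contra hc
      exact h2 ⟨⟨by omega, by omega⟩, h1.2⟩
    have h5 : g.x₁ κ.1.succ = x + 1 := by omega
    have a1 : κ.1.succ < κ'.1.succ := g.mono₁.lt_iff_lt.1 (by omega)
    have a2 : κ'.1.castSucc ≤ κ.1.succ := g.mono₁.le_iff_le.1 (by omega)
    rw [Fin.lt_def] at a1
    rw [Fin.le_def] at a2
    simp only [Fin.val_castSucc, Fin.val_succ] at a1 a2
    omega
  | false =>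
    right
    simp only [Bond.snd, Bool.false_eq_true, if_false] at h1 h2 h3 ⊢
    have e2 : κ.1 = κ'.1 := le_antisymm (Sec.sec_idx_le g.mono₁ h1.1.1 h3.1.2) (Sec.sec_idx_le g.mono₁ h3.1.1 h1.1.2)
    refine ⟨trivial, e2, ?_⟩
    have h4 : g.x₂ κ.2.succ ≤ y + 1 := by
      by_contra hc
      exact h2 ⟨h1.1, ⟨by omega, by omega⟩⟩
    have h5 : g.x₂ κ.2.succ = y + 1 := by omega
    have a1 : κ.2.succ < κ'.2.succ := g.mono₂.lt_iff_lt.1 (by omega)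
    have a2 : κ'.2.castSucc ≤ κ.2.succ := g.mono₂.le_iff_le.1 (by omega)
    rw [Fin.lt_def] at a1
    rw [Fin.le_def] at a2
    simp only [Fin.val_castSucc, Fin.val_succ] at a1 a2
    omega

/-- the lower left corner of a cell -/
theorem pn_sb_corner (g : DGrid m₁ m₂) (κ : Cell m₁ m₂) : (g.x₁ κ.1.castSucc, g.x₂ κ.2.castSucc) ∈ g.cell κ := by
  rw [Sec.sec_mem_cell]
  exact ⟨⟨le_rfl, g.mono₁ Fin.castSucc_lt_succ⟩, ⟨le_rfl, g.mono₂ Fin.castSucc_lt_succ⟩⟩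

/-- the average over a cell of a field which is constant on the cells -/
theorem pn_sb_avg (Γ : CGeom m₁ m₂) (g : DGrid m₁ m₂) (v : (Γ.graph g).V → ℝ) (s : Cell m₁ m₂ → ℝ)
    (hv : ∀ (x : (Γ.graph g).V) (κ : Cell m₁ m₂), domPos (D := g.region Γ.T) (cut := Γ.cutB g) x ∈ g.cell κ → v x = s κ) (κ : Cell m₁ m₂) :
    ∑ x, Γ.avgRow g {κ} x * v x = if κ ∈ Γ.T then s κ else 0 := by
  have hreg : g.region {κ} = g.cell κ := by simp [DGrid.region]
  have hmem : ∀ x : (Γ.graph g).V, x ∈ Γ.sites g {κ} ↔ domPos (D := g.region Γ.T) (cut := Γ.cutB g) x ∈ g.cell κ := by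
    intro x
    show domPos x ∈ (↑(g.region {κ}) : Set (ℤ × ℤ)) ↔ _
    rw [hreg, Finset.mem_coe]
  split_ifs with hκ
  · have e1 : ({κ} ∩ Γ.T : Finset (Cell m₁ m₂)) = {κ} := Finset.inter_eq_left.2 (Finset.singleton_subset_iff.2 hκ)
    have h2 : ∀ x : (Γ.graph g).V, Γ.avgRow g {κ} x * v x
        = (fun z : ℤ × ℤ => if z ∈ g.cell κ then ((g.cell κ).card : ℝ)⁻¹ * s κ else 0) x.1 := by
      intro x
      unfold CGeom.avgRow
      rw [e1, hreg]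
      by_cases hx : x ∈ Γ.sites g {κ}
      · have hx' := (hmem x).1 hx
        rw [if_pos hx, hv x κ hx']
        exact (if_pos hx').symm
      · have hx' : ¬ x.1 ∈ g.cell κ := fun h => hx ((hmem x).2 h)
        rw [if_neg hx, zero_mul]
        exact (if_neg hx').symm
    simp only [h2]
    have h3 := Finset.sum_subtype (F := (Γ.graph g).fV) (g.region Γ.T) (p := fun z => z ∈ g.region Γ.T) (fun _ => Iff.rfl)
      (fun z : ℤ × ℤ => if z ∈ g.cell κ then ((g.cell κ).card : ℝ)⁻¹ * s κ else 0)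
    refine Eq.trans ?_ (h3.symm.trans ?_)
    · rfl
    · rw [← Finset.sum_filter]
      have h4 : (g.region Γ.T).filter (fun z => z ∈ g.cell κ) = g.cell κ := by
        ext z
        rw [Finset.mem_filter]
        exact ⟨fun h => h.2, fun h => ⟨Finset.mem_biUnion.2 ⟨κ, hκ, h⟩, h⟩⟩
      rw [h4, Finset.sum_const, nsmul_eq_mul]
      have h5 : ((g.cell κ).card : ℝ) ≠ 0 := Nat.cast_ne_zero.2 (Finset.card_ne_zero_of_mem (pn_sb_corner g κ))
      field_simp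
  · refine Finset.sum_eq_zero fun x _ => ?_
    unfold CGeom.avgRow
    rw [if_neg, zero_mul]
    intro hx
    have h1 := (hmem x).1 hx
    obtain ⟨κ', hκ', hx'⟩ := Finset.mem_biUnion.1 x.2
    exact hκ (Sec.sec_cell_unique g h1 hx' ▸ hκ')

/-- the rows on a field which is constant on the cells -/
theorem pn_sb_obs (Γ : CGeom m₁ m₂) (g : DGrid m₁ m₂) {N : ℕ} (row : Fin N → Cell m₁ m₂ → ℝ) (v : (Γ.graph g).V → ℝ) (s : Cell m₁ m₂ → ℝ)
    (hv : ∀ (x : (Γ.graph g).V) (κ : Cell m₁ m₂), domPos (D := g.region Γ.T) (cut := Γ.cutB g) x ∈ g.cell κ → v x = s κ) (o : Fin N) :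
    (lawR Γ g row).obs v o = ∑ κ ∈ Γ.T, row o κ * s κ := by
  show ∑ x, (∑ κ, row o κ * Γ.avgRow g {κ} x) * v x = _
  simp only [Finset.sum_mul]
  rw [Finset.sum_comm]
  have h1 : ∀ κ, ∑ x, row o κ * Γ.avgRow g {κ} x * v x = if κ ∈ Γ.T then row o κ * s κ else 0 := by
    intro κ
    simp only [mul_assoc]
    rw [← Finset.mul_sum, pn_sb_avg Γ g v s hv κ]
    split_ifs
    · rfl
    · exact mul_zero _
  simp only [h1]
  rw [Finset.sum_ite_mem, Finset.univ_inter]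

/-- the bond through an uncut face, first direction -/
theorem pn_sb_face₁ (Γ : CGeom m₁ m₂) (g : DGrid m₁ m₂) {κ κ' : Cell m₁ m₂} (hκ : κ ∈ Γ.T) (hκ' : κ' ∈ Γ.T)
    (h1 : κ.1.1 + 1 = κ'.1.1) (h2 : κ.2 = κ'.2) (h3 : (κ, true) ∉ Γ.cutF) :
    ∃ e ∈ domBonds (g.region Γ.T) (Γ.cutB g), e.1 ∈ g.cell κ ∧ e.snd ∈ g.cell κ' := by
  have hs : κ.1.succ = κ'.1.castSucc := Fin.ext (by simp only [Fin.val_succ, Fin.val_castSucc]; exact h1)
  have c1 := (Sec.sec_mem_cell g).1 (pn_sb_corner g κ)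
  have c2 := pn_sb_corner g κ'
  simp only at c1
  have a1 : ((g.x₁ κ.1.succ - 1, g.x₂ κ.2.castSucc) : ℤ × ℤ) ∈ g.cell κ := by
    rw [Sec.sec_mem_cell]
    exact ⟨⟨by simp only; omega, by simp only; omega⟩, c1.2⟩
  have a2 : Bond.snd ((g.x₁ κ.1.succ - 1, g.x₂ κ.2.castSucc), true) ∈ g.cell κ' := by
    have : Bond.snd ((g.x₁ κ.1.succ - 1, g.x₂ κ.2.castSucc), true) = (g.x₁ κ'.1.castSucc, g.x₂ κ'.2.castSucc) := by
      simp only [Bond.snd, if_true, hs, h2, sub_add_cancel]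
    rw [this]
    exact c2
  refine ⟨((g.x₁ κ.1.succ - 1, g.x₂ κ.2.castSucc), true), ?_, a1, a2⟩
  rw [domBonds, Finset.mem_filter, Finset.mem_product]
  refine ⟨⟨Finset.mem_biUnion.2 ⟨κ, hκ, a1⟩, Finset.mem_univ _⟩, Finset.mem_biUnion.2 ⟨κ', hκ', a2⟩, ?_⟩
  rintro ⟨f, hf, hf2, hf1, -⟩
  have e1 : f.1 = κ := Sec.sec_cell_unique g hf1 a1
  have e2 : f = (κ, true) := Prod.ext e1 hf2.symm
  exact h3 (e2 ▸ hf)

/-- the bond through an uncut face, second direction -/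
theorem pn_sb_face₂ (Γ : CGeom m₁ m₂) (g : DGrid m₁ m₂) {κ κ' : Cell m₁ m₂} (hκ : κ ∈ Γ.T) (hκ' : κ' ∈ Γ.T)
    (h1 : κ.1 = κ'.1) (h2 : κ.2.1 + 1 = κ'.2.1) (h3 : (κ, false) ∉ Γ.cutF) :
    ∃ e ∈ domBonds (g.region Γ.T) (Γ.cutB g), e.1 ∈ g.cell κ ∧ e.snd ∈ g.cell κ' := by
  have hs : κ.2.succ = κ'.2.castSucc := Fin.ext (by simp only [Fin.val_succ, Fin.val_castSucc]; exact h2)
  have c1 := (Sec.sec_mem_cell g).1 (pn_sb_corner g κ)
  have c2 := pn_sb_corner g κ'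
  simp only at c1
  have a1 : ((g.x₁ κ.1.castSucc, g.x₂ κ.2.succ - 1) : ℤ × ℤ) ∈ g.cell κ := by
    rw [Sec.sec_mem_cell]
    exact ⟨c1.1, ⟨by simp only; omega, by simp only; omega⟩⟩
  have a2 : Bond.snd ((g.x₁ κ.1.castSucc, g.x₂ κ.2.succ - 1), false) ∈ g.cell κ' := by
    have : Bond.snd ((g.x₁ κ.1.castSucc, g.x₂ κ.2.succ - 1), false) = (g.x₁ κ'.1.castSucc, g.x₂ κ'.2.castSucc) := by
      simp only [Bond.snd, Bool.false_eq_true, if_false, hs, h1, sub_add_cancel]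
    rw [this]
    exact c2
  refine ⟨((g.x₁ κ.1.castSucc, g.x₂ κ.2.succ - 1), false), ?_, a1, a2⟩
  rw [domBonds, Finset.mem_filter, Finset.mem_product]
  refine ⟨⟨Finset.mem_biUnion.2 ⟨κ, hκ, a1⟩, Finset.mem_univ _⟩, Finset.mem_biUnion.2 ⟨κ', hκ', a2⟩, ?_⟩
  rintro ⟨f, hf, hf2, hf1, -⟩
  have e1 : f.1 = κ := Sec.sec_cell_unique g hf1 a1
  have e2 : f = (κ, false) := Prod.ext e1 hf2.symm
  exact h3 (e2 ▸ hf)

/-- two adjacent cells are joined by a bond of the graph (in one of the two orientations) -/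
theorem pn_sb_adj_bond (Γ : CGeom m₁ m₂) (g : DGrid m₁ m₂) {κ κ' : Cell m₁ m₂} (h : Γ.Adj κ κ') :
    ∃ e ∈ domBonds (g.region Γ.T) (Γ.cutB g), (e.1 ∈ g.cell κ ∧ e.snd ∈ g.cell κ') ∨ (e.1 ∈ g.cell κ' ∧ e.snd ∈ g.cell κ) := by
  obtain ⟨hκ, hκ', h | h | h | h⟩ := h
  · obtain ⟨e, he, h⟩ := pn_sb_face₁ Γ g hκ hκ' h.1 h.2.1 h.2.2
    exact ⟨e, he, Or.inl h⟩
  · obtain ⟨e, he, h⟩ := pn_sb_face₂ Γ g hκ hκ' h.1 h.2.1 h.2.2
    exact ⟨e, he, Or.inl h⟩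
  · obtain ⟨e, he, h⟩ := pn_sb_face₁ Γ g hκ' hκ h.1 h.2.1.symm h.2.2
    exact ⟨e, he, Or.inr h⟩
  · obtain ⟨e, he, h⟩ := pn_sb_face₂ Γ g hκ' hκ h.1.symm h.2.1 h.2.2
    exact ⟨e, he, Or.inr h⟩

/-- a bond of the graph stays in a cell or joins two adjacent cells -/
theorem pn_sb_bond_adj (Γ : CGeom m₁ m₂) (g : DGrid m₁ m₂) {κ κ' : Cell m₁ m₂} {e : Bond} (he : e ∈ domBonds (g.region Γ.T) (Γ.cutB g))
    (hκ : κ ∈ Γ.T) (hκ' : κ' ∈ Γ.T) (h1 : e.1 ∈ g.cell κ) (h2 : e.snd ∈ g.cell κ') : κ = κ' ∨ Γ.Adj κ κ' := by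
  by_cases h3 : e.snd ∈ g.cell κ
  · exact Or.inl (Sec.sec_cell_unique g h3 h2)
  · right
    have hcut : e ∉ Γ.cutB g := (Finset.mem_filter.1 he).2.2
    have hf : (κ, e.2) ∉ Γ.cutF := fun hf => hcut ⟨(κ, e.2), hf, rfl, h1, h3⟩
    rcases pn_sb_cross g h1 h3 h2 with ⟨b1, b2, b3⟩ | ⟨b1, b2, b3⟩
    · exact ⟨hκ, hκ', Or.inl ⟨b2, b3, b1 ▸ hf⟩⟩
    · exact ⟨hκ, hκ', Or.inr (Or.inl ⟨b2, b3, b1 ▸ hf⟩)⟩

/-- **L-SB-4** (~300 l.).  Real properness of a geometry law is a property of `(Γ, row)`, not of the grid.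
`→`: `v x = s (cell of x)`; a bond of the graph which joins two different cells crosses an uncut face (`T32.pn_gl_cross` in `Pins/T32Glue.lean`; copy it), so `∇v = 0`; `obs v o = ∑_{κ ∈ T} row o κ s κ`.
`←`: `Sec.sec_cell_const`: `v` is constant on every cell, `s κ` = this constant (`0` off `T`); two cells joined by an uncut face: the bond from the last column of `κ` to the first column of `κ'` is in the graph. -/
theorem pn_sb_pd_iff (Γ : CGeom m₁ m₂) (g : DGrid m₁ m₂) {N : ℕ} (row : Fin N → Cell m₁ m₂ → ℝ) :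
    plPD (lawR Γ g row) (Γ.sites g Γ.pin) ↔
      ∀ s, CompFn Γ s → (∀ o, ∑ κ ∈ Γ.T, row o κ * s κ = 0) → ∀ κ ∈ Γ.T, s κ = 0 := by
  have hcell : ∀ x : (Γ.graph g).V, ∃ κ ∈ Γ.T, domPos (D := g.region Γ.T) (cut := Γ.cutB g) x ∈ g.cell κ :=
    fun x => Finset.mem_biUnion.1 x.2
  constructor
  · intro hPD s hs h0 κ hκ
    choose cl hclT hcl using hcell
    have hv : ∀ (x : (Γ.graph g).V) (κ : Cell m₁ m₂), domPos (D := g.region Γ.T) (cut := Γ.cutB g) x ∈ g.cell κ → s (cl x) = s κ :=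
      fun x κ hx => by rw [Sec.sec_cell_unique g (hcl x) hx]
    have hzero := hPD (fun x => s (cl x)) ?_ ?_ ?_
    · have hx : (g.x₁ κ.1.castSucc, g.x₂ κ.2.castSucc) ∈ g.region Γ.T := Finset.mem_biUnion.2 ⟨κ, hκ, pn_sb_corner g κ⟩
      have h1 := congrFun hzero ⟨_, hx⟩
      rw [← hv ⟨_, hx⟩ κ (pn_sb_corner g κ)]
      exact h1
    · intro x hx
      obtain ⟨κ', hκ', hx'⟩ := Finset.mem_biUnion.1 (Finset.mem_coe.1 hx)
      show s (cl x) = 0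
      rw [hv x κ' hx']
      exact hs.2 κ' hκ'
    · intro e
      show s (cl ((Γ.graph g).tgt e)) - s (cl ((Γ.graph g).src e)) = 0
      rcases pn_sb_bond_adj Γ g e.2 (hclT ((Γ.graph g).src e)) (hclT ((Γ.graph g).tgt e)) (hcl ((Γ.graph g).src e)) (hcl ((Γ.graph g).tgt e)) with h | h
      · rw [h, sub_self]
      · rw [hs.1 _ _ h, sub_self]
    · intro o
      rw [pn_sb_obs Γ g row _ s hv o]
      exact h0 o
  · intro hC v hP hgrad hobs
    have hu : ∀ e, v ((Γ.graph g).tgt e) = v ((Γ.graph g).src e) := fun e => sub_eq_zero.1 (hgrad e)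
    obtain ⟨s, hs⟩ : ∃ s : Cell m₁ m₂ → ℝ, ∀ κ, s κ = if hκ : κ ∈ Γ.T then
        v ⟨(g.x₁ κ.1.castSucc, g.x₂ κ.2.castSucc), Finset.mem_biUnion.2 ⟨κ, hκ, pn_sb_corner g κ⟩⟩ else 0 := ⟨_, fun _ => rfl⟩
    have hv : ∀ (x : (Γ.graph g).V) (κ : Cell m₁ m₂), domPos (D := g.region Γ.T) (cut := Γ.cutB g) x ∈ g.cell κ → v x = s κ := by
      intro x κ hx
      obtain ⟨κ', hκ', hx'⟩ := hcell x
      have hκ : κ ∈ Γ.T := Sec.sec_cell_unique g hx' hx ▸ hκ'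
      rw [hs κ, dif_pos hκ]
      exact Sec.sec_cell_const Γ g v hu hκ _ _ hx (pn_sb_corner g κ)
    have hcomp : CompFn Γ s := by
      constructor
      · intro κ κ' hadj
        obtain ⟨e, he, h | h⟩ := pn_sb_adj_bond Γ g hadj
        · have h1 := hu ⟨e, he⟩
          rw [hv ((Γ.graph g).tgt ⟨e, he⟩) κ' h.2, hv ((Γ.graph g).src ⟨e, he⟩) κ h.1] at h1
          exact h1.symm
        · have h1 := hu ⟨e, he⟩
          rw [hv ((Γ.graph g).tgt ⟨e, he⟩) κ h.2, hv ((Γ.graph g).src ⟨e, he⟩) κ' h.1] at h1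
          exact h1
      · intro κ hκp
        rw [hs κ]
        split_ifs with hκ
        · exact hP _ (Finset.mem_coe.2 (Finset.mem_biUnion.2 ⟨κ, hκp, pn_sb_corner g κ⟩))
        · rfl
    have h0 := hC s hcomp (fun o => by rw [← pn_sb_obs Γ g row v s hv o]; exact hobs o)
    funext x
    obtain ⟨κ, hκ, hx⟩ := hcell x
    rw [hv x κ hx]
    exact h0 κ hκ

/-- the `CompFn` supported in `T` -/
def pn_sb_W (Γ : CGeom m₁ m₂) : Submodule ℝ (Cell m₁ m₂ → ℝ) where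
  carrier := {s | CompFn Γ s ∧ ∀ κ, κ ∉ Γ.T → s κ = 0}
  zero_mem' := ⟨⟨fun _ _ _ => rfl, fun _ _ => rfl⟩, fun _ _ => rfl⟩
  add_mem' := by
    rintro s s' ⟨⟨h1, h2⟩, h3⟩ ⟨⟨h1', h2'⟩, h3'⟩
    refine ⟨⟨fun κ κ' h => ?_, fun κ h => ?_⟩, fun κ h => ?_⟩
    · simp only [Pi.add_apply, h1 κ κ' h, h1' κ κ' h]
    · simp only [Pi.add_apply, h2 κ h, h2' κ h, add_zero]
    · simp only [Pi.add_apply, h3 κ h, h3' κ h, add_zero]
  smul_mem' := by
    rintro c s ⟨⟨h1, h2⟩, h3⟩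
    refine ⟨⟨fun κ κ' h => ?_, fun κ h => ?_⟩, fun κ h => ?_⟩
    · simp only [Pi.smul_apply, h1 κ κ' h]
    · simp only [Pi.smul_apply, h2 κ h, smul_zero]
    · simp only [Pi.smul_apply, h3 κ h, smul_zero]

/-- the rows, as a linear map -/
def pn_sb_L (Γ : CGeom m₁ m₂) {N : ℕ} (row : Fin N → Cell m₁ m₂ → ℝ) : pn_sb_W Γ →ₗ[ℝ] (Fin N → ℝ) where
  toFun s := fun o => ∑ κ ∈ Γ.T, row o κ * s.1 κ
  map_add' s s' := by
    funext o
    simp only [Submodule.coe_add, Pi.add_apply, mul_add, Finset.sum_add_distrib]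
  map_smul' c s := by
    funext o
    simp only [Submodule.coe_smul, Pi.smul_apply, smul_eq_mul, RingHom.id_apply, Finset.mul_sum]
    exact Finset.sum_congr rfl fun κ _ => by ring

/-- the restriction to `T` of a `CompFn` -/
theorem pn_sb_res_mem (Γ : CGeom m₁ m₂) {s : Cell m₁ m₂ → ℝ} (hs : CompFn Γ s) :
    (fun κ => if κ ∈ Γ.T then s κ else 0) ∈ pn_sb_W Γ := by
  refine ⟨⟨fun κ κ' h => ?_, fun κ h => ?_⟩, fun κ h => ?_⟩
  · simp only [if_pos h.1, if_pos h.2.1]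
    exact hs.1 κ κ' h
  · simp only [hs.2 κ h, ite_self]
  · simp only [if_neg h]

/-- **L-SB-5** (~150 l. for the two).  Fixed rows: an injective linear map on a finite dimensional space is bounded below (`LinearMap.exists_antilipschitzWith` on the submodule of the `CompFn` supported in `T`, or compactness of the unit sphere). -/
theorem pn_sb_uconf_of_pd (Γ : CGeom m₁ m₂) (g : DGrid m₁ m₂) {N : ℕ} (row : Fin N → Cell m₁ m₂ → ℝ)
    (h : plPD (lawR Γ g row) (Γ.sites g Γ.pin)) : UConf Γ fun _ => row := by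
  rw [pn_sb_pd_iff] at h
  have hker : LinearMap.ker (pn_sb_L Γ row) = ⊥ := by
    rw [LinearMap.ker_eq_bot']
    intro s hs
    have h1 := h s.1 s.2.1 (fun o => congrFun hs o)
    ext κ
    by_cases hκ : κ ∈ Γ.T
    · exact h1 κ hκ
    · exact s.2.2 κ hκ
  obtain ⟨K, hK, hA⟩ := LinearMap.exists_antilipschitzWith (pn_sb_L Γ row) hker
  have hK' : (0 : ℝ) < K := by exact_mod_cast hK
  set n : ℝ := (Γ.T.card : ℝ) + 1 with hn
  have hn0 : 0 < n := by positivity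
  refine ⟨(n * (K : ℝ) ^ 2)⁻¹, by positivity, fun _ s hs => ?_⟩
  set s' : pn_sb_W Γ := ⟨_, pn_sb_res_mem Γ hs⟩ with hs'
  have h1 : ‖s'‖ ≤ K * ‖pn_sb_L Γ row s'‖ := by
    have := hA.le_mul_dist s' 0
    simpa [dist_zero_right] using this
  have h2 : ∀ o, pn_sb_L Γ row s' o = ∑ κ ∈ Γ.T, row o κ * s κ := fun o =>
    Finset.sum_congr rfl fun κ hκ => by simp only [hs', if_pos hκ]
  have h3 : ‖pn_sb_L Γ row s'‖ ^ 2 ≤ ∑ o, (∑ κ ∈ Γ.T, row o κ * s κ) ^ 2 := by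
    have hS : 0 ≤ ∑ o, (∑ κ ∈ Γ.T, row o κ * s κ) ^ 2 := Finset.sum_nonneg fun _ _ => sq_nonneg _
    have : ‖pn_sb_L Γ row s'‖ ≤ Real.sqrt (∑ o, (∑ κ ∈ Γ.T, row o κ * s κ) ^ 2) := by
      rw [pi_norm_le_iff_of_nonneg (Real.sqrt_nonneg _)]
      intro o
      rw [h2 o, Real.norm_eq_abs]
      refine Real.abs_le_sqrt ?_
      exact Finset.single_le_sum (f := fun o => (∑ κ ∈ Γ.T, row o κ * s κ) ^ 2) (fun _ _ => sq_nonneg _) (Finset.mem_univ o)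
    calc ‖pn_sb_L Γ row s'‖ ^ 2 ≤ Real.sqrt (∑ o, (∑ κ ∈ Γ.T, row o κ * s κ) ^ 2) ^ 2 :=
          pow_le_pow_left₀ (norm_nonneg _) this 2
      _ = _ := Real.sq_sqrt hS
  have h4 : ∑ κ ∈ Γ.T, s κ ^ 2 ≤ n * ‖s'‖ ^ 2 := by
    have h5 : ∀ κ ∈ Γ.T, s κ ^ 2 ≤ ‖s'‖ ^ 2 := by
      intro κ hκ
      have h6 : ‖s'.1 κ‖ ≤ ‖s'.1‖ := norm_le_pi_norm s'.1 κ
      have h7 : s'.1 κ = s κ := by simp only [hs', if_pos hκ]
      rw [h7, Real.norm_eq_abs] at h6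
      rw [← sq_abs]
      exact pow_le_pow_left₀ (abs_nonneg _) h6 2
    calc ∑ κ ∈ Γ.T, s κ ^ 2 ≤ ∑ _κ ∈ Γ.T, ‖s'‖ ^ 2 := Finset.sum_le_sum h5
      _ = (Γ.T.card : ℝ) * ‖s'‖ ^ 2 := by rw [Finset.sum_const, nsmul_eq_mul]
      _ ≤ n * ‖s'‖ ^ 2 := by
          refine mul_le_mul_of_nonneg_right ?_ (sq_nonneg _)
          rw [hn]; linarith
  have h8 : ‖s'‖ ^ 2 ≤ (K : ℝ) ^ 2 * ∑ o, (∑ κ ∈ Γ.T, row o κ * s κ) ^ 2 := by
    calc ‖s'‖ ^ 2 ≤ (K * ‖pn_sb_L Γ row s'‖) ^ 2 := pow_le_pow_left₀ (norm_nonneg _) h1 2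
      _ = (K : ℝ) ^ 2 * ‖pn_sb_L Γ row s'‖ ^ 2 := by ring
      _ ≤ _ := mul_le_mul_of_nonneg_left h3 (sq_nonneg _)
  have h9 : ∑ κ ∈ Γ.T, s κ ^ 2 ≤ (n * (K : ℝ) ^ 2) * ∑ o, (∑ κ ∈ Γ.T, row o κ * s κ) ^ 2 := by
    calc ∑ κ ∈ Γ.T, s κ ^ 2 ≤ n * ‖s'‖ ^ 2 := h4
      _ ≤ n * ((K : ℝ) ^ 2 * ∑ o, (∑ κ ∈ Γ.T, row o κ * s κ) ^ 2) := mul_le_mul_of_nonneg_left h8 hn0.le
      _ = _ := by ring
  rw [inv_mul_le_iff₀ (by positivity)]
  exact h9

theorem pn_sb_pd_of_uconf (Γ : CGeom m₁ m₂) {N : ℕ} (R : ℕ → Fin N → Cell m₁ m₂ → ℝ) (h : UConf Γ R) (k : ℕ) (g : DGrid m₁ m₂) :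
    plPD (lawR Γ g (R k)) (Γ.sites g Γ.pin) := by
  rw [pn_sb_pd_iff]
  obtain ⟨c, hc, h⟩ := h
  intro s hs h0 κ hκ
  have h1 := h k s hs
  have h2 : ∑ o, (∑ κ ∈ Γ.T, R k o κ * s κ) ^ 2 = 0 := Finset.sum_eq_zero fun o _ => by rw [h0 o]; ring
  rw [h2] at h1
  have h3 : ∑ κ ∈ Γ.T, s κ ^ 2 ≤ 0 := by
    by_contra hcon
    push Not at hcon
    have := mul_pos hc hcon
    linarith
  have h4 := Finset.single_le_sum (f := fun κ => s κ ^ 2) (fun κ _ => sq_nonneg (s κ)) hκ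
  have h5 : s κ ^ 2 ≤ 0 := h4.trans h3
  exact pow_eq_zero_iff (two_ne_zero) |>.1 (le_antisymm h5 (sq_nonneg _))

/-- real properness gives the standing hypotheses (`HLaw.ok_of_real_injective`, `pl_mem_rspan_pin`, `pl_law_eq_pin`; integer heights are real fields) -/
theorem pn_sb_ok_of_pd {G : HGraph} (H : HLaw G) {P : Set G.V} (hl : H.Λ = HLaw.pinned P) (h : plPD H P) {b : ℝ} (hb : 0 < b) :
    H.Proper ∧ (H.sys b).Ok := by
  constructor
  · intro z hz hc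
    rw [hl] at hz
    have h1 : (fun x => (z x : ℝ)) = 0 := by
      refine h _ (fun x hx => ?_) (fun e => ?_) (fun o => ?_)
      · have : z x = 0 := hz x hx
        simp only [this, Int.cast_zero]
      · have h2 : z (G.tgt e) - z (G.src e) = 0 := congrFun (congrArg Prod.fst hc) e
        simp only [plGrad]
        exact_mod_cast h2
      · have h2 : ∑ v, H.B o v * (2 * Real.pi * (z v : ℝ)) = 0 := congrFun (congrArg Prod.snd hc) o
        have h3 : ∑ v, H.B o v * (2 * Real.pi * (z v : ℝ)) = (2 * Real.pi) * ∑ v, H.B o v * (z v : ℝ) := by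
          rw [Finset.mul_sum]
          exact Finset.sum_congr rfl fun v _ => by ring
        rw [h3] at h2
        have h4 : (2 * Real.pi) ≠ 0 := by positivity
        exact (mul_eq_zero.1 h2).resolve_left h4
    funext x
    have := congrFun h1 x
    simpa using this
  · refine HLaw.ok_of_real_injective H b hb fun v hv h1 h2 => ?_
    have hv' : v ∈ (plPin H P).rspan := by
      rw [← pl_law_eq_pin H hl]
      exact hv
    refine h v ((pl_mem_rspan_pin H P v).1 hv') (fun e => ?_) h2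
    simp only [plGrad, h1 e, sub_self]

/-- the lower left fine cell of a coarse cell -/
def sbCorner (r : ℕ) (hr : 0 < r) (κ : Cell m₁ m₂) : Cell (r * m₁) (r * m₂) :=
  (⟨r * κ.1.1, Nat.mul_lt_mul_of_pos_left κ.1.2 hr⟩, ⟨r * κ.2.1, Nat.mul_lt_mul_of_pos_left κ.2.2 hr⟩)

theorem pn_sb_coarse_corner {r : ℕ} (hr : 0 < r) (κ : Cell m₁ m₂) : S23.coarse r (sbCorner r hr κ) = κ := by
  apply Prod.ext <;> apply Fin.ext
  · show r * κ.1.1 / r = κ.1.1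
    exact Nat.mul_div_cancel_left _ hr
  · show r * κ.2.1 / r = κ.2.1
    exact Nat.mul_div_cancel_left _ hr

/-- a `CompFn` of the refined geometry is constant on the fine cells of a coarse cell of `T` -/
theorem pn_sb_comp_const (Γ : CGeom m₁ m₂) {r : ℕ} (hr : 0 < r) {s' : Cell (r * m₁) (r * m₂) → ℝ} (hs : CompFn (S23.refine r Γ) s') :
    ∀ (n : ℕ) (κ' : Cell (r * m₁) (r * m₂)), S23.coarse r κ' ∈ Γ.T → κ'.1.1 % r + κ'.2.1 % r = n →
      s' κ' = s' (sbCorner r hr (S23.coarse r κ')) := by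
  intro n
  induction n with
  | zero =>
    intro κ' _ h0
    congr 1
    apply Prod.ext <;> apply Fin.ext
    · show κ'.1.1 = r * (κ'.1.1 / r)
      have := Nat.div_add_mod κ'.1.1 r
      omega
    · show κ'.2.1 = r * (κ'.2.1 / r)
      have := Nat.div_add_mod κ'.2.1 r
      omega
  | succ n ih =>
    intro κ' hT hn
    by_cases h1 : κ'.1.1 % r = 0
    · -- move down
      have h2 : 0 < κ'.2.1 % r := by omega
      have hpos : 0 < κ'.2.1 := by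
        rcases Nat.eq_zero_or_pos κ'.2.1 with h | h
        · rw [h] at h2; simp at h2
        · exact h
      set κ'' : Cell (r * m₁) (r * m₂) := (κ'.1, ⟨κ'.2.1 - 1, by have := κ'.2.2; omega⟩) with hκ''
      have hd := Nat.div_add_mod κ'.2.1 r
      have e0 : κ'.2.1 - 1 = r * (κ'.2.1 / r) + (κ'.2.1 % r - 1) := by omega
      have hlt : κ'.2.1 % r - 1 < r := by have := Nat.mod_lt κ'.2.1 hr; omega
      have hdiv : (κ'.2.1 - 1) / r = κ'.2.1 / r := by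
        rw [e0, Nat.mul_add_div hr, Nat.div_eq_of_lt hlt, add_zero]
      have hmod : (κ'.2.1 - 1) % r = κ'.2.1 % r - 1 := by
        rw [e0, Nat.mul_add_mod, Nat.mod_eq_of_lt hlt]
      have hc : S23.coarse r κ'' = S23.coarse r κ' := by
        apply Prod.ext
        · rfl
        · apply Fin.ext
          exact hdiv
      have hadj : (S23.refine r Γ).Adj κ'' κ' := by
        refine ⟨?_, ?_, Or.inr (Or.inl ⟨rfl, ?_, ?_⟩)⟩
        · show κ'' ∈ S23.fine r Γ.T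
          simp only [S23.fine, Finset.mem_filter, Finset.mem_univ, true_and, hc, hT]
        · show κ' ∈ S23.fine r Γ.T
          simp only [S23.fine, Finset.mem_filter, Finset.mem_univ, true_and, hT]
        · show κ'.2.1 - 1 + 1 = κ'.2.1
          omega
        · show (κ'', false) ∉ S23.fineF r Γ.cutF
          simp only [S23.fineF, Finset.mem_filter, Finset.mem_univ, true_and, not_and]
          intro _
          show ¬ ((κ'.2.1 - 1 + 1) % r = 0)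
          have : κ'.2.1 - 1 + 1 = κ'.2.1 := by omega
          rw [this]
          omega
      rw [← hs.1 _ _ hadj, ih κ'' (hc ▸ hT) (by show κ'.1.1 % r + (κ'.2.1 - 1) % r = n; omega), hc]
    · have h2 : 0 < κ'.1.1 % r := Nat.pos_of_ne_zero h1
      have hpos : 0 < κ'.1.1 := by
        rcases Nat.eq_zero_or_pos κ'.1.1 with h | h
        · rw [h] at h2; simp at h2
        · exact h
      set κ'' : Cell (r * m₁) (r * m₂) := (⟨κ'.1.1 - 1, by have := κ'.1.2; omega⟩, κ'.2) with hκ''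
      have hd := Nat.div_add_mod κ'.1.1 r
      have e0 : κ'.1.1 - 1 = r * (κ'.1.1 / r) + (κ'.1.1 % r - 1) := by omega
      have hlt : κ'.1.1 % r - 1 < r := by have := Nat.mod_lt κ'.1.1 hr; omega
      have hdiv : (κ'.1.1 - 1) / r = κ'.1.1 / r := by
        rw [e0, Nat.mul_add_div hr, Nat.div_eq_of_lt hlt, add_zero]
      have hmod : (κ'.1.1 - 1) % r = κ'.1.1 % r - 1 := by
        rw [e0, Nat.mul_add_mod, Nat.mod_eq_of_lt hlt]
      have hc : S23.coarse r κ'' = S23.coarse r κ' := by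
        apply Prod.ext
        · apply Fin.ext
          exact hdiv
        · rfl
      have hadj : (S23.refine r Γ).Adj κ'' κ' := by
        refine ⟨?_, ?_, Or.inl ⟨?_, rfl, ?_⟩⟩
        · show κ'' ∈ S23.fine r Γ.T
          simp only [S23.fine, Finset.mem_filter, Finset.mem_univ, true_and, hc, hT]
        · show κ' ∈ S23.fine r Γ.T
          simp only [S23.fine, Finset.mem_filter, Finset.mem_univ, true_and, hT]
        · show κ'.1.1 - 1 + 1 = κ'.1.1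
          omega
        · show (κ'', true) ∉ S23.fineF r Γ.cutF
          simp only [S23.fineF, Finset.mem_filter, Finset.mem_univ, true_and, not_and]
          intro _
          show ¬ ((κ'.1.1 - 1 + 1) % r = 0)
          have : κ'.1.1 - 1 + 1 = κ'.1.1 := by omega
          rw [this]
          omega
      rw [← hs.1 _ _ hadj, ih κ'' (hc ▸ hT) (by show (κ'.1.1 - 1) % r + κ'.2.1 % r = n; omega), hc]

/-- the coarse function of a `CompFn` of the refined geometry is a `CompFn` -/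
theorem pn_sb_comp_down (Γ : CGeom m₁ m₂) {r : ℕ} (hr : 0 < r) {s' : Cell (r * m₁) (r * m₂) → ℝ} (hs : CompFn (S23.refine r Γ) s') :
    CompFn Γ fun κ => s' (sbCorner r hr κ) := by
  have hconst := fun κ' hT => pn_sb_comp_const Γ hr hs _ κ' hT rfl
  -- the two elementary moves
  have hR : ∀ κ κ' : Cell m₁ m₂, κ ∈ Γ.T → κ' ∈ Γ.T → κ.1.1 + 1 = κ'.1.1 → κ.2 = κ'.2 → (κ, true) ∉ Γ.cutF →
      s' (sbCorner r hr κ) = s' (sbCorner r hr κ') := by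
    intro κ κ' hκ hκ' h1 h2 hcut
    set a : Cell (r * m₁) (r * m₂) := (⟨r * κ.1.1 + (r - 1), by
      have := κ.1.2
      have h3 : r * (κ.1.1 + 1) ≤ r * m₁ := Nat.mul_le_mul_left r this
      rw [Nat.mul_add, Nat.mul_one] at h3
      omega⟩, (sbCorner r hr κ).2) with ha
    have hca : S23.coarse r a = κ := by
      apply Prod.ext <;> apply Fin.ext
      · show (r * κ.1.1 + (r - 1)) / r = κ.1.1
        rw [Nat.mul_add_div hr, Nat.div_eq_of_lt (by omega), add_zero]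
      · show r * κ.2.1 / r = κ.2.1
        exact Nat.mul_div_cancel_left _ hr
    have hadj : (S23.refine r Γ).Adj a (sbCorner r hr κ') := by
      refine ⟨?_, ?_, Or.inl ⟨?_, ?_, ?_⟩⟩
      · show a ∈ S23.fine r Γ.T
        simp only [S23.fine, Finset.mem_filter, Finset.mem_univ, true_and, hca, hκ]
      · show sbCorner r hr κ' ∈ S23.fine r Γ.T
        simp only [S23.fine, Finset.mem_filter, Finset.mem_univ, true_and, pn_sb_coarse_corner, hκ']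
      · show r * κ.1.1 + (r - 1) + 1 = r * κ'.1.1
        rw [← h1, Nat.mul_add, Nat.mul_one]
        omega
      · apply Fin.ext
        show r * κ.2.1 = r * κ'.2.1
        rw [h2]
      · show (a, true) ∉ S23.fineF r Γ.cutF
        simp only [S23.fineF, Finset.mem_filter, Finset.mem_univ, true_and, not_and, hca]
        intro h
        exact absurd h hcut
    rw [← hs.1 _ _ hadj, hconst a (hca ▸ hκ), hca]
  have hU : ∀ κ κ' : Cell m₁ m₂, κ ∈ Γ.T → κ' ∈ Γ.T → κ.1 = κ'.1 → κ.2.1 + 1 = κ'.2.1 → (κ, false) ∉ Γ.cutF →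
      s' (sbCorner r hr κ) = s' (sbCorner r hr κ') := by
    intro κ κ' hκ hκ' h1 h2 hcut
    set a : Cell (r * m₁) (r * m₂) := ((sbCorner r hr κ).1, ⟨r * κ.2.1 + (r - 1), by
      have := κ.2.2
      have h3 : r * (κ.2.1 + 1) ≤ r * m₂ := Nat.mul_le_mul_left r this
      rw [Nat.mul_add, Nat.mul_one] at h3
      omega⟩) with ha
    have hca : S23.coarse r a = κ := by
      apply Prod.ext <;> apply Fin.ext
      · show r * κ.1.1 / r = κ.1.1
        exact Nat.mul_div_cancel_left _ hr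
      · show (r * κ.2.1 + (r - 1)) / r = κ.2.1
        rw [Nat.mul_add_div hr, Nat.div_eq_of_lt (by omega), add_zero]
    have hadj : (S23.refine r Γ).Adj a (sbCorner r hr κ') := by
      refine ⟨?_, ?_, Or.inr (Or.inl ⟨?_, ?_, ?_⟩)⟩
      · show a ∈ S23.fine r Γ.T
        simp only [S23.fine, Finset.mem_filter, Finset.mem_univ, true_and, hca, hκ]
      · show sbCorner r hr κ' ∈ S23.fine r Γ.T
        simp only [S23.fine, Finset.mem_filter, Finset.mem_univ, true_and, pn_sb_coarse_corner, hκ']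
      · apply Fin.ext
        show r * κ.1.1 = r * κ'.1.1
        rw [h1]
      · show r * κ.2.1 + (r - 1) + 1 = r * κ'.2.1
        rw [← h2, Nat.mul_add, Nat.mul_one]
        omega
      · show (a, false) ∉ S23.fineF r Γ.cutF
        simp only [S23.fineF, Finset.mem_filter, Finset.mem_univ, true_and, not_and, hca]
        intro h
        exact absurd h hcut
    rw [← hs.1 _ _ hadj, hconst a (hca ▸ hκ), hca]
  refine ⟨?_, ?_⟩
  · rintro κ κ' ⟨hκ, hκ', h | h | h | h⟩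
    · exact hR κ κ' hκ hκ' h.1 h.2.1 h.2.2
    · exact hU κ κ' hκ hκ' h.1 h.2.1 h.2.2
    · exact (hR κ' κ hκ' hκ h.1 h.2.1.symm h.2.2).symm
    · exact (hU κ' κ hκ' hκ h.1.symm h.2.1 h.2.2).symm
  · intro κ hκ
    apply hs.2
    show sbCorner r hr κ ∈ S23.fine r Γ.pin
    simp only [S23.fine, Finset.mem_filter, Finset.mem_univ, true_and, pn_sb_coarse_corner, hκ]

/-- **L-SB-6** (~300 l. for the three).  Level `r`.  A `CompFn` of the refined geometry is `s ∘ coarse` on `fine T` with `s` a `CompFn` of `Γ` (fine cells of one coarse cell are joined by inner faces, which are never cut);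
`∑_{fine T} (s ∘ coarse)² = r² ∑_T s²`;  `∑_{fine T} sbUp t · (s ∘ coarse) = ∑_T t s` (`pn_sb_W_sum`). -/
theorem pn_sb_uconf_up (Γ : CGeom m₁ m₂) {N : ℕ} (row : Fin N → Cell m₁ m₂ → ℝ) (h : UConf Γ fun _ => row) {r : ℕ} (hr : 0 < r)
    (g' : ℕ → DGrid (r * m₁) (r * m₂)) : UConf (S23.refine r Γ) fun k o => sbUp r (g' k) (row o) := by
  obtain ⟨c, hc, h⟩ := h
  set K : ℝ := ((S23.fine r Γ.T).card : ℝ) + 1 with hK
  have hK0 : 0 < K := by positivity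
  refine ⟨c / K, by positivity, ?_⟩
  intro k s' hs
  set s : Cell m₁ m₂ → ℝ := fun κ => s' (sbCorner r hr κ) with hsdef
  have hsC : CompFn Γ s := pn_sb_comp_down Γ hr hs
  have hmem : ∀ κ' ∈ S23.fine r Γ.T, S23.coarse r κ' ∈ Γ.T := by
    intro κ' hκ'
    simpa only [S23.fine, Finset.mem_filter, Finset.mem_univ, true_and] using hκ'
  have hconst : ∀ κ' ∈ S23.fine r Γ.T, s' κ' = s (S23.coarse r κ') :=
    fun κ' hκ' => pn_sb_comp_const Γ hr hs _ κ' (hmem κ' hκ') rfl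
  have hS0 : 0 ≤ ∑ κ ∈ Γ.T, s κ ^ 2 := Finset.sum_nonneg fun κ _ => sq_nonneg _
  -- the squares
  have h1 : ∑ κ' ∈ S23.fine r Γ.T, s' κ' ^ 2 ≤ K * ∑ κ ∈ Γ.T, s κ ^ 2 := by
    calc ∑ κ' ∈ S23.fine r Γ.T, s' κ' ^ 2 ≤ ∑ _κ' ∈ S23.fine r Γ.T, ∑ κ ∈ Γ.T, s κ ^ 2 := by
          refine Finset.sum_le_sum fun κ' hκ' => ?_
          rw [hconst κ' hκ']
          exact Finset.single_le_sum (f := fun κ => s κ ^ 2) (fun κ _ => sq_nonneg (s κ)) (hmem κ' hκ')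
      _ = ((S23.fine r Γ.T).card : ℝ) * ∑ κ ∈ Γ.T, s κ ^ 2 := by
          rw [Finset.sum_const, nsmul_eq_mul]
      _ ≤ K * ∑ κ ∈ Γ.T, s κ ^ 2 := mul_le_mul_of_nonneg_right (by rw [hK]; linarith) hS0
  -- the rows
  have h2 : ∀ o, ∑ κ' ∈ S23.fine r Γ.T, sbUp r (g' k) (row o) κ' * s' κ' = ∑ κ ∈ Γ.T, row o κ * s κ := by
    intro o
    rw [← Finset.sum_fiberwise_of_maps_to (g := S23.coarse r) hmem]
    refine Finset.sum_congr rfl fun κ hκ => ?_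
    have hfib : (S23.fine r Γ.T).filter (fun κ' => S23.coarse r κ' = κ) = S23.fine r {κ} := by
      ext κ'
      simp only [S23.fine, Finset.mem_filter, Finset.mem_univ, true_and, Finset.mem_singleton]
      constructor
      · exact fun h => h.2
      · exact fun h => ⟨h ▸ hκ, h⟩
    rw [hfib, ← mul_one (row o κ * s κ), ← pn_sb_W_sum hr (g' k) κ, Finset.mul_sum]
    refine Finset.sum_congr rfl fun κ' hκ' => ?_
    have hck : S23.coarse r κ' = κ := by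
      simpa only [S23.fine, Finset.mem_filter, Finset.mem_univ, true_and, Finset.mem_singleton] using hκ'
    have hκ'T : κ' ∈ S23.fine r Γ.T := by
      simp only [S23.fine, Finset.mem_filter, Finset.mem_univ, true_and, hck, hκ]
    rw [hconst κ' hκ'T, hck]
    unfold sbUp
    rw [hck]
    ring
  show c / K * ∑ κ' ∈ S23.fine r Γ.T, s' κ' ^ 2 ≤ ∑ o, (∑ κ' ∈ S23.fine r Γ.T, sbUp r (g' k) (row o) κ' * s' κ') ^ 2
  simp only [h2]
  calc c / K * ∑ κ' ∈ S23.fine r Γ.T, s' κ' ^ 2 ≤ c / K * (K * ∑ κ ∈ Γ.T, s κ ^ 2) :=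
        mul_le_mul_of_nonneg_left h1 (by positivity)
    _ = c * ∑ κ ∈ Γ.T, s κ ^ 2 := by field_simp
    _ ≤ _ := h k s hsC

/-- more pins -/
theorem pn_sb_uconf_pin (Γ : CGeom m₁ m₂) {N : ℕ} (R : ℕ → Fin N → Cell m₁ m₂ → ℝ) (h : UConf Γ R) (p : Finset (Cell m₁ m₂)) :
    UConf { Γ with pin := Γ.pin ∪ p } R := by
  obtain ⟨c, hc, h⟩ := h
  exact ⟨c, hc, fun k s hs => h k s ⟨hs.1, fun κ hκ => hs.2 κ (Finset.mem_union_left _ hκ)⟩⟩

/-- fewer cuts, more rows -/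
theorem pn_sb_uconf_uncut (Γ : CGeom m₁ m₂) {N N' : ℕ} (R : ℕ → Fin N → Cell m₁ m₂ → ℝ) (h : UConf Γ R) (F : Finset (Cell m₁ m₂ × Bool))
    (R' : ℕ → Fin (N + N') → Cell m₁ m₂ → ℝ) (hr : ∀ k o, R' k (Fin.castAdd N' o) = R k o) : UConf (C3.uncut Γ F) R' := by
  obtain ⟨c, hc, h⟩ := h
  refine ⟨c, hc, fun k s hs => ?_⟩
  have hnc : ∀ f, f ∉ Γ.cutF → f ∉ (C3.uncut Γ F).cutF := by
    intro f hf hf'
    exact hf (Finset.mem_sdiff.1 hf').1
  have hs' : CompFn Γ s := by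
    refine ⟨?_, hs.2⟩
    rintro κ κ' ⟨hκ, hκ', h⟩
    refine hs.1 κ κ' ⟨hκ, hκ', ?_⟩
    rcases h with h | h | h | h
    · exact Or.inl ⟨h.1, h.2.1, hnc _ h.2.2⟩
    · exact Or.inr (Or.inl ⟨h.1, h.2.1, hnc _ h.2.2⟩)
    · exact Or.inr (Or.inr (Or.inl ⟨h.1, h.2.1, hnc _ h.2.2⟩))
    · exact Or.inr (Or.inr (Or.inr ⟨h.1, h.2.1, hnc _ h.2.2⟩))
  refine (h k s hs').trans ?_
  show ∑ o, (∑ κ ∈ Γ.T, R k o κ * s κ) ^ 2 ≤ ∑ o, (∑ κ ∈ Γ.T, R' k o κ * s κ) ^ 2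
  rw [Fin.sum_univ_add]
  simp only [hr]
  have : 0 ≤ ∑ i : Fin N', (∑ κ ∈ Γ.T, R' k (Fin.natAdd N i) κ * s κ) ^ 2 := Finset.sum_nonneg fun i _ => sq_nonneg _
  linarith

end

end Claimed.Agent.R285.Pins
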