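import Claimed.Agent.R285.Pins.T32Glue
import Claimed.Agent.R285.Pins.Sub
import Claimed.Agent.R285.Pins.ShiftDefs

/-!
# ROW 285, PINS, T3.2 package (architect helper178).  FILE 7: THE CONCRETE OBJECTS.   Definitions + transport; no asymptotics here.

* `gpin Γ X` = the geometry with the additional pinned cells `X`;  `(lawR Γ g row).addPin (sites X) = lawR (gpin Γ X) g row` (`pn_cn_addPin`).
* `subT Γ g r t` = the level-`r` cell test with coefficients `t`, read on the COARSE graph (`Sub.lean`);  `subL` = the same as a linear map.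
* `cL` (`LSeq`), `cS` (`Scale`), `cW` (`Two`) = the abstract objects of `T32Step`, `T32Two` for `(Γ, row, g k, b k)`.
* TRANSPORT `pn_cn_tr`: any quantity `Q D cut H` of a law `H = sbLaw D cut P R` on `domG D cut` is the same in a chart and in its refinement.
* THE BAND LAW (helper249's, `Pins/ShiftDefs.lean`) for a general cut geometry:  coarse chart `(Γ, g)` --`r₀`--> MEDIUM chart `gMed Γ p r₀` --`s`--> FINE chart `shGeo s _`;
  `bdT` = the cells of the components WITH a band cell, `gBd` = this part of the geometry (it satisfies `ShConf`);  `rowW` = band rows + one unit row for every medium cell of a component WITHOUT band cell;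
  `lawW` = the band law read on the COARSE graph (grids `sbG r₀ g`, `sbG s (sbG r₀ g)`).
-/

set_option autoImplicit false

namespace Claimed.Agent.R285.Pins.T32

open Filter Topology MeasureTheory
open Claimed.Agent.R285.Pot
open Claimed.Agent.R285.C3
open scoped Classical

noncomputable section

variable {m₁ m₂ : ℕ}

/-! ## 1. More pinned cells -/

/-- the geometry with the additional pinned cells `X` -/
def gpin (Γ : CGeom m₁ m₂) (X : Finset (Cell m₁ m₂)) : CGeom m₁ m₂ := { Γ with pin := Γ.pin ∪ X }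

theorem pn_cn_sites_union (Γ : CGeom m₁ m₂) (g : DGrid m₁ m₂) (X Y : Finset (Cell m₁ m₂)) :
    Γ.sites g (X ∪ Y) = Γ.sites g X ∪ Γ.sites g Y := by
  ext v
  simp only [CGeom.sites, domSet, DGrid.region, Finset.mem_coe, Finset.mem_biUnion, Finset.mem_union]
  constructor
  · rintro ⟨κ, h1 | h1, h2⟩
    · exact Or.inl ⟨κ, h1, h2⟩
    · exact Or.inr ⟨κ, h1, h2⟩
  · rintro (⟨κ, h1, h2⟩ | ⟨κ, h1, h2⟩)
    · exact ⟨κ, Or.inl h1, h2⟩
    · exact ⟨κ, Or.inr h1, h2⟩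

theorem pn_cn_addPin (Γ : CGeom m₁ m₂) (g : DGrid m₁ m₂) {N : ℕ} (row : Fin N → Cell m₁ m₂ → ℝ) (X : Finset (Cell m₁ m₂)) :
    (lawR Γ g row).addPin (Γ.sites g X) = lawR (gpin Γ X) g row := by
  unfold HLaw.addPin
  show @HLaw.mk (Γ.graph g) (HLaw.pinned (Γ.sites g Γ.pin) ⊓ HLaw.pinned (Γ.sites g X)) _ _ _ = _
  rw [pl_pinned_inf, ← pn_cn_sites_union]
  rfl

theorem pn_cn_noDiag_gpin (Γ : CGeom m₁ m₂) (h : Γ.NoDiag) (X : Finset (Cell m₁ m₂)) : (gpin Γ X).NoDiag := h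

/-! ## 2. Level-`r` tests on the coarse graph; the abstract objects -/

/-- the level-`r` cell test with coefficients `t`, on the coarse graph -/
def subT (Γ : CGeom m₁ m₂) (g : DGrid m₁ m₂) (r : ℕ) (t : Cell (r * m₁) (r * m₂) → ℝ) : (Γ.graph g).V → ℝ :=
  domFn (D := g.region Γ.T) (cut := Γ.cutB g) (sbCT (S23.fine r Γ.T) (sbG r g) t)

/-- the same as a linear map -/
def subL (Γ : CGeom m₁ m₂) (g : DGrid m₁ m₂) (r : ℕ) : (Cell (r * m₁) (r * m₂) → ℝ) →ₗ[ℝ] ((Γ.graph g).V → ℝ) where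
  toFun := subT Γ g r
  map_add' t t' := by
    unfold subT
    rw [pn_sb_CT_add]
    rfl
  map_smul' c t := by
    unfold subT
    rw [pn_sb_CT_smul]
    rfl

/-- the sequence of laws -/
def cL (Γ : CGeom m₁ m₂) {N : ℕ} (row : Fin N → Cell m₁ m₂ → ℝ) (g : ℕ → DGrid m₁ m₂) (b : ℕ → ℝ)
    (hgd : ∀ k, Gd (lawR Γ (g k) row) (b k)) (bmax : ℝ) (hb : ∀ k, b k ≤ bmax) : LSeq where
  G k := Γ.graph (g k)
  H k := lawR Γ (g k) row
  b := b
  P₀ k := Γ.sites (g k) Γ.pin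
  gd := hgd
  lam _ := rfl
  bmax := bmax
  b_le := hb

/-- the scale of the level-`r` cell tests -/
def cS (Γ : CGeom m₁ m₂) {N : ℕ} (row : Fin N → Cell m₁ m₂ → ℝ) (g : ℕ → DGrid m₁ m₂) (b : ℕ → ℝ)
    (hgd : ∀ k, Gd (lawR Γ (g k) row) (b k)) (bmax : ℝ) (hb : ∀ k, b k ≤ bmax) : Scale (cL Γ row g b hgd bmax hb) where
  I r := Cell (r * m₁) (r * m₂)
  fI _ := inferInstance
  sub r k := subL Γ (g k) r

/-- cut law, restored law, guard `p`, core `A` -/
def cW (Γ : CGeom m₁ m₂) {N : ℕ} (row : Fin N → Cell m₁ m₂ → ℝ) (g : ℕ → DGrid m₁ m₂) (b : ℕ → ℝ)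
    (hgd : ∀ k, Gd (lawR Γ (g k) row) (b k)) (bmax : ℝ) (hb : ∀ k, b k ≤ bmax)
    (A p : Finset (Cell m₁ m₂)) (hd : Disjoint A p) (F : Finset (Cell m₁ m₂ × Bool)) (hF : ∀ f ∈ F, FaceIn A f)
    {N' : ℕ} (row' : Fin (N + N') → Cell m₁ m₂ → ℝ) (hr : ∀ o, row' (Fin.castAdd N' o) = row o) (hr' : ∀ o, ∀ κ ∉ A, row' (Fin.natAdd N o) κ = 0) : Two where
  L := cL Γ row g b hgd bmax hb
  E' k := ((uncut Γ F).graph (g k)).E
  fE' k := ((uncut Γ F).graph (g k)).fE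
  src' k := ((uncut Γ F).graph (g k)).src
  tgt' k := ((uncut Γ F).graph (g k)).tgt
  H' k := lawR (uncut Γ F) (g k) row'
  P k := Γ.sites (g k) p
  A k := Γ.sites (g k) A
  x k := extU Γ row F row' (g k) A hF hr hr'
  xe _ _ := rfl
  dis k := pn_gl_disj Γ (g k) hd

/-! ## 3. Transport between a chart and its refinement -/

/-- **TRANSPORT**: a quantity `Q D cut H` of the law `sbLaw D cut P R` is the same in a chart and in its refinement. -/
theorem pn_cn_tr {α : Sort*} (Q : ∀ (D : Finset (ℤ × ℤ)) (cut : Set Bond), HLaw (domG D cut) → α) {r : ℕ} {g' : DGrid (r * m₁) (r * m₂)} {g : DGrid m₁ m₂}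
    (h : S23.Refines r g' g) (Γ : CGeom m₁ m₂) {N : ℕ} (R : Fin N → ℤ × ℤ → ℝ) :
    Q _ _ (sbLaw (g'.region (S23.refine r Γ).T) ((S23.refine r Γ).cutB g') (↑(g'.region (S23.refine r Γ).pin) : Set (ℤ × ℤ)) R)
      = Q _ _ (sbLaw (g.region Γ.T) (Γ.cutB g) (↑(g.region Γ.pin) : Set (ℤ × ℤ)) R) := by
  have key : ∀ (D D' : Finset (ℤ × ℤ)) (cut cut' : Set Bond) (P P' : Finset (ℤ × ℤ)), D = D' → cut = cut' → P = P' →
      Q D cut (sbLaw D cut (↑P : Set (ℤ × ℤ)) R) = Q D' cut' (sbLaw D' cut' (↑P' : Set (ℤ × ℤ)) R) := by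
    rintro D D' cut cut' P P' rfl rfl rfl
    rfl
  exact key _ _ _ _ _ _ (pn_sb_region h Γ.T) (pn_sb_cut h Γ) (pn_sb_region h Γ.pin)

/-- **TRANSPORT, general form**: any expression in `(D, cut, P)` (build it with `sbLaw D cut ↑P R`, `domSet`, `domFn`; several laws at once are allowed). -/
theorem pn_cn_tr3 {α : Sort*} (Q : Finset (ℤ × ℤ) → Set Bond → Finset (ℤ × ℤ) → α) {r : ℕ} {g' : DGrid (r * m₁) (r * m₂)} {g : DGrid m₁ m₂}
    (h : S23.Refines r g' g) (Γ : CGeom m₁ m₂) :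
    Q (g'.region (S23.refine r Γ).T) ((S23.refine r Γ).cutB g') (g'.region (S23.refine r Γ).pin) = Q (g.region Γ.T) (Γ.cutB g) (g.region Γ.pin) := by
  have e1 : g'.region (S23.refine r Γ).T = g.region Γ.T := pn_sb_region h Γ.T
  have e2 : g'.region (S23.refine r Γ).pin = g.region Γ.pin := pn_sb_region h Γ.pin
  rw [e1, e2, pn_sb_cut h Γ]

/-- additional pins of a law `sbLaw` -/
theorem pn_cn_sbLaw_addPin (D : Finset (ℤ × ℤ)) (cut : Set Bond) (P X : Set (ℤ × ℤ)) {N : ℕ} (R : Fin N → ℤ × ℤ → ℝ) :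
    (sbLaw D cut P R).addPin (domSet X) = sbLaw D cut (P ∪ X) R := by
  unfold HLaw.addPin
  show @HLaw.mk (domG D cut) (HLaw.pinned (domSet P) ⊓ HLaw.pinned (domSet X)) _ _ _ = _
  rw [pl_pinned_inf]
  rfl

/-- the law of the refined chart with rows `R`, read in the coarse chart -/
theorem pn_cn_tr_lawR {α : Sort*} (Q : ∀ (D : Finset (ℤ × ℤ)) (cut : Set Bond), HLaw (domG D cut) → α) {r : ℕ} {g' : DGrid (r * m₁) (r * m₂)} {g : DGrid m₁ m₂}
    (h : S23.Refines r g' g) (Γ : CGeom m₁ m₂) {N : ℕ} (R : Fin N → Cell (r * m₁) (r * m₂) → ℝ) :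
    Q _ _ (lawR (S23.refine r Γ) g' R)
      = Q _ _ (sbLaw (g.region Γ.T) (Γ.cutB g) (↑(g.region Γ.pin) : Set (ℤ × ℤ)) fun o => sbCT (S23.fine r Γ.T) g' (R o)) :=
  pn_cn_tr Q h Γ fun o => sbCT (S23.fine r Γ.T) g' (R o)

/-- the law on the coarse graph with level-`r` rows `R` -/
def lawS (Γ : CGeom m₁ m₂) (g : DGrid m₁ m₂) (r : ℕ) {N : ℕ} (R : Fin N → Cell (r * m₁) (r * m₂) → ℝ) : HLaw (Γ.graph g) :=
  sbLaw (g.region Γ.T) (Γ.cutB g) (↑(g.region Γ.pin) : Set (ℤ × ℤ)) fun o => sbCT (S23.fine r Γ.T) (sbG r g) (R o)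

/-- the original rows are level-`r` rows -/
theorem pn_cn_lawS_up (Γ : CGeom m₁ m₂) (g : DGrid m₁ m₂) {r : ℕ} (hr : 0 < r) (h : sbOK r g) {N : ℕ} (row : Fin N → Cell m₁ m₂ → ℝ) :
    lawS Γ g r (fun o => sbUp r (sbG r g) (row o)) = lawR Γ g row := by
  unfold lawS
  rw [pn_sb_lawR]
  congr 1
  funext o
  exact pn_sb_up (pn_sb_refines hr h) Γ.T (row o)

/-- a coarse cell test is a level-`r` test -/
theorem pn_cn_subT_up (Γ : CGeom m₁ m₂) (g : DGrid m₁ m₂) {r : ℕ} (hr : 0 < r) (h : sbOK r g) (t : Cell m₁ m₂ → ℝ) :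
    subT Γ g r (sbUp r (sbG r g) t) = Γ.cellTest g t := by
  unfold subT
  rw [pn_sb_cellTest, pn_sb_up (pn_sb_refines hr h) Γ.T t]

/-! ## 4. The band law for a general cut geometry -/

section band

variable {n₁ n₂ : ℕ}

/-- the MEDIUM geometry: `r₀`-fold refinement, THE PIN `p` as its pinned cells -/
def gMed (Γ : CGeom m₁ m₂) (p : Finset (Cell m₁ m₂)) (r₀ : ℕ) : CGeom (r₀ * m₁) (r₀ * m₂) := { S23.refine r₀ Γ with pin := S23.fine r₀ p }

/-- the cells of the components which contain a band cell -/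
def bdT (Γ : CGeom n₁ n₂) (J : ℕ) : Finset (Cell n₁ n₂) := Γ.T.filter fun κ => ∃ d ∈ shKb Γ J, Γ.Conn κ d

/-- the part of the geometry in the components which contain a band cell (the pin is kept: layers are defined by the ambient distance) -/
def gBd (Γ : CGeom n₁ n₂) (J : ℕ) : CGeom n₁ n₂ := { Γ with T := bdT Γ J }

/-- unit rows: the averages over the medium cells of the components WITHOUT band cell, as level-`s` rows (moving with the grid) -/
def rowU (Γ : CGeom n₁ n₂) (J s : ℕ) (g' : DGrid (s * n₁) (s * n₂)) : Fin (n₁ * n₂) → Cell (s * n₁) (s * n₂) → ℝ :=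
  fun j => if finProdFinEquiv.symm j ∈ Γ.T \ bdT Γ J then shCoef s g' (finProdFinEquiv.symm j) else 0

/-- the rows of the band law: band rows and unit rows -/
def rowW (Γ : CGeom n₁ n₂) (J s : ℕ) (lam : ℝ) (g' : DGrid (s * n₁) (s * n₂)) : Fin ((s * n₁) * (s * n₂) + n₁ * n₂) → Cell (s * n₁) (s * n₂) → ℝ :=
  Fin.addCases (shRow s (shKb Γ J) lam) (rowU Γ J s g')

end band

/-- the rows of the band law as functions on `ℤ²` -/
def rowWz (Γ : CGeom m₁ m₂) (p : Finset (Cell m₁ m₂)) (r₀ J s : ℕ) (lam : ℝ) (g : DGrid m₁ m₂) :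
    Fin ((s * (r₀ * m₁)) * (s * (r₀ * m₂)) + (r₀ * m₁) * (r₀ * m₂)) → ℤ × ℤ → ℝ :=
  fun o => sbCT (S23.fine s (S23.fine r₀ Γ.T)) (sbG s (sbG r₀ g)) (rowW (gMed Γ p r₀) J s lam (sbG s (sbG r₀ g)) o)

/-- **the band law on the coarse graph** (own pins of `Γ` kept) -/
def lawW (Γ : CGeom m₁ m₂) (p : Finset (Cell m₁ m₂)) (r₀ J s : ℕ) (lam : ℝ) (g : DGrid m₁ m₂) : HLaw (Γ.graph g) :=
  sbLaw (g.region Γ.T) (Γ.cutB g) (↑(g.region Γ.pin) : Set (ℤ × ℤ)) (rowWz Γ p r₀ J s lam g)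

/-- both subdivisions are grids -/
def sbOK2 (r₀ s : ℕ) (g : DGrid m₁ m₂) : Prop := sbOK r₀ g ∧ sbOK s (sbG r₀ g)

/-- the band law in the fine chart -/
theorem pn_cn_lawW_tr {α : Sort*} (Q : ∀ (D : Finset (ℤ × ℤ)) (cut : Set Bond), HLaw (domG D cut) → α) (Γ : CGeom m₁ m₂) (p : Finset (Cell m₁ m₂))
    {r₀ s : ℕ} (hr₀ : 0 < r₀) (hs : 0 < s) (J : ℕ) (lam : ℝ) (g : DGrid m₁ m₂) (h : sbOK2 r₀ s g) :
    Q _ _ (lawR (S23.refine s (S23.refine r₀ Γ)) (sbG s (sbG r₀ g)) (rowW (gMed Γ p r₀) J s lam (sbG s (sbG r₀ g)))) = Q _ _ (lawW Γ p r₀ J s lam g) := by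
  rw [pn_cn_tr_lawR Q (pn_sb_refines hs h.2) (S23.refine r₀ Γ)]
  exact pn_cn_tr Q (pn_sb_refines hr₀ h.1) Γ _

end

end Claimed.Agent.R285.Pins.T32
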