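import Claimed.Agent.R285.Pins.ShiftRef
import Claimed.Agent.R285.Pins.T31Main
import Claimed.Agent.R285.Pins.T31Den
import Claimed.Agent.R285.Pins.T32Con

/-!
# ROW 285, PINS / CORE-LIM, LAST STEP: from the vanishing of the bad event to `CoreLow`      (helper235).   PAPER-FREE.

INPUT: `MedCore a b ν` = the core at the MEDIUM level (`psh_core` of `Pins/ShiftMed.lean`, helper249).      OUTPUT: `psc_core : (∀ k, 0 < b k) → MedCore a b ν → CoreLow a b ν`.      No sorry.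
KIT (any geometry): `psc_tr_V0`, `psc_tr_dir`, `psc_tr_dir_sh` (chart invariance under `S23.Refines`), `psc_roRc`, `psc_reg` (Reg at a smaller comparable scale, shift set to `0` for small `k`), `psc_conn_fine`, `psc_ivt`, `psc_near`.

PROOF.  Polygon `U`, pins `P = U ∩ Pn`, grids `g k`, shift `u k` vanishing within `δ ν k` of the pins.   `J` from `MedCore` for the aspect constant `2K+1`, `r` with `(2J+6)(2K+1) ≤ δ r`;
MEDIUM geometry `Γ = S23.refine r (polyG U P)` on `sbG r (g k)`.   No target cell: `u = 0` on `U`.   Otherwise `ShConf Γ J` (discrete IVT along a path of cells from the pin to the target), collar `psc_collar`, charts.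
-/

set_option autoImplicit false

namespace Claimed.Agent.R285.Pins

open Filter Topology MeasureTheory Pot
open scoped Classical

noncomputable section

variable {m₁ m₂ n₁ n₂ : ℕ}

/-! ## 1. Polygons: `NoDiag`, connectivity, refinement -/

theorem psc_poly_noDiag {U : Finset (C3.Cell m₁ m₂)} (hU : Pot.Poly U) (P : Finset (C3.Cell m₁ m₂)) : (polyG U P).NoDiag := by
  refine ⟨?_, ?_⟩
  · rintro κ κ' _ _ (⟨_, _, h⟩ | ⟨_, _, h⟩) <;> exact absurd h (Finset.notMem_empty _)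
  · intro i j i' j' hi hj
    obtain ⟨h1, h2⟩ := hU.loc i i' j j' hi hj
    refine ⟨fun _ a b => ?_, fun _ a b => ?_⟩
    · rcases h1 a b with h | h
      · exact Or.inl ⟨h, Finset.notMem_empty _, Finset.notMem_empty _⟩
      · exact Or.inr ⟨h, Finset.notMem_empty _, Finset.notMem_empty _⟩
    · rcases h2 a b with h | h
      · exact Or.inl ⟨h, Finset.notMem_empty _, Finset.notMem_empty _⟩
      · exact Or.inr ⟨h, Finset.notMem_empty _, Finset.notMem_empty _⟩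

theorem psc_poly_conn {U : Finset (C3.Cell m₁ m₂)} (hU : Pot.roConn U) (P : Finset (C3.Cell m₁ m₂)) {κ κ' : C3.Cell m₁ m₂}
    (h : κ ∈ U) (h' : κ' ∈ U) : (polyG U P).Conn κ κ' := by
  refine Relation.ReflTransGen.mono (fun a b hab' => ?_) κ κ' (hU κ h κ' h')
  obtain ⟨ha, hb, hab⟩ := hab'
  refine ⟨ha, hb, ?_⟩
  rcases hab with ⟨h1, h2⟩ | ⟨h1, h2⟩ | ⟨h1, h2⟩ | ⟨h1, h2⟩
  · exact Or.inl ⟨h1, h2, Finset.notMem_empty _⟩
  · exact Or.inr (Or.inr (Or.inl ⟨h1, h2, Finset.notMem_empty _⟩))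
  · exact Or.inr (Or.inl ⟨h1, h2, Finset.notMem_empty _⟩)
  · exact Or.inr (Or.inr (Or.inr ⟨h1, h2, Finset.notMem_empty _⟩))

/-- connected coarse cells: all their fine cells are connected in the refinement (pin-free form) -/
theorem psc_conn_fine0 (Γ : CGeom m₁ m₂) (hpin : Γ.pin = ∅) {r : ℕ} (hr : 0 < r) {κ κ' : C3.Cell (r * m₁) (r * m₂)}
    (hκ : S23.coarse r κ ∈ Γ.T) (h : Γ.Conn (S23.coarse r κ) (S23.coarse r κ')) : (S23.refine r Γ).Conn κ κ' := by
  set s' : C3.Cell (r * m₁) (r * m₂) → ℝ := fun x => if (S23.refine r Γ).Conn κ x then 1 else 0 with hs'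
  have hC : CompFn (S23.refine r Γ) s' := by
    refine ⟨fun x y hxy => ?_, fun x hx => ?_⟩
    · have e : (S23.refine r Γ).Conn κ x ↔ (S23.refine r Γ).Conn κ y :=
        ⟨fun h1 => h1.tail hxy, fun h1 => h1.tail (ro_cg_adj_symm _ hxy)⟩
      simp only [hs', e]
    · exfalso
      have : x ∈ S23.fine r Γ.pin := hx
      rw [hpin, pn_sb_mem_fine] at this
      exact absurd this (Finset.notMem_empty _)
  have hconst := fun x hT => pn_sb_comp_const Γ hr hC _ x hT rfl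
  have hdown := (pn_sb_comp_down Γ hr hC).1
  have hκ' : S23.coarse r κ' ∈ Γ.T := ro_cg_conn_mem Γ hκ h
  have hpath : ∀ c, Γ.Conn (S23.coarse r κ) c → s' (sbCorner r hr c) = s' (sbCorner r hr (S23.coarse r κ)) := by
    intro c hc
    induction hc with
    | refl => rfl
    | tail _ hbc ih => exact (hdown _ _ hbc).symm.trans ih
  have h1 : s' κ' = s' κ := by rw [hconst κ' hκ', hconst κ hκ, hpath _ h]
  have h2 : s' κ = 1 := if_pos (Relation.ReflTransGen.refl : (S23.refine r Γ).Conn κ κ)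
  by_contra hn
  have h3 : s' κ' = 0 := if_neg hn
  rw [h3, h2] at h1
  exact zero_ne_one h1

/-- the same with pins (connectivity does not see the pins) -/
theorem psc_conn_fine (Γ : CGeom m₁ m₂) {r : ℕ} (hr : 0 < r) {κ κ' : C3.Cell (r * m₁) (r * m₂)}
    (hκ : S23.coarse r κ ∈ Γ.T) (h : Γ.Conn (S23.coarse r κ) (S23.coarse r κ')) : (S23.refine r Γ).Conn κ κ' :=
  psc_conn_fine0 (shFree Γ) rfl hr hκ h

/-- discrete intermediate value theorem for the index distance along a path of cells -/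
theorem psc_ivt (Γ : CGeom n₁ n₂) (p : Finset (Fin n₁ × Fin n₂)) (j : ℕ) {x y : Fin n₁ × Fin n₂} (h : Γ.Conn x y) (hx : x ∈ shBall p j)
    (hy : y ∉ shBall p j) : ∃ d, Γ.Conn x d ∧ d ∈ Γ.T ∧ d ∈ shBall p (j + 1) ∧ d ∉ shBall p j := by
  induction h with
  | refl => exact absurd hx hy
  | @tail b c hab hbc ih =>
    by_cases hb : b ∈ shBall p j
    · exact ⟨c, hab.tail hbc, hbc.2.1, psg_ball_step p j hb (psg_adj_nb hbc), hy⟩
    · exact ih hb

/-- **`ShConf`** for the refinement of a connected polygon with a pinned cell, as soon as there is a target cell -/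
theorem psc_conf {U P : Finset (C3.Cell m₁ m₂)} (hU : Pot.roConn U) (hP : (U ∩ P).Nonempty) {r : ℕ} (hr : 0 < r) (J : ℕ)
    (ht : (shTg (S23.refine r (polyG U P)) J).Nonempty) : ShConf (S23.refine r (polyG U P)) J := by
  obtain ⟨κt, hκt⟩ := ht
  obtain ⟨c, hc⟩ := hP
  have hcU : c ∈ U := (Finset.mem_inter.1 hc).1
  have hpT : S23.coarse r (sbCorner r hr c) ∈ (polyG U P).T := by rw [pn_sb_coarse_corner]; exact hcU
  have hpp : sbCorner r hr c ∈ (S23.refine r (polyG U P)).pin :=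
    (pn_sb_mem_fine r P _).2 (by rw [pn_sb_coarse_corner]; exact (Finset.mem_inter.1 hc).2)
  have htT : κt ∈ (S23.refine r (polyG U P)).T := (Finset.mem_filter.1 hκt).1
  have htn : κt ∉ shBall (S23.refine r (polyG U P)).pin (2 * J + 4) := (Finset.mem_filter.1 hκt).2
  have hall : ∀ κ κ', κ ∈ (S23.refine r (polyG U P)).T → κ' ∈ (S23.refine r (polyG U P)).T → (S23.refine r (polyG U P)).Conn κ κ' := by
    intro κ κ' hκ hκ'
    have h1 : S23.coarse r κ ∈ U := (pn_sb_mem_fine r U κ).1 hκ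
    have h2 : S23.coarse r κ' ∈ U := (pn_sb_mem_fine r U κ').1 hκ'
    exact psc_conn_fine (polyG U P) hr h1 (psc_poly_conn hU P h1 h2)
  have hpT' : sbCorner r hr c ∈ (S23.refine r (polyG U P)).T := (pn_sb_mem_fine r U _).2 hpT
  obtain ⟨d, -, hdT, hd1, hd2⟩ := psc_ivt (S23.refine r (polyG U P)) (S23.refine r (polyG U P)).pin (J + 1) (hall _ _ hpT' htT)
    (psg_ball_self _ hpp _) (fun h => htn (psg_ball_mono _ (by omega) h))
  intro κ hκ
  exact ⟨d, Finset.mem_filter.2 ⟨hdT, hd1, hd2⟩, hall _ _ hκ hdT⟩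

/-! ## 2. The collar -/

theorem psc_1d_aux {N : ℕ} (y : Fin (N + 1) → ℤ) (L : ℤ) (hL : ∀ i : Fin N, y i.succ - y i.castSucc ≤ L)
    (h0 : ∀ i : Fin N, 0 ≤ y i.succ - y i.castSucc) (p q : Fin (N + 1)) (r : ℕ) (hpq : q.1 = p.1 + r) :
    0 ≤ y q - y p ∧ y q - y p ≤ (r : ℤ) * L := by
  have hq := q.2
  have e : q = ⟨p.1 + r, by omega⟩ := Fin.ext hpq
  have a1 := psg_1d_le y L hL p.1 r (by omega)
  have a2 := psg_1d_ge y 0 h0 p.1 r (by omega)
  rw [mul_zero] at a2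
  rw [e]
  exact ⟨a2, a1⟩

theorem psc_1d {N : ℕ} (y : Fin (N + 1) → ℤ) (L : ℤ) (hL : ∀ i : Fin N, y i.succ - y i.castSucc ≤ L)
    (h0 : ∀ i : Fin N, 0 ≤ y i.succ - y i.castSucc) (hL0 : 0 ≤ L) (i i' : Fin N) (j : ℕ) (h1 : i.1 ≤ i'.1 + j) (h2 : i'.1 ≤ i.1 + j)
    (t : ℤ) (ht1 : y i.castSucc ≤ t) (ht2 : t < y i.succ) : |t - y i'.castSucc| ≤ ((j : ℤ) + 1) * L := by
  have hj : 0 ≤ ((j : ℤ) + 1) * L := by positivity
  rcases le_or_gt i'.1 i.1 with h | h
  · obtain ⟨r, hr⟩ := Nat.exists_eq_add_of_le h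
    have A := psc_1d_aux y L hL h0 i'.castSucc i.succ (r + 1) (by simp only [Fin.val_succ, Fin.val_castSucc]; omega)
    have B := psc_1d_aux y L hL h0 i'.castSucc i.castSucc r (by simp only [Fin.val_castSucc]; omega)
    have C : ((r + 1 : ℕ) : ℤ) * L ≤ ((j : ℤ) + 1) * L := mul_le_mul_of_nonneg_right (by push_cast; omega) hL0
    rw [abs_le]
    constructor
    · linarith [B.1]
    · linarith [A.2]
  · obtain ⟨r, hr⟩ := Nat.exists_eq_add_of_lt h
    have A := psc_1d_aux y L hL h0 i.castSucc i'.castSucc (r + 1) (by simp only [Fin.val_castSucc]; omega)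
    have B := psc_1d_aux y L hL h0 i.succ i'.castSucc r (by simp only [Fin.val_succ, Fin.val_castSucc]; omega)
    have C : ((r + 1 : ℕ) : ℤ) * L ≤ ((j : ℤ) + 1) * L := mul_le_mul_of_nonneg_right (by push_cast; omega) hL0
    rw [abs_le]
    constructor
    · linarith [A.2]
    · linarith [B.1]

/-- a site of a cell at index distance `≤ j` from `p` lies within `(j+1) L` of the region of `p` -/
theorem psc_near (g : DGrid n₁ n₂) (L : ℕ) (hL : g.SideLe L) (p : Finset (Fin n₁ × Fin n₂)) (j : ℕ) {κ : Fin n₁ × Fin n₂}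
    (hκ : κ ∈ shBall p j) {x : ℤ × ℤ} (hx : x ∈ g.cell κ) : roNear (g.region p) (((j : ℝ) + 1) * L) x := by
  obtain ⟨κ', hκ', hle⟩ := (psg_ball_mem p j κ).1 hκ
  obtain ⟨l1, l2, l3, l4⟩ := hle
  obtain ⟨⟨a1, a2⟩, b1, b2⟩ := (pn_t31s_CN_mem g κ x).1 hx
  refine ⟨(g.x₁ κ'.1.castSucc, g.x₂ κ'.2.castSucc), pn_sb_cell_sub_region g hκ' (pn_sb_corner g κ'), ?_, ?_⟩
  · have h := psc_1d g.x₁ L hL.1 (fun i => by have := g.mono₁ (Fin.castSucc_lt_succ (i := i)); omega) (by positivity) κ.1 κ'.1 j l1 l2 x.1 a1 a2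
    rw [← Int.cast_abs]
    exact_mod_cast h
  · have h := psc_1d g.x₂ L hL.2 (fun i => by have := g.mono₂ (Fin.castSucc_lt_succ (i := i)); omega) (by positivity) κ.2 κ'.2 j l3 l4 x.2 b1 b2
    rw [← Int.cast_abs]
    exact_mod_cast h

/-- **the collar**: the shift vanishes on the medium cells at index distance `≤ 2J+5` from the pin -/
theorem psc_collar (U P : Finset (C3.Cell m₁ m₂)) (g : DGrid m₁ m₂) {r : ℕ} (hr : 0 < r) (hok : sbOK r g) (J L : ℕ)
    (hL : (sbG r g).SideLe L) (u : ℤ × ℤ → ℝ) (ρ : ℝ) (hρ : (((2 * J + 5 : ℕ) : ℝ) + 1) * L ≤ ρ)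
    (hu : ∀ x ∈ g.region U, roNear (g.region P) ρ x → u x = 0) :
    ∀ x ∈ (sbG r g).region (shNr (S23.refine r (polyG U P)) J), u x = 0 := by
  intro x hx
  obtain ⟨κ, hκ, hxκ⟩ := Finset.mem_biUnion.1 hx
  obtain ⟨hκT, hκB⟩ := Finset.mem_filter.1 hκ
  have href := pn_sb_refines hr hok
  have h1 : x ∈ g.region U := by
    rw [← pn_sb_region href U]
    exact pn_sb_cell_sub_region _ hκT hxκ
  have h2 := psc_near (sbG r g) L hL _ _ hκB hxκ
  have e : (sbG r g).region (S23.refine r (polyG U P)).pin = g.region P := pn_sb_region href P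
  rw [e] at h2
  exact hu x h1 (pn_t31d_S_near_mono hρ h2)

/-! ## 3. Charts -/

/-- the variance of the gradient test of an ambient shift, as a function of the law -/
def scQ (β : ℝ) (u : ℤ × ℤ → ℝ) (D : Finset (ℤ × ℤ)) (cut : Set Bond) (H : HLaw (domG D cut)) : ℝ :=
  (H.sys β).V0 (C2.flowS (H.sys β) fun e => 2 * Real.pi * C2.gd u (domBond (D := D) (cut := cut) e))

/-- the Dirichlet energy of an ambient shift, as a function of the domain -/
def scE (u : ℤ × ℤ → ℝ) (D : Finset (ℤ × ℤ)) (cut : Set Bond) (_ : Finset (ℤ × ℤ)) : ℝ :=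
  ∑ e : (domG D cut).E, C2.gd u (domBond (D := D) (cut := cut) e) ^ 2

theorem psc_defs_forced2 : True := by
  have := @scQ.eq_1; have := @scE.eq_1
  trivial

/-- **chart invariance** of the variance of a gradient test in the massless law of a geometry -/
theorem psc_tr_V0 (Γ : CGeom m₁ m₂) {r : ℕ} {g' : DGrid (r * m₁) (r * m₂)} {g : DGrid m₁ m₂} (h : S23.Refines r g' g) (β : ℝ) (u : ℤ × ℤ → ℝ) :
    ((C3.lawR (S23.refine r Γ) g' C3.noRow).sys β).V0 (C3.gradT (S23.refine r Γ) C3.noRow g' β u)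
      = ((C3.lawR Γ g C3.noRow).sys β).V0 (C3.gradT Γ C3.noRow g β u) := by
  have e1 := T32.pn_cn_tr_lawR (scQ β u) h Γ C3.noRow
  have e3 : (fun o => sbCT (S23.fine r Γ.T) g' (C3.noRow o)) = fun o => sbCT Γ.T g (C3.noRow o) := funext fun o => o.elim0
  rw [e3] at e1
  exact e1

/-- **chart invariance** of the Dirichlet energy -/
theorem psc_tr_dir (Γ : CGeom m₁ m₂) {r : ℕ} {g' : DGrid (r * m₁) (r * m₂)} {g : DGrid m₁ m₂} (h : S23.Refines r g' g) (u : ℤ × ℤ → ℝ) :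
    C3.dirT (S23.refine r Γ) g' u = C3.dirT Γ g u := T32.pn_cn_tr3 (scE u) h Γ

/-- the same for the pin-free fine chart of `Pins/ShiftDefs.lean` -/
theorem psc_tr_dir_sh (Γ : CGeom m₁ m₂) {s : ℕ} {g' : DGrid (s * m₁) (s * m₂)} {g : DGrid m₁ m₂} (h : S23.Refines s g' g) (u : ℤ × ℤ → ℝ) :
    C3.dirT (shGeo s Γ) g' u = C3.dirT Γ g u := T32.pn_cn_tr3 (scE u) h (shFree Γ)

theorem psc_roRc {r : ℕ} {g' : DGrid (r * m₁) (r * m₂)} {g : DGrid m₁ m₂} (h : S23.Refines r g' g) : roRc g' = roRc g := by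
  have a1 := h.1 0 0 (by simp)
  have a2 := h.1 (Fin.last m₁) (Fin.last (r * m₁)) (by simp)
  have b1 := h.2 0 0 (by simp)
  have b2 := h.2 (Fin.last m₂) (Fin.last (r * m₂)) (by simp)
  unfold roRc
  rw [a1, a2, b1, b2]

/-- only the pinned cells inside the polygon matter -/
theorem psc_plaw_inter (U Pn : Finset (C3.Cell m₁ m₂)) (g : DGrid m₁ m₂) : plaw U Pn g = plaw U (U ∩ Pn) g := by
  have e : (polyG U Pn).sites g Pn = (polyG U (U ∩ Pn)).sites g (U ∩ Pn) := by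
    ext x
    rw [pn_t31d_sites_iff U Pn g x]
    exact Iff.rfl
  show @HLaw.mk ((polyG U Pn).graph g) (HLaw.pinned ((polyG U Pn).sites g Pn)) _ _ _ = _
  rw [e]
  rfl

theorem psc_V0_inter (U Pn : Finset (C3.Cell m₁ m₂)) (g : DGrid m₁ m₂) (β : ℝ) (u : ℤ × ℤ → ℝ) :
    (psys U Pn g β).V0 (pgrad U Pn g β u) = (psys U (U ∩ Pn) g β).V0 (pgrad U (U ∩ Pn) g β u) :=
  congrArg (scQ β u _ _) (psc_plaw_inter U Pn g)

/-! ## 4. Regular shifts at a comparable scale, modified for small `k` -/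

theorem psc_reg {ν ν₁ : ℕ → ℕ} {R R₁ : ℕ → C2.Rc} {u : ℕ → ℤ × ℤ → ℝ} (h : C2.Reg ν R u) (Pk : ℕ → Prop) (hP : ∀ᶠ k in atTop, Pk k)
    (h1 : ∀ k, Pk k → R₁ k = R k ∧ 0 < ν₁ k ∧ ν₁ k ≤ ν k) : C2.Reg ν₁ R₁ (fun k => if Pk k then u k else 0) := by
  intro ε hε
  obtain ⟨M, γ, hγ, hev⟩ := h ε hε
  refine ⟨|M|, fun k => if Pk k then γ k else 0, fun k => ?_, ?_⟩
  · by_cases hk : Pk k
    · simp only [if_pos hk]
      obtain ⟨e, h0, hle⟩ := h1 k hk
      rw [e]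
      obtain ⟨c1, c2⟩ := hγ k
      have p1 : (0 : ℝ) < ν₁ k := by exact_mod_cast h0
      have p2 : (ν₁ k : ℝ) ≤ ν k := by exact_mod_cast hle
      have p3 : (0 : ℝ) < ν k := lt_of_lt_of_le p1 p2
      have q1 : M / (ν k : ℝ) ≤ |M| / (ν₁ k : ℝ) :=
        (div_le_div_of_nonneg_right (le_abs_self M) p3.le).trans (div_le_div_of_nonneg_left (abs_nonneg M) p1 p2)
      have q2 : M / (ν k : ℝ) ^ 2 ≤ |M| / (ν₁ k : ℝ) ^ 2 :=
        (div_le_div_of_nonneg_right (le_abs_self M) (by positivity)).trans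
          (div_le_div_of_nonneg_left (abs_nonneg M) (by positivity) (pow_le_pow_left₀ p1.le p2 2))
      exact ⟨fun e he => (c1 e he).trans q1, fun e he w hw he' => (c2 e he w hw he').trans q2⟩
    · simp only [if_neg hk]
      refine ⟨fun e _ => ?_, fun e _ w _ _ => ?_⟩
      · simp only [C2.gd, Pi.zero_apply, sub_self, abs_zero]
        positivity
      · simp only [C2.gd, Pi.zero_apply, sub_self, abs_zero]
        positivity
  · filter_upwards [hev, hP] with k hk hPk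
    simp only [if_pos hPk]
    rw [(h1 k hPk).1]
    exact hk

/-! ## 5. From the medium level to `CoreLow` -/

/-- the core at the MEDIUM level (`psh_core` of `Pins/ShiftMed.lean`, helper249) -/
def MedCore (a : ℝ) (b : ℕ → ℝ) (ν : ℕ → ℕ) : Prop :=
  ∀ K : ℕ, 1 ≤ K → ∃ J : ℕ, ∀ (n₁ n₂ : ℕ) (Γ : CGeom n₁ n₂), Γ.NoDiag → ShConf Γ J →
    ∀ (g : ℕ → DGrid n₁ n₂) (ν₁ : ℕ → ℕ), Admissible K g ν₁ → C3.Comp ν ν₁ →
    ∀ u : ℕ → ℤ × ℤ → ℝ, C2.Reg ν₁ (fun k => roRc (g k)) u → (∀ k, ∀ x ∈ (g k).region (shNr Γ J), u k x = 0) →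
    ∀ ε : ℝ, 0 < ε → ∀ᶠ k in atTop, a * C3.dirT Γ (g k) (u k) - ε
      ≤ ((C3.lawR Γ (g k) C3.noRow).sys (b k)).V0 (C3.gradT Γ C3.noRow (g k) (b k) (u k))

theorem psc_defs_forced3 : True := by
  have := @MedCore.eq_1
  trivial

/-- a shift which vanishes on the polygon has no energy -/
theorem psc_pdir_zero (U Pn : Finset (C3.Cell m₁ m₂)) (g : DGrid m₁ m₂) (u : ℤ × ℤ → ℝ) (hu : ∀ x ∈ g.region U, u x = 0) :
    pdir U Pn g u = 0 := by
  refine Finset.sum_eq_zero fun e _ => ?_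
  have h1 : (domBond (D := g.region (polyG U Pn).T) (cut := (polyG U Pn).cutB g) e).1 ∈ g.region U := domBonds_fst e.2
  have h2 : (domBond (D := g.region (polyG U Pn).T) (cut := (polyG U Pn).cutB g) e).snd ∈ g.region U := domBonds_snd e.2
  simp only [C2.gd, hu _ h1, hu _ h2, sub_self]
  norm_num

/-- **from the medium level to `CoreLow`** -/
theorem psc_core {a : ℝ} {b : ℕ → ℝ} {ν : ℕ → ℕ} (hb : ∀ k, 0 < b k) (hMed : MedCore a b ν) : CoreLow a b ν := by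
  intro m₁ m₂ U Pn hU hne K g hg u hu ε hε
  obtain ⟨hreg, δ, hδ, hcol⟩ := hu
  obtain ⟨J, hJ⟩ := hMed (2 * K + 1) (by omega)
  -- the refinement
  obtain ⟨r, hr, hrδ⟩ : ∃ r : ℕ, 0 < r ∧ (((2 * J + 5 : ℕ) : ℝ) + 1) * ((2 * K + 1 : ℕ) : ℝ) ≤ δ * r := by
    obtain ⟨n, hn⟩ := exists_nat_ge ((((2 * J + 5 : ℕ) : ℝ) + 1) * ((2 * K + 1 : ℕ) : ℝ) / δ)
    refine ⟨n + 1, Nat.succ_pos n, ?_⟩
    rw [div_le_iff₀ hδ] at hn
    push_cast at hn ⊢
    nlinarith
  have hadm := pn_sb_adm hg hr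
  have hcomp := pn_sb_comp ν hr
  obtain ⟨Pk, hPd, hPev⟩ : ∃ Pk : ℕ → Prop, (∀ k, Pk k → sbOK r (g k) ∧ r ≤ ν k) ∧ ∀ᶠ k in atTop, Pk k :=
    ⟨fun k => sbOK r (g k) ∧ r ≤ ν k, fun _ h => h, (pn_sb_ev hg hr).and (tendsto_atTop.1 hg.1 r)⟩
  have hνr : ∀ k, Pk k → 0 < sbNu r (ν k) ∧ r * sbNu r (ν k) ≤ ν k := by
    intro k hk'
    have hk := hPd k hk'
    unfold sbNu
    rw [if_pos hk.2]
    exact ⟨Nat.div_pos hk.2 hr, Nat.mul_div_le _ _⟩
  -- the collar
  have hcollar : ∀ k, Pk k → ∀ x ∈ (sbG r (g k)).region (shNr (S23.refine r (polyG U (U ∩ Pn))) J), u k x = 0 := by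
    intro k hk
    refine psc_collar U (U ∩ Pn) (g k) hr (hPd k hk).1 J ((2 * K + 1) * sbNu r (ν k)) (hadm.2 k).2 (u k) (δ * ν k) ?_ (hcol k)
    have h1 : ((r * sbNu r (ν k) : ℕ) : ℝ) ≤ ν k := by exact_mod_cast (hνr k hk).2
    push_cast at h1 hrδ ⊢
    have h2 : (0 : ℝ) ≤ (sbNu r (ν k) : ℝ) := Nat.cast_nonneg _
    calc (2 * (J : ℝ) + 5 + 1) * ((2 * (K : ℝ) + 1) * (sbNu r (ν k) : ℝ))
        = ((2 * (J : ℝ) + 5 + 1) * (2 * (K : ℝ) + 1)) * (sbNu r (ν k) : ℝ) := by ring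
      _ ≤ (δ * r) * (sbNu r (ν k) : ℝ) := mul_le_mul_of_nonneg_right hrδ h2
      _ = δ * ((r : ℝ) * (sbNu r (ν k) : ℝ)) := by ring
      _ ≤ δ * ν k := mul_le_mul_of_nonneg_left h1 hδ.le
  by_cases ht : (shTg (S23.refine r (polyG U (U ∩ Pn))) J).Nonempty
  · -- the main case
    have hconf : ShConf (S23.refine r (polyG U (U ∩ Pn))) J := by
      obtain ⟨c, hc⟩ := hne
      exact psc_conf hU.conn ⟨c, Finset.mem_inter.2 ⟨(Finset.mem_inter.1 hc).1, hc⟩⟩ hr J ht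
    have hND : (S23.refine r (polyG U (U ∩ Pn))).NoDiag := Sec.noDiag_refine _ (psc_poly_noDiag hU _) r
    have hreg' : C2.Reg (fun k => sbNu r (ν k)) (fun k => roRc (sbG r (g k))) (fun k => if Pk k then u k else 0) :=
      psc_reg hreg Pk hPev fun k hk => ⟨psc_roRc (pn_sb_refines hr (hPd k hk).1), (hνr k hk).1,
        le_trans (Nat.le_mul_of_pos_left _ hr) (hνr k hk).2⟩
    have hcol' : ∀ k, ∀ x ∈ (sbG r (g k)).region (shNr (S23.refine r (polyG U (U ∩ Pn))) J), (if Pk k then u k else 0) x = 0 := by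
      intro k x hx
      by_cases hk : Pk k
      · rw [if_pos hk]
        exact hcollar k hk x hx
      · rw [if_neg hk]
        rfl
    filter_upwards [hJ _ _ _ hND hconf _ _ hadm hcomp _ hreg' hcol' ε hε, hPev] with k hk hPk'
    rw [if_pos hPk', psc_tr_dir _ (pn_sb_refines hr (hPd k hPk').1), psc_tr_V0 _ (pn_sb_refines hr (hPd k hPk').1)] at hk
    rw [psc_V0_inter]
    exact hk
  · -- no target cell: the shift vanishes
    filter_upwards [hPev] with k hk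
    have h0 : ∀ x ∈ (g k).region U, u k x = 0 := by
      intro x hx
      refine hcollar k hk x ?_
      rw [← pn_sb_region (pn_sb_refines hr (hPd k hk).1) U] at hx
      obtain ⟨κ, hκ, hxκ⟩ := Finset.mem_biUnion.1 hx
      refine Finset.mem_biUnion.2 ⟨κ, Finset.mem_filter.2 ⟨hκ, ?_⟩, hxκ⟩
      by_contra hn
      exact ht ⟨κ, Finset.mem_filter.2 ⟨hκ, fun h => hn (psg_ball_mono _ (by omega) h)⟩⟩
    rw [psc_pdir_zero U Pn (g k) (u k) h0, mul_zero]
    have := rd_V0_nonneg (HLaw.ok_of_isEmpty (plaw U Pn (g k)) (b k) (hb k)) (pgrad U Pn (g k) (b k) (u k))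
    have h2 : 0 ≤ (psys U Pn (g k) (b k)).V0 (pgrad U Pn (g k) (b k) (u k)) := this
    linarith

end

end Claimed.Agent.R285.Pins
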