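import Claimed.Agent.R285.Pins.ShiftMed
import Claimed.Agent.R285.Pins.ShiftCore

/-!
# ROW 285, PINS: TOP of the exploration core CORE-LIM (helper235, helper249).      No sorry.

ONE statement.  Consumers: `Pins/CoreExit.lean` + `Tor/Need.lean` (`Tor.pin_shift_lower`, [E]L5.4), `Pins/T31.lean` (pinned polygons of [C]T3.1).
Producers: `Pins/ShiftMed.lean` (`psh_core`, medium level, helper249) + `Pins/ShiftCore.lean` (`psc_core`, coarse -> medium, helper235).   This file must not be imported by `Shift*.lean`.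
NO CIRCULARITY: the proof uses [C]T3.1 only for PIN-FREE geometries with rows (band law): `Pins/T31Free.lean`.
-/

set_option autoImplicit false

namespace Claimed.Agent.R285.Pins

/-- **core of [C]T3.1** = [C] l.830-860 = [E]L5.4, first half: under hard pins a regular ambient shift which vanishes in a collar of the pins keeps the variance `a 𝓔(u)`. -/
theorem pn_core_low {a : ℝ} {b : ℕ → ℝ} {ν : ℕ → ℕ} (hS : C3.Scen a b ν) : CoreLow a b ν := by
  obtain ⟨b₀, b₁, hb₀, hbb⟩ := hS.b_cpt
  refine psc_core (fun k => lt_of_lt_of_le hb₀ (hbb k).1) fun K _ => ?_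
  obtain ⟨J, hJ⟩ := psh_J_exists a hS.a_pos b₁ (2 * K + 1)
  exact ⟨J, fun _ _ Γ hΓ hconf g ν₁ hg hc u hreg hcol ε hε =>
    psh_core hS K b₁ (fun k => (hbb k).2) J hJ Γ hΓ hconf g ν₁ hg hc u hreg (Filter.Eventually.of_forall hcol) ε hε⟩

end Claimed.Agent.R285.Pins
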