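import Claimed.Agent.R285.Pins.T31Free
import Claimed.Agent.R285.Pins.CoreTop

/-!
# ROW 285, PINS, package T31 (architect helper217).  FILE 8: THE EXITS = [C] Theorem 3.1.   PAPER-FREE.     Plan of the package: header of `Pins/T31Geo.lean`.

* `pn_t31_geoIn` : every `NoDiag` geometry (hard pins: the exploration core `pn_core_low`).
* `pn_t31_mixed_tilt / laplace / var / phi` = `C3.mixed_*` VERBATIM (fixed rows).
* `pn_t31_moving` = the contract of T3.2 (`T32.T31In`, msg #21754): MOVING bounded rows, scale `ν'` comparable to `ν`, uniform confinement of all constants (`ConfI`): Laplace limit + bound of the reference cost; `pn_t31_moving_ok`: `Ok ∧ Proper`.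
-/

set_option autoImplicit false

namespace Claimed.Agent.R285.Pins

open Filter Topology MeasureTheory Pot
open scoped Classical

noncomputable section

variable {m₁ m₂ : ℕ} {a : ℝ} {b : ℕ → ℝ} {ν : ℕ → ℕ}

/-- **every `NoDiag` geometry** -/
theorem pn_t31_geoIn (hS : C3.Scen a b ν) (Γ : CGeom m₁ m₂) (hΓ : Γ.NoDiag) : GeoIn a b ν Γ :=
  pn_t31f_geoIn_of hS Γ hΓ fun _ hU => pn_t31_shiftLim (pn_t31f_b_pos hS) (pn_fp_of_scen hS).1 (pn_core_low hS) Γ.pin (pn_t31f_poly Γ hΓ hU)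

section Moving

variable (hS : C3.Scen a b ν) (Γ : CGeom m₁ m₂) (hΓ : Γ.NoDiag) (K : ℕ) (g : ℕ → DGrid m₁ m₂) (hg : Admissible K g ν) {N : ℕ}
    (R : ℕ → Fin N → C3.Cell m₁ m₂ → ℝ) (hR : ∃ Rb : ℝ, ∀ k o κ, |R k o κ| ≤ Rb) (hU : UConf1 Γ R)
    (hOk : ∀ k, ((C3.lawR Γ (g k) (R k)).sys (b k)).Ok)
    (t : ℕ → C3.Cell m₁ m₂ → ℝ) (Tb : ℝ) (ht : ∀ k κ, |t k κ| ≤ Tb)

include hS hΓ hg hR hU hOk ht

/-- cell tests, moving rows: Laplace -/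
theorem pn_t31_cell_lap : LapLim a (fun k => C3.lawR Γ (g k) (R k)) b (fun k => Γ.cellTest (g k) (t k)) := by
  have h := pn_t31_geo_lap hS.a_pos (pn_t31f_b_pos hS) Γ hΓ (pn_t31_geoIn hS Γ hΓ) K g hg (J := 0) Fin.elim0 (pn_t31f_shFam0 Γ g _) R hR hU hOk t
    (fun _ => Fin.elim0) Tb ht (fun _ j => j.elim0)
  rw [pn_t31f_geoT0] at h
  exact h

theorem pn_t31_cell_var : VarLim a (fun k => C3.lawR Γ (g k) (R k)) b (fun k => Γ.cellTest (g k) (t k)) := by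
  have h := pn_t31_geo_var hS.a_pos (pn_t31f_b_pos hS) Γ hΓ (pn_t31_geoIn hS Γ hΓ) K g hg (J := 0) Fin.elim0 (pn_t31f_shFam0 Γ g _) R hR hU hOk t
    (fun _ => Fin.elim0) Tb ht (fun _ j => j.elim0)
  rw [pn_t31f_geoT0] at h
  exact h

theorem pn_t31_cell_phi : PhiLim a (fun k => C3.lawR Γ (g k) (R k)) b (fun k => Γ.cellTest (g k) (t k)) := by
  have h := pn_t31_geo_phi hS.a_pos (pn_t31f_b_pos hS) Γ hΓ (pn_t31_geoIn hS Γ hΓ) K g hg (J := 0) Fin.elim0 (pn_t31f_shFam0 Γ g _) R hR hU hOk t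
    (fun _ => Fin.elim0) Tb ht (fun _ j => j.elim0)
  rw [pn_t31f_geoT0] at h
  exact h

theorem pn_t31_cell_tilt (c : ℕ → Fin N → ℝ) (hc : ∀ k o, |c k o| ≤ Tb) :
    TiltLim a (fun k => C3.lawR Γ (g k) (R k)) b (fun k => Γ.cellTest (g k) (t k)) c := by
  have h := pn_t31_geo_tilt hS.a_pos (pn_t31f_b_pos hS) Γ hΓ (pn_t31_geoIn hS Γ hΓ) K g hg (J := 0) Fin.elim0 (pn_t31f_shFam0 Γ g _) R hR hU hOk t
    (fun _ => Fin.elim0) Tb ht (fun _ j => j.elim0) c hc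
  rw [pn_t31f_geoT0] at h
  exact h

end Moving

/-! ## `C3.mixed_*` verbatim -/

section Fixed

open C3

variable (Γ : CGeom m₁ m₂) {N : ℕ} (row : Fin N → Cell m₁ m₂ → ℝ)

theorem pn_t31_row_bd : ∃ Rb : ℝ, ∀ (_ : ℕ) (o : Fin N) (κ : Cell m₁ m₂), |row o κ| ≤ Rb :=
  ⟨∑ o, ∑ κ, |row o κ|, fun _ o κ =>
    (Finset.single_le_sum (f := fun κ => |row o κ|) (fun _ _ => abs_nonneg _) (Finset.mem_univ κ)).trans
      (Finset.single_le_sum (f := fun o => ∑ κ, |row o κ|) (fun _ _ => Finset.sum_nonneg fun _ _ => abs_nonneg _) (Finset.mem_univ o))⟩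

theorem pn_t31_mixed_tilt (hS : Scen a b ν) (hΓ : Γ.NoDiag) (K : ℕ) (g : ℕ → DGrid m₁ m₂) (hg : Admissible K g ν)
    (hOk : ∀ k, ((lawR Γ (g k) row).sys (b k)).Ok)
    (t : ℕ → Cell m₁ m₂ → ℝ) (c : ℕ → Fin N → ℝ) (Tb : ℝ) (ht : ∀ k κ, |t k κ| ≤ Tb) (hc : ∀ k o, |c k o| ≤ Tb)
    (X : ∀ k, ((lawR Γ (g k) row).sys (b k)).L →+ ℝ)
    (hX : ∀ k, (lawR Γ (g k) row).Lift (b k) (Γ.cellTest (g k) (t k)) (X k)) :
    Tendsto (fun k => 2 * Real.log (((lawR Γ (g k) row).sys (b k)).wT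
          (HLaw.Aff.amb (H := lawR Γ (g k) row) ⟨0, 0, c k⟩ (b k)) (X k) / ((lawR Γ (g k) row).sys (b k)).w 0)
        - (lawR Γ (g k) row).gTilt a 0 (c k) (Γ.cellTest (g k) (t k))) atTop (𝓝 0) :=
  pn_t31_cell_tilt hS Γ hΓ K g hg (fun _ => row) (pn_t31_row_bd row) (pn_t31r_uconf_fixed Γ row) hOk t Tb ht c hc X hX

theorem pn_t31_mixed_laplace (hS : Scen a b ν) (hΓ : Γ.NoDiag) (K : ℕ) (g : ℕ → DGrid m₁ m₂) (hg : Admissible K g ν)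
    (hOk : ∀ k, ((lawR Γ (g k) row).sys (b k)).Ok)
    (t : ℕ → Cell m₁ m₂ → ℝ) (Tb : ℝ) (ht : ∀ k κ, |t k κ| ≤ Tb)
    (X : ∀ k, ((lawR Γ (g k) row).sys (b k)).L →+ ℝ)
    (hX : ∀ k, (lawR Γ (g k) row).Lift (b k) (Γ.cellTest (g k) (t k)) (X k)) :
    Tendsto (fun k => (lawR Γ (g k) row).logLap (b k) (X k)
        - (lawR Γ (g k) row).gVar a (Γ.cellTest (g k) (t k)) / 2) atTop (𝓝 0) :=
  pn_t31_cell_lap hS Γ hΓ K g hg (fun _ => row) (pn_t31_row_bd row) (pn_t31r_uconf_fixed Γ row) hOk t Tb ht X hX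

theorem pn_t31_mixed_var (hS : Scen a b ν) (hΓ : Γ.NoDiag) (K : ℕ) (g : ℕ → DGrid m₁ m₂) (hg : Admissible K g ν)
    (hOk : ∀ k, ((lawR Γ (g k) row).sys (b k)).Ok)
    (t : ℕ → Cell m₁ m₂ → ℝ) (Tb : ℝ) (ht : ∀ k κ, |t k κ| ≤ Tb)
    (X : ∀ k, ((lawR Γ (g k) row).sys (b k)).L →+ ℝ)
    (hX : ∀ k, (lawR Γ (g k) row).Lift (b k) (Γ.cellTest (g k) (t k)) (X k)) :
    Tendsto (fun k => ((lawR Γ (g k) row).sys (b k)).V0 (X k)
        - (lawR Γ (g k) row).gVar a (Γ.cellTest (g k) (t k))) atTop (𝓝 0) :=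
  pn_t31_cell_var hS Γ hΓ K g hg (fun _ => row) (pn_t31_row_bd row) (pn_t31r_uconf_fixed Γ row) hOk t Tb ht X hX

theorem pn_t31_mixed_phi (hS : Scen a b ν) (hΓ : Γ.NoDiag) (K : ℕ) (g : ℕ → DGrid m₁ m₂) (hg : Admissible K g ν)
    (hOk : ∀ k, ((lawR Γ (g k) row).sys (b k)).Ok)
    (t : ℕ → Cell m₁ m₂ → ℝ) (Tb : ℝ) (ht : ∀ k κ, |t k κ| ≤ Tb)
    (X : ∀ k, ((lawR Γ (g k) row).sys (b k)).L →+ ℝ)
    (hX : ∀ k, (lawR Γ (g k) row).Lift (b k) (Γ.cellTest (g k) (t k)) (X k)) :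
    Tendsto (fun k => ((lawR Γ (g k) row).sys (b k)).phi (X k)
        - Real.exp (-(lawR Γ (g k) row).gVar a (Γ.cellTest (g k) (t k)) / 2)) atTop (𝓝 0) :=
  pn_t31_cell_phi hS Γ hΓ K g hg (fun _ => row) (pn_t31_row_bd row) (pn_t31r_uconf_fixed Γ row) hOk t Tb ht X hX

end Fixed

/-! ## The contract of T3.2 -/

open C3 in
/-- properness from the uniform confinement of all constants -/
theorem pn_t31_moving_ok (hS : Scen a b ν) (Γ : CGeom m₁ m₂) (g : ℕ → DGrid m₁ m₂) {N : ℕ} (R : ℕ → Fin N → Cell m₁ m₂ → ℝ)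
    {c : ℝ} (hc : 0 < c) (hU : ∀ k, ConfI Γ c (R k)) (k : ℕ) : ((lawR Γ (g k) (R k)).sys (b k)).Ok ∧ (lawR Γ (g k) (R k)).Proper :=
  pn_t31r_ok Γ (g k) (R k) hc (hU k) (b k) (pn_t31f_b_pos hS k)

open C3 in
/-- **MOVING ROWS, COMPARABLE SCALES** (shape of `T32.T31In`) -/
theorem pn_t31_moving (hS : Scen a b ν) (Γ : CGeom m₁ m₂) (hΓ : Γ.NoDiag) (K : ℕ) (g : ℕ → DGrid m₁ m₂) (ν' : ℕ → ℕ) (hg : Admissible K g ν')
    (hν : Comp ν ν') {N : ℕ} (R : ℕ → Fin N → Cell m₁ m₂ → ℝ) (Rb : ℝ) (hR : ∀ k o κ, |R k o κ| ≤ Rb) {c : ℝ} (hc : 0 < c)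
    (hU : ∀ k, ConfI Γ c (R k)) (t : ℕ → Cell m₁ m₂ → ℝ) (Tb : ℝ) (ht : ∀ k κ, |t k κ| ≤ Tb) :
    (∀ X : ∀ k, ((lawR Γ (g k) (R k)).sys (b k)).L →+ ℝ, (∀ k, (lawR Γ (g k) (R k)).Lift (b k) (Γ.cellTest (g k) (t k)) (X k)) →
        Tendsto (fun k => (lawR Γ (g k) (R k)).logLap (b k) (X k)
          - (lawR Γ (g k) (R k)).gVar a (Γ.cellTest (g k) (t k)) / 2) atTop (𝓝 0)) ∧
      ∃ C : ℝ, ∀ k, (lawR Γ (g k) (R k)).gVar 1 (Γ.cellTest (g k) (t k)) ≤ C := by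
  have hS' := pn_t31_scen_comp hS hν
  have hU1 : UConf1 Γ R := ⟨c, hc, fun k => pn_t31r_conf_of_confI Γ (hU k)⟩
  refine ⟨pn_t31_cell_lap hS' Γ hΓ K g hg R ⟨Rb, hR⟩ hU1 (fun k => (pn_t31_moving_ok hS' Γ g R hc hU k).1) t Tb ht, ?_⟩
  obtain ⟨C, -, hC⟩ := pn_t31r_gVar_le Γ K N Rb c 1 hc one_pos Tb 0
  refine ⟨C, fun k => ?_⟩
  have h := hC (g k) (ν' k) (hg.2 k).1 (hg.2 k).2 (R k) (hR k) (pn_t31r_conf_of_confI Γ (hU k)) (t k) (fun _ => 0) (ht k)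
    (by unfold C3.dirT; simp [C2.gd])
  have e2 : Γ.cellTest (g k) (t k) + gRow Γ (g k) (fun _ => 0) = Γ.cellTest (g k) (t k) := by
    have e3 : gRow Γ (g k) (fun _ => 0) = 0 := by
      funext v
      unfold gRow HLaw.gradRow amb domFn
      simp
    rw [e3, add_zero]
  rw [e2] at h
  exact h

end

end Claimed.Agent.R285.Pins
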