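import Claimed.Agent.R285.Pins.T31Lib
import Claimed.Agent.R285.Pot.LinDual

/-!
# ROW 285, PINS, package T31 (architect helper217).  FILE 2: LAWS WITH ROWS ON ONE GRAPH, and THE ROWS THEOREM for an abstract scenario.   PAPER-FREE.

Every `sorry` is a LEAF (`L-T31-*`, name in the docstring); statements frozen (tell helper217 if one looks false); prove IN PLACE, helpers directly above, prefix `pn_t31_<leaf>_`.
Tools: `Pins/T31Lib.lean`, `Pot/LinVar.lean`, `Pot/LinDual.lean` (all proved: `plAdm`, `plIsOpt`, `pl_opt_exists`, `pl_gVar_eq_form`, `pl_gVar_add`, `plCov`, `pl_gVar_flow_exists`, `pl_gVar_le_flow`), `Base/Height.lean` (`lsys_*`).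

## Part 1 (one graph).  `glaw Λ B` = the law with constraint lattice `Λ` and rows `B : Fin N → G.V → ℝ`.   `C3.lawR Γ g row = glaw (pinned ..) (fun o => cellTest (row o))` by `rfl`.
 lifts (`pn_t31_lift_*`), comparison maps (`refRows`, `refSub`), `pn_t31_mkA/mkB` (the last row is of type A / B over the first `N` rows), `pn_t31_okA/okB`, reference formulas `pn_t31_gVarA/gVarB`.
## Part 2 (scenario).  `Scn` = graphs `G k`, lattices `Λ k`, temperatures `b k`, a FINITE family of basic tests `φ k κ` (cell averages).  Tests and rows = bounded moving combinations of the `φ k κ`.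
 `GLim a R` = "Gaussian Laplace limit for all liftable tests in the law with rows `R`".     STEPS `pn_t31_stepA`, `pn_t31_stepB`;   UPPER BOUND `pn_t31_upper` (duality);   **ROWS THEOREM** `pn_t31_rows`.
-/

set_option autoImplicit false

namespace Claimed.Agent.R285.Pins

open Filter Topology MeasureTheory Pot
open scoped Classical

noncomputable section

/-! ## Part 1. One graph -/

section OneGraph

variable {G : HGraph}

/-- the law with constraint lattice `Λ` and rows `B` -/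
def glaw (Λ : AddSubgroup (G.V → ℤ)) {N : ℕ} (B : Fin N → G.V → ℝ) : HLaw G := { Λ := Λ, O := Fin N, B := B }

/-- no row -/
def noB : Fin 0 → G.V → ℝ := Fin.elim0

/-- the first `N` rows -/
def initB {N : ℕ} (B : Fin (N + 1) → G.V → ℝ) : Fin N → G.V → ℝ := fun o => B o.castSucc

/-- a unit point charge -/
def ptc (x : G.V) : G.V → ℝ := fun v => if v = x then 1 else 0

/-- an integer height as a real field -/
def toR (h : G.V → ℤ) : G.V → ℝ := fun v => (h v : ℝ)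

/-! ### lifts -/

/-- lifting a homomorphism through a surjection -/
theorem pn_t31_lift_hom {A B C : Type*} [AddCommGroup A] [AddCommGroup B] [AddCommGroup C] (f : A →+ B) (g : A →+ C)
    (hf : Function.Surjective f) (hk : ∀ a, f a = 0 → g a = 0) : ∃ F : B →+ C, ∀ a, F (f a) = g a := by
  refine ⟨f.liftOfSurjective hf ⟨g, fun a ha => hk a ha⟩, fun a => ?_⟩
  exact f.liftOfRightInverse_comp_apply _ _ ⟨g, fun a ha => hk a ha⟩ a

/-- two surjections with the same kernel -/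
theorem pn_t31_equiv_of_ker {A B C : Type*} [AddCommGroup A] [AddCommGroup B] [AddCommGroup C] (f : A →+ B) (g : A →+ C)
    (hf : Function.Surjective f) (hg : Function.Surjective g) (hk : ∀ a, f a = 0 ↔ g a = 0) :
    ∃ e : B ≃+ C, ∀ a, e (f a) = g a := by
  obtain ⟨F, hF⟩ := pn_t31_lift_hom f g hf fun a => (hk a).1
  obtain ⟨F', hF'⟩ := pn_t31_lift_hom g f hg fun a => (hk a).2
  refine ⟨{ toFun := F, invFun := F', left_inv := ?_, right_inv := ?_, map_add' := F.map_add }, hF⟩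
  · intro x
    obtain ⟨a, rfl⟩ := hf x
    rw [hF, hF']
  · intro x
    obtain ⟨a, rfl⟩ := hg x
    rw [hF', hF]

/-- the projection of the constraint lattice onto the image lattice -/
def prL (H : HLaw G) (b : ℝ) : H.Λ →+ (H.sys b).L where
  toFun h := ⟨H.coordA b h, H.coordA_mem b h.2⟩
  map_zero' := Subtype.ext (map_zero _)
  map_add' h h' := Subtype.ext (map_add _ _ _)

theorem pn_t31_prL_surj (H : HLaw G) (b : ℝ) : Function.Surjective (prL H b) := by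
  intro z
  obtain ⟨h, hh, e⟩ := AddSubgroup.mem_map.1 z.2
  exact ⟨⟨h, hh⟩, Subtype.ext e⟩

theorem pn_t31_prL_eq_zero (H : HLaw G) (b : ℝ) (h : H.Λ) : prL H b h = 0 ↔ H.coord h = 0 := by
  constructor
  · intro e
    exact congrArg Subtype.val e
  · intro e
    exact Subtype.ext e

theorem pn_t31_lift_iff (H : HLaw G) (b : ℝ) (f : G.V → ℝ) (X : (H.sys b).L →+ ℝ) :
    H.Lift b f X ↔ ∀ h : H.Λ, X (prL H b h) = 2 * Real.pi * HLaw.pair f (toR h) := by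
  have e : ∀ h : G.V → ℤ, ∑ x, f x * (2 * Real.pi * (h x : ℝ)) = 2 * Real.pi * HLaw.pair f (toR h) := by
    intro h
    simp only [HLaw.pair, toR, Finset.mul_sum]
    exact Finset.sum_congr rfl fun x _ => by ring
  constructor
  · intro hl h
    rw [← e]
    exact hl h h.2
  · intro hl h hh
    rw [e]
    exact hl ⟨h, hh⟩

theorem pn_t31_toR_mem (H : HLaw G) {h : G.V → ℤ} (hh : h ∈ H.Λ) : toR h ∈ H.rspan :=
  Submodule.subset_span ⟨h, hh, rfl⟩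

theorem pn_t31_pair_add (f f' u : G.V → ℝ) : HLaw.pair (f + f') u = HLaw.pair f u + HLaw.pair f' u := by
  simp [HLaw.pair, add_mul, Finset.sum_add_distrib]

theorem pn_t31_pair_sub (f f' u : G.V → ℝ) : HLaw.pair (f - f') u = HLaw.pair f u - HLaw.pair f' u := by
  simp [HLaw.pair, sub_mul, Finset.sum_sub_distrib]

theorem pn_t31_pair_smul (s : ℝ) (f u : G.V → ℝ) : HLaw.pair (s • f) u = s * HLaw.pair f u := by
  simp [HLaw.pair, Finset.mul_sum, mul_assoc]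

/-- **L-T31-L1** (~150 l. for the block `lift_*`).  Every element of `(H.sys b).L` is `coordA b h`, `h ∈ Λ` (`AddSubgroup.mem_map`). -/
theorem pn_t31_lift_unique (H : HLaw G) (b : ℝ) {f : G.V → ℝ} {X X' : (H.sys b).L →+ ℝ} (h : H.Lift b f X) (h' : H.Lift b f X') :
    X = X' := by
  rw [pn_t31_lift_iff] at h h'
  ext z
  obtain ⟨a, rfl⟩ := pn_t31_prL_surj H b z
  rw [h, h']

theorem pn_t31_lift_add (H : HLaw G) (b : ℝ) {f f' : G.V → ℝ} {X X' : (H.sys b).L →+ ℝ} (h : H.Lift b f X) (h' : H.Lift b f' X') :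
    H.Lift b (f + f') (X + X') := by
  rw [pn_t31_lift_iff] at *
  intro a
  rw [AddMonoidHom.add_apply, h, h', pn_t31_pair_add]
  ring

theorem pn_t31_lift_sub (H : HLaw G) (b : ℝ) {f f' : G.V → ℝ} {X X' : (H.sys b).L →+ ℝ} (h : H.Lift b f X) (h' : H.Lift b f' X') :
    H.Lift b (f - f') (X - X') := by
  rw [pn_t31_lift_iff] at *
  intro a
  rw [AddMonoidHom.sub_apply, h, h', pn_t31_pair_sub]
  ring

theorem pn_t31_lift_smul (H : HLaw G) (b : ℝ) (s : ℝ) {f : G.V → ℝ} {X : (H.sys b).L →+ ℝ} (h : H.Lift b f X) :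
    H.Lift b (s • f) (s • X) := by
  rw [pn_t31_lift_iff] at *
  intro a
  rw [AddMonoidHom.smul_apply, h, pn_t31_pair_smul, smul_eq_mul]
  ring

/-- the rows are liftable: `obsS` -/
theorem pn_t31_lift_obs (H : HLaw G) (b : ℝ) (s : H.O → ℝ) : H.Lift b (plObsT H s) (obsS (H.sys b) s) := by
  intro h hh
  show ∑ o, s o * ∑ v, H.B o v * (2 * Real.pi * (h v : ℝ)) = _
  simp only [plObsT, Finset.mul_sum, Finset.sum_mul]
  rw [Finset.sum_comm]
  exact Finset.sum_congr rfl fun x _ => Finset.sum_congr rfl fun o _ => by ring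

/-- flows are liftable: `C2.flowS` -/
theorem pn_t31_lift_flow (H : HLaw G) (b : ℝ) (w : G.E → ℝ) :
    H.Lift b (plDiv w) (C2.flowS (H.sys b) fun e => 2 * Real.pi * w e) := by
  intro h hh
  show ∑ e, 2 * Real.pi * w e * ((h (G.tgt e) - h (G.src e) : ℤ) : ℝ) = _
  simp only [plDiv, Finset.sum_mul]
  rw [Finset.sum_comm]
  refine Finset.sum_congr rfl fun e _ => ?_
  have e1 : ∀ x : G.V, w e * ((if G.tgt e = x then 1 else 0) - (if G.src e = x then 1 else 0)) * (2 * Real.pi * (h x : ℝ))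
      = (if G.tgt e = x then 2 * Real.pi * w e * (h x : ℝ) else 0) - (if G.src e = x then 2 * Real.pi * w e * (h x : ℝ) else 0) := by
    intro x
    split_ifs <;> ring
  simp only [e1, Finset.sum_sub_distrib, Finset.sum_ite_eq, Finset.mem_univ, if_true]
  push_cast
  ring

/-- a lift only depends on the test as a functional on `rspan` -/
theorem pn_t31_lift_congr (H : HLaw G) (b : ℝ) {f f' : G.V → ℝ} {X : (H.sys b).L →+ ℝ} (h : H.Lift b f X)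
    (hff : ∀ u ∈ H.rspan, HLaw.pair f u = HLaw.pair f' u) : H.Lift b f' X := by
  rw [pn_t31_lift_iff] at *
  intro a
  rw [h, hff _ (pn_t31_toR_mem H a.2)]

/-- the statistic `h ↦ ⟨f, 2π h⟩` on the constraint lattice -/
def stL (H : HLaw G) (f : G.V → ℝ) : H.Λ →+ ℝ where
  toFun h := 2 * Real.pi * HLaw.pair f (toR h)
  map_zero' := by simp [HLaw.pair, toR]
  map_add' h h' := by
    simp only [HLaw.pair, toR, AddSubgroup.coe_add, Pi.add_apply, Int.cast_add, mul_add, Finset.sum_add_distrib]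

/-- **L-T31-L2** (~80 l.).  A test which kills the integer kernel of `coord` on `Λ` has a lift (`(H.sys b).L ≃+ Λ ⧸ ker`; `QuotientAddGroup.lift`, or choose preimages and check additivity). -/
theorem pn_t31_lift_exists (H : HLaw G) (b : ℝ) (f : G.V → ℝ)
    (hf : ∀ h ∈ H.Λ, H.coord h = 0 → HLaw.pair f (toR h) = 0) : ∃ X : (H.sys b).L →+ ℝ, H.Lift b f X := by
  obtain ⟨X, hX⟩ := pn_t31_lift_hom (prL H b) (stL H f) (pn_t31_prL_surj H b) (fun a ha => by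
    show 2 * Real.pi * HLaw.pair f (toR a) = 0
    rw [hf a a.2 ((pn_t31_prL_eq_zero H b a).1 ha), mul_zero])
  exact ⟨X, (pn_t31_lift_iff H b f X).2 hX⟩

/-- the real-linear extension of `coord` -/
def coordR (H : HLaw G) : (G.V → ℝ) →ₗ[ℝ] (G.E → ℝ) × (H.O → ℝ) where
  toFun u := (plGrad u, fun o => 2 * Real.pi * H.obs u o)
  map_add' u v := by
    ext
    · simp [plGrad]; ring
    · simp [HLaw.obs, mul_add, Finset.sum_add_distrib]
  map_smul' c u := by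
    ext
    · simp [plGrad]; ring
    · simp only [HLaw.obs, Pi.smul_apply, smul_eq_mul, RingHom.id_apply, Prod.smul_snd, Finset.mul_sum]
      exact Finset.sum_congr rfl fun x _ => by ring

theorem pn_t31_coordR_toR (H : HLaw G) (b : ℝ) (h : G.V → ℤ) : coordR H (toR h) = (H.sys b).real (H.coordA b h) := by
  refine Prod.ext ?_ ?_
  · funext e
    show (h (G.tgt e) : ℝ) - (h (G.src e) : ℝ) = ((h (G.tgt e) - h (G.src e) : ℤ) : ℝ)
    push_cast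
    rfl
  · funext o
    show 2 * Real.pi * ∑ x, H.B o x * (h x : ℝ) = ∑ v, H.B o v * (2 * Real.pi * (h v : ℝ))
    rw [Finset.mul_sum]
    exact Finset.sum_congr rfl fun x _ => by ring

theorem pn_t31_real_add (S : LSys) (z z' : S.Amb) : S.real (z + z') = S.real z + S.real z' := by
  refine Prod.ext ?_ rfl
  funext e
  simp [LSys.real]

theorem pn_t31_real_neg (S : LSys) (z : S.Amb) : S.real (-z) = -S.real z := by
  refine Prod.ext ?_ rfl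
  funext e
  simp [LSys.real]

theorem pn_t31_real_zero (S : LSys) : S.real 0 = 0 := by
  refine Prod.ext ?_ rfl
  funext e
  simp [LSys.real]

/-- in a proper system every test extends to a real linear functional of the real coordinates -/
theorem pn_t31_ext_real (S : LSys) (hOk : S.Ok) (X : S.L →+ ℝ) :
    ∃ Xr : ((S.E → ℝ) × (S.O → ℝ)) →ₗ[ℝ] ℝ, ∀ z : S.L, Xr (S.real (z : S.Amb)) = X z := by
  obtain ⟨-, n, v, hli, hL⟩ := hOk
  have hv : ∀ i, v i ∈ S.L := fun i => by rw [hL]; exact AddSubgroup.subset_closure ⟨i, rfl⟩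
  -- the functional on the span, extended
  obtain ⟨Xr, hXr⟩ : ∃ Xr : ((S.E → ℝ) × (S.O → ℝ)) →ₗ[ℝ] ℝ, ∀ i, Xr (S.real (v i)) = X ⟨v i, hv i⟩ := by
    let bs := Module.Basis.span hli
    obtain ⟨Xr, hXr⟩ := LinearMap.exists_extend (bs.constr ℝ fun i => X ⟨v i, hv i⟩)
    refine ⟨Xr, fun i => ?_⟩
    have h1 : Xr (S.real (v i)) = (Xr.comp (Submodule.subtype _)) (bs i) := by
      simp [bs, Module.Basis.span_apply]
    rw [h1, hXr, Module.Basis.constr_basis]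
  refine ⟨Xr, ?_⟩
  rintro ⟨z, hz⟩
  have hz' : z ∈ AddSubgroup.closure (Set.range v) := hL ▸ hz
  have key : ∀ z (hc : z ∈ AddSubgroup.closure (Set.range v)), Xr (S.real z) = X ⟨z, hL ▸ hc⟩ := by
    intro z hc
    induction hc using AddSubgroup.closure_induction with
    | mem x hx =>
      obtain ⟨i, rfl⟩ := hx
      exact hXr i
    | zero =>
      rw [pn_t31_real_zero, map_zero]
      exact (map_zero X).symm
    | add x y hx hy ihx ihy =>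
      rw [pn_t31_real_add, map_add, ihx, ihy, ← map_add]
      rfl
    | neg x hx ihx =>
      rw [pn_t31_real_neg, map_neg, ihx, ← map_neg]
      rfl
  exact key z hz'

/-- **L-T31-L3** (~150 l.).  In a PROPER system (`Ok`: a `ℤ`-basis of `L` is `ℝ`-independent) a liftable test is admissible for the real reference.
Extend `X` to a linear functional `X_ℝ` on the real span of `real '' L` (basis!); for `v = ∑ c_j h_j ∈ rspan`: `⟨f, 2π v⟩ = X_ℝ (∇v, B(2π v))`, which vanishes if `∇v = 0`, `Bv = 0`. -/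
theorem pn_t31_lift_adm (H : HLaw G) (b : ℝ) (hOk : (H.sys b).Ok) {f : G.V → ℝ} {X : (H.sys b).L →+ ℝ} (h : H.Lift b f X) :
    plAdm H f := by
  obtain ⟨Xr, hXr⟩ := pn_t31_ext_real (H.sys b) hOk X
  rw [pn_t31_lift_iff] at h
  -- two linear functionals which agree on the generators of `rspan`
  let P : (G.V → ℝ) →ₗ[ℝ] ℝ :=
    { toFun := fun u => 2 * Real.pi * HLaw.pair f u
      map_add' := fun u v => by simp only [HLaw.pair, Pi.add_apply, mul_add, Finset.sum_add_distrib]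
      map_smul' := fun c u => by
        simp only [HLaw.pair, Pi.smul_apply, smul_eq_mul, RingHom.id_apply, Finset.mul_sum]
        exact Finset.sum_congr rfl fun x _ => by ring }
  have hag : ∀ u ∈ H.rspan, (Xr.comp (coordR H)) u = P u := by
    intro u hu
    refine LinearMap.eqOn_span (s := (fun h : G.V → ℤ => fun v => (h v : ℝ)) '' (H.Λ : Set (G.V → ℤ))) ?_ hu
    rintro _ ⟨a, ha, rfl⟩
    show Xr (coordR H (toR a)) = 2 * Real.pi * HLaw.pair f (toR a)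
    rw [pn_t31_coordR_toR H b, ← h ⟨a, ha⟩]
    exact hXr (prL H b ⟨a, ha⟩)
  intro u hu h1 h2
  have h3 : coordR H u = 0 := by
    refine Prod.ext ?_ ?_
    · funext e; exact h1 e
    · funext o
      show 2 * Real.pi * H.obs u o = 0
      rw [h2 o, mul_zero]
  have h4 : Xr (coordR H u) = 2 * Real.pi * HLaw.pair f u := hag u hu
  have h4' : Xr (coordR H u) = 0 := by rw [h3]; exact map_zero Xr
  have h5 : 2 * Real.pi * HLaw.pair f u = 0 := h4.symm.trans h4'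
  have h6 : (2 * Real.pi) ≠ 0 := by positivity
  exact (mul_eq_zero.1 h5).resolve_left h6

/-- conversely (no properness needed) -/
theorem pn_t31_adm_lift (H : HLaw G) (b : ℝ) {f : G.V → ℝ} (hf : plAdm H f) : ∃ X : (H.sys b).L →+ ℝ, H.Lift b f X := by
  refine pn_t31_lift_exists H b f fun h hh h0 => ?_
  have h1 : coordR H (toR h) = 0 := by
    rw [pn_t31_coordR_toR H b]
    have : H.coordA b h = 0 := h0
    rw [this]
    exact pn_t31_real_zero _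
  refine hf _ (pn_t31_toR_mem H hh) (fun e => congrFun (congrArg Prod.fst h1) e) (fun o => ?_)
  have h2 : 2 * Real.pi * H.obs (toR h) o = 0 := congrFun (congrArg Prod.snd h1) o
  have h6 : (2 * Real.pi) ≠ 0 := by positivity
  exact (mul_eq_zero.1 h2).resolve_left h6

/-! ### comparison maps -/

/-- more rows -/
def refRows (Λ : AddSubgroup (G.V → ℤ)) {N M : ℕ} (B : Fin N → G.V → ℝ) (B' : Fin M → G.V → ℝ) (j : Fin N ↪ Fin M)
    (hj : ∀ o, B' (j o) = B o) (b : ℝ) : LSys.Ref ((glaw Λ B).sys b) ((glaw Λ B').sys b) where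
  iE := Function.Embedding.refl _
  iO := j
  hb := fun _ => rfl
  map_mem := by
    rintro z ⟨h, hh, rfl⟩
    refine ⟨h, hh, ?_⟩
    refine Prod.ext rfl ?_
    funext (o : Fin N)
    have e := hj o
    show ∑ v, B o v * _ = ∑ v, B' (j o) v * _
    rw [e]

/-- a smaller lattice -/
def refSub {Λ Λ' : AddSubgroup (G.V → ℤ)} (hΛ : Λ' ≤ Λ) {N : ℕ} (B : Fin N → G.V → ℝ) (b : ℝ) :
    LSys.Ref ((glaw Λ B).sys b) ((glaw Λ' B).sys b) where
  iE := Function.Embedding.refl _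
  iO := Function.Embedding.refl _
  hb := fun _ => rfl
  map_mem := by
    rintro z ⟨h, hh, rfl⟩
    exact ⟨h, hΛ hh, rfl⟩

/-- **L-T31-R** (~60 l. for the three).  Pull-backs of lifts are lifts. -/
theorem pn_t31_lift_refRows (Λ : AddSubgroup (G.V → ℤ)) {N M : ℕ} (B : Fin N → G.V → ℝ) (B' : Fin M → G.V → ℝ) (j : Fin N ↪ Fin M)
    (hj : ∀ o, B' (j o) = B o) (b : ℝ) {f : G.V → ℝ} {X : ((glaw Λ B).sys b).L →+ ℝ} (h : (glaw Λ B).Lift b f X) :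
    (glaw Λ B').Lift b f (X.comp (refRows Λ B B' j hj b).psi) := by
  intro a ha
  have e : (refRows Λ B B' j hj b).psi ⟨(glaw Λ B').coordA b a, (glaw Λ B').coordA_mem b ha⟩
      = ⟨(glaw Λ B).coordA b a, (glaw Λ B).coordA_mem b ha⟩ := by
    refine Subtype.ext (Prod.ext rfl ?_)
    funext (o : Fin N)
    show ∑ v, B' (j o) v * _ = ∑ v, B o v * _
    rw [hj o]
  rw [AddMonoidHom.comp_apply, e]
  exact h a ha

theorem pn_t31_lift_refSub {Λ Λ' : AddSubgroup (G.V → ℤ)} (hΛ : Λ' ≤ Λ) {N : ℕ} (B : Fin N → G.V → ℝ) (b : ℝ) {f : G.V → ℝ}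
    {X : ((glaw Λ B).sys b).L →+ ℝ} (h : (glaw Λ B).Lift b f X) : (glaw Λ' B).Lift b f (X.comp (refSub hΛ B b).psi) := by
  intro a ha
  exact h a (hΛ ha)

/-- the Gaussian coordinates of `coord` -/
theorem pn_t31_coord_snd (H : HLaw G) (a : G.V → ℤ) (o : H.O) : (H.coord a).2 o = 2 * Real.pi * HLaw.pair (H.B o) (toR a) := by
  show ∑ v, H.B o v * (2 * Real.pi * (a v : ℝ)) = _
  simp only [HLaw.pair, toR, Finset.mul_sum]
  exact Finset.sum_congr rfl fun x _ => by ring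

/-- the weight of a height -/
theorem pn_t31_W_coord (H : HLaw G) (b : ℝ) (a : G.V → ℤ) :
    (H.sys b).W (H.coordA b a) = (∏ e, bes b (a (G.tgt e) - a (G.src e)))
      * Real.exp (-(∑ o, (2 * Real.pi * HLaw.pair (H.B o) (toR a)) ^ 2) / 2) := by
  show (∏ e, bes b (a (G.tgt e) - a (G.src e))) * Real.exp (-(∑ o, (H.coord a).2 o ^ 2) / 2) = _
  simp only [pn_t31_coord_snd]

theorem pn_t31_coord_eq_zero (H : HLaw G) (a : G.V → ℤ) :
    H.coord a = 0 ↔ (∀ e, a (G.tgt e) = a (G.src e)) ∧ ∀ o, HLaw.pair (H.B o) (toR a) = 0 := by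
  have h6 : (2 * Real.pi) ≠ 0 := by positivity
  constructor
  · intro h
    refine ⟨fun e => ?_, fun o => ?_⟩
    · have : a (G.tgt e) - a (G.src e) = 0 := congrFun (congrArg Prod.fst h) e
      omega
    · have h1 : (H.coord a).2 o = 0 := congrFun (congrArg Prod.snd h) o
      rw [pn_t31_coord_snd] at h1
      exact (mul_eq_zero.1 h1).resolve_left h6
  · rintro ⟨h1, h2⟩
    refine Prod.ext ?_ ?_
    · funext e
      show a (G.tgt e) - a (G.src e) = 0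
      rw [h1 e, sub_self]
    · funext o
      rw [pn_t31_coord_snd, h2 o, mul_zero]
      rfl

theorem pn_t31_L_rep (H : HLaw G) (b : ℝ) (z : (H.sys b).L) :
    ∃ a, ∃ ha : a ∈ H.Λ, z = ⟨H.coordA b a, H.coordA_mem b ha⟩ := by
  obtain ⟨a, rfl⟩ := pn_t31_prL_surj H b z
  exact ⟨a, a.2, rfl⟩

theorem pn_t31_lift_iff' (H : HLaw G) (b : ℝ) (f : G.V → ℝ) (X : (H.sys b).L →+ ℝ) :
    H.Lift b f X ↔ ∀ a (ha : a ∈ H.Λ), X ⟨H.coordA b a, H.coordA_mem b ha⟩ = 2 * Real.pi * HLaw.pair f (toR a) := by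
  rw [pn_t31_lift_iff]
  exact ⟨fun h a ha => h ⟨a, ha⟩, fun h a => h a a.2⟩

/-- two laws with the same constraint lattice and the same kernel of `coord` have isomorphic image lattices -/
theorem pn_t31_equivG (H H' : HLaw G) (b : ℝ) (hΛ : ∀ a, a ∈ H.Λ ↔ a ∈ H'.Λ)
    (hk : ∀ a ∈ H.Λ, H.coord a = 0 ↔ H'.coord a = 0) :
    ∃ e : (H.sys b).L ≃+ (H'.sys b).L, ∀ a (ha : a ∈ H.Λ) (ha' : a ∈ H'.Λ),
      e ⟨H.coordA b a, H.coordA_mem b ha⟩ = ⟨H'.coordA b a, H'.coordA_mem b ha'⟩ := by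
  have hle : H.Λ ≤ H'.Λ := fun a ha => (hΛ a).1 ha
  obtain ⟨e, he⟩ := pn_t31_equiv_of_ker (prL H b) ((prL H' b).comp (AddSubgroup.inclusion hle))
    (pn_t31_prL_surj H b) (by
      intro z
      obtain ⟨a, rfl⟩ := pn_t31_prL_surj H' b z
      exact ⟨⟨a, (hΛ a).2 a.2⟩, rfl⟩) (fun a => by
      rw [pn_t31_prL_eq_zero, AddMonoidHom.comp_apply, pn_t31_prL_eq_zero]
      exact hk a a.2)
  exact ⟨e, fun a ha ha' => he ⟨a, ha⟩⟩

/-- rows which vanish on the lattice can be dropped -/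
theorem pn_t31_wiso_drop (Λ : AddSubgroup (G.V → ℤ)) {N : ℕ} (B : Fin N → G.V → ℝ) (b : ℝ)
    (h0 : ∀ h ∈ Λ, ∀ o, HLaw.pair (B o) (toR h) = 0) :
    ∃ i : WIso ((glaw Λ (noB (G := G))).sys b) ((glaw Λ B).sys b), ∀ (f : G.V → ℝ) (X : ((glaw Λ B).sys b).L →+ ℝ),
      (glaw Λ B).Lift b f X → (glaw Λ (noB (G := G))).Lift b f (X.comp i.e.toAddMonoidHom) := by
  obtain ⟨e, he⟩ := pn_t31_equivG (glaw Λ (noB (G := G))) (glaw Λ B) b (fun a => Iff.rfl) (fun a ha => by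
      rw [pn_t31_coord_eq_zero, pn_t31_coord_eq_zero]
      exact ⟨fun h => ⟨h.1, fun o => h0 a ha o⟩, fun h => ⟨h.1, fun o => Fin.elim0 o⟩⟩)
  refine ⟨{ e := e, c := 1, hc := one_pos, hW := ?_ }, ?_⟩
  · intro z
    obtain ⟨a, ha, rfl⟩ := pn_t31_L_rep (glaw Λ (noB (G := G))) b z
    rw [he a ha ha, one_mul]
    show ((glaw Λ B).sys b).W ((glaw Λ B).coordA b a) = ((glaw Λ (noB (G := G))).sys b).W ((glaw Λ (noB (G := G))).coordA b a)
    rw [pn_t31_W_coord, pn_t31_W_coord]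
    congr 3
    have h1 : ∑ o : Fin N, (2 * Real.pi * HLaw.pair (B o) (toR (a : G.V → ℤ))) ^ 2 = 0 :=
      Finset.sum_eq_zero fun o _ => by rw [h0 a ha o]; ring
    have h2 : ∑ o : Fin 0, (2 * Real.pi * HLaw.pair (noB (G := G) o) (toR (a : G.V → ℤ))) ^ 2 = 0 := Finset.sum_empty
    exact congrArg Neg.neg (h1.trans h2.symm)
  · intro f X hX
    rw [pn_t31_lift_iff'] at *
    intro a ha
    show X (e _) = _
    rw [he a ha ha]
    exact hX a ha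

/-! ### the last row is of type A or B -/

/-- the weight with one more row -/
theorem pn_t31_W_succ (Λ : AddSubgroup (G.V → ℤ)) {N : ℕ} (B : Fin (N + 1) → G.V → ℝ) (b : ℝ) (a : G.V → ℤ) :
    ((glaw Λ B).sys b).W ((glaw Λ B).coordA b a) = ((glaw Λ (initB B)).sys b).W ((glaw Λ (initB B)).coordA b a)
      * Real.exp (-(2 * Real.pi * HLaw.pair (B (Fin.last N)) (toR a)) ^ 2 / 2) := by
  rw [pn_t31_W_coord, pn_t31_W_coord, mul_assoc, ← Real.exp_add]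
  congr 2
  have h1 : ∑ o : Fin (N + 1), (2 * Real.pi * HLaw.pair (B o) (toR a)) ^ 2
      = ∑ o : Fin N, (2 * Real.pi * HLaw.pair (initB B o) (toR a)) ^ 2
        + (2 * Real.pi * HLaw.pair (B (Fin.last N)) (toR a)) ^ 2 := Fin.sum_univ_castSucc _
  have h2 : -(∑ o : Fin (N + 1), (2 * Real.pi * HLaw.pair (B o) (toR a)) ^ 2) / 2
      = -(∑ o : Fin N, (2 * Real.pi * HLaw.pair (initB B o) (toR a)) ^ 2) / 2
        + -(2 * Real.pi * HLaw.pair (B (Fin.last N)) (toR a)) ^ 2 / 2 := by rw [h1]; ring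
  exact h2

/-- the kernel of `coord` with one more row -/
theorem pn_t31_coord_succ (Λ : AddSubgroup (G.V → ℤ)) {N : ℕ} (B : Fin (N + 1) → G.V → ℝ) (a : G.V → ℤ) :
    (glaw Λ B).coord a = 0 ↔ (glaw Λ (initB B)).coord a = 0 ∧ HLaw.pair (B (Fin.last N)) (toR a) = 0 := by
  rw [pn_t31_coord_eq_zero, pn_t31_coord_eq_zero]
  constructor
  · rintro ⟨h1, h2⟩
    exact ⟨⟨h1, fun o => h2 (Fin.castSucc o)⟩, h2 (Fin.last N)⟩
  · rintro ⟨⟨h1, h2⟩, h3⟩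
    exact ⟨h1, fun o => Fin.lastCases (motive := fun o => HLaw.pair (B o) (toR a) = 0) h3 (fun o => h2 o) o⟩

/-- **L-T31-MA** (~150 l.).  `e ⟨(z₁, z₂)⟩ = ⟨(z₁, Fin.snoc z₂ (y z))⟩`; `Fin.sum_univ_castSucc` in the Gaussian factor. -/
theorem pn_t31_mkA (Λ : AddSubgroup (G.V → ℤ)) {N : ℕ} (B : Fin (N + 1) → G.V → ℝ) (b : ℝ)
    (y : ((glaw Λ (initB B)).sys b).L →+ ℝ) (hy : (glaw Λ (initB B)).Lift b (B (Fin.last N)) y) :
    ∃ r : RowA ((glaw Λ (initB B)).sys b) ((glaw Λ B).sys b), r.y = y ∧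
      ∀ (f : G.V → ℝ) (X : ((glaw Λ B).sys b).L →+ ℝ), (glaw Λ B).Lift b f X →
        (glaw Λ (initB B)).Lift b f (X.comp r.e.toAddMonoidHom) := by
  rw [pn_t31_lift_iff'] at hy
  have h6 : (2 * Real.pi) ≠ 0 := by positivity
  obtain ⟨e, he⟩ := pn_t31_equivG (glaw Λ (initB B)) (glaw Λ B) b (fun a => Iff.rfl) (fun a ha => by
      rw [pn_t31_coord_succ]
      refine ⟨fun h => ⟨h, ?_⟩, fun h => h.1⟩
      have h1 := hy a ha
      have hz : (⟨(glaw Λ (initB B)).coordA b a, (glaw Λ (initB B)).coordA_mem b ha⟩ : ((glaw Λ (initB B)).sys b).L) = 0 :=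
        Subtype.ext h
      rw [hz, map_zero] at h1
      exact (mul_eq_zero.1 h1.symm).resolve_left h6)
  refine ⟨{ e := e, y := y, hW := ?_ }, rfl, ?_⟩
  · intro z
    obtain ⟨a, ha, rfl⟩ := pn_t31_L_rep (glaw Λ (initB B)) b z
    rw [he a ha ha, hy a ha]
    exact pn_t31_W_succ Λ B b a
  · intro f X hX
    rw [pn_t31_lift_iff'] at *
    intro a ha
    show X (e _) = _
    rw [he a ha ha]
    exact hX a ha

/-- the value at a site, on the constraint lattice -/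
def evL (H : HLaw G) (x : G.V) : H.Λ →+ ℤ where
  toFun h := (h : G.V → ℤ) x
  map_zero' := rfl
  map_add' _ _ := rfl

/-- image lattice of a law with one more confined constant -/
theorem pn_t31_equivB (H H' : HLaw G) (b : ℝ) (x : G.V) (hΛ : ∀ a, a ∈ H.Λ ↔ a ∈ H'.Λ)
    (hs : ∀ a ∈ H.Λ, ∀ n : ℤ, ∃ a' ∈ H.Λ, H.coord a' = H.coord a ∧ a' x = n)
    (hk : ∀ a ∈ H.Λ, (H.coord a = 0 ∧ a x = 0) ↔ H'.coord a = 0) :
    ∃ e : ((H.sys b).L × ℤ) ≃+ (H'.sys b).L, ∀ a (ha : a ∈ H.Λ) (ha' : a ∈ H'.Λ),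
      e (⟨H.coordA b a, H.coordA_mem b ha⟩, a x) = ⟨H'.coordA b a, H'.coordA_mem b ha'⟩ := by
  have hle : H.Λ ≤ H'.Λ := fun a ha => (hΛ a).1 ha
  obtain ⟨e, he⟩ := pn_t31_equiv_of_ker ((prL H b).prod (evL H x)) ((prL H' b).comp (AddSubgroup.inclusion hle))
    (by
      rintro ⟨z, n⟩
      obtain ⟨a, rfl⟩ := pn_t31_prL_surj H b z
      obtain ⟨a', ha', h1, h2⟩ := hs a a.2 n
      refine ⟨⟨a', ha'⟩, Prod.ext (Subtype.ext h1) h2⟩) (by
      intro z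
      obtain ⟨a, rfl⟩ := pn_t31_prL_surj H' b z
      exact ⟨⟨a, (hΛ a).2 a.2⟩, rfl⟩) (fun a => by
      rw [AddMonoidHom.comp_apply, pn_t31_prL_eq_zero, AddMonoidHom.prod_apply, Prod.mk_eq_zero, pn_t31_prL_eq_zero]
      exact hk a a.2)
  exact ⟨e, fun a ha ha' => he ⟨a, ha⟩⟩

theorem pn_t31_pair_ptc (x : G.V) (a : G.V → ℤ) : HLaw.pair (ptc x) (toR a) = (a x : ℝ) := by
  simp [HLaw.pair, ptc, toR]

/-- **L-T31-MB** (~200 l.).  `u` = the released constant (`coord u = 0` in the law with the first `N` rows), `x` a site with `u x = 1`, `β = ⟨B_last, u⟩ > 0`, `y` = lift of `B_last - β δ_x`.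
`e (⟨coordA h⟩, n) = ⟨coordA' (h + (n - h x) u)⟩`;  the last coordinate of `coordA' h` is `y (coordA h) + 2π β (h x)`. -/
theorem pn_t31_mkB (Λ : AddSubgroup (G.V → ℤ)) {N : ℕ} (B : Fin (N + 1) → G.V → ℝ) (b : ℝ)
    (u : G.V → ℤ) (hu : u ∈ Λ) (hu0 : (glaw Λ (initB B)).coord u = 0) (x : G.V) (hx : u x = 1)
    (β : ℝ) (hβ : 0 < β) (hB : HLaw.pair (B (Fin.last N)) (toR u) = β)
    (y : ((glaw Λ (initB B)).sys b).L →+ ℝ) (hy : (glaw Λ (initB B)).Lift b (B (Fin.last N) - β • ptc x) y) :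
    ∃ r : RowB ((glaw Λ (initB B)).sys b) ((glaw Λ B).sys b), r.y = y ∧ r.ℓ = 2 * Real.pi * β ∧
      ∀ (f : G.V → ℝ) (X : ((glaw Λ B).sys b).L →+ ℝ), (glaw Λ B).Lift b f X →
        r.tau X = HLaw.pair f (toR u) / β ∧
        (glaw Λ (initB B)).Lift b (f - (HLaw.pair f (toR u) / β) • B (Fin.last N)) (r.base X) := by
  have h6 : (2 * Real.pi) ≠ 0 := by positivity
  have hπ : 0 < 2 * Real.pi := by positivity
  have hy' : ∀ a (ha : a ∈ Λ), 2 * Real.pi * HLaw.pair (B (Fin.last N)) (toR a)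
      = y ⟨(glaw Λ (initB B)).coordA b a, (glaw Λ (initB B)).coordA_mem b ha⟩ + 2 * Real.pi * β * (a x : ℝ) := by
    intro a ha
    rw [(pn_t31_lift_iff' _ _ _ _).1 hy a ha, pn_t31_pair_sub, pn_t31_pair_smul, pn_t31_pair_ptc]
    ring
  have hs : ∀ a ∈ Λ, ∀ n : ℤ, ∃ a' ∈ Λ, (glaw Λ (initB B)).coord a' = (glaw Λ (initB B)).coord a ∧ a' x = n := by
    intro a ha n
    refine ⟨a + (n - a x) • u, Λ.add_mem ha (Λ.zsmul_mem hu _), ?_, ?_⟩
    · rw [map_add, map_zsmul, hu0, smul_zero, add_zero]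
    · simp [hx]
  obtain ⟨e, he⟩ := pn_t31_equivB (glaw Λ (initB B)) (glaw Λ B) b x (fun a => Iff.rfl) hs (fun a ha => by
      rw [pn_t31_coord_succ]
      have key : (glaw Λ (initB B)).coord a = 0 → (a x = 0 ↔ HLaw.pair (B (Fin.last N)) (toR a) = 0) := by
        intro h
        have h1 := hy' a ha
        have hz : (⟨(glaw Λ (initB B)).coordA b a, (glaw Λ (initB B)).coordA_mem b ha⟩ : ((glaw Λ (initB B)).sys b).L) = 0 :=
          Subtype.ext h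
        rw [hz, map_zero, zero_add] at h1
        have h2 : HLaw.pair (B (Fin.last N)) (toR a) = β * (a x : ℝ) := mul_left_cancel₀ h6 (h1.trans (mul_assoc _ _ _))
        rw [h2]
        constructor
        · intro h3; rw [h3]; simp
        · intro h3
          have := (mul_eq_zero.1 h3).resolve_left hβ.ne'
          exact_mod_cast this
      exact ⟨fun h => ⟨h.1, (key h.1).1 h.2⟩, fun h => ⟨h.1, (key h.1).2 h.2⟩⟩)
  have h01 : e (0, 1) = ⟨(glaw Λ B).coordA b u, (glaw Λ B).coordA_mem b hu⟩ := by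
    rw [← he u hu hu, hx]
    congr 2
    exact (Subtype.ext hu0).symm
  refine ⟨{ e := e, y := y, ℓ := 2 * Real.pi * β, hℓ := by positivity, hW := ?_ }, rfl, rfl, ?_⟩
  · intro z n
    obtain ⟨a, ha, rfl⟩ := pn_t31_L_rep (glaw Λ (initB B)) b z
    obtain ⟨a', ha', h1, h2⟩ := hs a ha n
    have hz : (⟨(glaw Λ (initB B)).coordA b a, (glaw Λ (initB B)).coordA_mem b ha⟩ : ((glaw Λ (initB B)).sys b).L)
        = ⟨(glaw Λ (initB B)).coordA b a', (glaw Λ (initB B)).coordA_mem b ha'⟩ := Subtype.ext h1.symm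
    rw [hz, ← h2, he a' ha' ha', ← hy' a' ha']
    exact pn_t31_W_succ Λ B b a'
  · intro f X hX
    rw [pn_t31_lift_iff'] at hX
    have htau : X (e (0, 1)) / (2 * Real.pi * β) = HLaw.pair f (toR u) / β := by
      rw [h01, hX u hu]
      field_simp
    refine ⟨htau, ?_⟩
    rw [pn_t31_lift_iff']
    intro a ha
    set z : ((glaw Λ (initB B)).sys b).L := ⟨(glaw Λ (initB B)).coordA b a, (glaw Λ (initB B)).coordA_mem b ha⟩ with hz
    show X (e (z, 0)) - (X (e (0, 1)) / (2 * Real.pi * β)) • y z = _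
    have h1 : ((z, 0) : ((glaw Λ (initB B)).sys b).L × ℤ) = (z, a x) - (a x) • ((0 : ((glaw Λ (initB B)).sys b).L), (1 : ℤ)) := by
      refine Prod.ext ?_ ?_
      · simp
      · simp
    rw [h1, map_sub, map_zsmul, map_sub, map_zsmul, he a ha ha, h01, hX a ha, hX u hu, pn_t31_pair_sub, pn_t31_pair_smul]
    have h2 := hy' a ha
    rw [← hz] at h2
    have h3 : y z = 2 * Real.pi * HLaw.pair (B (Fin.last N)) (toR a) - 2 * Real.pi * β * (a x : ℝ) := by linarith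
    rw [h3, smul_eq_mul, zsmul_eq_mul]
    field_simp
    ring

/-- generation: a homomorphism on `S.L` which sends the generators into a subgroup sends everything into it -/
theorem pn_t31_ok_gen (S : LSys) {n : ℕ} (v : Fin n → S.Amb) (hL : S.L = AddSubgroup.closure (Set.range v))
    {A : Type*} [AddCommGroup A] (K : AddSubgroup A) (F : S.L →+ A) (hF : ∀ i (hi : v i ∈ S.L), F ⟨v i, hi⟩ ∈ K) (z : S.L) :
    F z ∈ K := by
  obtain ⟨z, hz⟩ := z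
  have key : ∀ z (hc : z ∈ AddSubgroup.closure (Set.range v)), F ⟨z, hL ▸ hc⟩ ∈ K := by
    intro z hc
    induction hc using AddSubgroup.closure_induction with
    | mem x hx =>
      obtain ⟨i, rfl⟩ := hx
      exact hF i _
    | zero =>
      have h0 : F ⟨0, S.L.zero_mem⟩ = 0 := map_zero F
      rw [h0]
      exact K.zero_mem
    | add x y hx hy ihx ihy =>
      have h0 : F ⟨x + y, hL ▸ (AddSubgroup.closure (Set.range v)).add_mem hx hy⟩ = F ⟨x, hL ▸ hx⟩ + F ⟨y, hL ▸ hy⟩ := by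
        rw [← map_add]
        rfl
      rw [h0]
      exact K.add_mem ihx ihy
    | neg x hx ihx =>
      have h0 : F ⟨-x, hL ▸ (AddSubgroup.closure (Set.range v)).neg_mem hx⟩ = -F ⟨x, hL ▸ hx⟩ := by
        rw [← map_neg]
        rfl
      rw [h0]
      exact K.neg_mem ihx
  exact key z (hL ▸ hz)

/-- properness passes through an isomorphism of lattices which is compatible with a linear projection of the real coordinates -/
theorem pn_t31_ok_transA (S S' : LSys) (hb : ∀ e, 0 < S'.b e) (e : S.L ≃+ S'.L)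
    (P : ((S'.E → ℝ) × (S'.O → ℝ)) →ₗ[ℝ] ((S.E → ℝ) × (S.O → ℝ)))
    (hP : ∀ z : S.L, P (S'.real (e z : S'.Amb)) = S.real (z : S.Amb)) (hOk : S.Ok) : S'.Ok := by
  obtain ⟨-, n, v, hli, hL⟩ := hOk
  have hv : ∀ i, v i ∈ S.L := fun i => by rw [hL]; exact AddSubgroup.subset_closure ⟨i, rfl⟩
  refine ⟨hb, n, fun i => (e ⟨v i, hv i⟩ : S'.Amb), ?_, ?_⟩
  · refine LinearIndependent.of_comp P ?_
    have h1 : (P ∘ fun i => S'.real (e ⟨v i, hv i⟩ : S'.Amb)) = fun i => S.real (v i) := funext fun i => hP _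
    rw [h1]
    exact hli
  · apply le_antisymm
    · intro z' hz'
      have h1 := pn_t31_ok_gen S v hL (AddSubgroup.closure (Set.range fun i => (e ⟨v i, hv i⟩ : S'.Amb)))
        (S'.L.subtype.comp e.toAddMonoidHom) (fun i hi => AddSubgroup.subset_closure ⟨i, rfl⟩) (e.symm ⟨z', hz'⟩)
      simpa using h1
    · rw [AddSubgroup.closure_le]
      rintro _ ⟨i, rfl⟩
      exact (e _).2

/-- the same with one more integer direction, whose generator is a nonzero vector killed by the projection -/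
theorem pn_t31_ok_transB (S S' : LSys) (hb : ∀ e, 0 < S'.b e) (e : (S.L × ℤ) ≃+ S'.L)
    (P : ((S'.E → ℝ) × (S'.O → ℝ)) →ₗ[ℝ] ((S.E → ℝ) × (S.O → ℝ)))
    (hP : ∀ (z : S.L) (m : ℤ), P (S'.real (e (z, m) : S'.Amb)) = S.real (z : S.Amb))
    (hne : S'.real (e (0, 1) : S'.Amb) ≠ 0) (hOk : S.Ok) : S'.Ok := by
  obtain ⟨-, n, v, hli, hL⟩ := hOk
  have hv : ∀ i, v i ∈ S.L := fun i => by rw [hL]; exact AddSubgroup.subset_closure ⟨i, rfl⟩
  refine ⟨hb, n + 1, Fin.snoc (fun i => (e (⟨v i, hv i⟩, 0) : S'.Amb)) (e (0, 1) : S'.Amb), ?_, ?_⟩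
  · have h1 : (fun i => S'.real ((Fin.snoc (fun i => (e (⟨v i, hv i⟩, 0) : S'.Amb)) (e (0, 1) : S'.Amb) : Fin (n + 1) → S'.Amb) i))
        = Fin.snoc (fun i => S'.real (e (⟨v i, hv i⟩, 0) : S'.Amb)) (S'.real (e (0, 1) : S'.Amb)) := by
      funext i
      refine Fin.lastCases ?_ (fun j => ?_) i <;> simp
    have h2 : (P ∘ fun i => S'.real (e (⟨v i, hv i⟩, 0) : S'.Amb)) = fun i => S.real (v i) := funext fun i => hP _ _
    rw [h1, linearIndependent_finSnoc]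
    refine ⟨LinearIndependent.of_comp P (by rw [h2]; exact hli), fun hx => hne ?_⟩
    obtain ⟨c, hc⟩ := (Submodule.mem_span_range_iff_exists_fun ℝ).1 hx
    have h3 : ∑ i, c i • S.real (v i) = 0 := by
      have h4 := congrArg P hc
      rw [map_sum, hP] at h4
      simp only [map_smul, hP] at h4
      rw [h4]
      exact pn_t31_real_zero S
    have h5 := Fintype.linearIndependent_iff.1 hli c h3
    rw [← hc]
    exact Finset.sum_eq_zero fun i _ => by rw [h5 i, zero_smul]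
  · set K := AddSubgroup.closure (Set.range (Fin.snoc (fun i => (e (⟨v i, hv i⟩, 0) : S'.Amb)) (e (0, 1) : S'.Amb) : Fin (n + 1) → S'.Amb)) with hK
    have hK1 : ∀ i, (e (⟨v i, hv i⟩, 0) : S'.Amb) ∈ K := fun i =>
      AddSubgroup.subset_closure ⟨Fin.castSucc i, by simp⟩
    have hK2 : (e (0, 1) : S'.Amb) ∈ K := AddSubgroup.subset_closure ⟨Fin.last n, by simp⟩
    apply le_antisymm
    · intro z' hz'
      obtain ⟨⟨z, m⟩, hzm⟩ := e.surjective ⟨z', hz'⟩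
      have h1 := pn_t31_ok_gen S v hL K
        (S'.L.subtype.comp (e.toAddMonoidHom.comp (AddMonoidHom.inl S.L ℤ))) (fun i hi => hK1 i) z
      have h2 : ((z, m) : S.L × ℤ) = (z, 0) + m • ((0 : S.L), (1 : ℤ)) := by
        refine Prod.ext ?_ ?_ <;> simp
      have h3 : z' = (e (z, 0) : S'.Amb) + m • (e (0, 1) : S'.Amb) := by
        have h4 := congrArg Subtype.val hzm
        rw [h2, map_add, map_zsmul] at h4
        exact h4.symm
      rw [h3]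
      exact K.add_mem h1 (K.zsmul_mem hK2 m)
    · rw [hK, AddSubgroup.closure_le]
      rintro _ ⟨i, rfl⟩
      refine Fin.lastCases ?_ (fun j => ?_) i
      · simp
      · simp

/-- the projection which forgets the last Gaussian coordinate -/
def okProj (E : Type) (N : ℕ) : ((E → ℝ) × (Fin (N + 1) → ℝ)) →ₗ[ℝ] ((E → ℝ) × (Fin N → ℝ)) where
  toFun p := (p.1, fun o => p.2 o.castSucc)
  map_add' _ _ := rfl
  map_smul' _ _ := rfl

/-- **L-T31-OK** (~200 l. for the two).  Properness passes to the extended system: lift the basis (`v_i ↦ (v_i.1, snoc v_i.2 (y v_i))`); type B: add the vector `(0, snoc 0 (2πβ))`.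
Linear independence: project to the old coordinates. -/
theorem pn_t31_okA (Λ : AddSubgroup (G.V → ℤ)) {N : ℕ} (B : Fin (N + 1) → G.V → ℝ) (b : ℝ)
    (y : ((glaw Λ (initB B)).sys b).L →+ ℝ) (hy : (glaw Λ (initB B)).Lift b (B (Fin.last N)) y)
    (hOk : ((glaw Λ (initB B)).sys b).Ok) : ((glaw Λ B).sys b).Ok := by
  rw [pn_t31_lift_iff'] at hy
  have h6 : (2 * Real.pi) ≠ 0 := by positivity
  obtain ⟨e, he⟩ := pn_t31_equivG (glaw Λ (initB B)) (glaw Λ B) b (fun a => Iff.rfl) (fun a ha => by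
      rw [pn_t31_coord_succ]
      refine ⟨fun h => ⟨h, ?_⟩, fun h => h.1⟩
      have h1 := hy a ha
      have hz : (⟨(glaw Λ (initB B)).coordA b a, (glaw Λ (initB B)).coordA_mem b ha⟩ : ((glaw Λ (initB B)).sys b).L) = 0 :=
        Subtype.ext h
      rw [hz, map_zero] at h1
      exact (mul_eq_zero.1 h1.symm).resolve_left h6)
  refine pn_t31_ok_transA _ _ hOk.1 e (okProj G.E N) ?_ hOk
  intro z
  obtain ⟨a, ha, rfl⟩ := pn_t31_L_rep (glaw Λ (initB B)) b z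
  rw [he a ha ha]
  rfl

theorem pn_t31_okB (Λ : AddSubgroup (G.V → ℤ)) {N : ℕ} (B : Fin (N + 1) → G.V → ℝ) (b : ℝ)
    (u : G.V → ℤ) (hu : u ∈ Λ) (hu0 : (glaw Λ (initB B)).coord u = 0) (x : G.V) (hx : u x = 1)
    (β : ℝ) (hβ : 0 < β) (hB : HLaw.pair (B (Fin.last N)) (toR u) = β)
    (y : ((glaw Λ (initB B)).sys b).L →+ ℝ) (hy : (glaw Λ (initB B)).Lift b (B (Fin.last N) - β • ptc x) y)
    (hOk : ((glaw Λ (initB B)).sys b).Ok) : ((glaw Λ B).sys b).Ok := by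
  have h6 : (2 * Real.pi) ≠ 0 := by positivity
  have hy' : ∀ a (ha : a ∈ Λ), 2 * Real.pi * HLaw.pair (B (Fin.last N)) (toR a)
      = y ⟨(glaw Λ (initB B)).coordA b a, (glaw Λ (initB B)).coordA_mem b ha⟩ + 2 * Real.pi * β * (a x : ℝ) := by
    intro a ha
    rw [(pn_t31_lift_iff' _ _ _ _).1 hy a ha, pn_t31_pair_sub, pn_t31_pair_smul, pn_t31_pair_ptc]
    ring
  have hs : ∀ a ∈ Λ, ∀ n : ℤ, ∃ a' ∈ Λ, (glaw Λ (initB B)).coord a' = (glaw Λ (initB B)).coord a ∧ a' x = n := by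
    intro a ha n
    refine ⟨a + (n - a x) • u, Λ.add_mem ha (Λ.zsmul_mem hu _), ?_, ?_⟩
    · rw [map_add, map_zsmul, hu0, smul_zero, add_zero]
    · simp [hx]
  obtain ⟨e, he⟩ := pn_t31_equivB (glaw Λ (initB B)) (glaw Λ B) b x (fun a => Iff.rfl) hs (fun a ha => by
      rw [pn_t31_coord_succ]
      have key : (glaw Λ (initB B)).coord a = 0 → (a x = 0 ↔ HLaw.pair (B (Fin.last N)) (toR a) = 0) := by
        intro h
        have h1 := hy' a ha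
        have hz : (⟨(glaw Λ (initB B)).coordA b a, (glaw Λ (initB B)).coordA_mem b ha⟩ : ((glaw Λ (initB B)).sys b).L) = 0 :=
          Subtype.ext h
        rw [hz, map_zero, zero_add] at h1
        have h2 : HLaw.pair (B (Fin.last N)) (toR a) = β * (a x : ℝ) := mul_left_cancel₀ h6 (h1.trans (mul_assoc _ _ _))
        rw [h2]
        constructor
        · intro h3; rw [h3]; simp
        · intro h3
          have := (mul_eq_zero.1 h3).resolve_left hβ.ne'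
          exact_mod_cast this
      exact ⟨fun h => ⟨h.1, (key h.1).1 h.2⟩, fun h => ⟨h.1, (key h.1).2 h.2⟩⟩)
  have h01 : e (0, 1) = ⟨(glaw Λ B).coordA b u, (glaw Λ B).coordA_mem b hu⟩ := by
    rw [← he u hu hu, hx]
    congr 2
    exact (Subtype.ext hu0).symm
  refine pn_t31_ok_transB _ _ hOk.1 e (okProj G.E N) ?_ ?_ hOk
  · intro z m
    obtain ⟨a, ha, rfl⟩ := pn_t31_L_rep (glaw Λ (initB B)) b z
    obtain ⟨a', ha', h1, h2⟩ := hs a ha m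
    have hz : (⟨(glaw Λ (initB B)).coordA b a, (glaw Λ (initB B)).coordA_mem b ha⟩ : ((glaw Λ (initB B)).sys b).L)
        = ⟨(glaw Λ (initB B)).coordA b a', (glaw Λ (initB B)).coordA_mem b ha'⟩ := Subtype.ext h1.symm
    rw [hz, ← h2, he a' ha' ha']
    rfl
  · rw [h01]
    intro h0
    have h1 : 2 * Real.pi * HLaw.pair (B (Fin.last N)) (toR u) = 0 :=
      (pn_t31_coord_snd (glaw Λ B) u (Fin.last N)).symm.trans (congrFun (congrArg Prod.snd h0) (Fin.last N))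
    have h2 : HLaw.pair (B (Fin.last N)) (toR u) = 0 := (mul_eq_zero.1 h1).resolve_left h6
    rw [hB] at h2
    exact hβ.ne' h2

/-! ### reference formulas -/

theorem pn_t31_GA_rspan (Λ : AddSubgroup (G.V → ℤ)) {N : ℕ} (B : Fin (N + 1) → G.V → ℝ) :
    (glaw Λ B).rspan = (glaw Λ (initB B)).rspan := rfl

theorem pn_t31_GA_obs_cast (Λ : AddSubgroup (G.V → ℤ)) {N : ℕ} (B : Fin (N + 1) → G.V → ℝ) (v : G.V → ℝ) (o : Fin N) :
    (glaw Λ B).obs v (Fin.castSucc o) = (glaw Λ (initB B)).obs v o := rfl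

theorem pn_t31_GA_obs_last (Λ : AddSubgroup (G.V → ℤ)) {N : ℕ} (B : Fin (N + 1) → G.V → ℝ) (v : G.V → ℝ) :
    (glaw Λ B).obs v (Fin.last N) = HLaw.pair (B (Fin.last N)) v := rfl

/-- the form of the `N + 1` rows -/
theorem pn_t31_GA_plB (Λ : AddSubgroup (G.V → ℤ)) {N : ℕ} (B : Fin (N + 1) → G.V → ℝ) (a : ℝ) (u w : G.V → ℝ) :
    plB (glaw Λ B) a u w = plB (glaw Λ (initB B)) a u w + HLaw.pair (B (Fin.last N)) u * HLaw.pair (B (Fin.last N)) w := by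
  unfold plB
  have h : ∑ o : Fin (N + 1), (glaw Λ B).obs u o * (glaw Λ B).obs w o =
      ∑ o : Fin N, (glaw Λ (initB B)).obs u o * (glaw Λ (initB B)).obs w o +
        HLaw.pair (B (Fin.last N)) u * HLaw.pair (B (Fin.last N)) w := by
    rw [Fin.sum_univ_castSucc]
    rfl
  have h' : ∑ o : (glaw Λ B).O, (glaw Λ B).obs u o * (glaw Λ B).obs w o =
      ∑ o : (glaw Λ (initB B)).O, (glaw Λ (initB B)).obs u o * (glaw Λ (initB B)).obs w o +
        HLaw.pair (B (Fin.last N)) u * HLaw.pair (B (Fin.last N)) w := h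
  rw [h']
  ring

/-- **L-T31-GA** (~120 l.).  Sherman-Morrison.  `v_f, v_B` optimisers for the first `N` rows (`pl_opt_exists`); `v = v_f - c v_B`, `c = Cov(f,B)/(1 + gVar B)` solves the normal equations of the `N+1` rows
(`plB' u w = plB u w + ⟨B,u⟩⟨B,w⟩`, `Fin.sum_univ_castSucc`; `⟨B, v_f⟩ = Cov(f,B)` by `pl_cov_eq_pair`, `⟨B, v_B⟩ = gVar B`); `pl_gVar_eq_pair`. -/
theorem pn_t31_gVarA (Λ : AddSubgroup (G.V → ℤ)) {N : ℕ} (B : Fin (N + 1) → G.V → ℝ) {a : ℝ} (ha : 0 < a) {f : G.V → ℝ}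
    (hf : plAdm (glaw Λ (initB B)) f) (hB : plAdm (glaw Λ (initB B)) (B (Fin.last N))) :
    (glaw Λ B).gVar a f = (glaw Λ (initB B)).gVar a f
      - plCov (glaw Λ (initB B)) a f (B (Fin.last N)) ^ 2 / (1 + (glaw Λ (initB B)).gVar a (B (Fin.last N))) := by
  obtain ⟨vf, hvf⟩ := pl_opt_exists _ ha hf
  obtain ⟨vB, hvB⟩ := pl_opt_exists _ ha hB
  have hg0 : 0 ≤ (glaw Λ (initB B)).gVar a (B (Fin.last N)) := pl_gVar_nonneg _ ha _
  have hg : (glaw Λ (initB B)).gVar a (B (Fin.last N)) = HLaw.pair (B (Fin.last N)) vB := pl_gVar_eq_pair _ ha hvB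
  have hc1 : plCov (glaw Λ (initB B)) a f (B (Fin.last N)) = HLaw.pair f vB := pl_cov_eq_pair _ ha hf hvB
  have hc2 : plCov (glaw Λ (initB B)) a f (B (Fin.last N)) = HLaw.pair (B (Fin.last N)) vf := by
    rw [pl_cov_comm _ ha]; exact pl_cov_eq_pair _ ha hB hvf
  have hgf : (glaw Λ (initB B)).gVar a f = HLaw.pair f vf := pl_gVar_eq_pair _ ha hvf
  set g := (glaw Λ (initB B)).gVar a (B (Fin.last N)) with hgdef
  set cov := plCov (glaw Λ (initB B)) a f (B (Fin.last N)) with hcdef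
  have h1g : (1 + g) ≠ 0 := by positivity
  have hopt : plIsOpt (glaw Λ B) a f (vf - (cov / (1 + g)) • vB) := by
    refine ⟨?_, fun u hu => ?_⟩
    · rw [pn_t31_GA_rspan]
      exact Submodule.sub_mem _ hvf.1 (Submodule.smul_mem _ _ hvB.1)
    · rw [pn_t31_GA_rspan] at hu
      rw [pn_t31_GA_plB, pl_B_sub_left, pl_B_smul_left, hvf.2 u hu, hvB.2 u hu, pl_pair_sub_right, pl_pair_smul_right,
        ← hc2, ← hg]
      field_simp
      ring
  rw [pl_gVar_eq_pair _ ha hopt, pl_pair_sub_right, pl_pair_smul_right, ← hc1, ← hgf]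
  field_simp

theorem pn_t31_admA (Λ : AddSubgroup (G.V → ℤ)) {N : ℕ} (B : Fin (N + 1) → G.V → ℝ)
    (hB : plAdm (glaw Λ (initB B)) (B (Fin.last N))) (f : G.V → ℝ) : plAdm (glaw Λ B) f ↔ plAdm (glaw Λ (initB B)) f := by
  constructor
  · intro h v hv h1 h2
    refine h v hv h1 fun o => ?_
    refine Fin.lastCases ?_ (fun i => ?_) o
    · exact hB v hv h1 h2
    · exact h2 i
  · intro h v hv h1 h2
    exact h v hv h1 fun o => h2 (Fin.castSucc o)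

/-- **L-T31-GB** (~120 l.).  `u` a null vector of the first `N` rows with `⟨B_last, u⟩ = β ≠ 0`, `τ = ⟨f,u⟩/β`.  If `v₀` is an optimiser of `f - τ B_last` for the first `N` rows then `v₀ + σ u`, `σ = (τ - ⟨B_last, v₀⟩)/β`,
is an optimiser of `f` for the `N+1` rows. -/
theorem pn_t31_gVarB (Λ : AddSubgroup (G.V → ℤ)) {N : ℕ} (B : Fin (N + 1) → G.V → ℝ) {a : ℝ} (ha : 0 < a) {f : G.V → ℝ}
    (u : G.V → ℝ) (hu : u ∈ (glaw Λ (initB B)).rspan) (hu1 : ∀ e, plGrad u e = 0) (hu2 : ∀ o, (glaw Λ (initB B)).obs u o = 0)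
    (β : ℝ) (hβ : β ≠ 0) (hB : HLaw.pair (B (Fin.last N)) u = β)
    (hf : plAdm (glaw Λ (initB B)) (f - (HLaw.pair f u / β) • B (Fin.last N))) :
    (glaw Λ B).gVar a f = (HLaw.pair f u / β) ^ 2
      + (glaw Λ (initB B)).gVar a (f - (HLaw.pair f u / β) • B (Fin.last N)) := by
  obtain ⟨v₀, hv₀⟩ := pl_opt_exists _ ha hf
  set τ := HLaw.pair f u / β with hτ
  have hfu : HLaw.pair f u = τ * β := by rw [hτ]; field_simp
  have hopt : plIsOpt (glaw Λ B) a f (v₀ + ((τ - HLaw.pair (B (Fin.last N)) v₀) / β) • u) := by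
    refine ⟨?_, fun w hw => ?_⟩
    · rw [pn_t31_GA_rspan]
      exact Submodule.add_mem _ hv₀.1 (Submodule.smul_mem _ _ hu)
    · rw [pn_t31_GA_rspan] at hw
      rw [pn_t31_GA_plB, pl_B_add_left, pl_B_smul_left, hv₀.2 w hw, pl_B_eq_zero_of_null _ a hu1 hu2 w,
        pl_pair_add_right, pl_pair_smul_right, hB, pl_pair_sub_left, pl_pair_smul_left]
      field_simp
      ring
  rw [pl_gVar_eq_pair _ ha hopt, pl_gVar_eq_pair _ ha hv₀, pl_pair_add_right, pl_pair_smul_right, hfu,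
    pl_pair_sub_left, pl_pair_smul_left]
  field_simp
  ring

/-- **L-T31-GM** (~60 l.).  More rows, smaller lattice: the reference variance decreases (`pl_gVar_compare` or directly from the `sup`). -/
theorem pn_t31_gVar_mono {Λ Λ' : AddSubgroup (G.V → ℤ)} (hΛ : Λ' ≤ Λ) {N M : ℕ} (B : Fin N → G.V → ℝ) (B' : Fin M → G.V → ℝ)
    (j : Fin N ↪ Fin M) (hj : ∀ o, B' (j o) = B o) {a : ℝ} (ha : 0 < a) {f : G.V → ℝ} (hf : plAdm (glaw Λ B) f) :
    (glaw Λ' B').gVar a f ≤ (glaw Λ B).gVar a f := by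
  refine pl_gVar_compare (glaw Λ B) (glaw Λ' B') ha hf f id (fun v hv => ?_) (fun v _ => ?_) fun v _ => rfl
  · exact Submodule.span_mono (Set.image_mono hΛ) hv
  · have h1 : ∑ o : Fin N, (glaw Λ B).obs v o ^ 2 ≤ ∑ o : Fin M, (glaw Λ' B').obs v o ^ 2 := by
      have e1 : ∑ o : Fin N, (glaw Λ B).obs v o ^ 2 = ∑ o ∈ Finset.univ.map j, (glaw Λ' B').obs v o ^ 2 := by
        rw [Finset.sum_map]
        refine Finset.sum_congr rfl fun o _ => ?_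
        show (∑ x, B o x * v x) ^ 2 = (∑ x, B' (j o) x * v x) ^ 2
        rw [hj o]
      rw [e1]
      exact Finset.sum_le_sum_of_subset_of_nonneg (Finset.subset_univ _) fun _ _ _ => sq_nonneg _
    show a⁻¹ * HLaw.en v 0 + ∑ o : Fin N, (glaw Λ B).obs v o ^ 2 ≤ a⁻¹ * HLaw.en v 0 + ∑ o : Fin M, (glaw Λ' B').obs v o ^ 2
    linarith

/-- **L-T31-GT** (~80 l.).  `gTilt a 0 c f = gVar a (f + Bᵀc) - |c|²`: expand `(obs v o - c o)²` under the `sup` (`en v 0` is the energy; `ciSup` of a shifted family). -/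
theorem pn_t31_gTilt (H : HLaw G) {a : ℝ} (ha : 0 < a) (c : H.O → ℝ) {f : G.V → ℝ} (hf : plAdm H f) :
    H.gTilt a 0 c f = H.gVar a (f + plObsT H c) - ∑ o, c o ^ 2 := by
  have h1 : plRow H a 0 c = plObsT H c := by
    funext x
    simp [plRow, plDiv]
  have h2 : plCst H a 0 c = ∑ o, c o ^ 2 := by simp [plCst]
  rw [pl_gTilt_eq H ha 0 c hf, h1, h2]

/-- the law of `H` without rows -/
def pnT31RMlaw (H : HLaw G) : HLaw G := { Λ := H.Λ, O := Empty, B := fun o => o.elim }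

/-- forgetting all the rows -/
def pnT31RMref (H : HLaw G) (b : ℝ) : LSys.Ref ((pnT31RMlaw H).sys b) (H.sys b) where
  iE := Function.Embedding.refl _
  iO := ⟨fun o : Empty => o.elim, fun o => o.elim⟩
  hb := fun _ => rfl
  map_mem := by
    rintro z ⟨h, hh, rfl⟩
    refine ⟨h, hh, ?_⟩
    refine Prod.ext rfl ?_
    funext (o : Empty)
    exact o.elim

theorem pn_t31_RM_cosh (x : ℝ) : Real.cosh x - 1 ≤ x ^ 2 / 2 * Real.exp (x ^ 2 / 2) := by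
  have h1 := Real.cosh_le_exp_half_sq x
  have h2 : 1 - x ^ 2 / 2 ≤ Real.exp (-(x ^ 2 / 2)) := by
    have := Real.add_one_le_exp (-(x ^ 2 / 2))
    linarith
  have h3 : Real.exp (x ^ 2 / 2) * Real.exp (-(x ^ 2 / 2)) = 1 := by
    rw [← Real.exp_add]; simp
  have h4 : 0 < Real.exp (x ^ 2 / 2) := Real.exp_pos _
  nlinarith

/-- **L-T31-RM** (~150 l.) = `C3.ref_mgf`.  `pl_gVar_flow_exists` at `a = 1`: `f = div w + Bᵀ s` on `rspan`, `gVar 1 f = |w|² + |s|²`; `X = flowS (2π w) ∘ ψ + obsS s` (`pn_t31_lift_unique`);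
`pn_t31_dual` with the system without rows, `C2.ref_mgf` (`lLap ≤ b₁ (cosh (2π|w|) - 1)`), `cosh x - 1 ≤ x² cosh x / 2`. -/
theorem pn_t31_ref_mgf (b₁ R : ℝ) : ∃ C : ℝ, ∀ (G : HGraph) (H : HLaw G) (b : ℝ), 0 < b → b ≤ b₁ → (H.sys b).Ok →
    ∀ (f : G.V → ℝ) (X : (H.sys b).L →+ ℝ), H.Lift b f X → H.gVar 1 f ≤ R → H.logLap b X ≤ C * H.gVar 1 f := by
  refine ⟨1 / 2 + |b₁| * (2 * Real.pi ^ 2 * Real.exp (2 * Real.pi ^ 2 * |R|)), ?_⟩
  intro G H b hb hb1 hOk f X hX hR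
  have hadm : plAdm H f := pn_t31_lift_adm H b hOk hX
  obtain ⟨w, s, hrep, hg⟩ := pl_gVar_flow_exists H one_pos hadm
  rw [one_mul] at hg
  have hw0 : 0 ≤ ∑ e, w e ^ 2 := Finset.sum_nonneg fun e _ => sq_nonneg _
  have hs0 : 0 ≤ ∑ o, s o ^ 2 := Finset.sum_nonneg fun e _ => sq_nonneg _
  set S0 := (pnT31RMlaw H).sys b with hS0
  have hOk0 : S0.Ok := by
    have : IsEmpty (pnT31RMlaw H).O := (inferInstance : IsEmpty Empty)
    exact HLaw.ok_of_isEmpty (pnT31RMlaw H) b hb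
  set t : G.E → ℝ := fun e => 2 * Real.pi * w e with ht
  have hXe : X = (C2.flowS S0 t).comp (pnT31RMref H b).psi + obsS (H.sys b) s := by
    have h1 : H.Lift b (plDiv w + plObsT H s) (C2.flowS (H.sys b) t + obsS (H.sys b) s) :=
      pn_t31_lift_add H b (pn_t31_lift_flow H b w) (pn_t31_lift_obs H b s)
    have h2 : H.Lift b f (C2.flowS (H.sys b) t + obsS (H.sys b) s) :=
      pn_t31_lift_congr H b h1 fun u hu => ((pl_rep_iff H f w s).1 hrep u hu).symm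
    rw [pn_t31_lift_unique H b hX h2]
    rfl
  have hd := pn_t31_dual (pnT31RMref H b) hOk0 hOk s (fun o => o.elim) (C2.flowS S0 t)
  rw [← hXe] at hd
  have hm := Free.fr_ref_mgf S0 hOk0 |b₁| (fun _ => hb1.trans (le_abs_self _)) t
  rw [pn_t31_A5_exp_lLap S0 hOk0, Real.exp_le_exp] at hm
  obtain ⟨W, hW⟩ : ∃ W : ℝ, W = ∑ e, w e ^ 2 := ⟨_, rfl⟩
  obtain ⟨Q, hQ⟩ : ∃ Q : ℝ, Q = ∑ o, s o ^ 2 := ⟨_, rfl⟩
  rw [← hW] at hw0 hg
  rw [← hQ] at hs0 hg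
  have hd' : lLap (H.sys b) X ≤ Q / 2 + lLap S0 (C2.flowS S0 t) := by
    rw [hQ]; exact hd
  have hsq : Real.sqrt (∑ e, t e ^ 2) ^ 2 = 4 * Real.pi ^ 2 * W := by
    rw [Real.sq_sqrt (Finset.sum_nonneg fun e _ => sq_nonneg _), hW, Finset.mul_sum]
    exact Finset.sum_congr rfl fun e _ => by simp only [ht]; ring
  have hc := pn_t31_RM_cosh (Real.sqrt (∑ e, t e ^ 2))
  rw [hsq] at hc
  have hwR : W ≤ |R| := by
    have := le_abs_self R
    linarith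
  have hpi : 0 ≤ Real.pi ^ 2 := sq_nonneg _
  have he : Real.exp (4 * Real.pi ^ 2 * W / 2) ≤ Real.exp (2 * Real.pi ^ 2 * |R|) := by
    refine Real.exp_le_exp.2 ?_
    nlinarith
  have hc2 : Real.cosh (Real.sqrt (∑ e, t e ^ 2)) - 1 ≤ 2 * Real.pi ^ 2 * Real.exp (2 * Real.pi ^ 2 * |R|) * W := by
    refine hc.trans ?_
    have h5 : 0 ≤ 4 * Real.pi ^ 2 * W / 2 := by positivity
    calc 4 * Real.pi ^ 2 * W / 2 * Real.exp (4 * Real.pi ^ 2 * W / 2)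
        ≤ 4 * Real.pi ^ 2 * W / 2 * Real.exp (2 * Real.pi ^ 2 * |R|) := mul_le_mul_of_nonneg_left he h5
      _ = _ := by ring
  have hm2 : lLap S0 (C2.flowS S0 t) ≤ |b₁| * (2 * Real.pi ^ 2 * Real.exp (2 * Real.pi ^ 2 * |R|)) * W := by
    refine hm.trans ?_
    rw [mul_assoc]
    exact mul_le_mul_of_nonneg_left hc2 (abs_nonneg _)
  have hK : 0 ≤ |b₁| * (2 * Real.pi ^ 2 * Real.exp (2 * Real.pi ^ 2 * |R|)) := by positivity
  show lLap (H.sys b) X ≤ _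
  rw [hg]
  nlinarith

end OneGraph

/-! ## Part 2. Scenarios -/

/-- a scenario: graphs, constraint lattices, temperatures, and a finite family of basic tests (cell averages) -/
structure Scn where
  G : ℕ → HGraph
  Λ : ∀ k, AddSubgroup ((G k).V → ℤ)
  b : ℕ → ℝ
  ι : Type
  [fι : Fintype ι]
  φ : ∀ k, ι → (G k).V → ℝ

attribute [instance] Scn.fι

namespace Scn

variable (𝔰 : Scn)

/-- the test with coefficients `t` -/
def tst (k : ℕ) (t : 𝔰.ι → ℝ) : (𝔰.G k).V → ℝ := fun v => ∑ κ, t κ * 𝔰.φ k κ v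

/-- the law with the (moving) rows `R` -/
def law {N : ℕ} (R : ℕ → Fin N → 𝔰.ι → ℝ) (k : ℕ) : HLaw (𝔰.G k) := glaw (𝔰.Λ k) fun o => 𝔰.tst k (R k o)

/-- its system -/
def sys {N : ℕ} (R : ℕ → Fin N → 𝔰.ι → ℝ) (k : ℕ) : LSys := (𝔰.law R k).sys (𝔰.b k)

/-- no row -/
def R0 : ℕ → Fin 0 → 𝔰.ι → ℝ := fun _ => Fin.elim0

/-- the first `N` rows -/
def ini {N : ℕ} (R : ℕ → Fin (N + 1) → 𝔰.ι → ℝ) : ℕ → Fin N → 𝔰.ι → ℝ := fun k o => R k o.castSucc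

/-- bounded coefficients -/
def Bdd {N : ℕ} (R : ℕ → Fin N → 𝔰.ι → ℝ) : Prop := ∃ C : ℝ, ∀ k o κ, |R k o κ| ≤ C

/-- all systems are proper -/
def AllOk {N : ℕ} (R : ℕ → Fin N → 𝔰.ι → ℝ) : Prop := ∀ k, (𝔰.sys R k).Ok

/-- **Gaussian Laplace limit** for all liftable tests with bounded moving coefficients -/
def GLim (a : ℝ) {N : ℕ} (R : ℕ → Fin N → 𝔰.ι → ℝ) : Prop :=
  ∀ (t : ℕ → 𝔰.ι → ℝ) (Tb : ℝ), (∀ k κ, |t k κ| ≤ Tb) →
    ∀ X : ∀ k, (𝔰.sys R k).L →+ ℝ, (∀ k, (𝔰.law R k).Lift (𝔰.b k) (𝔰.tst k (t k)) (X k)) →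
      Tendsto (fun k => lLap (𝔰.sys R k) (X k) - (𝔰.law R k).gVar a (𝔰.tst k (t k)) / 2) atTop (𝓝 0)

/-- bounded reference variances (`gVar = 0` for tests which are not admissible) -/
def BD (a : ℝ) {N : ℕ} (R : ℕ → Fin N → 𝔰.ι → ℝ) : Prop :=
  ∀ Tb : ℝ, ∃ C : ℝ, ∀ (k : ℕ) (t : 𝔰.ι → ℝ), (∀ κ, |t κ| ≤ Tb) → (𝔰.law R k).gVar a (𝔰.tst k t) ≤ C

/-- every test is liftable -/
def AllLift {N : ℕ} (R : ℕ → Fin N → 𝔰.ι → ℝ) : Prop :=
  ∀ (k : ℕ) (f : (𝔰.G k).V → ℝ), ∃ X : (𝔰.sys R k).L →+ ℝ, (𝔰.law R k).Lift (𝔰.b k) f X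

end Scn

section Steps

variable (𝔰 : Scn) {a : ℝ}

theorem pn_t31_tst_add (k : ℕ) (t t' : 𝔰.ι → ℝ) : 𝔰.tst k (t + t') = 𝔰.tst k t + 𝔰.tst k t' := by
  funext v; simp [Scn.tst, add_mul, Finset.sum_add_distrib]

theorem pn_t31_tst_smul (k : ℕ) (s : ℝ) (t : 𝔰.ι → ℝ) : 𝔰.tst k (s • t) = s • 𝔰.tst k t := by
  funext v; simp [Scn.tst, Finset.mul_sum, mul_assoc]

theorem pn_t31_tst_sub (k : ℕ) (t t' : 𝔰.ι → ℝ) : 𝔰.tst k (t - t') = 𝔰.tst k t - 𝔰.tst k t' := by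
  funext v; simp [Scn.tst, sub_mul, Finset.sum_sub_distrib]

/-- the reference variance of a combination of two admissible tests -/
theorem pn_t31_SA_gVar_comb {G : HGraph} (H : HLaw G) (ha : 0 < a) {f g : G.V → ℝ} (hf : plAdm H f) (hg : plAdm H g)
    (s u : ℝ) : H.gVar a (s • f + u • g) = s ^ 2 * H.gVar a f + 2 * s * u * plCov H a f g + u ^ 2 * H.gVar a g := by
  rw [pl_gVar_add H ha (pl_adm_smul H s hf) (pl_adm_smul H u hg), pl_gVar_smul H ha, pl_gVar_smul H ha,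
    pl_cov_smul_left H ha s hf (pl_adm_smul H u hg), pl_cov_comm H ha f (u • g), pl_cov_smul_left H ha u hg hf,
    pl_cov_comm H ha g f]
  ring

/-- the limit of `hGL` along combinations `s • t k + u • t' k` -/
theorem pn_t31_SA_comb (ha : 0 < a) {N : ℕ} (R : ℕ → Fin N → 𝔰.ι → ℝ) (hOk : 𝔰.AllOk R) (hGL : 𝔰.GLim a R)
    (t t' : ℕ → 𝔰.ι → ℝ) (Tb Tb' : ℝ) (ht : ∀ k κ, |t k κ| ≤ Tb) (ht' : ∀ k κ, |t' k κ| ≤ Tb')
    (X Y : ∀ k, (𝔰.sys R k).L →+ ℝ) (hX : ∀ k, (𝔰.law R k).Lift (𝔰.b k) (𝔰.tst k (t k)) (X k))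
    (hY : ∀ k, (𝔰.law R k).Lift (𝔰.b k) (𝔰.tst k (t' k)) (Y k)) (s u : ℝ) :
    Tendsto (fun k => lLap (𝔰.sys R k) (s • X k + u • Y k)
      - (s ^ 2 * (𝔰.law R k).gVar a (𝔰.tst k (t k)) + 2 * s * u * plCov (𝔰.law R k) a (𝔰.tst k (t k)) (𝔰.tst k (t' k))
        + u ^ 2 * (𝔰.law R k).gVar a (𝔰.tst k (t' k))) / 2) atTop (𝓝 0) := by
  have h1 := hGL (fun k => s • t k + u • t' k) (|s| * Tb + |u| * Tb') (fun k κ => by
      have e : (s • t k + u • t' k) κ = s * t k κ + u * t' k κ := rfl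
      rw [e]
      refine (abs_add_le _ _).trans ?_
      rw [abs_mul, abs_mul]
      exact add_le_add (mul_le_mul_of_nonneg_left (ht k κ) (abs_nonneg s))
        (mul_le_mul_of_nonneg_left (ht' k κ) (abs_nonneg u)))
    (fun k => s • X k + u • Y k) (fun k => by
      rw [pn_t31_tst_add, pn_t31_tst_smul, pn_t31_tst_smul]
      exact pn_t31_lift_add _ _ (pn_t31_lift_smul _ _ s (hX k)) (pn_t31_lift_smul _ _ u (hY k)))
  refine h1.congr fun k => ?_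
  have hf : plAdm (𝔰.law R k) (𝔰.tst k (t k)) := pn_t31_lift_adm _ _ (hOk k) (hX k)
  have hg : plAdm (𝔰.law R k) (𝔰.tst k (t' k)) := pn_t31_lift_adm _ _ (hOk k) (hY k)
  rw [pn_t31_tst_add, pn_t31_tst_smul, pn_t31_tst_smul, pn_t31_SA_gVar_comb _ ha hf hg]

/-- **STEP A** (glue **L-T31-SA**, ~250 l.).  The last row is liftable over the first `N` rows.
`r k` from `pn_t31_mkA`; for a lift `X k` of `tst (t k)` over `R`: `X₀ k = X k ∘ (r k).e` is a lift over `ini R`; `pn_t31_rowA_lim` with `q = gVar f`, `κ = plCov f B`, `m = gVar B` (all for `ini R`; bounded by `hBD`, `pl_abs_cov_le`);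
`hlim` = `hGL` for the coefficients `s • t k + u • R k last` (lift `s • X₀ + u • y`, `pn_t31_lift_*`, `pn_t31_tst_*`) and `pl_gVar_add`, `pl_gVar_smul`, `pl_cov_smul_left`;   admissibility from `pn_t31_lift_adm`;   `pn_t31_gVarA`. -/
theorem pn_t31_stepA (ha : 0 < a) {N : ℕ} (R : ℕ → Fin (N + 1) → 𝔰.ι → ℝ) (hR : 𝔰.Bdd R) (hOk : 𝔰.AllOk (𝔰.ini R))
    (y : ∀ k, (𝔰.sys (𝔰.ini R) k).L →+ ℝ) (hy : ∀ k, (𝔰.law (𝔰.ini R) k).Lift (𝔰.b k) (𝔰.tst k (R k (Fin.last N))) (y k))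
    (hBD : 𝔰.BD a (𝔰.ini R)) (hGL : 𝔰.GLim a (𝔰.ini R)) :
    𝔰.GLim a R ∧
    Tendsto (fun k => Real.log ((𝔰.sys R k).w 0 / (𝔰.sys (𝔰.ini R) k).w 0)
      + Real.log (1 + (𝔰.law (𝔰.ini R) k).gVar a (𝔰.tst k (R k (Fin.last N)))) / 2) atTop (𝓝 0) := by
  obtain ⟨CR, hCR⟩ := hR
  have hmk : ∀ k, ∃ r : RowA (𝔰.sys (𝔰.ini R) k) (𝔰.sys R k), r.y = y k ∧
      ∀ (f : (𝔰.G k).V → ℝ) (X : (𝔰.sys R k).L →+ ℝ), (𝔰.law R k).Lift (𝔰.b k) f X →
        (𝔰.law (𝔰.ini R) k).Lift (𝔰.b k) f (X.comp r.e.toAddMonoidHom) := fun k =>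
    pn_t31_mkA (𝔰.Λ k) (fun o => 𝔰.tst k (R k o)) (𝔰.b k) (y k) (hy k)
  choose r hry hrl using hmk
  have hyr : ∀ k, (𝔰.law (𝔰.ini R) k).Lift (𝔰.b k) (𝔰.tst k (R k (Fin.last N))) (r k).y := fun k => by
    rw [hry k]; exact hy k
  have hadB : ∀ k, plAdm (𝔰.law (𝔰.ini R) k) (𝔰.tst k (R k (Fin.last N))) := fun k =>
    pn_t31_lift_adm _ _ (hOk k) (hy k)
  -- the general statement for a family of lifts over `ini R`
  have key : ∀ (t : ℕ → 𝔰.ι → ℝ) (Tb : ℝ), (∀ k κ, |t k κ| ≤ Tb) →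
      ∀ X₀ : ∀ k, (𝔰.sys (𝔰.ini R) k).L →+ ℝ,
      (∀ k, (𝔰.law (𝔰.ini R) k).Lift (𝔰.b k) (𝔰.tst k (t k)) (X₀ k)) →
      Tendsto (fun k => lLap (𝔰.sys R k) ((X₀ k).comp (r k).e.symm.toAddMonoidHom)
        - ((𝔰.law (𝔰.ini R) k).gVar a (𝔰.tst k (t k))
          - plCov (𝔰.law (𝔰.ini R) k) a (𝔰.tst k (t k)) (𝔰.tst k (R k (Fin.last N))) ^ 2
            / (1 + (𝔰.law (𝔰.ini R) k).gVar a (𝔰.tst k (R k (Fin.last N))))) / 2) atTop (𝓝 0) ∧
      Tendsto (fun k => Real.log ((𝔰.sys R k).w 0 / (𝔰.sys (𝔰.ini R) k).w 0)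
        + Real.log (1 + (𝔰.law (𝔰.ini R) k).gVar a (𝔰.tst k (R k (Fin.last N)))) / 2) atTop (𝓝 0) := by
    intro t Tb ht X₀ hX₀
    obtain ⟨C0, hC0⟩ := hBD (max Tb CR)
    have hq : ∀ k, (𝔰.law (𝔰.ini R) k).gVar a (𝔰.tst k (t k)) ≤ C0 := fun k =>
      hC0 k (t k) fun κ => (ht k κ).trans (le_max_left _ _)
    have hm : ∀ k, (𝔰.law (𝔰.ini R) k).gVar a (𝔰.tst k (R k (Fin.last N))) ≤ C0 := fun k =>
      hC0 k (R k (Fin.last N)) fun κ => (hCR k _ κ).trans (le_max_right _ _)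
    have hq0 : ∀ k, 0 ≤ (𝔰.law (𝔰.ini R) k).gVar a (𝔰.tst k (t k)) := fun k => pl_gVar_nonneg _ ha _
    have hm0 : ∀ k, 0 ≤ (𝔰.law (𝔰.ini R) k).gVar a (𝔰.tst k (R k (Fin.last N))) := fun k => pl_gVar_nonneg _ ha _
    have hadf : ∀ k, plAdm (𝔰.law (𝔰.ini R) k) (𝔰.tst k (t k)) := fun k => pn_t31_lift_adm _ _ (hOk k) (hX₀ k)
    refine pn_t31_rowA_lim (fun k => 𝔰.sys (𝔰.ini R) k) (fun k => 𝔰.sys R k) hOk r X₀
      (fun k => (𝔰.law (𝔰.ini R) k).gVar a (𝔰.tst k (t k)))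
      (fun k => plCov (𝔰.law (𝔰.ini R) k) a (𝔰.tst k (t k)) (𝔰.tst k (R k (Fin.last N))))
      (fun k => (𝔰.law (𝔰.ini R) k).gVar a (𝔰.tst k (R k (Fin.last N)))) C0
      (fun k => by rw [abs_of_nonneg (hq0 k)]; exact hq k)
      (fun k => by
        refine (pl_abs_cov_le _ ha (hadf k) (hadB k)).trans ?_
        have hC00 : 0 ≤ C0 := (hq0 k).trans (hq k)
        calc Real.sqrt _ * Real.sqrt _ ≤ Real.sqrt C0 * Real.sqrt C0 :=
              mul_le_mul (Real.sqrt_le_sqrt (hq k)) (Real.sqrt_le_sqrt (hm k)) (Real.sqrt_nonneg _)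
                (Real.sqrt_nonneg _)
          _ = C0 := Real.mul_self_sqrt hC00)
      hm0 hm ?_
    intro s u
    exact pn_t31_SA_comb 𝔰 ha (𝔰.ini R) hOk hGL t (fun k => R k (Fin.last N)) Tb CR ht (fun k κ => hCR k _ κ)
      X₀ (fun k => (r k).y) hX₀ hyr s u
  refine ⟨?_, ?_⟩
  · intro t Tb ht X hX
    have h1 := (key t Tb ht (fun k => (X k).comp (r k).e.toAddMonoidHom) fun k => hrl k _ _ (hX k)).1
    refine h1.congr fun k => ?_
    have e1 : ((X k).comp (r k).e.toAddMonoidHom).comp (r k).e.symm.toAddMonoidHom = X k := by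
      ext z
      simp
    have hadf : plAdm (𝔰.law (𝔰.ini R) k) (𝔰.tst k (t k)) := pn_t31_lift_adm _ _ (hOk k) (hrl k _ _ (hX k))
    have e2 : (𝔰.law R k).gVar a (𝔰.tst k (t k)) = (𝔰.law (𝔰.ini R) k).gVar a (𝔰.tst k (t k))
        - plCov (𝔰.law (𝔰.ini R) k) a (𝔰.tst k (t k)) (𝔰.tst k (R k (Fin.last N))) ^ 2
          / (1 + (𝔰.law (𝔰.ini R) k).gVar a (𝔰.tst k (R k (Fin.last N)))) :=
      pn_t31_gVarA (𝔰.Λ k) (fun o => 𝔰.tst k (R k o)) ha hadf (hadB k)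
    rw [e1, e2]
  · exact (key (fun k => R k (Fin.last N)) CR (fun k κ => hCR k _ κ) y hy).2

/-- the test of a multiple of one basic coefficient vector -/
theorem pn_t31_SB_tst_single (k : ℕ) (c : 𝔰.ι) (ε : ℝ) :
    𝔰.tst k (fun κ => if κ = c then ε else 0) = ε • 𝔰.φ k c := by
  funext v
  simp [Scn.tst, ite_mul]

/-- the pairing of a test with a field is the combination of the pairings of the basic tests -/
theorem pn_t31_SB_pair_tst (k : ℕ) (t : 𝔰.ι → ℝ) (w : (𝔰.G k).V → ℝ) :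
    HLaw.pair (𝔰.tst k t) w = ∑ κ, t κ * HLaw.pair (𝔰.φ k κ) w := by
  unfold HLaw.pair Scn.tst
  simp only [Finset.sum_mul, Finset.mul_sum]
  rw [Finset.sum_comm]
  refine Finset.sum_congr rfl fun κ _ => Finset.sum_congr rfl fun v _ => ?_
  ring

/-- an integer height killed by `coord` is a null vector of the real reference -/
theorem pn_t31_SB_null {G : HGraph} (H : HLaw G) (u : G.V → ℤ) (hu : u ∈ H.Λ) (hu0 : H.coord u = 0) :
    toR u ∈ H.rspan ∧ (∀ e, plGrad (toR u) e = 0) ∧ ∀ o, H.obs (toR u) o = 0 := by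
  refine ⟨Submodule.subset_span ⟨u, hu, rfl⟩, fun e => ?_, fun o => ?_⟩
  · have h1 : u (G.tgt e) - u (G.src e) = 0 := congrFun (congrArg Prod.fst hu0) e
    show ((u (G.tgt e) : ℤ) : ℝ) - ((u (G.src e) : ℤ) : ℝ) = 0
    exact_mod_cast h1
  · have h1 : ∑ v, H.B o v * (2 * Real.pi * (u v : ℝ)) = 0 := congrFun (congrArg Prod.snd hu0) o
    have h2 : ∑ v, H.B o v * (2 * Real.pi * (u v : ℝ)) = 2 * Real.pi * ∑ v, H.B o v * (u v : ℝ) := by
      rw [Finset.mul_sum]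
      refine Finset.sum_congr rfl fun v _ => ?_
      ring
    rw [h2] at h1
    have h3 : (2 * Real.pi) ≠ 0 := by positivity
    exact (mul_eq_zero.1 h1).resolve_left h3

/-- **STEP B** (glue **L-T31-SB**, ~200 l.).  The last row is `ε φ_c`; it confines the constant `u k`, released by the first `N` rows; `⟨φ_c, u⟩ = 1`; the characters of charge `j ≠ 0` vanish in the law with the first `N` rows.
`r k` from `pn_t31_mkB` (`β = ε`, `ℓ = 2π ε`, `(2π j/ℓ) • y` = lift of `j (φ_c - δ_x)`), `pn_t31_rowB_lim`, `hGL` for the coefficients `t k - τ_k ε 1_c`, `τ_k ε = ⟨tst (t k), u k⟩` bounded by `hch`, `pn_t31_gVarB`. -/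
theorem pn_t31_stepB (ha : 0 < a) {N : ℕ} (R : ℕ → Fin (N + 1) → 𝔰.ι → ℝ) (hOk : 𝔰.AllOk (𝔰.ini R)) (hOk' : 𝔰.AllOk R)
    (ε : ℝ) (hε : 0 < ε) (c : 𝔰.ι) (hlast : ∀ k, R k (Fin.last N) = fun κ => if κ = c then ε else 0)
    (u : ∀ k, (𝔰.G k).V → ℤ) (hu : ∀ k, u k ∈ 𝔰.Λ k) (hu0 : ∀ k, (𝔰.law (𝔰.ini R) k).coord (u k) = 0)
    (x : ∀ k, (𝔰.G k).V) (hx : ∀ k, u k (x k) = 1) (hc : ∀ k, HLaw.pair (𝔰.φ k c) (toR (u k)) = 1)
    (hch : ∃ C : ℝ, ∀ k κ, |HLaw.pair (𝔰.φ k κ) (toR (u k))| ≤ C)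
    (Ξ : ∀ k, (𝔰.sys (𝔰.ini R) k).L →+ ℝ) (hΞ : ∀ k, (𝔰.law (𝔰.ini R) k).Lift (𝔰.b k) (𝔰.φ k c - ptc (x k)) (Ξ k))
    (hph : ∀ j : ℤ, j ≠ 0 → Tendsto (fun k => (𝔰.sys (𝔰.ini R) k).phi ((j : ℝ) • Ξ k)) atTop (𝓝 0))
    (hGL : 𝔰.GLim a (𝔰.ini R)) : 𝔰.GLim a R := by
  obtain ⟨Cc, hCc⟩ := hch
  have hBl : ∀ k, 𝔰.tst k (R k (Fin.last N)) = ε • 𝔰.φ k c := fun k => by
    rw [hlast k, pn_t31_SB_tst_single]
  have hBu : ∀ k, HLaw.pair (𝔰.tst k (R k (Fin.last N))) (toR (u k)) = ε := fun k => by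
    rw [hBl k, pl_pair_smul_left, hc k, mul_one]
  have hyl : ∀ k, (𝔰.law (𝔰.ini R) k).Lift (𝔰.b k) (𝔰.tst k (R k (Fin.last N)) - ε • ptc (x k)) (ε • Ξ k) := fun k => by
    have e : 𝔰.tst k (R k (Fin.last N)) - ε • ptc (x k) = ε • (𝔰.φ k c - ptc (x k)) := by
      rw [hBl k, smul_sub]
    rw [e]
    exact pn_t31_lift_smul _ _ ε (hΞ k)
  have hmk : ∀ k, ∃ r : RowB (𝔰.sys (𝔰.ini R) k) (𝔰.sys R k), r.y = ε • Ξ k ∧ r.ℓ = 2 * Real.pi * ε ∧
      ∀ (f : (𝔰.G k).V → ℝ) (X : (𝔰.sys R k).L →+ ℝ), (𝔰.law R k).Lift (𝔰.b k) f X →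
        r.tau X = HLaw.pair f (toR (u k)) / ε ∧
        (𝔰.law (𝔰.ini R) k).Lift (𝔰.b k) (f - (HLaw.pair f (toR (u k)) / ε) • 𝔰.tst k (R k (Fin.last N))) (r.base X) :=
    fun k => pn_t31_mkB (𝔰.Λ k) (fun o => 𝔰.tst k (R k o)) (𝔰.b k) (u k) (hu k) (hu0 k) (x k) (hx k) ε hε (hBu k)
      (ε • Ξ k) (hyl k)
  choose r hry hrℓ hrl using hmk
  intro t Tb ht X hX
  have hTb : 0 ≤ Tb := (abs_nonneg _).trans (ht 0 c)
  have hCc0 : 0 ≤ Cc := (abs_nonneg _).trans (hCc 0 c)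
  -- the Poisson step
  have h1 := pn_t31_rowB_lim (fun k => 𝔰.sys (𝔰.ini R) k) (fun k => 𝔰.sys R k) hOk hOk' r (2 * Real.pi * ε)
    (fun k => (hrℓ k).le) (fun j hj => by
      refine (hph j hj).congr fun k => ?_
      rw [hry k, hrℓ k, smul_smul]
      congr 2
      have hpi : Real.pi ≠ 0 := Real.pi_ne_zero
      field_simp) X
  -- the slopes
  set τ : ℕ → ℝ := fun k => HLaw.pair (𝔰.tst k (t k)) (toR (u k)) / ε with hτ
  have hτε : ∀ k, |τ k * ε| ≤ (Fintype.card 𝔰.ι : ℝ) * (Tb * Cc) := fun k => by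
    have e : τ k * ε = HLaw.pair (𝔰.tst k (t k)) (toR (u k)) := by
      simp only [hτ]
      field_simp
    rw [e, pn_t31_SB_pair_tst]
    refine (Finset.abs_sum_le_sum_abs _ _).trans ?_
    have h5 : ∑ κ, |t k κ * HLaw.pair (𝔰.φ k κ) (toR (u k))| ≤ ∑ _κ : 𝔰.ι, Tb * Cc :=
      Finset.sum_le_sum fun κ _ => by
        rw [abs_mul]
        exact mul_le_mul (ht k κ) (hCc k κ) (abs_nonneg _) hTb
    rw [Finset.sum_const, Finset.card_univ, nsmul_eq_mul] at h5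
    exact h5
  -- the limit for the base tests
  have h2 := hGL (fun k => t k - τ k • R k (Fin.last N)) (Tb + (Fintype.card 𝔰.ι : ℝ) * (Tb * Cc)) (fun k κ => by
      have e : (t k - τ k • R k (Fin.last N)) κ = t k κ - τ k * R k (Fin.last N) κ := rfl
      rw [e]
      refine (abs_sub _ _).trans (add_le_add (ht k κ) ?_)
      rw [hlast k]
      by_cases hκ : κ = c
      · simp only [hκ, if_true]
        exact hτε k
      · simp only [hκ, if_false, mul_zero, abs_zero]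
        positivity)
    (fun k => (r k).base (X k)) (fun k => by
      rw [pn_t31_tst_sub, pn_t31_tst_smul]
      exact ((hrl k _ _ (hX k)).2))
  refine (h1.add h2).congr' (Eventually.of_forall fun k => ?_) |>.trans (by simp)
  obtain ⟨hn1, hn2, hn3⟩ := pn_t31_SB_null (𝔰.law (𝔰.ini R) k) (u k) (hu k) (hu0 k)
  have hadm : plAdm (𝔰.law (𝔰.ini R) k) (𝔰.tst k (t k) - τ k • 𝔰.tst k (R k (Fin.last N))) :=
    pn_t31_lift_adm _ _ (hOk k) ((hrl k _ _ (hX k)).2)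
  have e3 : (𝔰.law R k).gVar a (𝔰.tst k (t k)) = τ k ^ 2
      + (𝔰.law (𝔰.ini R) k).gVar a (𝔰.tst k (t k) - τ k • 𝔰.tst k (R k (Fin.last N))) :=
    pn_t31_gVarB (𝔰.Λ k) (fun o => 𝔰.tst k (R k o)) ha (toR (u k)) hn1 hn2 hn3 ε hε.ne' (hBu k) hadm
  have e4 : (r k).tau (X k) = τ k := (hrl k _ _ (hX k)).1
  simp only [pn_t31_tst_sub, pn_t31_tst_smul]
  rw [e3, e4]
  ring

/-- the transposed rows of a scenario law are a test -/
theorem pn_t31_U_obsT {N : ℕ} (R : ℕ → Fin N → 𝔰.ι → ℝ) (k : ℕ) (s : Fin N → ℝ) :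
    plObsT (𝔰.law R k) s = 𝔰.tst k (fun κ => ∑ o, s o * R k o κ) := by
  funext x
  show ∑ o : Fin N, s o * 𝔰.tst k (R k o) x = ∑ κ, (∑ o, s o * R k o κ) * 𝔰.φ k κ x
  simp only [Scn.tst, Finset.mul_sum, Finset.sum_mul]
  rw [Finset.sum_comm]
  exact Finset.sum_congr rfl fun κ _ => Finset.sum_congr rfl fun o _ => by ring

/-- **UPPER BOUND BY DUALITY** (glue **L-T31-U**, ~200 l.).  From the limit WITHOUT rows.  `pl_gVar_flow_exists`: `tst (t k) = div w + Bᵀ s` on `rspan`, `gVar a = a|w|² + |s|²`, so `|s_o| ≤ √C` (`hBD`);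
`X k = X⁰ ∘ ψ + obsS s`, `X⁰ = flowS (2π w)` = lift over `R0` of the test with coefficients `t k - ∑_o s_o R k o` (bounded; `pn_t31_lift_congr`); `pn_t31_dual` (`refRows`, `Fin 0 ↪ Fin N`), `hGL0`,
`gVar⁰ a (..) ≤ a |w|²` (`pl_gVar_le_flow` with `s = 0`). -/
theorem pn_t31_upper (ha : 0 < a) {N : ℕ} (R : ℕ → Fin N → 𝔰.ι → ℝ) (hR : 𝔰.Bdd R) (hOk0 : 𝔰.AllOk 𝔰.R0) (hOk : 𝔰.AllOk R)
    (hBD : 𝔰.BD a R) (hGL0 : 𝔰.GLim a 𝔰.R0)
    (t : ℕ → 𝔰.ι → ℝ) (Tb : ℝ) (ht : ∀ k κ, |t k κ| ≤ Tb)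
    (X : ∀ k, (𝔰.sys R k).L →+ ℝ) (hX : ∀ k, (𝔰.law R k).Lift (𝔰.b k) (𝔰.tst k (t k)) (X k)) (η : ℝ) (hη : 0 < η) :
    ∀ᶠ k in atTop, lLap (𝔰.sys R k) (X k) ≤ (𝔰.law R k).gVar a (𝔰.tst k (t k)) / 2 + η := by
  obtain ⟨CR, hCR⟩ := hR
  obtain ⟨C, hC⟩ := hBD Tb
  have hadm : ∀ k, plAdm (𝔰.law R k) (𝔰.tst k (t k)) := fun k => pn_t31_lift_adm _ _ (hOk k) (hX k)
  have hfl : ∀ k, ∃ (w : (𝔰.G k).E → ℝ) (s : Fin N → ℝ), plRep (𝔰.law R k) (𝔰.tst k (t k)) w s ∧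
      (𝔰.law R k).gVar a (𝔰.tst k (t k)) = a * ∑ e, w e ^ 2 + ∑ o, s o ^ 2 := fun k =>
    pl_gVar_flow_exists (𝔰.law R k) ha (hadm k)
  choose w s hrep hg using hfl
  -- the multipliers are bounded
  have hsb : ∀ k o, |s k o| ≤ Real.sqrt C := fun k o => by
    refine Real.abs_le_sqrt ?_
    have h1 : s k o ^ 2 ≤ ∑ o, s k o ^ 2 := Finset.single_le_sum (f := fun o => s k o ^ 2) (fun _ _ => sq_nonneg _) (Finset.mem_univ o)
    have h2 : 0 ≤ a * ∑ e, w k e ^ 2 := mul_nonneg ha.le (Finset.sum_nonneg fun _ _ => sq_nonneg _)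
    have h3 := hC k (t k) (ht k)
    linarith [hg k]
  -- the comparison maps
  let j : Fin 0 ↪ Fin N := ⟨fun o => o.elim0, fun o => o.elim0⟩
  let r : ∀ k, LSys.Ref (𝔰.sys 𝔰.R0 k) (𝔰.sys R k) := fun k =>
    refRows (𝔰.Λ k) (fun o => 𝔰.tst k (𝔰.R0 k o)) (fun o => 𝔰.tst k (R k o)) j (fun o => o.elim0) (𝔰.b k)
  -- the flow part
  let X0 : ∀ k, (𝔰.sys 𝔰.R0 k).L →+ ℝ := fun k => C2.flowS (𝔰.sys 𝔰.R0 k) fun e => 2 * Real.pi * w k e
  let t0 : ℕ → 𝔰.ι → ℝ := fun k => t k - fun κ => ∑ o, s k o * R k o κ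
  have ht0 : ∀ k, 𝔰.tst k (t0 k) = 𝔰.tst k (t k) - plObsT (𝔰.law R k) (s k) := fun k => by
    rw [pn_t31_U_obsT, ← pn_t31_tst_sub]
  have hpair : ∀ k, ∀ u ∈ (𝔰.law 𝔰.R0 k).rspan, HLaw.pair (plDiv (w k)) u = HLaw.pair (𝔰.tst k (t0 k)) u := fun k u hu => by
    have hu' : u ∈ (𝔰.law R k).rspan := hu
    have h1 := (pl_rep_iff (𝔰.law R k) _ (w k) (s k)).1 (hrep k) u hu'
    rw [ht0 k, pl_pair_sub_left, h1, pl_pair_add_left]
    ring
  have hX0 : ∀ k, (𝔰.law 𝔰.R0 k).Lift (𝔰.b k) (𝔰.tst k (t0 k)) (X0 k) := fun k =>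
    pn_t31_lift_congr _ _ (pn_t31_lift_flow (𝔰.law 𝔰.R0 k) (𝔰.b k) (w k)) (hpair k)
  have hlim := hGL0 t0 (Tb + (N : ℝ) * (Real.sqrt C * CR)) (fun k κ => by
      show |t k κ - ∑ o, s k o * R k o κ| ≤ _
      refine (abs_sub _ _).trans (add_le_add (ht k κ) ?_)
      refine (Finset.abs_sum_le_sum_abs _ _).trans ?_
      have h5 : ∑ o, |s k o * R k o κ| ≤ ∑ _o : Fin N, Real.sqrt C * CR :=
        Finset.sum_le_sum fun o _ => by
          rw [abs_mul]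
          exact mul_le_mul (hsb k o) (hCR k o κ) (abs_nonneg _) (Real.sqrt_nonneg _)
      rw [Finset.sum_const, Finset.card_univ, Fintype.card_fin, nsmul_eq_mul] at h5
      exact h5) X0 hX0
  have hev : ∀ᶠ k in atTop, lLap (𝔰.sys 𝔰.R0 k) (X0 k) - (𝔰.law 𝔰.R0 k).gVar a (𝔰.tst k (t0 k)) / 2 < η :=
    hlim.eventually (gt_mem_nhds hη)
  filter_upwards [hev] with k hk
  -- the reference variance without rows
  have hv0 : (𝔰.law 𝔰.R0 k).gVar a (𝔰.tst k (t0 k)) ≤ a * ∑ e, w k e ^ 2 := by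
    have hrep0 : plRep (𝔰.law 𝔰.R0 k) (𝔰.tst k (t0 k)) (w k) (fun o : Fin 0 => o.elim0) := by
      intro u hu
      rw [← hpair k u hu, pl_pair_div]
      have : ∑ o : Fin 0, (fun o : Fin 0 => (o.elim0 : ℝ)) o * (𝔰.law 𝔰.R0 k).obs u o = 0 := Finset.sum_empty
      exact (add_zero _).symm.trans (congrArg _ this.symm)
    have h1 := pl_gVar_le_flow (𝔰.law 𝔰.R0 k) ha hrep0
    have : ∑ o : Fin 0, (fun o : Fin 0 => (o.elim0 : ℝ)) o ^ 2 = 0 := Finset.sum_empty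
    exact h1.trans (le_of_eq ((congrArg _ this).trans (add_zero _)))
  -- the decomposition of the test
  have hXe : X k = (X0 k).comp (r k).psi + obsS (𝔰.sys R k) (s k) := by
    have h1 : (𝔰.law R k).Lift (𝔰.b k) (plDiv (w k) + plObsT (𝔰.law R k) (s k))
        (C2.flowS (𝔰.sys R k) (fun e => 2 * Real.pi * w k e) + obsS (𝔰.sys R k) (s k)) :=
      pn_t31_lift_add _ _ (pn_t31_lift_flow (𝔰.law R k) (𝔰.b k) (w k)) (pn_t31_lift_obs (𝔰.law R k) (𝔰.b k) (s k))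
    have h2 := pn_t31_lift_congr _ _ h1 fun u hu => ((pl_rep_iff (𝔰.law R k) _ (w k) (s k)).1 (hrep k) u hu).symm
    rw [pn_t31_lift_unique _ _ (hX k) h2]
    rfl
  have hd := pn_t31_dual (r k) (hOk0 k) (hOk k) (s k) (fun o => o.elim0) (X0 k)
  rw [← hXe] at hd
  have hd' : lLap (𝔰.sys R k) (X k) ≤ (∑ o, s k o ^ 2) / 2 + lLap (𝔰.sys 𝔰.R0 k) (X0 k) := hd
  rw [hg k]
  linarith

/-- **LOWER BOUND BY COMPARISON** (glue **L-T31-LO**, ~150 l.).  `R'` = more rows (`R' k (j o) = R k o`) with a Gaussian limit: `lLap ≥ V0/2` (`lsys_laplace_lower`), `V0` decreases (`lsys_var_mono`, `refRows`),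
`V0' - gVar' → 0` (`pn_t31_lap_var` from `hGL'` applied to `s • t`, `pl_gVar_smul`). -/
theorem pn_t31_lower (ha : 0 < a) {N M : ℕ} (R : ℕ → Fin N → 𝔰.ι → ℝ) (R' : ℕ → Fin M → 𝔰.ι → ℝ) (j : Fin N ↪ Fin M)
    (hj : ∀ k o, R' k (j o) = R k o) (hOk : 𝔰.AllOk R) (hOk' : 𝔰.AllOk R') (hBD' : 𝔰.BD a R') (hGL' : 𝔰.GLim a R')
    (t : ℕ → 𝔰.ι → ℝ) (Tb : ℝ) (ht : ∀ k κ, |t k κ| ≤ Tb)
    (X : ∀ k, (𝔰.sys R k).L →+ ℝ) (hX : ∀ k, (𝔰.law R k).Lift (𝔰.b k) (𝔰.tst k (t k)) (X k)) (η : ℝ) (hη : 0 < η) :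
    ∀ᶠ k in atTop, (𝔰.law R' k).gVar a (𝔰.tst k (t k)) / 2 - η ≤ lLap (𝔰.sys R k) (X k) := by
  have hjk : ∀ k o, (fun o => 𝔰.tst k (R' k o)) (j o) = (fun o => 𝔰.tst k (R k o)) o := fun k o => by
    show 𝔰.tst k (R' k (j o)) = 𝔰.tst k (R k o)
    rw [hj k o]
  let r : ∀ k, LSys.Ref (𝔰.sys R k) (𝔰.sys R' k) := fun k =>
    refRows (𝔰.Λ k) (fun o => 𝔰.tst k (R k o)) (fun o => 𝔰.tst k (R' k o)) j (hjk k) (𝔰.b k)
  let X' : ∀ k, (𝔰.sys R' k).L →+ ℝ := fun k => (X k).comp (r k).psi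
  have hX' : ∀ k, (𝔰.law R' k).Lift (𝔰.b k) (𝔰.tst k (t k)) (X' k) := fun k =>
    pn_t31_lift_refRows (𝔰.Λ k) (fun o => 𝔰.tst k (R k o)) (fun o => 𝔰.tst k (R' k o)) j (hjk k) (𝔰.b k) (hX k)
  obtain ⟨C, hC⟩ := hBD' Tb
  have hv := pn_t31_lap_var (fun k => 𝔰.sys R' k) hOk' X' (fun k => (𝔰.law R' k).gVar a (𝔰.tst k (t k))) C
    (fun k => by
      rw [abs_of_nonneg (pl_gVar_nonneg _ ha _)]
      exact hC k (t k) (ht k))
    (fun s => by
      have h1 := hGL' (fun k => s • t k) (|s| * Tb) (fun k κ => by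
          show |s * t k κ| ≤ _
          rw [abs_mul]
          exact mul_le_mul_of_nonneg_left (ht k κ) (abs_nonneg s))
        (fun k => s • X' k) (fun k => by
          rw [pn_t31_tst_smul]
          exact pn_t31_lift_smul _ _ s (hX' k))
      refine h1.congr fun k => ?_
      rw [pn_t31_tst_smul, pl_gVar_smul _ ha])
  have hev : ∀ᶠ k in atTop, -(2 * η) < (𝔰.sys R' k).V0 (X' k) - (𝔰.law R' k).gVar a (𝔰.tst k (t k)) :=
    hv.eventually (lt_mem_nhds (by linarith))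
  filter_upwards [hev] with k hk
  have h1 : (𝔰.sys R' k).V0 (X' k) ≤ (𝔰.sys R k).V0 (X k) := lsys_var_mono (r k) (hOk k) (hOk' k) (X k)
  have h2 : (𝔰.sys R k).V0 (X k) / 2 ≤ lLap (𝔰.sys R k) (X k) := lsys_laplace_lower _ (hOk k) (X k)
  linarith

end Steps

/-! ### the free constants of a scenario -/

/-- the released constants of the law without rows: `F` "free components" with indicator `u k j`, root `x k j`, marked basic test `c j`, and the sublattice `Λs k j` of the heights living on the component `j` -/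
structure Frc (𝔰 : Scn) (F : ℕ) where
  u : ∀ k, Fin F → (𝔰.G k).V → ℤ
  x : ∀ k, Fin F → (𝔰.G k).V
  c : Fin F → 𝔰.ι
  Λs : ∀ k, Fin F → AddSubgroup ((𝔰.G k).V → ℤ)
  u_mem : ∀ k j, u k j ∈ Λs k j
  sub : ∀ k j, Λs k j ≤ 𝔰.Λ k
  u_grad : ∀ k j e, u k j ((𝔰.G k).tgt e) = u k j ((𝔰.G k).src e)
  u_x : ∀ k j j', u k j (x k j') = if j = j' then 1 else 0
  ker : ∀ k, ∀ h ∈ 𝔰.Λ k, (∀ e, h ((𝔰.G k).tgt e) = h ((𝔰.G k).src e)) → h = ∑ j, h (x k j) • u k j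
  chg : ∀ k j j', HLaw.pair (𝔰.φ k (c j')) (toR (u k j)) = if j = j' then 1 else 0
  chg_bd : ∃ C : ℝ, ∀ k j κ, |HLaw.pair (𝔰.φ k κ) (toR (u k j))| ≤ C
  off : ∀ k j j', j ≠ j' → ∀ h ∈ Λs k j, HLaw.pair (𝔰.φ k (c j')) (toR h) = 0

namespace Frc

variable {𝔰 : Scn} {F : ℕ} (fr : Frc 𝔰 F)

/-- the auxiliary weak rows `ε φ_{c j}`, `j < F`, followed by the rows `R` -/
def aux (ε : ℝ) {N : ℕ} (R : ℕ → Fin N → 𝔰.ι → ℝ) : ℕ → Fin (F + N) → 𝔰.ι → ℝ :=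
  fun k => Fin.append (fun j κ => if κ = fr.c j then ε else 0) (R k)

/-- **vanishing characters**: on every free component, in the law WITHOUT rows on the heights living on that component -/
def PH : Prop :=
  ∀ (j : Fin F) (q : ℤ), q ≠ 0 → ∀ Ξ : ∀ k, ((glaw (fr.Λs k j) (noB (G := 𝔰.G k))).sys (𝔰.b k)).L →+ ℝ,
    (∀ k, (glaw (fr.Λs k j) (noB (G := 𝔰.G k))).Lift (𝔰.b k) ((q : ℝ) • (𝔰.φ k (fr.c j) - ptc (fr.x k j))) (Ξ k)) →
    Tendsto (fun k => ((glaw (fr.Λs k j) (noB (G := 𝔰.G k))).sys (𝔰.b k)).phi (Ξ k)) atTop (𝓝 0)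

/-- **bounded optimisers**: the weak rows cost `O(ε²)` in the reference.  (POT input, see `pn_t31_aux_ref`.) -/
def OB (a : ℝ) {N : ℕ} (R : ℕ → Fin N → 𝔰.ι → ℝ) : Prop :=
  ∀ Tb : ℝ, ∃ C : ℝ, ∀ (k : ℕ) (t : 𝔰.ι → ℝ), (∀ κ, |t κ| ≤ Tb) → plAdm (𝔰.law R k) (𝔰.tst k t) →
    ∃ v, plIsOpt (𝔰.law R k) a (𝔰.tst k t) v ∧ ∑ j, HLaw.pair (𝔰.φ k (fr.c j)) v ^ 2 ≤ C

end Frc

section Rows

variable (𝔰 : Scn) {a : ℝ} {F : ℕ} (fr : Frc 𝔰 F)

theorem pn_t31_X1_tst_weak (k : ℕ) (c : 𝔰.ι) (ε : ℝ) :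
    𝔰.tst k (fun κ => if κ = c then ε else 0) = ε • 𝔰.φ k c := by
  funext v
  simp [Scn.tst]

theorem pn_t31_X1_obs_left {N : ℕ} (R : ℕ → Fin N → 𝔰.ι → ℝ) (ε : ℝ) (k : ℕ) (v : (𝔰.G k).V → ℝ) (j : Fin F) :
    (𝔰.law (fr.aux ε R) k).obs v (Fin.castAdd N j) = ε * HLaw.pair (𝔰.φ k (fr.c j)) v := by
  have h1 : (𝔰.law (fr.aux ε R) k).obs v (Fin.castAdd N j) = HLaw.pair (𝔰.tst k (fr.aux ε R k (Fin.castAdd N j))) v := rfl
  have h2 : fr.aux ε R k (Fin.castAdd N j) = fun κ => if κ = fr.c j then ε else 0 := by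
    show Fin.append _ (R k) (Fin.castAdd N j) = _
    rw [Fin.append_left]
  rw [h1, h2, pn_t31_X1_tst_weak, pl_pair_smul_left]

theorem pn_t31_X1_obs_right {N : ℕ} (R : ℕ → Fin N → 𝔰.ι → ℝ) (ε : ℝ) (k : ℕ) (v : (𝔰.G k).V → ℝ) (o : Fin N) :
    (𝔰.law (fr.aux ε R) k).obs v (Fin.natAdd F o) = (𝔰.law R k).obs v o := by
  have h1 : (𝔰.law (fr.aux ε R) k).obs v (Fin.natAdd F o) = HLaw.pair (𝔰.tst k (fr.aux ε R k (Fin.natAdd F o))) v := rfl
  have h2 : fr.aux ε R k (Fin.natAdd F o) = R k o := by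
    show Fin.append _ (R k) (Fin.natAdd F o) = _
    rw [Fin.append_right]
  rw [h1, h2]
  rfl

theorem pn_t31_X1_form {N : ℕ} (R : ℕ → Fin N → 𝔰.ι → ℝ) (ε : ℝ) (k : ℕ) (v : (𝔰.G k).V → ℝ) :
    (𝔰.law (fr.aux ε R) k).form a v = (𝔰.law R k).form a v + ε ^ 2 * ∑ j, HLaw.pair (𝔰.φ k (fr.c j)) v ^ 2 := by
  have h : ∑ o : Fin (F + N), (𝔰.law (fr.aux ε R) k).obs v o ^ 2 =
      ε ^ 2 * ∑ j, HLaw.pair (𝔰.φ k (fr.c j)) v ^ 2 + ∑ o : Fin N, (𝔰.law R k).obs v o ^ 2 := by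
    rw [Fin.sum_univ_add, Finset.mul_sum]
    congr 1
    · refine Finset.sum_congr rfl fun j _ => ?_
      rw [pn_t31_X1_obs_left]; ring
    · refine Finset.sum_congr rfl fun o _ => ?_
      rw [pn_t31_X1_obs_right]
  show a⁻¹ * HLaw.en v 0 + ∑ o : Fin (F + N), (𝔰.law (fr.aux ε R) k).obs v o ^ 2 =
    a⁻¹ * HLaw.en v 0 + ∑ o : Fin N, (𝔰.law R k).obs v o ^ 2 + _
  rw [h]; ring

/-- **L-T31-X1** (~120 l.).  Trial vector = the bounded optimiser: `gVar_aux ≥ 2⟨f,v⟩ - form v - ε² ∑_j ⟨φ_{c j}, v⟩²` (`pl_le_gVar`; `Fin.sum_univ_add` and `Fin.append_left/right` in the rows of `aux`). -/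
theorem pn_t31_aux_ref (ha : 0 < a) {N : ℕ} (R : ℕ → Fin N → 𝔰.ι → ℝ) (hOB : fr.OB a R) (Tb : ℝ) :
    ∃ C : ℝ, ∀ (ε : ℝ) (k : ℕ) (t : 𝔰.ι → ℝ), (∀ κ, |t κ| ≤ Tb) → plAdm (𝔰.law R k) (𝔰.tst k t) →
      (𝔰.law R k).gVar a (𝔰.tst k t) - ε ^ 2 * C ≤ (𝔰.law (fr.aux ε R) k).gVar a (𝔰.tst k t) := by
  obtain ⟨C, hC⟩ := hOB Tb
  refine ⟨C, fun ε k t ht hadm => ?_⟩
  obtain ⟨v, hv, hvC⟩ := hC k t ht hadm
  have hadm' : plAdm (𝔰.law (fr.aux ε R) k) (𝔰.tst k t) := by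
    intro u hu h1 h2
    refine hadm u hu h1 fun o => ?_
    rw [← pn_t31_X1_obs_right 𝔰 fr R ε k u o]
    exact h2 _
  have hv' : v ∈ (𝔰.law (fr.aux ε R) k).rspan := hv.1
  have h1 := pl_le_gVar _ ha hadm' hv'
  rw [pn_t31_X1_form, pl_opt_pair _ hv, ← pl_gVar_eq_form _ ha hv] at h1
  have h2 : ε ^ 2 * ∑ j, HLaw.pair (𝔰.φ k (fr.c j)) v ^ 2 ≤ ε ^ 2 * C :=
    mul_le_mul_of_nonneg_left hvC (sq_nonneg _)
  linarith

section AuxGL

/-! ### helpers of `pn_t31_aux_GL` : one graph -/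

theorem pn_t31_aux_GL_pair_ptc {G : HGraph} (x : G.V) (h : G.V → ℤ) : HLaw.pair (ptc x) (toR h) = (h x : ℝ) := by
  simp [HLaw.pair, ptc, toR]

theorem pn_t31_aux_GL_toR_mem {G : HGraph} (H : HLaw G) {h : G.V → ℤ} (hh : h ∈ H.Λ) : toR h ∈ H.rspan :=
  Submodule.subset_span ⟨h, hh, rfl⟩

/-- the kernel of `coord` -/
theorem pn_t31_aux_GL_coord_iff {G : HGraph} (Λ : AddSubgroup (G.V → ℤ)) {n : ℕ} (B : Fin n → G.V → ℝ) (h : G.V → ℤ) :
    (glaw Λ B).coord h = 0 ↔ (∀ e, h (G.tgt e) = h (G.src e)) ∧ ∀ o, HLaw.pair (B o) (toR h) = 0 := by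
  have e2 : ∀ o : Fin n, ∑ v, B o v * (2 * Real.pi * (h v : ℝ)) = 2 * Real.pi * HLaw.pair (B o) (toR h) := by
    intro o
    simp only [HLaw.pair, toR, Finset.mul_sum]
    exact Finset.sum_congr rfl fun v _ => by ring
  have hpi : (2 * Real.pi) ≠ 0 := by positivity
  constructor
  · intro h0
    have h1 := congrArg Prod.fst h0
    have h2 := congrArg Prod.snd h0
    refine ⟨fun e => ?_, fun o => ?_⟩
    · have := congrFun h1 e
      have h3 : h (G.tgt e) - h (G.src e) = 0 := this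
      omega
    · have := congrFun h2 o
      have h3 : ∑ v, B o v * (2 * Real.pi * (h v : ℝ)) = 0 := this
      rw [e2] at h3
      exact (mul_eq_zero.1 h3).resolve_left hpi
  · rintro ⟨h1, h2⟩
    refine Prod.ext ?_ ?_
    · funext e
      show h (G.tgt e) - h (G.src e) = 0
      rw [h1 e, sub_self]
    · funext (o : Fin n)
      show ∑ v, B o v * (2 * Real.pi * (h v : ℝ)) = 0
      rw [e2, h2 o, mul_zero]

/-- properness passes to a smaller lattice -/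
theorem pn_t31_aux_GL_ok_sub {G : HGraph} {Λ Λ' : AddSubgroup (G.V → ℤ)} (hΛ : Λ' ≤ Λ) {n : ℕ} (B : Fin n → G.V → ℝ) (b : ℝ)
    (hOk : ((glaw Λ B).sys b).Ok) : ((glaw Λ' B).sys b).Ok := by
  have h := lsys_ok_sub _ hOk (Λ'.map (glaw Λ B).coord)
  have e : ((glaw Λ B).sys b).sub (Λ'.map (glaw Λ B).coord) = (glaw Λ' B).sys b := by
    have e1 : Λ.map (glaw Λ B).coord ⊓ Λ'.map (glaw Λ B).coord = Λ'.map (glaw Λ B).coord :=
      inf_eq_right.2 (AddSubgroup.map_mono hΛ)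
    exact congrArg (fun L => LSys.mk (E := G.E) (O := Fin n) (fun _ => b) L) e1
  rwa [e] at h

/-- comparison of a character with the law WITHOUT rows on a sublattice on which the rows vanish -/
theorem pn_t31_aux_GL_phi_le {G : HGraph} {Λ Λ' : AddSubgroup (G.V → ℤ)} (hΛ : Λ' ≤ Λ) {n : ℕ} (B : Fin n → G.V → ℝ) (b : ℝ)
    (hOk : ((glaw Λ B).sys b).Ok) (h0 : ∀ h ∈ Λ', ∀ o, HLaw.pair (B o) (toR h) = 0) (f : G.V → ℝ)
    (X : ((glaw Λ B).sys b).L →+ ℝ) (hX : (glaw Λ B).Lift b f X) :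
    ∃ X' : ((glaw Λ' (noB (G := G))).sys b).L →+ ℝ, (glaw Λ' (noB (G := G))).Lift b f X' ∧
      0 ≤ ((glaw Λ B).sys b).phi X ∧ ((glaw Λ B).sys b).phi X ≤ ((glaw Λ' (noB (G := G))).sys b).phi X' := by
  obtain ⟨w, hw⟩ := pn_t31_wiso_drop Λ' B b h0
  have hOk' := pn_t31_aux_GL_ok_sub hΛ B b hOk
  have h1 := lsys_phi_mono (refSub hΛ B b) hOk hOk' X
  have h2 := pn_t31_lift_refSub hΛ B b hX
  refine ⟨_, hw f _ h2, (Real.exp_pos _).le.trans (lsys_phi_lower _ hOk X), ?_⟩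
  rw [← pn_t31_wiso_phi w]
  exact h1

/-- admissibility for the first rows of the reduced test -/
theorem pn_t31_aux_GL_admB {G : HGraph} (Λ : AddSubgroup (G.V → ℤ)) {n : ℕ} (B : Fin (n + 1) → G.V → ℝ) {f : G.V → ℝ}
    (u : G.V → ℝ) (hu : u ∈ (glaw Λ (initB B)).rspan) (hu1 : ∀ e, plGrad u e = 0) (hu2 : ∀ o, (glaw Λ (initB B)).obs u o = 0)
    (β : ℝ) (hβ : β ≠ 0) (hB : HLaw.pair (B (Fin.last n)) u = β) (hf : plAdm (glaw Λ B) f) :
    plAdm (glaw Λ (initB B)) (f - (HLaw.pair f u / β) • B (Fin.last n)) := by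
  intro v hv h1 h2
  have h3 := hf (v - (HLaw.pair (B (Fin.last n)) v / β) • u) (Submodule.sub_mem _ hv (Submodule.smul_mem _ _ hu))
    (fun e => by rw [pl_grad_sub, pl_grad_smul]; simp [h1 e, hu1 e])
    (fun o => by
      rw [pl_obs_sub, pl_obs_smul]
      refine Fin.lastCases ?_ (fun o' => ?_) o
      · rw [pn_t31_GA_obs_last, pn_t31_GA_obs_last, hB]
        field_simp
        ring
      · rw [pn_t31_GA_obs_cast, pn_t31_GA_obs_cast, h2 o', hu2 o']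
        ring)
  rw [pl_pair_sub_right, pl_pair_smul_right] at h3
  rw [pl_pair_sub_left, pl_pair_smul_left]
  have h4 : HLaw.pair f v = HLaw.pair (B (Fin.last n)) v / β * HLaw.pair f u := by linarith
  rw [h4]
  ring

/-! ### helpers of `pn_t31_aux_GL` : scenario -/

theorem pn_t31_aux_GL_tst_ind (k : ℕ) (c : 𝔰.ι) (ε : ℝ) : 𝔰.tst k (fun κ => if κ = c then ε else 0) = ε • 𝔰.φ k c := by
  funext v
  simp [Scn.tst, ite_mul]

theorem pn_t31_aux_GL_pair_tst (k : ℕ) (t : 𝔰.ι → ℝ) (u : (𝔰.G k).V → ℝ) :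
    HLaw.pair (𝔰.tst k t) u = ∑ κ, t κ * HLaw.pair (𝔰.φ k κ) u := by
  simp only [HLaw.pair, Scn.tst, Finset.sum_mul, Finset.mul_sum]
  rw [Finset.sum_comm]
  exact Finset.sum_congr rfl fun κ _ => Finset.sum_congr rfl fun v _ => by ring

variable {𝔰}

/-- a test on the kernel of the gradient -/
theorem pn_t31_aux_GL_pair_ker (k : ℕ) {h : (𝔰.G k).V → ℤ} (hh : h ∈ 𝔰.Λ k)
    (hg : ∀ e, h ((𝔰.G k).tgt e) = h ((𝔰.G k).src e)) (f : (𝔰.G k).V → ℝ) :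
    HLaw.pair f (toR h) = ∑ j, (h (fr.x k j) : ℝ) * HLaw.pair f (toR (fr.u k j)) := by
  have e := fr.ker k h hh hg
  have e1 : ∀ v, (h v : ℝ) = ∑ j, (h (fr.x k j) : ℝ) * (fr.u k j v : ℝ) := by
    intro v
    have := congrFun e v
    conv_lhs => rw [this]
    simp [Finset.sum_apply]
  have e2 : HLaw.pair f (toR h) = ∑ v, ∑ j, f v * ((h (fr.x k j) : ℝ) * (fr.u k j v : ℝ)) := by
    simp only [HLaw.pair, toR]
    exact Finset.sum_congr rfl fun v _ => by rw [e1 v, Finset.mul_sum]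
  rw [e2, Finset.sum_comm]
  simp only [HLaw.pair, toR, Finset.mul_sum]
  exact Finset.sum_congr rfl fun κ _ => Finset.sum_congr rfl fun v _ => by ring

theorem pn_t31_aux_GL_pair_c (k : ℕ) {h : (𝔰.G k).V → ℤ} (hh : h ∈ 𝔰.Λ k)
    (hg : ∀ e, h ((𝔰.G k).tgt e) = h ((𝔰.G k).src e)) (i : Fin F) :
    HLaw.pair (𝔰.φ k (fr.c i)) (toR h) = (h (fr.x k i) : ℝ) := by
  rw [pn_t31_aux_GL_pair_ker fr k hh hg]
  simp [fr.chg]

/-- **one more weak row** -/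
theorem pn_t31_aux_GL_weak (ha : 0 < a) (hPH : fr.PH) (ε : ℝ) (hε : 0 < ε) {n : ℕ} (R : ℕ → Fin (n + 1) → 𝔰.ι → ℝ) (i : Fin F)
    (hlast : ∀ k, R k (Fin.last n) = fun κ => if κ = fr.c i then ε else 0)
    (hprev : ∀ o : Fin n, ∃ j : Fin F, j ≠ i ∧ ∀ k, R k o.castSucc = fun κ => if κ = fr.c j then ε else 0)
    (hOk : 𝔰.AllOk (𝔰.ini R)) (hBD : 𝔰.BD a (𝔰.ini R)) (hGL : 𝔰.GLim a (𝔰.ini R)) :
    𝔰.AllOk R ∧ 𝔰.BD a R ∧ 𝔰.GLim a R := by
  -- the rows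
  have hBl : ∀ k, 𝔰.tst k (R k (Fin.last n)) = ε • 𝔰.φ k (fr.c i) := fun k => by rw [hlast, pn_t31_aux_GL_tst_ind]
  have hBp : ∀ k (o : Fin n), ∃ j : Fin F, j ≠ i ∧ 𝔰.tst k (𝔰.ini R k o) = ε • 𝔰.φ k (fr.c j) := fun k o => by
    obtain ⟨j, hj, h⟩ := hprev o
    refine ⟨j, hj, ?_⟩
    show 𝔰.tst k (R k o.castSucc) = _
    rw [h, pn_t31_aux_GL_tst_ind]
  have humem : ∀ k, fr.u k i ∈ 𝔰.Λ k := fun k => fr.sub k i (fr.u_mem k i)
  have hup : ∀ k (o : Fin n), HLaw.pair (𝔰.tst k (𝔰.ini R k o)) (toR (fr.u k i)) = 0 := fun k o => by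
    obtain ⟨j, hj, h⟩ := hBp k o
    rw [h, pl_pair_smul_left, fr.chg, if_neg (Ne.symm hj), mul_zero]
  have hu0 : ∀ k, (𝔰.law (𝔰.ini R) k).coord (fr.u k i) = 0 := fun k =>
    (pn_t31_aux_GL_coord_iff _ _ _).2 ⟨fr.u_grad k i, hup k⟩
  have hx : ∀ k, fr.u k i (fr.x k i) = 1 := fun k => by rw [fr.u_x, if_pos rfl]
  have hc : ∀ k, HLaw.pair (𝔰.φ k (fr.c i)) (toR (fr.u k i)) = 1 := fun k => by rw [fr.chg, if_pos rfl]
  have hB : ∀ k, HLaw.pair (𝔰.tst k (R k (Fin.last n))) (toR (fr.u k i)) = ε := fun k => by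
    rw [hBl, pl_pair_smul_left, hc, mul_one]
  -- the lift of `φ_c - δ_x`
  have hΞe : ∀ k, ∃ Ξ : (𝔰.sys (𝔰.ini R) k).L →+ ℝ,
      (𝔰.law (𝔰.ini R) k).Lift (𝔰.b k) (𝔰.φ k (fr.c i) - ptc (fr.x k i)) Ξ := fun k => by
    refine pn_t31_lift_exists _ _ _ fun h hh h0 => ?_
    have hg := ((pn_t31_aux_GL_coord_iff _ _ _).1 h0).1
    rw [pl_pair_sub_left, pn_t31_aux_GL_pair_c fr k hh hg, pn_t31_aux_GL_pair_ptc, sub_self]
  choose Ξ hΞ using hΞe
  -- properness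
  have hOk' : 𝔰.AllOk R := fun k => by
    refine pn_t31_okB (𝔰.Λ k) (fun o => 𝔰.tst k (R k o)) (𝔰.b k) (fr.u k i) (humem k) (hu0 k) (fr.x k i) (hx k) ε hε (hB k)
      (ε • Ξ k) ?_ (hOk k)
    have h1 := pn_t31_lift_smul _ _ ε (hΞ k)
    have e : 𝔰.tst k (R k (Fin.last n)) - ε • ptc (fr.x k i) = ε • (𝔰.φ k (fr.c i) - ptc (fr.x k i)) := by
      rw [hBl, smul_sub]
    show (𝔰.law (𝔰.ini R) k).Lift (𝔰.b k) (𝔰.tst k (R k (Fin.last n)) - ε • ptc (fr.x k i)) _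
    rw [e]
    exact h1
  -- the characters
  have hph : ∀ j : ℤ, j ≠ 0 → Tendsto (fun k => (𝔰.sys (𝔰.ini R) k).phi ((j : ℝ) • Ξ k)) atTop (𝓝 0) := by
    intro j hj
    have hex : ∀ k, ∃ X' : ((glaw (fr.Λs k i) (noB (G := 𝔰.G k))).sys (𝔰.b k)).L →+ ℝ,
        (glaw (fr.Λs k i) (noB (G := 𝔰.G k))).Lift (𝔰.b k) ((j : ℝ) • (𝔰.φ k (fr.c i) - ptc (fr.x k i))) X' ∧
        0 ≤ (𝔰.sys (𝔰.ini R) k).phi ((j : ℝ) • Ξ k) ∧
        (𝔰.sys (𝔰.ini R) k).phi ((j : ℝ) • Ξ k) ≤ ((glaw (fr.Λs k i) (noB (G := 𝔰.G k))).sys (𝔰.b k)).phi X' := fun k =>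
      pn_t31_aux_GL_phi_le (fr.sub k i) (fun o => 𝔰.tst k (𝔰.ini R k o)) (𝔰.b k) (hOk k) (fun h hh o => by
        obtain ⟨j', hj', e⟩ := hBp k o
        rw [e, pl_pair_smul_left, fr.off k i j' (Ne.symm hj') h hh, mul_zero]) _ _ (pn_t31_lift_smul _ _ (j : ℝ) (hΞ k))
    choose X' hX1 hX2 hX3 using hex
    exact squeeze_zero hX2 hX3 (hPH i j hj X' hX1)
  refine ⟨hOk', ?_, ?_⟩
  · -- bounded reference variances
    intro Tb
    obtain ⟨C, hC⟩ := fr.chg_bd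
    obtain ⟨C', hC'⟩ := hBD (Tb + ∑ _κ : 𝔰.ι, Tb * C)
    refine ⟨((∑ _κ : 𝔰.ι, Tb * C) / ε) ^ 2 + max C' 0, fun k t ht => ?_⟩
    by_cases hadm : plAdm (𝔰.law R k) (𝔰.tst k t)
    · have hpu : |HLaw.pair (𝔰.tst k t) (toR (fr.u k i))| ≤ ∑ _κ : 𝔰.ι, Tb * C := by
        rw [pn_t31_aux_GL_pair_tst]
        refine (Finset.abs_sum_le_sum_abs _ _).trans (Finset.sum_le_sum fun κ _ => ?_)
        rw [abs_mul]
        exact mul_le_mul (ht κ) (hC k i κ) (abs_nonneg _) ((abs_nonneg _).trans (ht κ))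
      have hur : toR (fr.u k i) ∈ (glaw (𝔰.Λ k) (initB fun o => 𝔰.tst k (R k o))).rspan :=
        pn_t31_aux_GL_toR_mem (glaw (𝔰.Λ k) (initB fun o => 𝔰.tst k (R k o))) (humem k)
      have hu1 : ∀ e, plGrad (toR (fr.u k i)) e = 0 := fun e => by
        show ((fr.u k i ((𝔰.G k).tgt e) : ℤ) : ℝ) - ((fr.u k i ((𝔰.G k).src e) : ℤ) : ℝ) = 0
        rw [fr.u_grad, sub_self]
      have hu2 : ∀ o, (glaw (𝔰.Λ k) (initB fun o => 𝔰.tst k (R k o))).obs (toR (fr.u k i)) o = 0 := fun o => hup k o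
      have hadm' := pn_t31_aux_GL_admB (𝔰.Λ k) (fun o => 𝔰.tst k (R k o)) (toR (fr.u k i)) hur hu1 hu2 ε hε.ne' (hB k) hadm
      have hg := pn_t31_gVarB (𝔰.Λ k) (fun o => 𝔰.tst k (R k o)) ha (toR (fr.u k i)) hur hu1 hu2 ε hε.ne' (hB k) hadm'
      have e : 𝔰.tst k t - (HLaw.pair (𝔰.tst k t) (toR (fr.u k i)) / ε) • 𝔰.tst k (R k (Fin.last n))
          = 𝔰.tst k (t - (HLaw.pair (𝔰.tst k t) (toR (fr.u k i)) / ε) • R k (Fin.last n)) := by
        rw [pn_t31_tst_sub, pn_t31_tst_smul]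
      have hb : ∀ κ, |(t - (HLaw.pair (𝔰.tst k t) (toR (fr.u k i)) / ε) • R k (Fin.last n)) κ| ≤ Tb + ∑ _κ : 𝔰.ι, Tb * C := by
        intro κ
        rw [hlast]
        simp only [Pi.sub_apply, Pi.smul_apply, smul_eq_mul]
        by_cases hκ : κ = fr.c i
        · rw [if_pos hκ, div_mul_cancel₀ _ hε.ne']
          exact (abs_sub _ _).trans (add_le_add (ht κ) hpu)
        · rw [if_neg hκ, mul_zero, sub_zero]
          exact (ht κ).trans (le_add_of_nonneg_right ((abs_nonneg _).trans hpu))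
      have h1 := hC' k _ hb
      have h2 : (HLaw.pair (𝔰.tst k t) (toR (fr.u k i)) / ε) ^ 2 ≤ ((∑ _κ : 𝔰.ι, Tb * C) / ε) ^ 2 := by
        rw [← sq_abs, abs_div, abs_of_pos hε]
        exact pow_le_pow_left₀ (by positivity) (div_le_div_of_nonneg_right hpu hε.le) 2
      have h3 : (𝔰.law R k).gVar a (𝔰.tst k t) = (HLaw.pair (𝔰.tst k t) (toR (fr.u k i)) / ε) ^ 2
          + (𝔰.law (𝔰.ini R) k).gVar a
            (𝔰.tst k t - (HLaw.pair (𝔰.tst k t) (toR (fr.u k i)) / ε) • 𝔰.tst k (R k (Fin.last n))) := hg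
      rw [h3, e]
      exact add_le_add h2 (h1.trans (le_max_left _ _))
    · rw [pl_gVar_of_not_adm _ ha hadm]
      positivity
  · exact pn_t31_stepB 𝔰 ha R hOk hOk' ε hε (fr.c i) hlast (fun k => fr.u k i) humem hu0 (fun k => fr.x k i) hx hc
      (by obtain ⟨C, hC⟩ := fr.chg_bd; exact ⟨C, fun k κ => hC k i κ⟩) Ξ hΞ hph hGL

/-- **one more row, all tests liftable** -/
theorem pn_t31_aux_GL_strong (ha : 0 < a) {n : ℕ} (R : ℕ → Fin (n + 1) → 𝔰.ι → ℝ) (hR : 𝔰.Bdd R)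
    (hOk : 𝔰.AllOk (𝔰.ini R)) (hL : 𝔰.AllLift (𝔰.ini R)) (hBD : 𝔰.BD a (𝔰.ini R)) (hGL : 𝔰.GLim a (𝔰.ini R)) :
    𝔰.AllOk R ∧ 𝔰.AllLift R ∧ 𝔰.BD a R ∧ 𝔰.GLim a R := by
  have hye : ∀ k, ∃ y : (𝔰.sys (𝔰.ini R) k).L →+ ℝ, (𝔰.law (𝔰.ini R) k).Lift (𝔰.b k) (𝔰.tst k (R k (Fin.last n))) y :=
    fun k => hL k _
  choose y hy using hye
  refine ⟨fun k => pn_t31_okA (𝔰.Λ k) (fun o => 𝔰.tst k (R k o)) (𝔰.b k) (y k) (hy k) (hOk k), fun k f => ?_, fun Tb => ?_,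
    (pn_t31_stepA 𝔰 ha R hR hOk y hy hBD hGL).1⟩
  · obtain ⟨X, hX⟩ := hL k f
    exact ⟨_, pn_t31_lift_refRows (𝔰.Λ k) (fun o => 𝔰.tst k (𝔰.ini R k o)) (fun o => 𝔰.tst k (R k o)) Fin.castSuccEmb
      (fun _ => rfl) (𝔰.b k) hX⟩
  · obtain ⟨C, hC⟩ := hBD Tb
    refine ⟨C, fun k t ht => le_trans ?_ (hC k t ht)⟩
    obtain ⟨X, hX⟩ := hL k (𝔰.tst k t)
    exact pn_t31_gVar_mono le_rfl (fun o => 𝔰.tst k (𝔰.ini R k o)) (fun o => 𝔰.tst k (R k o)) Fin.castSuccEmb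
      (fun _ => rfl) ha (pn_t31_lift_adm _ _ (hOk k) hX)

/-- INDUCTION 1: the weak rows -/
theorem pn_t31_aux_GL_ind1 (ha : 0 < a) (hb : ∀ k, 0 < 𝔰.b k) (hPH : fr.PH) (hBD0 : 𝔰.BD a 𝔰.R0) (hGL0 : 𝔰.GLim a 𝔰.R0)
    {N : ℕ} (R : ℕ → Fin N → 𝔰.ι → ℝ) (ε : ℝ) (hε : 0 < ε) : ∀ (i : ℕ) (hi : i ≤ F + N), i ≤ F →
      𝔰.AllOk (fun k (o : Fin i) => fr.aux ε R k (Fin.castLE hi o)) ∧ 𝔰.BD a (fun k (o : Fin i) => fr.aux ε R k (Fin.castLE hi o)) ∧
        𝔰.GLim a (fun k (o : Fin i) => fr.aux ε R k (Fin.castLE hi o)) := by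
  intro i
  induction i with
  | zero =>
    intro hi _
    have e : (fun k (o : Fin 0) => fr.aux ε R k (Fin.castLE hi o)) = 𝔰.R0 := by
      funext k o
      exact o.elim0
    rw [e]
    refine ⟨fun k => ?_, hBD0, hGL0⟩
    have : IsEmpty (𝔰.law 𝔰.R0 k).O := (inferInstance : IsEmpty (Fin 0))
    exact HLaw.ok_of_isEmpty (𝔰.law 𝔰.R0 k) (𝔰.b k) (hb k)
  | succ i ih =>
    intro hi hiF
    obtain ⟨h1, h2, h3⟩ := ih (Nat.le_of_succ_le hi) (Nat.le_of_succ_le hiF)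
    have haux : ∀ (j : ℕ) (hj : j < F) (hj' : j < F + N) (k : ℕ),
        fr.aux ε R k ⟨j, hj'⟩ = fun κ => if κ = fr.c ⟨j, hj⟩ then ε else 0 := by
      intro j hj hj' k
      have e : (⟨j, hj'⟩ : Fin (F + N)) = Fin.castAdd N ⟨j, hj⟩ := rfl
      rw [e]
      exact Fin.append_left _ _ _
    exact pn_t31_aux_GL_weak fr ha hPH ε hε (fun k (o : Fin (i + 1)) => fr.aux ε R k (Fin.castLE hi o)) ⟨i, hiF⟩
      (fun k => haux i hiF _ k)
      (fun o => ⟨⟨o.1, o.2.trans hiF⟩, fun h => by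
        have := congrArg Fin.val h
        simp only at this
        exact absurd this o.2.ne, fun k => haux o.1 (o.2.trans hiF) _ k⟩) h1 h2 h3

/-- after the weak rows every test is liftable -/
theorem pn_t31_aux_GL_allLift {N : ℕ} (R : ℕ → Fin N → 𝔰.ι → ℝ) (ε : ℝ) (hε : 0 < ε) (hi : F ≤ F + N) :
    𝔰.AllLift (fun k (o : Fin F) => fr.aux ε R k (Fin.castLE hi o)) := by
  intro k f
  refine pn_t31_lift_exists _ _ _ fun h hh h0 => ?_
  obtain ⟨hg, hr⟩ := (pn_t31_aux_GL_coord_iff _ _ _).1 h0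
  have hx : ∀ j, h (fr.x k j) = 0 := by
    intro j
    have h1 : HLaw.pair (𝔰.tst k (fr.aux ε R k (Fin.castLE hi j))) (toR h) = 0 := hr j
    have e : fr.aux ε R k (Fin.castLE hi j) = fun κ => if κ = fr.c j then ε else 0 := Fin.append_left _ _ _
    rw [e, pn_t31_aux_GL_tst_ind, pl_pair_smul_left, pn_t31_aux_GL_pair_c fr k hh hg] at h1
    have h2 := (mul_eq_zero.1 h1).resolve_left hε.ne'
    exact_mod_cast h2
  rw [pn_t31_aux_GL_pair_ker fr k hh hg]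
  simp [hx]

/-- INDUCTION 2: the rows of `R` -/
theorem pn_t31_aux_GL_ind2 (ha : 0 < a) (hb : ∀ k, 0 < 𝔰.b k) (hPH : fr.PH) (hBD0 : 𝔰.BD a 𝔰.R0) (hGL0 : 𝔰.GLim a 𝔰.R0)
    {N : ℕ} (R : ℕ → Fin N → 𝔰.ι → ℝ) (hR : 𝔰.Bdd R) (ε : ℝ) (hε : 0 < ε) : ∀ (m : ℕ) (hi : F + m ≤ F + N),
      𝔰.AllOk (fun k (o : Fin (F + m)) => fr.aux ε R k (Fin.castLE hi o)) ∧
      𝔰.AllLift (fun k (o : Fin (F + m)) => fr.aux ε R k (Fin.castLE hi o)) ∧
      𝔰.BD a (fun k (o : Fin (F + m)) => fr.aux ε R k (Fin.castLE hi o)) ∧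
      𝔰.GLim a (fun k (o : Fin (F + m)) => fr.aux ε R k (Fin.castLE hi o)) := by
  have hA : 𝔰.Bdd (fr.aux ε R) := by
    obtain ⟨C, hC⟩ := hR
    refine ⟨max C ε, fun k o κ => ?_⟩
    refine Fin.addCases (fun j => ?_) (fun j => ?_) o
    · have e : fr.aux ε R k (Fin.castAdd N j) = fun κ => if κ = fr.c j then ε else 0 := Fin.append_left _ _ _
      rw [e]
      by_cases hκ : κ = fr.c j
      · simp only [if_pos hκ, abs_of_pos hε]
        exact le_max_right _ _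
      · simp only [if_neg hκ, abs_zero]
        exact hε.le.trans (le_max_right _ _)
    · have e : fr.aux ε R k (Fin.natAdd F j) = R k j := Fin.append_right _ _ _
      rw [e]
      exact (hC k j κ).trans (le_max_left _ _)
  intro m
  induction m with
  | zero =>
    intro hi
    obtain ⟨h1, h2, h3⟩ := pn_t31_aux_GL_ind1 fr ha hb hPH hBD0 hGL0 R ε hε F hi le_rfl
    exact ⟨h1, pn_t31_aux_GL_allLift fr R ε hε hi, h2, h3⟩
  | succ m ih =>
    intro hi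
    obtain ⟨h1, h2, h3, h4⟩ := ih (Nat.le_of_succ_le hi)
    obtain ⟨C, hC⟩ := hA
    exact pn_t31_aux_GL_strong ha (fun k (o : Fin (F + m + 1)) => fr.aux ε R k (Fin.castLE hi o))
      ⟨C, fun k o κ => hC k _ κ⟩ h1 h2 h3 h4

end AuxGL

/-- **L-T31-X2** (~350 l.; may be split).  **The law with all weak rows and the rows `R`**: proper, every test liftable, bounded reference variances, Gaussian limit.
INDUCTION 1 on `i ≤ F` for the rows `ε φ_{c j}`, `j < i` (`pn_t31_stepB`, `pn_t31_okB`): released constant `u k i`; kernel of `coord` by `fr.ker` + `fr.chg`: `{h : ∇h = 0, h (x j) = 0 for j < i}`, so `φ_{c i} - δ_{x i}` is liftable (`pn_t31_lift_exists`);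
 characters: `phi_S Ξ ≤ phi_{S♯} (Ξ ∘ ψ)` (`lsys_phi_mono`, `refSub (fr.sub k i)`), the rows `j < i` vanish on `Λs k i` (`fr.off`): `pn_t31_wiso_drop`, `pn_t31_wiso_phi`, then `hPH`.
INDUCTION 2 on the rows of `R` (`pn_t31_stepA`, `pn_t31_okA`): after Induction 1 `coord` is injective on `Λ`, so every test is liftable.
`BD`: for the weak rows `gVar = ∑_j (⟨f,u_j⟩/ε)² + gVar⁰ (f - ..)` (`pn_t31_gVarB`, `hBD0`, `fr.chg_bd`), then `pn_t31_gVar_mono`. -/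
theorem pn_t31_aux_GL (ha : 0 < a) (hb : ∀ k, 0 < 𝔰.b k) (hPH : fr.PH) (hBD0 : 𝔰.BD a 𝔰.R0) (hGL0 : 𝔰.GLim a 𝔰.R0)
    {N : ℕ} (R : ℕ → Fin N → 𝔰.ι → ℝ) (hR : 𝔰.Bdd R) (ε : ℝ) (hε : 0 < ε) :
    𝔰.AllOk (fr.aux ε R) ∧ 𝔰.AllLift (fr.aux ε R) ∧ 𝔰.BD a (fr.aux ε R) ∧ 𝔰.GLim a (fr.aux ε R) :=
  pn_t31_aux_GL_ind2 fr ha hb hPH hBD0 hGL0 R hR ε hε N le_rfl

/-- **THE ROWS THEOREM.**  Gaussian limit without rows + vanishing characters on the free components ⟹ Gaussian limit with arbitrary bounded moving rows. -/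
theorem pn_t31_rows (ha : 0 < a) (hb : ∀ k, 0 < 𝔰.b k) (hPH : fr.PH) (hBD0 : 𝔰.BD a 𝔰.R0) (hGL0 : 𝔰.GLim a 𝔰.R0)
    {N : ℕ} (R : ℕ → Fin N → 𝔰.ι → ℝ) (hR : 𝔰.Bdd R) (hOk : 𝔰.AllOk R) (hBD : 𝔰.BD a R) (hOB : fr.OB a R) : 𝔰.GLim a R := by
  intro t Tb ht X hX
  have hOk0 : 𝔰.AllOk 𝔰.R0 := fun k =>
    haveI : IsEmpty (𝔰.law 𝔰.R0 k).O := (inferInstance : IsEmpty (Fin 0))
    HLaw.ok_of_isEmpty (𝔰.law 𝔰.R0 k) (𝔰.b k) (hb k)
  have hadm : ∀ k, plAdm (𝔰.law R k) (𝔰.tst k (t k)) := fun k => pn_t31_lift_adm _ _ (hOk k) (hX k)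
  obtain ⟨C, hC⟩ := pn_t31_aux_ref 𝔰 fr ha R hOB Tb
  rw [Metric.tendsto_atTop']
  intro η hη
  -- choice of `ε`
  obtain ⟨ε, hε, hεC⟩ : ∃ ε : ℝ, 0 < ε ∧ ε ^ 2 * C ≤ η / 2 := by
    refine ⟨Real.sqrt (η / 2 / (|C| + 1)), Real.sqrt_pos.2 (by positivity), ?_⟩
    rw [Real.sq_sqrt (by positivity)]
    have h1 : C ≤ |C| + 1 := (le_abs_self C).trans (by linarith)
    have h2 : 0 < |C| + 1 := by positivity
    calc η / 2 / (|C| + 1) * C ≤ η / 2 / (|C| + 1) * (|C| + 1) := by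
          apply mul_le_mul_of_nonneg_left h1; positivity
      _ = η / 2 := by field_simp
  obtain ⟨hOk', -, hBD', hGL'⟩ := pn_t31_aux_GL 𝔰 fr ha hb hPH hBD0 hGL0 R hR ε hε
  have hup := pn_t31_upper 𝔰 ha R hR hOk0 hOk hBD hGL0 t Tb ht X hX (η / 2) (by positivity)
  have hlo := pn_t31_lower 𝔰 ha R (fr.aux ε R) (Fin.natAddEmb F) (fun k o => by
    show Fin.append _ (R k) (Fin.natAdd F o) = R k o
    rw [Fin.append_right]) hOk hOk' hBD' hGL' t Tb ht X hX (η / 4) (by positivity)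
  obtain ⟨n, hn⟩ := Filter.eventually_atTop.1 (hup.and hlo)
  refine ⟨n, fun k hk => ?_⟩
  obtain ⟨h1, h2⟩ := hn k hk.le
  have h3 := hC ε k (t k) (ht k) (hadm k)
  rw [Real.dist_eq, sub_zero, abs_lt]
  constructor <;> linarith

end Rows

/-! ## Part 3. EXITS: from `GLim` (+ `BD`) to the forms of `Read/C3.lean` (tilt with moving centres, variance, characteristic coefficient) -/

section Exits

variable (𝔰 : Scn) {a : ℝ}

/-- `lLap` as the logarithm of a ratio of partition sums -/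
theorem pn_t31_exit_lLap (S : LSys) (Y : S.L →+ ℝ) : lLap S Y = Real.log (S.wT 0 Y / S.w 0) := by
  unfold lLap LSys.E0 LSys.Ev
  rw [Rsd.cs_wT_zero]
  congr 2
  unfold LSys.wT
  congr 1
  funext z
  simp

/-- ONE GRAPH: an observation centre is a tilt, on both sides -/
theorem pn_t31_exit_one {G : HGraph} (H : HLaw G) (β : ℝ) (hOk : (H.sys β).Ok) (ha : 0 < a) (c : H.O → ℝ) {f : G.V → ℝ}
    {X : (H.sys β).L →+ ℝ} (hX : H.Lift β f X) :
    2 * Real.log ((H.sys β).wT (HLaw.Aff.amb (H := H) ⟨0, 0, c⟩ β) X / (H.sys β).w 0) - H.gTilt a 0 c f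
      = 2 * (lLap (H.sys β) (X + obsS (H.sys β) c) - H.gVar a (f + plObsT H c) / 2) := by
  have hadm := pn_t31_lift_adm H β hOk hX
  rw [pn_t31_gTilt H ha c hadm]
  have e2 : (H.sys β).wT (HLaw.Aff.amb (H := H) ⟨0, 0, c⟩ β) X
      = Real.exp (-(∑ o, c o ^ 2) / 2) * (H.sys β).wT 0 (X + obsS (H.sys β) c) := by
    refine Eq.trans ?_ (pn_t31_centre (H.sys β) c X)
    congr 1
    unfold HLaw.Aff.amb
    simp only [map_zero, zero_add]
    rfl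
  rw [e2, pn_t31_exit_lLap, mul_div_assoc, Real.log_mul (Real.exp_pos _).ne', Real.log_exp]
  · ring
  · have h1 := lsys_pos (H.sys β) hOk 0 (X + obsS (H.sys β) c)
    have h2 := lsys_pos (H.sys β) hOk 0 0
    rw [Rsd.cs_wT_zero] at h2
    exact (div_pos h1 h2).ne'

/-- **EXIT 1** (`C3.mixed_tilt`): moving bounded tests AND centres -/
theorem pn_t31_exit_tilt (ha : 0 < a) {N : ℕ} (R : ℕ → Fin N → 𝔰.ι → ℝ) (hR : 𝔰.Bdd R) (hOk : 𝔰.AllOk R) (hGL : 𝔰.GLim a R)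
    (t : ℕ → 𝔰.ι → ℝ) (c : ℕ → Fin N → ℝ) (Tb : ℝ) (ht : ∀ k κ, |t k κ| ≤ Tb) (hc : ∀ k o, |c k o| ≤ Tb)
    (X : ∀ k, (𝔰.sys R k).L →+ ℝ) (hX : ∀ k, (𝔰.law R k).Lift (𝔰.b k) (𝔰.tst k (t k)) (X k)) :
    Tendsto (fun k => 2 * Real.log ((𝔰.sys R k).wT (HLaw.Aff.amb (H := 𝔰.law R k) ⟨0, 0, c k⟩ (𝔰.b k)) (X k) / (𝔰.sys R k).w 0)
        - (𝔰.law R k).gTilt a 0 (c k) (𝔰.tst k (t k))) atTop (𝓝 0) := by
  obtain ⟨C, hC⟩ := hR
  set t' : ℕ → 𝔰.ι → ℝ := fun k => t k + fun κ => ∑ o, c k o * R k o κ with ht'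
  have hf : ∀ k, 𝔰.tst k (t k) + plObsT (𝔰.law R k) (c k) = 𝔰.tst k (t' k) := by
    intro k
    rw [pn_t31_U_obsT, ← pn_t31_tst_add]
  have hX' : ∀ k, (𝔰.law R k).Lift (𝔰.b k) (𝔰.tst k (t' k)) (X k + obsS (𝔰.sys R k) (c k)) := by
    intro k
    rw [← hf k]
    exact pn_t31_lift_add _ _ (hX k) (pn_t31_lift_obs _ _ _)
  have hb' : ∀ k κ, |t' k κ| ≤ Tb + ∑ _o : Fin N, Tb * C := by
    intro k κ
    refine (abs_add_le _ _).trans (add_le_add (ht k κ) ?_)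
    refine (Finset.abs_sum_le_sum_abs _ _).trans (Finset.sum_le_sum fun o _ => ?_)
    rw [abs_mul]
    exact mul_le_mul (hc k o) (hC k o κ) (abs_nonneg _) ((abs_nonneg _).trans (hc k o))
  have h := hGL t' _ hb' _ hX'
  have h2 := h.const_mul (2 : ℝ)
  rw [mul_zero] at h2
  refine h2.congr fun k => ?_
  have e := pn_t31_exit_one (a := a) (𝔰.law R k) (𝔰.b k) (hOk k) ha (c k) (hX k)
  rw [hf k] at e
  exact e.symm

/-- the scaled limits, as `pn_t31_lap_var` and `pn_t31_lap_phi` want them -/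
theorem pn_t31_exit_scaled (ha : 0 < a) {N : ℕ} (R : ℕ → Fin N → 𝔰.ι → ℝ) (hGL : 𝔰.GLim a R)
    (t : ℕ → 𝔰.ι → ℝ) (Tb : ℝ) (ht : ∀ k κ, |t k κ| ≤ Tb)
    (X : ∀ k, (𝔰.sys R k).L →+ ℝ) (hX : ∀ k, (𝔰.law R k).Lift (𝔰.b k) (𝔰.tst k (t k)) (X k)) (s : ℝ) :
    Tendsto (fun k => lLap (𝔰.sys R k) (s • X k) - s ^ 2 * (𝔰.law R k).gVar a (𝔰.tst k (t k)) / 2) atTop (𝓝 0) := by
  have h1 := hGL (fun k => s • t k) (|s| * Tb) (fun k κ => by
      show |s * t k κ| ≤ _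
      rw [abs_mul]
      exact mul_le_mul_of_nonneg_left (ht k κ) (abs_nonneg s))
    (fun k => s • X k) (fun k => by
      rw [pn_t31_tst_smul]
      exact pn_t31_lift_smul _ _ s (hX k))
  refine h1.congr fun k => ?_
  rw [pn_t31_tst_smul, pl_gVar_smul _ ha]

/-- **EXIT 2** (`C3.mixed_var`) -/
theorem pn_t31_exit_var (ha : 0 < a) {N : ℕ} (R : ℕ → Fin N → 𝔰.ι → ℝ) (hOk : 𝔰.AllOk R) (hBD : 𝔰.BD a R) (hGL : 𝔰.GLim a R)
    (t : ℕ → 𝔰.ι → ℝ) (Tb : ℝ) (ht : ∀ k κ, |t k κ| ≤ Tb)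
    (X : ∀ k, (𝔰.sys R k).L →+ ℝ) (hX : ∀ k, (𝔰.law R k).Lift (𝔰.b k) (𝔰.tst k (t k)) (X k)) :
    Tendsto (fun k => (𝔰.sys R k).V0 (X k) - (𝔰.law R k).gVar a (𝔰.tst k (t k))) atTop (𝓝 0) := by
  obtain ⟨C, hC⟩ := hBD Tb
  exact pn_t31_lap_var (fun k => 𝔰.sys R k) hOk X (fun k => (𝔰.law R k).gVar a (𝔰.tst k (t k))) C
    (fun k => by
      rw [abs_of_nonneg (pl_gVar_nonneg _ ha _)]
      exact hC k (t k) (ht k))
    (pn_t31_exit_scaled 𝔰 ha R hGL t Tb ht X hX)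

/-- **EXIT 3** (`C3.mixed_phi`) -/
theorem pn_t31_exit_phi (ha : 0 < a) {N : ℕ} (R : ℕ → Fin N → 𝔰.ι → ℝ) (hOk : 𝔰.AllOk R) (hBD : 𝔰.BD a R) (hGL : 𝔰.GLim a R)
    (t : ℕ → 𝔰.ι → ℝ) (Tb : ℝ) (ht : ∀ k κ, |t k κ| ≤ Tb)
    (X : ∀ k, (𝔰.sys R k).L →+ ℝ) (hX : ∀ k, (𝔰.law R k).Lift (𝔰.b k) (𝔰.tst k (t k)) (X k)) :
    Tendsto (fun k => (𝔰.sys R k).phi (X k) - Real.exp (-(𝔰.law R k).gVar a (𝔰.tst k (t k)) / 2)) atTop (𝓝 0) := by
  obtain ⟨C, hC⟩ := hBD Tb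
  exact pn_t31_lap_phi (fun k => 𝔰.sys R k) hOk X (fun k => (𝔰.law R k).gVar a (𝔰.tst k (t k))) C
    (fun k => by
      rw [abs_of_nonneg (pl_gVar_nonneg _ ha _)]
      exact hC k (t k) (ht k))
    (pn_t31_exit_scaled 𝔰 ha R hGL t Tb ht X hX)

end Exits

end

end Claimed.Agent.R285.Pins
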