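import Claimed.Agent.R285.Pins.T31Scn
import Claimed.Agent.R285.Pot.LinLaw
import Claimed.Agent.R285.Pot.LinOk

/-!
# ROW 285, PINS, package T31 = [C] Theorem 3.1.  FILE 7: PARTITION RATIOS ((3.27), `C3.mixed_rows`, MOVING rows)      (architect helper55; chief of the package helper217).   PAPER-FREE.   Prefix `pn_t31q_`.

`Good a R` := `AllOk R ∧ AllLift R ∧ BD a R ∧ GLim a R` (proper, every test liftable, bounded reference variances, Gaussian Laplace limit).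
 1. ONE ROW MORE.  Lattice: `log (w_R / w_{ini R}) + log (1 + gVar_{ini R} (last row)) / 2 → 0` = second half of `pn_t31_stepA`.
    Reference, EXACT: `plZ_R = plZ_{ini R} (1 + gVar_{ini R} (last row))^{-1/2}` (`pn_t31q_gZ_succ`: `pl_meas_integral`, `pl_meas_map_pair`, the one-dimensional integral `pn_t31q_gauss1`).
 2. CHAIN over the truncations of one family of rows (`pn_t31_aux_GL_strong` keeps `Good`): `pn_t31q_chain`.
 3. `w 0` and `plZ` only depend on the quadratic form `v ↦ ∑_o ⟨B_o, v⟩²` (`pn_t31q_w_congr`, `pn_t31q_gZ_congr`): `append R R'` and `append R' R` have the same partition sums.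
 4. **MAIN** `pn_t31q_main`: two bounded `Good` systems of rows on one scenario with `Λ k = pinned (P k)`: `log (w_R / w_R') - log (plZ_R / plZ_R') → 0`.
 5. EXIT `pn_t31q_geo`: the same for `C3.lawR Γ (g k) (R k)`, `C3.gZ`, verbatim the conclusion of `C3.mixed_rows`, with MOVING rows.
Every `sorry` is a LEAF (`L-T31Q-*`, name in the docstring); statements frozen (tell helper55 if one looks false); prove IN PLACE, helpers directly above.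
-/

set_option autoImplicit false

namespace Claimed.Agent.R285.Pins

open Filter Topology MeasureTheory ProbabilityTheory Pot
open scoped Classical

noncomputable section

/-! ## 1. One graph -/

section OneGraph

variable {G : HGraph}

/-- **L-T31Q-G0** (~60 l., Mathlib only).  `m = 0`: `gaussianReal_zero_var`, `integral_dirac`.   `m > 0`: `integral_gaussianReal_eq_integral_smul`, `gaussianPDFReal`,
`exp (-x²/(2m)) exp (-x²/2) = exp (-((1+m)/(2m)) x²)`, `integral_gaussian`, algebra of square roots. -/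
theorem pn_t31q_gauss1 (m : ℝ) (hm : 0 ≤ m) :
    ∫ x, Real.exp (-x ^ 2 / 2) ∂(gaussianReal 0 m.toNNReal) = (Real.sqrt (1 + m))⁻¹ := by
  rcases hm.eq_or_lt with h0 | hpos
  · subst h0
    simp
  · have hv : m.toNNReal ≠ 0 := by
      simpa [Real.toNNReal_eq_zero, not_le] using hpos
    rw [integral_gaussianReal_eq_integral_smul hv]
    have hcoe : ((m.toNNReal : NNReal) : ℝ) = m := Real.coe_toNNReal m hm
    have hfun : ∀ x : ℝ, gaussianPDFReal 0 m.toNNReal x • Real.exp (-x ^ 2 / 2)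
        = (Real.sqrt (2 * Real.pi * m))⁻¹ * Real.exp (-((1 + m) / (2 * m)) * x ^ 2) := by
      intro x
      rw [gaussianPDFReal, hcoe, smul_eq_mul, mul_assoc, ← Real.exp_add]
      congr 2
      field_simp
      ring
    simp_rw [hfun]
    rw [integral_const_mul, integral_gaussian]
    have h1 : (0:ℝ) < 1 + m := by linarith
    have hpi := Real.pi_pos
    have e1 : Real.pi / ((1 + m) / (2 * m)) = (2 * Real.pi * m) / (1 + m) := by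
      field_simp
    rw [e1, Real.sqrt_div (by positivity)]
    have hs : Real.sqrt (2 * Real.pi * m) ≠ 0 := by positivity
    field_simp

/-- the form of `N + 1` rows -/
theorem pn_t31q_form_succ (Λ : AddSubgroup (G.V → ℤ)) {N : ℕ} (B : Fin (N + 1) → G.V → ℝ) (a : ℝ) (v : G.V → ℝ) :
    (glaw Λ B).form a v = (glaw Λ (initB B)).form a v + HLaw.pair (B (Fin.last N)) v ^ 2 := by
  have h : ∑ o : Fin (N + 1), (glaw Λ B).obs v o ^ 2 =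
      ∑ o : Fin N, (glaw Λ (initB B)).obs v o ^ 2 + HLaw.pair (B (Fin.last N)) v ^ 2 := by
    rw [Fin.sum_univ_castSucc]
    rfl
  have h' : ∑ o : (glaw Λ B).O, (glaw Λ B).obs v o ^ 2 =
      ∑ o : (glaw Λ (initB B)).O, (glaw Λ (initB B)).obs v o ^ 2 + HLaw.pair (B (Fin.last N)) v ^ 2 := h
  unfold HLaw.form
  rw [h']
  ring

theorem pn_t31q_PD_succ (Λ : AddSubgroup (G.V → ℤ)) {N : ℕ} (B : Fin (N + 1) → G.V → ℝ) {P : Set G.V}
    (h : plPD (glaw Λ (initB B)) P) : plPD (glaw Λ B) P :=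
  fun v hv hg ho => h v hv hg fun o => ho (Fin.castSucc o)

/-- **L-T31Q-G1** (~80 l.).  **One more row, reference side, exact.**   `H₀ = glaw Λ (initB B)`.   `plZ (glaw Λ B) a P 0 1 = plZ H₀ a P 0 (fun φ => exp (-⟨B_N, φ⟩²/2))` (unfold `plZ`, `pn_t31q_form_succ`, `Real.exp_add`, `integral_congr`);
divide by `plZ H₀ a P 0 1 > 0` (`pl_Z_one_pos`): `pl_meas_integral` read backwards; `∫ F (⟨B_N, φ⟩) ∂plMeas = ∫ F ∂(gaussianReal 0 _)` (`integral_map` + `pl_meas_map_pair`; `pl_pair_continuous`); `pn_t31q_gauss1` (`pl_gVar_nonneg`). -/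
theorem pn_t31q_gZ_succ (Λ : AddSubgroup (G.V → ℤ)) {N : ℕ} (B : Fin (N + 1) → G.V → ℝ) {a : ℝ} (ha : 0 < a) {P : Set G.V}
    (h : plPD (glaw Λ (initB B)) P) :
    plZ (glaw Λ B) a P 0 (fun _ => 1)
      = plZ (glaw Λ (initB B)) a P 0 (fun _ => 1) * (Real.sqrt (1 + (plPin (glaw Λ (initB B)) P).gVar a (B (Fin.last N))))⁻¹ := by
  have hZ := pl_Z_one_pos (glaw Λ (initB B)) ha h
  have e1 : plZ (glaw Λ B) a P 0 (fun _ => 1)
      = plZ (glaw Λ (initB B)) a P 0 (fun φ => Real.exp (-(HLaw.pair (B (Fin.last N)) φ) ^ 2 / 2)) := by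
    unfold plZ
    refine integral_congr_ae (Filter.Eventually.of_forall fun v => ?_)
    simp only
    rw [pn_t31q_form_succ, one_mul, ← Real.exp_add]
    congr 1
    ring
  have e2 := pl_meas_integral (glaw Λ (initB B)) ha h (fun φ => Real.exp (-(HLaw.pair (B (Fin.last N)) φ) ^ 2 / 2))
  have e3 : ∫ φ, Real.exp (-(HLaw.pair (B (Fin.last N)) φ) ^ 2 / 2) ∂plMeas (glaw Λ (initB B)) a P
      = ∫ x, Real.exp (-x ^ 2 / 2) ∂(gaussianReal 0 ((plPin (glaw Λ (initB B)) P).gVar a (B (Fin.last N))).toNNReal) := by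
    rw [← pl_meas_map_pair (glaw Λ (initB B)) ha h (B (Fin.last N)),
      integral_map (pl_pair_continuous (B (Fin.last N))).aemeasurable
        (by fun_prop : Continuous fun x : ℝ => Real.exp (-x ^ 2 / 2)).aestronglyMeasurable]
  rw [e3, pn_t31q_gauss1 _ (pl_gVar_nonneg _ ha _)] at e2
  rw [e1, e2]
  field_simp

/-- a sum of squares vanishes iff all terms do, transported through the equality of the forms -/
theorem pn_t31q_W_ker {n n' : ℕ} (B : Fin n → G.V → ℝ) (B' : Fin n' → G.V → ℝ)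
    (hq : ∀ v : G.V → ℝ, ∑ o, HLaw.pair (B o) v ^ 2 = ∑ o, HLaw.pair (B' o) v ^ 2) (v : G.V → ℝ)
    (h : ∀ o, HLaw.pair (B o) v = 0) : ∀ o, HLaw.pair (B' o) v = 0 := by
  have h1 : ∑ o, HLaw.pair (B' o) v ^ 2 = 0 := by
    rw [← hq v]
    exact Finset.sum_eq_zero fun o _ => by rw [h o]; ring
  intro o
  have h2 := (Finset.sum_eq_zero_iff_of_nonneg (fun o _ => sq_nonneg (HLaw.pair (B' o) v))).1 h1 o (Finset.mem_univ o)
  exact pow_eq_zero_iff (two_ne_zero) |>.1 h2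

/-- **L-T31Q-W** (~100 l.).  **The partition sum only depends on the quadratic form of the rows.**   `pn_t31_equivG` (same `Λ`; kernels: `pn_t31_coord_eq_zero`, a sum of squares vanishes iff all terms do, `hq (toR a)`);
`LSys.w`, `LSys.Zf`: reindex the `tsum` by the equivalence (`Equiv.tsum_eq`), represent `z` by `pn_t31_L_rep`, weights by `pn_t31_W_coord` (`mul_pow`, `← Finset.mul_sum`, `hq (toR a)`). -/
theorem pn_t31q_w_congr (Λ : AddSubgroup (G.V → ℤ)) {n n' : ℕ} (B : Fin n → G.V → ℝ) (B' : Fin n' → G.V → ℝ)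
    (hq : ∀ v : G.V → ℝ, ∑ o, HLaw.pair (B o) v ^ 2 = ∑ o, HLaw.pair (B' o) v ^ 2) (b : ℝ) :
    ((glaw Λ B).sys b).w 0 = ((glaw Λ B').sys b).w 0 := by
  obtain ⟨e, he⟩ := pn_t31_equivG (glaw Λ B') (glaw Λ B) b (fun a => Iff.rfl) (fun a ha => by
      rw [pn_t31_coord_eq_zero, pn_t31_coord_eq_zero]
      exact ⟨fun h => ⟨h.1, pn_t31q_W_ker B' B (fun v => (hq v).symm) (toR a) h.2⟩,
        fun h => ⟨h.1, pn_t31q_W_ker B B' hq (toR a) h.2⟩⟩)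
  have hW : ∀ z : ((glaw Λ B').sys b).L, ((glaw Λ B).sys b).W ((e z : ((glaw Λ B).sys b).L) : ((glaw Λ B).sys b).Amb)
      = 1 * ((glaw Λ B').sys b).W (z : ((glaw Λ B').sys b).Amb) := by
    intro z
    obtain ⟨a, ha, rfl⟩ := pn_t31_L_rep (glaw Λ B') b z
    rw [he a ha ha, one_mul]
    show ((glaw Λ B).sys b).W ((glaw Λ B).coordA b a) = ((glaw Λ B').sys b).W ((glaw Λ B').coordA b a)
    rw [pn_t31_W_coord, pn_t31_W_coord]
    congr 3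
    have h1 : ∑ o : Fin n, (2 * Real.pi * HLaw.pair (B o) (toR (a : G.V → ℤ))) ^ 2
        = ∑ o : Fin n', (2 * Real.pi * HLaw.pair (B' o) (toR (a : G.V → ℤ))) ^ 2 := by
      simp only [mul_pow]
      rw [← Finset.mul_sum, ← Finset.mul_sum, hq (toR a)]
    exact congrArg Neg.neg h1
  have := pn_t31_wiso_w (S := (glaw Λ B').sys b) (S' := (glaw Λ B).sys b) { e := e, c := 1, hc := one_pos, hW := hW }
  rw [this, one_mul]

theorem pn_t31q_gZ_congr (Λ : AddSubgroup (G.V → ℤ)) {n n' : ℕ} (B : Fin n → G.V → ℝ) (B' : Fin n' → G.V → ℝ)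
    (hq : ∀ v : G.V → ℝ, ∑ o, HLaw.pair (B o) v ^ 2 = ∑ o, HLaw.pair (B' o) v ^ 2) (a : ℝ) (P : Set G.V) (u : G.V → ℝ)
    (F : (G.V → ℝ) → ℝ) : plZ (glaw Λ B) a P u F = plZ (glaw Λ B') a P u F := by
  have hf : ∀ v, (glaw Λ B).form a v = (glaw Λ B').form a v := fun v => by
    show a⁻¹ * HLaw.en v 0 + ∑ o : Fin n, HLaw.pair (B o) v ^ 2 = a⁻¹ * HLaw.en v 0 + ∑ o : Fin n', HLaw.pair (B' o) v ^ 2
    rw [hq v]
  unfold plZ
  simp only [hf]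

/-- every test liftable ⟹ `coord` is injective on the lattice -/
theorem pn_t31q_proper (H : HLaw G) (b : ℝ) (h : ∀ f : G.V → ℝ, ∃ X : (H.sys b).L →+ ℝ, H.Lift b f X) : H.Proper := by
  intro a ha h0
  funext x
  obtain ⟨X, hX⟩ := h (ptc x)
  have h1 := (pn_t31_lift_iff' H b (ptc x) X).1 hX a ha
  have h2 : (⟨H.coordA b a, H.coordA_mem b ha⟩ : (H.sys b).L) = 0 := Subtype.ext h0
  rw [h2, map_zero, pn_t31_pair_ptc] at h1
  have h3 : (2 * Real.pi) ≠ 0 := by positivity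
  have h4 := (mul_eq_zero.1 h1.symm).resolve_left h3
  exact_mod_cast h4

/-- `coord` injective ⟹ every test is liftable -/
theorem pn_t31q_lift_of_proper (H : HLaw G) (b : ℝ) (hP : H.Proper) (f : G.V → ℝ) : ∃ X : (H.sys b).L →+ ℝ, H.Lift b f X :=
  pn_t31_lift_exists H b f fun h hh h0 => by
    rw [hP h hh h0]
    simp [HLaw.pair, toR]

end OneGraph

/-! ## 2. Scenarios -/

namespace Scn

variable (𝔰 : Scn)

/-- proper, every test liftable, bounded reference variances, Gaussian Laplace limit -/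
def Good (a : ℝ) {N : ℕ} (R : ℕ → Fin N → 𝔰.ι → ℝ) : Prop := 𝔰.AllOk R ∧ 𝔰.AllLift R ∧ 𝔰.BD a R ∧ 𝔰.GLim a R

/-- the first `m` rows -/
def trc {n : ℕ} (A : ℕ → Fin n → 𝔰.ι → ℝ) (m : ℕ) (hm : m ≤ n) : ℕ → Fin m → 𝔰.ι → ℝ := fun k o => A k (Fin.castLE hm o)

/-- two systems of rows, one after the other -/
def app {N M : ℕ} (R : ℕ → Fin N → 𝔰.ι → ℝ) (R' : ℕ → Fin M → 𝔰.ι → ℝ) : ℕ → Fin (N + M) → 𝔰.ι → ℝ :=
  fun k => Fin.append (R k) (R' k)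

/-- lattice log-ratio minus reference log-ratio -/
def ratD (a : ℝ) (P : ∀ k, Set (𝔰.G k).V) {N M : ℕ} (R : ℕ → Fin N → 𝔰.ι → ℝ) (R' : ℕ → Fin M → 𝔰.ι → ℝ) (k : ℕ) : ℝ :=
  Real.log ((𝔰.sys R k).w 0 / (𝔰.sys R' k).w 0)
    - Real.log (plZ (𝔰.law R k) a (P k) 0 (fun _ => 1) / plZ (𝔰.law R' k) a (P k) 0 fun _ => 1)

end Scn

section Chain

variable (𝔰 : Scn) {a : ℝ} (P : ∀ k, Set (𝔰.G k).V)

theorem pn_t31q_PD (hP : ∀ k, 𝔰.Λ k = HLaw.pinned (P k)) {N : ℕ} (R : ℕ → Fin N → 𝔰.ι → ℝ) (hOk : 𝔰.AllOk R) (hL : 𝔰.AllLift R) (k : ℕ) :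
    plPD (𝔰.law R k) (P k) :=
  pl_PD_of_ok (𝔰.law R k) (hP k) (𝔰.b k) (hOk k) (pn_t31q_proper (𝔰.law R k) (𝔰.b k) (hL k))

/-- the defects add up -/
theorem pn_t31q_trans (ha : 0 < a) (hP : ∀ k, 𝔰.Λ k = HLaw.pinned (P k)) {N₁ N₂ N₃ : ℕ} (R₁ : ℕ → Fin N₁ → 𝔰.ι → ℝ) (R₂ : ℕ → Fin N₂ → 𝔰.ι → ℝ)
    (R₃ : ℕ → Fin N₃ → 𝔰.ι → ℝ) (h₁ : 𝔰.AllOk R₁ ∧ 𝔰.AllLift R₁) (h₂ : 𝔰.AllOk R₂ ∧ 𝔰.AllLift R₂) (h₃ : 𝔰.AllOk R₃ ∧ 𝔰.AllLift R₃) (k : ℕ) :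
    𝔰.ratD a P R₁ R₃ k = 𝔰.ratD a P R₁ R₂ k + 𝔰.ratD a P R₂ R₃ k := by
  have w1 := (rd_w_pos (h₁.1 k) 0).ne'
  have w2 := (rd_w_pos (h₂.1 k) 0).ne'
  have w3 := (rd_w_pos (h₃.1 k) 0).ne'
  have z1 := (pl_Z_one_pos _ ha (pn_t31q_PD 𝔰 P hP R₁ h₁.1 h₁.2 k)).ne'
  have z2 := (pl_Z_one_pos _ ha (pn_t31q_PD 𝔰 P hP R₂ h₂.1 h₂.2 k)).ne'
  have z3 := (pl_Z_one_pos _ ha (pn_t31q_PD 𝔰 P hP R₃ h₃.1 h₃.2 k)).ne'
  unfold Scn.ratD
  rw [Real.log_div w1 w3, Real.log_div w1 w2, Real.log_div w2 w3, Real.log_div z1 z3, Real.log_div z1 z2, Real.log_div z2 z3]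
  ring

/-- **ONE ROW MORE** -/
theorem pn_t31q_step (ha : 0 < a) (hP : ∀ k, 𝔰.Λ k = HLaw.pinned (P k)) {n : ℕ} (R : ℕ → Fin (n + 1) → 𝔰.ι → ℝ) (hR : 𝔰.Bdd R)
    (hG : 𝔰.Good a (𝔰.ini R)) : Tendsto (𝔰.ratD a P R (𝔰.ini R)) atTop (𝓝 0) := by
  obtain ⟨hOk, hL, hBD, hGL⟩ := hG
  choose y hy using fun k => hL k (𝔰.tst k (R k (Fin.last n)))
  refine (pn_t31_stepA 𝔰 ha R hR hOk y hy hBD hGL).2.congr fun k => ?_
  have hPD := pn_t31q_PD 𝔰 P hP (𝔰.ini R) hOk hL k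
  have hz := pl_Z_one_pos _ ha hPD
  have e0 : plPin (𝔰.law (𝔰.ini R) k) (P k) = 𝔰.law (𝔰.ini R) k := (pl_law_eq_pin _ (hP k)).symm
  have e1 : plZ (𝔰.law R k) a (P k) 0 (fun _ => 1) = plZ (𝔰.law (𝔰.ini R) k) a (P k) 0 (fun _ => 1)
      * (Real.sqrt (1 + (𝔰.law (𝔰.ini R) k).gVar a (𝔰.tst k (R k (Fin.last n)))))⁻¹ := by
    have := pn_t31q_gZ_succ (𝔰.Λ k) (fun o => 𝔰.tst k (R k o)) ha hPD
    rw [show plPin (glaw (𝔰.Λ k) (initB fun o => 𝔰.tst k (R k o))) (P k) = 𝔰.law (𝔰.ini R) k from e0] at this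
    exact this
  have hm : 0 < 1 + (𝔰.law (𝔰.ini R) k).gVar a (𝔰.tst k (R k (Fin.last n))) := by
    have := pl_gVar_nonneg (𝔰.law (𝔰.ini R) k) ha (𝔰.tst k (R k (Fin.last n)))
    linarith
  unfold Scn.ratD
  rw [e1, mul_div_cancel_left₀ _ hz.ne', Real.log_inv, Real.log_sqrt hm.le]
  ring

/-- **CHAIN**: adding the rows `n₀ ≤ o < n₀ + m` of a bounded family one by one -/
theorem pn_t31q_chain (ha : 0 < a) (hP : ∀ k, 𝔰.Λ k = HLaw.pinned (P k)) {n : ℕ} (A : ℕ → Fin n → 𝔰.ι → ℝ) (hA : 𝔰.Bdd A) (n₀ : ℕ) (h₀ : n₀ ≤ n)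
    (hG : 𝔰.Good a (𝔰.trc A n₀ h₀)) : ∀ (m : ℕ) (hm : n₀ + m ≤ n),
      𝔰.Good a (𝔰.trc A (n₀ + m) hm) ∧ Tendsto (𝔰.ratD a P (𝔰.trc A (n₀ + m) hm) (𝔰.trc A n₀ h₀)) atTop (𝓝 0) := by
  obtain ⟨C, hC⟩ := hA
  intro m
  induction m with
  | zero =>
    intro hm
    refine ⟨hG, ?_⟩
    have : ∀ k, 𝔰.ratD a P (𝔰.trc A (n₀ + 0) hm) (𝔰.trc A n₀ h₀) k = 0 := fun k => by
      have w1 := (rd_w_pos (hG.1 k) 0).ne'
      have z1 := (pl_Z_one_pos _ ha (pn_t31q_PD 𝔰 P hP _ hG.1 hG.2.1 k)).ne'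
      show Real.log ((𝔰.sys (𝔰.trc A n₀ h₀) k).w 0 / (𝔰.sys (𝔰.trc A n₀ h₀) k).w 0)
        - Real.log (plZ (𝔰.law (𝔰.trc A n₀ h₀) k) a (P k) 0 (fun _ => 1) / plZ (𝔰.law (𝔰.trc A n₀ h₀) k) a (P k) 0 fun _ => 1) = 0
      rw [div_self w1, div_self z1]
      simp
    simp only [funext this]
    exact tendsto_const_nhds
  | succ m ih =>
    intro hm
    obtain ⟨g1, g2⟩ := ih (Nat.le_of_succ_le hm)
    have hB : 𝔰.Bdd (𝔰.trc A (n₀ + m + 1) hm) := ⟨C, fun k o κ => hC k _ κ⟩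
    have g1' : 𝔰.Good a (𝔰.ini (𝔰.trc A (n₀ + m + 1) hm)) := g1
    have g3 : 𝔰.Good a (𝔰.trc A (n₀ + m + 1) hm) := pn_t31_aux_GL_strong ha _ hB g1'.1 g1'.2.1 g1'.2.2.1 g1'.2.2.2
    refine ⟨g3, ?_⟩
    have s1 := pn_t31q_step 𝔰 P ha hP (𝔰.trc A (n₀ + m + 1) hm) hB g1'
    have s2 := s1.add g2
    rw [add_zero] at s2
    refine s2.congr fun k => ?_
    exact (pn_t31q_trans 𝔰 P ha hP (𝔰.trc A (n₀ + m + 1) hm) (𝔰.trc A (n₀ + m) (Nat.le_of_succ_le hm)) (𝔰.trc A n₀ h₀)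
      ⟨g3.1, g3.2.1⟩ ⟨g1.1, g1.2.1⟩ ⟨hG.1, hG.2.1⟩ k).symm

theorem pn_t31q_app_bdd {N M : ℕ} (R : ℕ → Fin N → 𝔰.ι → ℝ) (R' : ℕ → Fin M → 𝔰.ι → ℝ) (hR : 𝔰.Bdd R) (hR' : 𝔰.Bdd R') : 𝔰.Bdd (𝔰.app R R') := by
  obtain ⟨C, hC⟩ := hR
  obtain ⟨C', hC'⟩ := hR'
  refine ⟨max C C', fun k o κ => ?_⟩
  refine Fin.addCases (fun j => ?_) (fun j => ?_) o
  · have e : 𝔰.app R R' k (Fin.castAdd M j) = R k j := Fin.append_left _ _ _
    rw [e]
    exact (hC k j κ).trans (le_max_left _ _)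
  · have e : 𝔰.app R R' k (Fin.natAdd N j) = R' k j := Fin.append_right _ _ _
    rw [e]
    exact (hC' k j κ).trans (le_max_right _ _)

theorem pn_t31q_app_trc {N M : ℕ} (R : ℕ → Fin N → 𝔰.ι → ℝ) (R' : ℕ → Fin M → 𝔰.ι → ℝ) :
    𝔰.trc (𝔰.app R R') N (Nat.le_add_right N M) = R := by
  funext k o
  exact Fin.append_left (R k) (R' k) o

/-- the quadratic form of `app R R'` -/
theorem pn_t31q_app_sq {N M : ℕ} (R : ℕ → Fin N → 𝔰.ι → ℝ) (R' : ℕ → Fin M → 𝔰.ι → ℝ) (k : ℕ) (v : (𝔰.G k).V → ℝ) :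
    ∑ o, HLaw.pair (𝔰.tst k (𝔰.app R R' k o)) v ^ 2
      = ∑ o, HLaw.pair (𝔰.tst k (R k o)) v ^ 2 + ∑ o, HLaw.pair (𝔰.tst k (R' k o)) v ^ 2 := by
  rw [Fin.sum_univ_add]
  congr 1
  · refine Finset.sum_congr rfl fun j _ => ?_
    have e : 𝔰.app R R' k (Fin.castAdd M j) = R k j := Fin.append_left _ _ _
    rw [e]
  · refine Finset.sum_congr rfl fun j _ => ?_
    have e : 𝔰.app R R' k (Fin.natAdd N j) = R' k j := Fin.append_right _ _ _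
    rw [e]

/-- more rows: `R` against `app R R'` -/
theorem pn_t31q_more (ha : 0 < a) (hP : ∀ k, 𝔰.Λ k = HLaw.pinned (P k)) {N M : ℕ} (R : ℕ → Fin N → 𝔰.ι → ℝ) (R' : ℕ → Fin M → 𝔰.ι → ℝ)
    (hR : 𝔰.Bdd R) (hR' : 𝔰.Bdd R') (hG : 𝔰.Good a R) :
    𝔰.Good a (𝔰.app R R') ∧ Tendsto (𝔰.ratD a P (𝔰.app R R') R) atTop (𝓝 0) := by
  have h := pn_t31q_chain 𝔰 P ha hP (𝔰.app R R') (pn_t31q_app_bdd 𝔰 R R' hR hR') N (Nat.le_add_right N M)
    (by rw [pn_t31q_app_trc]; exact hG) M le_rfl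
  rw [pn_t31q_app_trc] at h
  exact h

/-- **MAIN**: two bounded good systems of rows -/
theorem pn_t31q_main (ha : 0 < a) (hP : ∀ k, 𝔰.Λ k = HLaw.pinned (P k)) {N M : ℕ} (R : ℕ → Fin N → 𝔰.ι → ℝ) (R' : ℕ → Fin M → 𝔰.ι → ℝ)
    (hR : 𝔰.Bdd R) (hR' : 𝔰.Bdd R') (hG : 𝔰.Good a R) (hG' : 𝔰.Good a R') : Tendsto (𝔰.ratD a P R R') atTop (𝓝 0) := by
  obtain ⟨g1, t1⟩ := pn_t31q_more 𝔰 P ha hP R R' hR hR' hG
  obtain ⟨g2, t2⟩ := pn_t31q_more 𝔰 P ha hP R' R hR' hR hG'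
  have s := t2.sub t1
  rw [sub_zero] at s
  refine s.congr fun k => ?_
  have hq : ∀ v : (𝔰.G k).V → ℝ, ∑ o, HLaw.pair (𝔰.tst k (𝔰.app R' R k o)) v ^ 2 = ∑ o, HLaw.pair (𝔰.tst k (𝔰.app R R' k o)) v ^ 2 := fun v => by
    rw [pn_t31q_app_sq, pn_t31q_app_sq, add_comm]
  have ew : (𝔰.sys (𝔰.app R' R) k).w 0 = (𝔰.sys (𝔰.app R R') k).w 0 := pn_t31q_w_congr (𝔰.Λ k) _ _ hq (𝔰.b k)
  have ez : plZ (𝔰.law (𝔰.app R' R) k) a (P k) 0 (fun _ => 1) = plZ (𝔰.law (𝔰.app R R') k) a (P k) 0 (fun _ => 1) :=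
    pn_t31q_gZ_congr (𝔰.Λ k) _ _ hq a (P k) 0 _
  have e1 : 𝔰.ratD a P (𝔰.app R' R) R' k = 𝔰.ratD a P (𝔰.app R R') R' k := by
    unfold Scn.ratD
    rw [ew, ez]
  rw [e1, pn_t31q_trans 𝔰 P ha hP (𝔰.app R R') R R' ⟨g1.1, g1.2.1⟩ ⟨hG.1, hG.2.1⟩ ⟨hG'.1, hG'.2.1⟩ k]
  ring

end Chain

/-! ## 3. Exit: geometries -/

section Geo

variable {m₁ m₂ : ℕ} (Γ : CGeom m₁ m₂) (g : ℕ → DGrid m₁ m₂) (b : ℕ → ℝ) {J : ℕ} (u : Fin J → ℕ → ℤ × ℤ → ℝ) {a : ℝ}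

/-- `Good` for the scenario of a geometry from the hypotheses of `C3.mixed_rows` and the two outputs of `T31Main` -/
theorem pn_t31q_geo_good {N : ℕ} (R : ℕ → Fin N → C3.Cell m₁ m₂ → ℝ) (hOk : ∀ k, ((C3.lawR Γ (g k) (R k)).sys (b k)).Ok)
    (hPr : ∀ k, (C3.lawR Γ (g k) (R k)).Proper) (hBD : (geoX Γ g b u).BD a (rX R)) (hGL : (geoX Γ g b u).GLim a (rX R)) :
    (geoX Γ g b u).Good a (rX R) := by
  have hl : ∀ k, (geoX Γ g b u).law (rX R) k = C3.lawR Γ (g k) (R k) := fun k => congrFun (pn_t31s_law Γ g b u R) k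
  refine ⟨fun k => ?_, fun k f => ?_, hBD, hGL⟩
  · show (((geoX Γ g b u).law (rX R) k).sys (b k)).Ok
    rw [hl k]
    exact hOk k
  · show ∃ X : (((geoX Γ g b u).law (rX R) k).sys (b k)).L →+ ℝ, ((geoX Γ g b u).law (rX R) k).Lift (b k) f X
    rw [hl k]
    exact pn_t31q_lift_of_proper _ _ (hPr k) f

/-- **EXIT** = the conclusion of `C3.mixed_rows`, MOVING bounded rows -/
theorem pn_t31q_geo (ha : 0 < a) {N M : ℕ} (R : ℕ → Fin N → C3.Cell m₁ m₂ → ℝ) (R' : ℕ → Fin M → C3.Cell m₁ m₂ → ℝ)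
    (CR : ℝ) (hR : ∀ k o κ, |R k o κ| ≤ CR) (hR' : ∀ k o κ, |R' k o κ| ≤ CR)
    (hOk : ∀ k, ((C3.lawR Γ (g k) (R k)).sys (b k)).Ok) (hPr : ∀ k, (C3.lawR Γ (g k) (R k)).Proper)
    (hBD : (geoX Γ g b u).BD a (rX R)) (hGL : (geoX Γ g b u).GLim a (rX R))
    (hOk' : ∀ k, ((C3.lawR Γ (g k) (R' k)).sys (b k)).Ok) (hPr' : ∀ k, (C3.lawR Γ (g k) (R' k)).Proper)
    (hBD' : (geoX Γ g b u).BD a (rX R')) (hGL' : (geoX Γ g b u).GLim a (rX R')) :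
    Tendsto (fun k => Real.log (((C3.lawR Γ (g k) (R k)).sys (b k)).w 0 / ((C3.lawR Γ (g k) (R' k)).sys (b k)).w 0)
        - Real.log (C3.gZ (C3.lawR Γ (g k) (R k)) a (Γ.sites (g k) Γ.pin) 0 (fun _ => 1)
            / C3.gZ (C3.lawR Γ (g k) (R' k)) a (Γ.sites (g k) Γ.pin) 0 fun _ => 1)) atTop (𝓝 0) := by
  have hb : ∀ {n : ℕ} (Q : ℕ → Fin n → C3.Cell m₁ m₂ → ℝ), (∀ k o κ, |Q k o κ| ≤ CR) → (geoX Γ g b u).Bdd (rX Q) := by
    intro n Q hQ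
    refine ⟨|CR|, fun k o i => ?_⟩
    rcases i with κ | j
    · exact (hQ k o κ).trans (le_abs_self _)
    · show |(0 : ℝ)| ≤ |CR|
      rw [abs_zero]
      exact abs_nonneg _
  have h := pn_t31q_main (geoX Γ g b u) (fun k => Γ.sites (g k) Γ.pin) ha (fun _ => rfl) (rX R) (rX R') (hb R hR) (hb R' hR')
    (pn_t31q_geo_good Γ g b u R hOk hPr hBD hGL) (pn_t31q_geo_good Γ g b u R' hOk' hPr' hBD' hGL')
  refine h.congr fun k => ?_
  have hl : (geoX Γ g b u).law (rX R) k = C3.lawR Γ (g k) (R k) := congrFun (pn_t31s_law Γ g b u R) k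
  have hl' : (geoX Γ g b u).law (rX R') k = C3.lawR Γ (g k) (R' k) := congrFun (pn_t31s_law Γ g b u R') k
  show Real.log ((((geoX Γ g b u).law (rX R) k).sys (b k)).w 0 / (((geoX Γ g b u).law (rX R') k).sys (b k)).w 0)
    - Real.log (plZ ((geoX Γ g b u).law (rX R) k) a (Γ.sites (g k) Γ.pin) 0 (fun _ => 1)
        / plZ ((geoX Γ g b u).law (rX R') k) a (Γ.sites (g k) Γ.pin) 0 fun _ => 1) = _
  rw [hl, hl']
  rfl

end Geo

/-- Stores the on-demand equation lemmas of the definitions above in THIS module (rule 6 hygiene). -/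
theorem pn_t31q_forced : True := by
  have := @Scn.Good.eq_1
  have := @Scn.trc.eq_1
  have := @Scn.app.eq_1
  have := @Scn.ratD.eq_1
  trivial

end

end Claimed.Agent.R285.Pins
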