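import Claimed.Agent.R285.Pins.T31
import Claimed.Agent.R285.Pins.T31Rat

/-!
# ROW 285, PINS, package T31 (architect helper217).  FILE 10: `C3.mixed_rows` VERBATIM, and its form with MOVING rows      (helper200).   PAPER-FREE.   No sorry.

`pn_t31q_geo` (helper55, `T31Rat`) + `pn_t31m_GL`, `pn_t31r_BD` (helper217, `T31Main`, `T31Ref`) + `pn_t31_geoIn` (`T31`).
-/

set_option autoImplicit false

namespace Claimed.Agent.R285.Pins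

open Filter Topology MeasureTheory Pot
open scoped Classical

noncomputable section

variable {m₁ m₂ : ℕ} {a : ℝ} {b : ℕ → ℝ} {ν : ℕ → ℕ}

/-- partition ratios, MOVING bounded rows which confine all constants uniformly -/
theorem pn_t31_moving_rows (hS : C3.Scen a b ν) (Γ : CGeom m₁ m₂) (hΓ : Γ.NoDiag) (K : ℕ) (g : ℕ → DGrid m₁ m₂) (hg : Admissible K g ν) {N M : ℕ}
    (R : ℕ → Fin N → C3.Cell m₁ m₂ → ℝ) (R' : ℕ → Fin M → C3.Cell m₁ m₂ → ℝ)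
    (hR : ∃ Rb : ℝ, ∀ k o κ, |R k o κ| ≤ Rb) (hR' : ∃ Rb : ℝ, ∀ k o κ, |R' k o κ| ≤ Rb) (hU : UConf1 Γ R) (hU' : UConf1 Γ R')
    (hOk : ∀ k, ((C3.lawR Γ (g k) (R k)).sys (b k)).Ok) (hPr : ∀ k, (C3.lawR Γ (g k) (R k)).Proper)
    (hOk' : ∀ k, ((C3.lawR Γ (g k) (R' k)).sys (b k)).Ok) (hPr' : ∀ k, (C3.lawR Γ (g k) (R' k)).Proper) :
    Tendsto (fun k => Real.log (((C3.lawR Γ (g k) (R k)).sys (b k)).w 0 / ((C3.lawR Γ (g k) (R' k)).sys (b k)).w 0)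
        - Real.log (C3.gZ (C3.lawR Γ (g k) (R k)) a (Γ.sites (g k) Γ.pin) 0 (fun _ => 1)
            / C3.gZ (C3.lawR Γ (g k) (R' k)) a (Γ.sites (g k) Γ.pin) 0 fun _ => 1)) atTop (𝓝 0) := by
  obtain ⟨C1, h1⟩ := hR
  obtain ⟨C2, h2⟩ := hR'
  have hu : ShFam Γ ν g (Fin.elim0 : Fin 0 → ℕ → ℤ × ℤ → ℝ) := pn_t31f_shFam0 Γ g _
  have hIn := pn_t31_geoIn hS Γ hΓ
  have hb := pn_t31f_b_pos hS
  exact pn_t31q_geo Γ g b Fin.elim0 hS.a_pos R R' (max C1 C2) (fun k o κ => (h1 k o κ).trans (le_max_left _ _))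
    (fun k o κ => (h2 k o κ).trans (le_max_right _ _)) hOk hPr
    (pn_t31r_BD Γ K g hg b Fin.elim0 hu.en hS.a_pos R ⟨C1, h1⟩ hU) (pn_t31m_GL hS.a_pos hb Γ hΓ hIn K g hg Fin.elim0 hu R ⟨C1, h1⟩ hU hOk)
    hOk' hPr'
    (pn_t31r_BD Γ K g hg b Fin.elim0 hu.en hS.a_pos R' ⟨C2, h2⟩ hU') (pn_t31m_GL hS.a_pos hb Γ hΓ hIn K g hg Fin.elim0 hu R' ⟨C2, h2⟩ hU' hOk')

open C3 in
/-- `C3.mixed_rows` VERBATIM -/
theorem pn_t31_mixed_rows (Γ : CGeom m₁ m₂) {N : ℕ} (row : Fin N → Cell m₁ m₂ → ℝ) (hS : Scen a b ν) (hΓ : Γ.NoDiag) (K : ℕ) (g : ℕ → DGrid m₁ m₂)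
    (hg : Admissible K g ν) {N₂ : ℕ} (row₂ : Fin N₂ → Cell m₁ m₂ → ℝ)
    (hP : ∀ k, (lawR Γ (g k) row).Proper) (hOk : ∀ k, ((lawR Γ (g k) row).sys (b k)).Ok)
    (hP₂ : ∀ k, (lawR Γ (g k) row₂).Proper) (hOk₂ : ∀ k, ((lawR Γ (g k) row₂).sys (b k)).Ok) :
    Tendsto (fun k => Real.log (((lawR Γ (g k) row).sys (b k)).w 0 / ((lawR Γ (g k) row₂).sys (b k)).w 0)
        - Real.log (gZ (lawR Γ (g k) row) a (Γ.sites (g k) Γ.pin) 0 (fun _ => 1)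
            / gZ (lawR Γ (g k) row₂) a (Γ.sites (g k) Γ.pin) 0 fun _ => 1)) atTop (𝓝 0) :=
  pn_t31_moving_rows hS Γ hΓ K g hg (fun _ => row) (fun _ => row₂) (pn_t31_row_bd row) (pn_t31_row_bd row₂)
    (pn_t31r_uconf_fixed Γ row) (pn_t31r_uconf_fixed Γ row₂) hOk hP hOk₂ hP₂

end

end Claimed.Agent.R285.Pins
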