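import Claimed.Agent.R285.Pins.T32Asy

/-!
# ROW 285, PINS, T3.2 package (architect helper178).  FILE 9a: `C3.pin_interaction`.

`pn_fi_pin_interaction` has VERBATIM the statement of `C3.pin_interaction` (= contract `pn_fin_pin` of `T32Fin.lean`).
The only `sorry` is the leaf `L-PN-F1` (`pn_fi_rowLim`), PAPER-FREE glue.  Statements frozen; helper lemmas: prefix `pn_fi_`.
-/

set_option autoImplicit false

namespace Claimed.Agent.R285.Pins.T32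

open Filter Topology MeasureTheory
open Claimed.Agent.R285.Pot
open Claimed.Agent.R285.C3
open scoped Classical

noncomputable section

variable {a : ℝ} {b : ℕ → ℝ} {ν : ℕ → ℕ} {m₁ m₂ : ℕ} {Γ : CGeom m₁ m₂} {N : ℕ} {row : Fin N → Cell m₁ m₂ → ℝ} {K : ℕ} {g : ℕ → DGrid m₁ m₂}

/-! ## 1. The band laws along the sequence -/

/-- the band laws (the original law for the finitely many `k` for which a subdivision is not a grid) -/
def cHW (Γ : CGeom m₁ m₂) {N : ℕ} (row : Fin N → Cell m₁ m₂ → ℝ) (p : Finset (Cell m₁ m₂)) (r₀ J s : ℕ) (lam : ℝ) (g : ℕ → DGrid m₁ m₂) (k : ℕ) :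
    HLaw (Γ.graph (g k)) :=
  if sbOK2 r₀ s (g k) then lawW Γ p r₀ J s lam (g k) else lawR Γ (g k) row

theorem pn_fi_HW_lam (Γ : CGeom m₁ m₂) {N : ℕ} (row : Fin N → Cell m₁ m₂ → ℝ) (p : Finset (Cell m₁ m₂)) (r₀ J s : ℕ) (lam : ℝ) (g : ℕ → DGrid m₁ m₂) (k : ℕ) :
    (cHW Γ row p r₀ J s lam g k).Λ = HLaw.pinned (Γ.sites (g k) Γ.pin) := by
  unfold cHW
  split_ifs <;> rfl

theorem pn_fi_HW_gd (h : Std a b ν Γ row K g) (p : Finset (Cell m₁ m₂)) {r₀ s : ℕ} (hr₀ : 0 < r₀) (hs : 0 < s) (J : ℕ) {lam : ℝ} (hlam : 0 < lam) (k : ℕ) :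
    Gd (cHW Γ row p r₀ J s lam g k) (b k) := by
  unfold cHW
  split_ifs with hok
  · exact pn_as_lawW_gd Γ p hr₀ hs J hlam (g k) hok (h.b_pos k)
  · exact h.gd k

theorem pn_fi_HW_ev (h : Std a b ν Γ row K g) (p : Finset (Cell m₁ m₂)) {r₀ s : ℕ} (hr₀ : 0 < r₀) (hs : 0 < s) (J : ℕ) (lam : ℝ) :
    ∀ᶠ k in atTop, cHW Γ row p r₀ J s lam g k = lawW Γ p r₀ J s lam (g k) := by
  filter_upwards [pn_as_ok2_ev h.hg hr₀ hs] with k hk
  unfold cHW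
  rw [if_pos hk]

/-- level `r`, MOVING rows (copy of `pn_sb_uconf_up`) -/
theorem pn_fi_uconf_up {n₁ n₂ : ℕ} (Γ : CGeom n₁ n₂) {N : ℕ} (R : ℕ → Fin N → Cell n₁ n₂ → ℝ) (h : UConf Γ R) {r : ℕ} (hr : 0 < r)
    (g' : ℕ → DGrid (r * n₁) (r * n₂)) : UConf (S23.refine r Γ) fun k o => sbUp r (g' k) (R k o) := by
  obtain ⟨c, hc, h⟩ := h
  set K : ℝ := ((S23.fine r Γ.T).card : ℝ) + 1 with hK
  have hK0 : 0 < K := by positivity
  refine ⟨c / K, by positivity, ?_⟩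
  intro k s' hs
  set s : Cell n₁ n₂ → ℝ := fun κ => s' (sbCorner r hr κ) with hsdef
  have hsC : CompFn Γ s := pn_sb_comp_down Γ hr hs
  have hmem : ∀ κ' ∈ S23.fine r Γ.T, S23.coarse r κ' ∈ Γ.T := by
    intro κ' hκ'
    simpa only [S23.fine, Finset.mem_filter, Finset.mem_univ, true_and] using hκ'
  have hconst : ∀ κ' ∈ S23.fine r Γ.T, s' κ' = s (S23.coarse r κ') :=
    fun κ' hκ' => pn_sb_comp_const Γ hr hs _ κ' (hmem κ' hκ') rfl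
  have hS0 : 0 ≤ ∑ κ ∈ Γ.T, s κ ^ 2 := Finset.sum_nonneg fun κ _ => sq_nonneg _
  have h1 : ∑ κ' ∈ S23.fine r Γ.T, s' κ' ^ 2 ≤ K * ∑ κ ∈ Γ.T, s κ ^ 2 := by
    calc ∑ κ' ∈ S23.fine r Γ.T, s' κ' ^ 2 ≤ ∑ _κ' ∈ S23.fine r Γ.T, ∑ κ ∈ Γ.T, s κ ^ 2 := by
          refine Finset.sum_le_sum fun κ' hκ' => ?_
          rw [hconst κ' hκ']
          exact Finset.single_le_sum (f := fun κ => s κ ^ 2) (fun κ _ => sq_nonneg (s κ)) (hmem κ' hκ')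
      _ = ((S23.fine r Γ.T).card : ℝ) * ∑ κ ∈ Γ.T, s κ ^ 2 := by
          rw [Finset.sum_const, nsmul_eq_mul]
      _ ≤ K * ∑ κ ∈ Γ.T, s κ ^ 2 := mul_le_mul_of_nonneg_right (by rw [hK]; linarith) hS0
  have h2 : ∀ o, ∑ κ' ∈ S23.fine r Γ.T, sbUp r (g' k) (R k o) κ' * s' κ' = ∑ κ ∈ Γ.T, R k o κ * s κ := by
    intro o
    rw [← Finset.sum_fiberwise_of_maps_to (g := S23.coarse r) hmem]
    refine Finset.sum_congr rfl fun κ hκ => ?_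
    have hfib : (S23.fine r Γ.T).filter (fun κ' => S23.coarse r κ' = κ) = S23.fine r {κ} := by
      ext κ'
      simp only [S23.fine, Finset.mem_filter, Finset.mem_univ, true_and, Finset.mem_singleton]
      constructor
      · exact fun h => h.2
      · exact fun h => ⟨h ▸ hκ, h⟩
    rw [hfib, ← mul_one (R k o κ * s κ), ← pn_sb_W_sum hr (g' k) κ, Finset.mul_sum]
    refine Finset.sum_congr rfl fun κ' hκ' => ?_
    have hck : S23.coarse r κ' = κ := by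
      simpa only [S23.fine, Finset.mem_filter, Finset.mem_univ, true_and, Finset.mem_singleton] using hκ'
    have hκ'T : κ' ∈ S23.fine r Γ.T := by
      simp only [S23.fine, Finset.mem_filter, Finset.mem_univ, true_and, hck, hκ]
    rw [hconst κ' hκ'T, hck]
    unfold sbUp
    rw [hck]
    ring
  show c / K * ∑ κ' ∈ S23.fine r Γ.T, s' κ' ^ 2 ≤ ∑ o, (∑ κ' ∈ S23.fine r Γ.T, sbUp r (g' k) (R k o) κ' * s' κ') ^ 2
  simp only [h2]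
  calc c / K * ∑ κ' ∈ S23.fine r Γ.T, s' κ' ^ 2 ≤ c / K * (K * ∑ κ ∈ Γ.T, s κ ^ 2) :=
        mul_le_mul_of_nonneg_left h1 (by positivity)
    _ = c * ∑ κ ∈ Γ.T, s κ ^ 2 := by field_simp
    _ ≤ _ := h k s hsC

/-- the quantity of (3.27) as a function of the domain, the cuts and the pins -/
def fiQ (β a : ℝ) {N₁ N₂ : ℕ} (R1 : Fin N₁ → ℤ × ℤ → ℝ) (R2 : Fin N₂ → ℤ × ℤ → ℝ) (D : Finset (ℤ × ℤ)) (cut : Set Bond) (P : Finset (ℤ × ℤ)) : ℝ :=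
  Real.log (zP (sbLaw D cut (↑P : Set (ℤ × ℤ)) R1) β ∅ / zP (sbLaw D cut (↑P : Set (ℤ × ℤ)) R2) β ∅)
    - Real.log (gZ (sbLaw D cut (↑P : Set (ℤ × ℤ)) R1) a (domSet (↑P : Set (ℤ × ℤ))) 0 (fun _ => 1)
        / gZ (sbLaw D cut (↑P : Set (ℤ × ℤ)) R2) a (domSet (↑P : Set (ℤ × ℤ))) 0 fun _ => 1)

theorem pn_fi_zP_pin (D : Finset (ℤ × ℤ)) (cut : Set Bond) (P X : Set (ℤ × ℤ)) {N : ℕ} (R : Fin N → ℤ × ℤ → ℝ) (β : ℝ) :
    zP (sbLaw D cut (P ∪ X) R) β ∅ = zP (sbLaw D cut P R) β (domSet X) := by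
  unfold zP
  rw [pn_addPin_empty, pn_cn_sbLaw_addPin]

theorem pn_fi_region_union {n₁ n₂ : ℕ} (g : DGrid n₁ n₂) (A B : Finset (Cell n₁ n₂)) :
    (↑(g.region (A ∪ B)) : Set (ℤ × ℤ)) = ↑(g.region A) ∪ ↑(g.region B) := by
  unfold DGrid.region
  rw [Finset.union_biUnion, Finset.coe_union]

/-- the quantity in the coarse chart -/
theorem pn_fi_Q_coarse (Γ : CGeom m₁ m₂) (X : Finset (Cell m₁ m₂)) (g : DGrid m₁ m₂) (β a : ℝ) {N₁ N₂ : ℕ} (R1 : Fin N₁ → ℤ × ℤ → ℝ) (R2 : Fin N₂ → ℤ × ℤ → ℝ) :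
    fiQ β a R1 R2 (g.region (gpin Γ X).T) ((gpin Γ X).cutB g) (g.region (gpin Γ X).pin)
      = Real.log (zP (sbLaw (g.region Γ.T) (Γ.cutB g) (↑(g.region Γ.pin) : Set (ℤ × ℤ)) R1) β (Γ.sites g X)
          / zP (sbLaw (g.region Γ.T) (Γ.cutB g) (↑(g.region Γ.pin) : Set (ℤ × ℤ)) R2) β (Γ.sites g X))
        - Real.log (gZ (sbLaw (g.region Γ.T) (Γ.cutB g) (↑(g.region Γ.pin) : Set (ℤ × ℤ)) R1) a (Γ.sites g Γ.pin ∪ Γ.sites g X) 0 (fun _ => 1)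
          / gZ (sbLaw (g.region Γ.T) (Γ.cutB g) (↑(g.region Γ.pin) : Set (ℤ × ℤ)) R2) a (Γ.sites g Γ.pin ∪ Γ.sites g X) 0 fun _ => 1) := by
  have e : (↑(g.region (gpin Γ X).pin) : Set (ℤ × ℤ)) = ↑(g.region Γ.pin) ∪ ↑(g.region X) := pn_fi_region_union g Γ.pin X
  show fiQ β a R1 R2 (g.region Γ.T) (Γ.cutB g) (g.region (gpin Γ X).pin) = _
  unfold fiQ
  rw [e, pn_fi_zP_pin, pn_fi_zP_pin]
  rfl

/-- the quantity in a chart -/
theorem pn_fi_Q_lawR {n₁ n₂ : ℕ} (Γ' : CGeom n₁ n₂) (g' : DGrid n₁ n₂) (β a : ℝ) {N₁ N₂ : ℕ} (R : Fin N₁ → Cell n₁ n₂ → ℝ) (R₂ : Fin N₂ → Cell n₁ n₂ → ℝ) :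
    Real.log (zP (lawR Γ' g' R) β ∅ / zP (lawR Γ' g' R₂) β ∅)
      - Real.log (gZ (lawR Γ' g' R) a (Γ'.sites g' Γ'.pin) 0 (fun _ => 1) / gZ (lawR Γ' g' R₂) a (Γ'.sites g' Γ'.pin) 0 fun _ => 1)
      = fiQ β a (fun o => sbCT Γ'.T g' (R o)) (fun o => sbCT Γ'.T g' (R₂ o)) (g'.region Γ'.T) (Γ'.cutB g') (g'.region Γ'.pin) := rfl

/-- **L-PN-F1** (~350 l.).  (3.27): change of the rows on the domain pinned on `X`.   Chart `S23.refine s (S23.refine r₀ (gpin Γ X))` (`Sec.noDiag_refine` twice), grids `gf k = sbG s (sbG r₀ (g k))` (`pn_sb_adm` twice, `pn_as_comp2`),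
rows `R k o = sbUp s (gf k) (sbUp r₀ (sbG r₀ (g k)) (row o))` (`pn_sb_up_le`, `pn_sb_uconf_up` twice, `pn_sb_uconf_pin`, `Std.uconf`) and `R₂ k = rowW (gMed Γ p r₀) J s lam (gf k)` (`pn_as_rowW_bdd`, `pn_as_rowW_uconf` with `Y = S23.fine r₀ (Γ.pin ∪ X)`): `pn_in_rows`.
Transport for the `k` with `sbOK2 r₀ s (g k)` (`pn_as_ok2_ev`): `pn_cn_tr3` twice with
`Q D cut P = log (zP (sbLaw D cut ↑P R1) β ∅ / zP (sbLaw D cut ↑P R2) β ∅) - log (gZ (sbLaw D cut ↑P R1) a (domSet ↑P) 0 1 / gZ (sbLaw D cut ↑P R2) a (domSet ↑P) 0 1)`, `R1, R2` the rows as functions on `ℤ²` (`pn_sb_lawR`, `pn_sb_up` twice);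
then `zP (sbLaw D cut (P ∪ X) R) β ∅ = zP (sbLaw D cut P R) β (domSet X)` (`pn_cn_sbLaw_addPin`, `pn_addPin_empty`), `gZ` does not see the lattice (`rfl`), `pn_cn_sites_union`, `pn_fi_HW_ev`. -/
theorem pn_fi_rowLim (h : Std a b ν Γ row K g) (p X : Finset (Cell m₁ m₂)) {r₀ s : ℕ} (hr₀ : 0 < r₀) (hs : 0 < s) (J : ℕ) {lam : ℝ} (hlam : 0 < lam) :
    RowLim h.L (cHW Γ row p r₀ J s lam g) a (h.st X) := by
  have hnd : (S23.refine s (S23.refine r₀ (gpin Γ X))).NoDiag :=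
    Sec.noDiag_refine _ (Sec.noDiag_refine _ (pn_cn_noDiag_gpin Γ h.hΓ X) r₀) s
  have hadm := pn_sb_adm (pn_sb_adm h.hg hr₀) hs
  have hcomp := pn_as_comp2 ν hr₀ hs
  have hU0 : UConf (gpin Γ X) fun _ => row := pn_sb_uconf_pin Γ _ h.uconf X
  have hU1 : UConf (S23.refine r₀ (gpin Γ X)) fun k o => sbUp r₀ (sbG r₀ (g k)) (row o) :=
    pn_sb_uconf_up _ row hU0 hr₀ _
  have hU2 : UConf (S23.refine s (S23.refine r₀ (gpin Γ X)))
      fun k o => sbUp s (sbG s (sbG r₀ (g k))) (sbUp r₀ (sbG r₀ (g k)) (row o)) :=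
    pn_fi_uconf_up _ _ hU1 hs _
  have hR : ∃ C : ℝ, ∀ k o κ, |sbUp s (sbG s (sbG r₀ (g k))) (sbUp r₀ (sbG r₀ (g k)) (row o)) κ| ≤ C := by
    refine ⟨∑ o, ∑ κ, |row o κ|, fun k o κ => ?_⟩
    refine (pn_sb_up_le s _ _ κ).trans ((pn_sb_up_le r₀ _ _ _).trans ?_)
    refine le_trans ?_ (Finset.single_le_sum (f := fun o => ∑ κ, |row o κ|)
      (fun o _ => Finset.sum_nonneg fun κ _ => abs_nonneg _) (Finset.mem_univ o))
    exact Finset.single_le_sum (f := fun κ => |row o κ|) (fun κ _ => abs_nonneg _) (Finset.mem_univ _)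
  have hW : UConf (S23.refine s (S23.refine r₀ (gpin Γ X))) fun k => rowW (gMed Γ p r₀) J s lam (sbG s (sbG r₀ (g k))) :=
    pn_as_rowW_uconf (gMed Γ p r₀) (S23.fine r₀ (Γ.pin ∪ X)) J hs hlam _
  have hWb := pn_as_rowW_bdd (gMed Γ p r₀) J s lam (fun k => sbG s (sbG r₀ (g k)))
  have key := pn_in_rows h.hS _ hnd _ _ _ hadm hcomp _ hR hU2 _ hWb hW
  simp only [pn_fi_Q_lawR] at key
  refine key.congr' ?_
  filter_upwards [pn_as_ok2_ev h.hg hr₀ hs, pn_fi_HW_ev h p hr₀ hs J lam] with k hok hHW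
  have e1 : (fun o => sbCT (S23.fine s (S23.fine r₀ Γ.T)) (sbG s (sbG r₀ (g k)))
      (sbUp s (sbG s (sbG r₀ (g k))) (sbUp r₀ (sbG r₀ (g k)) (row o)))) = fun o => sbCT Γ.T (g k) (row o) := by
    funext o
    rw [pn_sb_up (pn_sb_refines hs hok.2), pn_sb_up (pn_sb_refines hr₀ hok.1)]
  have e2 := pn_cn_tr3 (fiQ (b k) a (fun o => sbCT (S23.fine s (S23.fine r₀ Γ.T)) (sbG s (sbG r₀ (g k)))
      (sbUp s (sbG s (sbG r₀ (g k))) (sbUp r₀ (sbG r₀ (g k)) (row o)))) (rowWz Γ p r₀ J s lam (g k)))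
    (pn_sb_refines hs hok.2) (S23.refine r₀ (gpin Γ X))
  have e3 := pn_cn_tr3 (fiQ (b k) a (fun o => sbCT (S23.fine s (S23.fine r₀ Γ.T)) (sbG s (sbG r₀ (g k)))
      (sbUp s (sbG s (sbG r₀ (g k))) (sbUp r₀ (sbG r₀ (g k)) (row o)))) (rowWz Γ p r₀ J s lam (g k)))
    (pn_sb_refines hr₀ hok.1) (gpin Γ X)
  rw [e3, pn_fi_Q_coarse, e1] at e2
  have e4 : fiQ (b k) a
      (fun o => sbCT (S23.refine s (S23.refine r₀ (gpin Γ X))).T (sbG s (sbG r₀ (g k)))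
          (sbUp s (sbG s (sbG r₀ (g k))) (sbUp r₀ (sbG r₀ (g k)) (row o))))
      (fun o => sbCT (S23.refine s (S23.refine r₀ (gpin Γ X))).T (sbG s (sbG r₀ (g k)))
          (rowW (gMed Γ p r₀) J s lam (sbG s (sbG r₀ (g k))) o))
      ((sbG s (sbG r₀ (g k))).region (S23.refine s (S23.refine r₀ (gpin Γ X))).T)
      ((S23.refine s (S23.refine r₀ (gpin Γ X))).cutB (sbG s (sbG r₀ (g k))))
      ((sbG s (sbG r₀ (g k))).region (S23.refine s (S23.refine r₀ (gpin Γ X))).pin)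
      = fiQ (b k) a (fun o => sbCT Γ.T (g k) (row o)) (rowWz Γ p r₀ J s lam (g k))
      ((sbG s (sbG r₀ (g k))).region (S23.refine s (S23.refine r₀ (gpin Γ X))).T)
      ((S23.refine s (S23.refine r₀ (gpin Γ X))).cutB (sbG s (sbG r₀ (g k))))
      ((sbG s (sbG r₀ (g k))).region (S23.refine s (S23.refine r₀ (gpin Γ X))).pin) := by
    rw [← e1]
    rfl
  refine e4.trans (e2.trans ?_)
  rw [hHW]
  rfl

/-! ## 2. The pin interaction vanishes under the band law -/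

theorem pn_fi_band (h : Std a b ν Γ row K g) (hpin : Γ.pin = ∅) (A p : Finset (Cell m₁ m₂)) (hsep : C3.Sep A p) :
    ∃ J : ℕ, ∀ r₀, 2 * J + 5 ≤ r₀ → ∀ ε > 0, ∃ lam₀ : ℝ, 0 < lam₀ ∧ ∀ lam ≥ lam₀, ∃ s₀ : ℕ, ∀ s ≥ s₀,
      ∀ᶠ k in atTop, (lawW Γ p r₀ J s lam (g k)).dPin (b k) (h.st A k) (h.st p k) ≤ ε := by
  obtain ⟨J, hJ⟩ := pn_in_band h.hS (2 * (2 * K + 1) + 1)
  refine ⟨J, fun r₀ hr₀ ε hε => ?_⟩
  have hr0 : 0 < r₀ := by omega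
  have hnd : (gMed Γ p r₀).NoDiag := Sec.noDiag_refine Γ h.hΓ r₀
  obtain ⟨lam₀, hl0, H⟩ := hJ _ _ (gBd (gMed Γ p r₀) J) (pn_as_gBd_noDiag _ hnd J) (pn_as_gBd_conf _ J) _ (pn_as_target Γ A p hsep hr₀) ε hε
  refine ⟨lam₀, hl0, fun lam hlam => ?_⟩
  obtain ⟨s₀, H⟩ := H lam hlam
  refine ⟨max s₀ 1, fun s hs => ?_⟩
  have hs0 : 0 < s := lt_of_lt_of_le one_pos ((le_max_right _ _).trans hs)
  have hev := H s ((le_max_left _ _).trans hs) (fun k => sbG s (sbG r₀ (g k))) _ (pn_sb_adm (pn_sb_adm h.hg hr0) hs0) (pn_as_comp2 ν hr0 hs0)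
  filter_upwards [hev, pn_as_ok2_ev h.hg hr0 hs0] with k h1 hok
  have hG := pn_as_lawW_gd Γ p hr0 hs0 J (lt_of_lt_of_le hl0 hlam) (g k) hok (h.b_pos k)
  show (lawW Γ p r₀ J s lam (g k)).dPin (b k) (Γ.sites (g k) A) (Γ.sites (g k) p) ≤ ε
  rw [pn_as_band_split Γ hpin A p hsep hr₀ hs0 lam (g k) hok hG, pn_as_band_sub Γ hpin A p hr0 hs0 lam (g k) hok (h.b_pos k)]
  exact h1

/-! ## 3. [C]T3.2, first assertion -/

theorem pn_fi_sites_empty (Γ : CGeom m₁ m₂) (g : DGrid m₁ m₂) : Γ.sites g ∅ = ∅ := by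
  ext v
  constructor
  · intro hv
    have hv' : domPos (D := g.region Γ.T) (cut := Γ.cutB g) v ∈ (∅ : Finset (Cell m₁ m₂)).biUnion g.cell := Finset.mem_coe.1 hv
    obtain ⟨κ, hκ, -⟩ := Finset.mem_biUnion.1 hv'
    exact absurd hκ (Finset.notMem_empty κ)
  · intro hv
    exact absurd hv (Set.notMem_empty v)

theorem pn_fi_pin (h : Std a b ν Γ row K g) (hpin : Γ.pin = ∅) (A p : Finset (Cell m₁ m₂)) (hsep : C3.Sep A p) :
    Tendsto (fun k => (lawR Γ (g k) row).dPin (b k) (Γ.sites (g k) A) (Γ.sites (g k) p)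
      - (lawR Γ (g k) row).gPin a (Γ.sites (g k) Γ.pin) (Γ.sites (g k) A) (Γ.sites (g k) p)) atTop (𝓝 0) := by
  obtain ⟨J, hJ⟩ := pn_fi_band h hpin A p hsep
  refine pn_pin_abs h.L h.hS.a_pos (h.st A) (h.st p)
    (fun k v hv => (Set.disjoint_left.1 (pn_gl_disj Γ (g k) (pn_as_sep_disj hsep)) hv.1 hv.2).elim) fun ε hε => ?_
  obtain ⟨l1, hl1, H1⟩ := hJ (2 * J + 5) le_rfl ε hε
  obtain ⟨l2, hl2, H2⟩ := pn_pot_band h hpin A p hsep J (2 * J + 5) le_rfl ε hε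
  obtain ⟨s1, S1⟩ := H1 (max l1 l2) (le_max_left _ _)
  obtain ⟨s2, S2⟩ := H2 (max l1 l2) (le_max_right _ _)
  have hl : 0 < max l1 l2 := lt_of_lt_of_le hl1 (le_max_left _ _)
  have hr0 : 0 < 2 * J + 5 := by omega
  have hs0 : 0 < max (max s1 s2) 1 := lt_of_lt_of_le one_pos (le_max_right _ _)
  have e0 : (fun _ => ∅ : h.L.St) = h.st ∅ := funext fun k => (pn_fi_sites_empty Γ (g k)).symm
  have e1 : (fun k => h.st A k ∪ h.st p k : h.L.St) = h.st (A ∪ p) := funext fun k => (pn_cn_sites_union Γ (g k) A p).symm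
  refine ⟨cHW Γ row p (2 * J + 5) J (max (max s1 s2) 1) (max l1 l2) g, pn_fi_HW_lam Γ row p _ J _ _ g, pn_fi_HW_gd h p hr0 hs0 J hl, ?_,
    pn_fi_rowLim h p A hr0 hs0 J hl, pn_fi_rowLim h p p hr0 hs0 J hl, ?_, ?_, ?_⟩
  · rw [e0]
    exact pn_fi_rowLim h p ∅ hr0 hs0 J hl
  · rw [e1]
    exact pn_fi_rowLim h p (A ∪ p) hr0 hs0 J hl
  · filter_upwards [S1 _ (((le_max_left _ _).trans (le_max_left _ _))), pn_fi_HW_ev h p hr0 hs0 J (max l1 l2)] with k h1 h2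
    rw [h2]
    exact h1
  · filter_upwards [S2 _ (((le_max_right _ _).trans (le_max_left _ _))), pn_fi_HW_ev h p hr0 hs0 J (max l1 l2)] with k h1 h2
    rw [h2]
    exact h1

/-- **T3.2, first assertion** (verbatim `C3.pin_interaction`) -/
theorem pn_fi_pin_interaction (Γ : CGeom m₁ m₂) {N : ℕ} (row : Fin N → Cell m₁ m₂ → ℝ) (hS : Scen a b ν) (hΓ : Γ.NoDiag) (hpin : Γ.pin = ∅) (K : ℕ) (g : ℕ → DGrid m₁ m₂) (hg : Admissible K g ν)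
    (hP : ∀ k, (lawR Γ (g k) row).Proper) (hOk : ∀ k, ((lawR Γ (g k) row).sys (b k)).Ok)
    (A p : Finset (Cell m₁ m₂)) (hsep : C3.Sep A p) :
    Tendsto (fun k => (lawR Γ (g k) row).dPin (b k) (Γ.sites (g k) A) (Γ.sites (g k) p)
      - (lawR Γ (g k) row).gPin a (Γ.sites (g k) Γ.pin) (Γ.sites (g k) A) (Γ.sites (g k) p)) atTop (𝓝 0) :=
  pn_fi_pin ⟨hS, hΓ, hg, hP, hOk⟩ hpin A p hsep

end

end Claimed.Agent.R285.Pins.T32
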