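import Claimed.Agent.R285.Pins.T32Pot

/-!
# ROW 285, PINS, T3.2 package: THE POT INPUTS, part 2 (architect helper53).   Balayage (P1), probes (P2), band (P3).   PAPER-FREE.

Vocabulary: header of `Pins/T32Pot.lean`.   Level-`r` cell tests on the coarse graph: `ppCT Γ g r t = domFn (sbCT (S23.fine r Γ.T) (sbG r g) t)` (`rfl`).
* `pn_pot_ea_bal`, `pn_pot_ea_bal_res` : `Scale.EA` of the balayage onto own pins + guard, for tests with bounded densities; cut law / restored law (cost of the cut law in both cases);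
* `ppProbe Γ g r A w` : the probes;  `pn_pot_probe_supp`, `pn_pot_probe_CT`, `pn_pot_probe_dens`, `pn_pot_probe` (the field `gap` of `T32.ProbeOK`);
* `pn_pot_band`, `pn_pot_band_sh` : the Gaussian pin interaction of the band law.
Every `sorry` is a leaf `L-PP-*`.  Statements frozen; helper lemmas: prefix `pn_pot_`.
-/

set_option autoImplicit false

namespace Claimed.Agent.R285.Pins

open Filter Topology MeasureTheory
open Claimed.Agent.R285.C3 (Cell lawR uncut FaceIn)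
open Claimed.Agent.R285.Pot
open scoped Classical

noncomputable section

variable {m₁ m₂ n₁ n₂ : ℕ}

/-! ## 0. The level-`r` subdivision at one grid -/

/-- the level-`r` cell test with coefficients `t` on the graph of the coarse geometry -/
def ppCT (Γ : CGeom m₁ m₂) (g : DGrid m₁ m₂) (r : ℕ) (t : Cell (r * m₁) (r * m₂) → ℝ) : (Γ.graph g).V → ℝ :=
  domFn (D := g.region Γ.T) (cut := Γ.cutB g) (sbCT (S23.fine r Γ.T) (sbG r g) t)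

/-- **L-PP-D0** (~100 l.).  (`pn_sb_ok`, `pn_sb_sideGe_mono`, `pn_sb_refines`; sides: `pn_sb_adm` for the constant sequences `fun _ => g`, `fun _ => ν` is NOT available (`ν` does not tend to infinity): use `pn_sb_adm1` / `Sec.sec_gr_div_gap`, `pn_sb_x₁`, `pn_sb_x₂`.) -/
theorem pn_pot_sub {r : ℕ} (hr : 0 < r) {g : DGrid m₁ m₂} {ν K : ℕ} (hν : r ≤ ν) (h1 : g.SideGe ν) (h2 : g.SideLe (K * ν)) :
    sbOK r g ∧ S23.Refines r (sbG r g) g ∧ (sbG r g).SideGe (ν / r) ∧ (sbG r g).SideLe ((2 * K + 1) * (ν / r)) := by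
  have hok : sbOK r g := pn_sb_ok hr (pn_sb_sideGe_mono hν h1)
  have e : sbNu r ν = ν / r := by unfold sbNu; rw [if_pos hν]
  have A := pn_sb_adm1 hr g.x₁ hok.1 K ν h1.1 h2.1
  have B := pn_sb_adm1 hr g.x₂ hok.2 K ν h1.2 h2.2
  simp only [e] at A B
  refine ⟨hok, pn_sb_refines hr hok, ⟨fun i => ?_, fun j => ?_⟩, ⟨fun i => ?_, fun j => ?_⟩⟩
  · rw [pn_sb_x₁ hok, pn_sb_x₁ hok]
    exact (A i).1
  · rw [pn_sb_x₂ hok, pn_sb_x₂ hok]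
    exact (B j).1
  · rw [pn_sb_x₁ hok, pn_sb_x₁ hok]
    exact (A i).2
  · rw [pn_sb_x₂ hok, pn_sb_x₂ hok]
    exact (B j).2

/-! ## 1. Balayage (P1) -/

/-- **L-PP-D1** (~250 l.).  ONE GRID, soft rows = `w ·` averages over the level-`r` cells of the guard.   `lam, σ` from `pn_pot_bal_one`;  `w = √lam (2K+1)`, `r₀ = ⌈(2K+1)/σ⌉₊ + 1`.
`g' = sbG r g` (`pn_pot_sub`), `B = S23.fine r (p ∩ Γ.T)`, `b = pgBoxes g' B`, `s = (2K+1)(ν/r) ≤ σ ν`, `psIsPart g (p ∩ Γ.T) s b` (`pn_pg_part`), `lam |b_i| ≤ lam s² ≤ w² ν²` (`pn_pg_box_set`, `pn_pg_card_le`);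
`Γ.sites g p = Γ.sites g (p ∩ Γ.T)` (`pn_pg_sites_inter`);  `psSoft Γ g b w = psSoftD b w` (`rfl`);  `t κ = c (index of κ) · w` on `B`, `0` elsewhere: `pn_pg_soft_comb` (`B ⊆ S23.fine r Γ.T`);  `c_d² ≤ gVar f`: `pn_pot_mult_le`. -/
theorem pn_pot_bal_grid (Γ : CGeom m₁ m₂) (hΓ : Γ.NoDiag) (K : ℕ) {a : ℝ} (ha : 0 < a) (CB : ℝ) {ε : ℝ} (hε : 0 < ε) :
    ∃ (w : ℝ) (r₀ : ℕ), 0 < r₀ ∧ ∀ r, r₀ ≤ r → ∀ (g : DGrid m₁ m₂) (ν : ℕ), r ≤ ν → g.SideGe ν → g.SideLe (K * ν) → ∀ H : HLaw (Γ.graph g),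
    (∀ x, ∑ o, H.B o x ^ 2 ≤ CB / (ν : ℝ) ^ 4) → ∀ (p : Finset (Cell m₁ m₂)) (P : Set (Γ.graph g).V), plPD H P →
    ∀ (f : (Γ.graph g).V → ℝ) (Cf : ℝ), (∀ x, |f x| ≤ Cf / (ν : ℝ) ^ 2) →
    ∃ t : Cell (r * m₁) (r * m₂) → ℝ, (∀ κ, t κ ^ 2 ≤ w ^ 2 * (plPin H P).gVar a f) ∧ (∀ κ, κ ∉ S23.fine r (p ∩ Γ.T) → t κ = 0) ∧
      (plPin H P).gVar a (T32.bal H a (P ∪ Γ.sites g p) f - ppCT Γ g r t) ≤ ε * ((plPin H P).gVar a f + Cf ^ 2) := by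
  obtain ⟨lam, σ, hlam, hσ, h⟩ := pn_pot_bal_one Γ hΓ K ha CB hε
  refine ⟨Real.sqrt lam * (2 * K + 1), ⌈(2 * K + 1 : ℝ) / σ⌉₊ + 1, Nat.succ_pos _, fun r hr₀ g ν hν h1 h2 H hB p P hPD f Cf hf => ?_⟩
  have hr : 0 < r := lt_of_lt_of_le (Nat.succ_pos _) hr₀
  have hrR : (0 : ℝ) < r := by exact_mod_cast hr
  obtain ⟨hok, href, hge, hle⟩ := pn_pot_sub hr hν h1 h2
  set w : ℝ := Real.sqrt lam * (2 * K + 1) with hw
  set B := S23.fine r (p ∩ Γ.T) with hBdef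
  set s : ℕ := (2 * K + 1) * (ν / r) with hs
  have hpart : psIsPart g (p ∩ Γ.T) s (pgBoxes (sbG r g) B) := pn_pg_part href (p ∩ Γ.T) hle
  have hdiv : ((ν / r : ℕ) : ℝ) ≤ (ν : ℝ) / r := Nat.cast_div_le
  have hsσ : (s : ℝ) ≤ σ * ν := by
    have h3 : (2 * K + 1 : ℝ) / σ ≤ r := by
      have := Nat.le_ceil ((2 * K + 1 : ℝ) / σ)
      have h4 : ((⌈(2 * K + 1 : ℝ) / σ⌉₊ : ℕ) : ℝ) ≤ r := by exact_mod_cast (Nat.le_succ _).trans hr₀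
      linarith
    rw [div_le_iff₀ hσ] at h3
    have h5 : (s : ℝ) = (2 * K + 1) * ((ν / r : ℕ) : ℝ) := by rw [hs]; push_cast; ring
    rw [h5]
    calc (2 * K + 1 : ℝ) * ((ν / r : ℕ) : ℝ) ≤ (2 * K + 1) * ((ν : ℝ) / r) := mul_le_mul_of_nonneg_left hdiv (by positivity)
      _ ≤ (r * σ) * ((ν : ℝ) / r) := mul_le_mul_of_nonneg_right h3 (by positivity)
      _ = σ * ν := by field_simp
  have hsν : (s : ℝ) ≤ (2 * K + 1) * ν := by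
    have h5 : (s : ℝ) = (2 * K + 1) * ((ν / r : ℕ) : ℝ) := by rw [hs]; push_cast; ring
    rw [h5]
    refine mul_le_mul_of_nonneg_left ?_ (by positivity)
    exact_mod_cast Nat.div_le_self ν r
  have hwc : ∀ i, lam * ((pgBoxes (sbG r g) B i).set.card : ℝ) ≤ (fun _ : Fin B.card => w) i ^ 2 * (ν : ℝ) ^ 2 := by
    intro i
    unfold pgBoxes
    rw [pn_pg_box_set]
    have h3 := pn_pg_card_le (sbG r g) (B.equivFin.symm i).1 hle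
    have h4 : (s : ℝ) ^ 2 ≤ ((2 * K + 1) * ν) ^ 2 := pow_le_pow_left₀ (Nat.cast_nonneg _) hsν 2
    have h5 : w ^ 2 = lam * (2 * K + 1) ^ 2 := by rw [hw, mul_pow, Real.sq_sqrt hlam.le]
    simp only
    rw [h5]
    calc lam * _ ≤ lam * ((2 * K + 1) * ν) ^ 2 := mul_le_mul_of_nonneg_left (h3.trans h4) hlam.le
      _ = _ := by ring
  have key := h g ν h1 h2 H hB (p ∩ Γ.T) Finset.inter_subset_right P hPD (Fin B.card) (pgBoxes (sbG r g) B) (fun _ => w) s hpart hsσ hwc f Cf hf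
  rw [pn_pg_sites_inter] at key
  set R := psSoft Γ g (pgBoxes (sbG r g) B) (fun _ => w) with hR
  set c : Fin B.card → ℝ := fun d => ∑ y, R d y * plGf (psAdd H R) a P f y with hc
  have hBT : B ⊆ S23.fine r Γ.T := by
    intro κ hκ
    rw [hBdef] at hκ
    unfold S23.fine at hκ ⊢
    simp only [Finset.mem_filter, Finset.mem_univ, true_and, Finset.mem_inter] at hκ ⊢
    exact hκ.2
  have hcomb := pn_pg_soft_comb (D := g.region Γ.T) (cut := Γ.cutB g) (S23.fine r Γ.T) (sbG r g) hBT w c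
  refine ⟨fun κ => if h : κ ∈ B then c (B.equivFin ⟨κ, h⟩) * w else 0, fun κ => ?_, fun κ hκ => dif_neg hκ, ?_⟩
  · have hnn := pl_gVar_nonneg (plPin H P) ha f
    by_cases hκ : κ ∈ B
    · simp only [dif_pos hκ]
      rw [mul_pow, mul_comm]
      exact mul_le_mul_of_nonneg_left (pn_pot_mult_le H R ha hPD f _) (sq_nonneg _)
    · simp only [dif_neg hκ]
      rw [zero_pow two_ne_zero]
      exact mul_nonneg (sq_nonneg _) hnn
  · have e : ppCT Γ g r (fun κ => if h : κ ∈ B then c (B.equivFin ⟨κ, h⟩) * w else 0) = fun x => ∑ i, c i * R i x := hcomb.symm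
    rw [e]
    exact key

/-- **L-PP-D2** (~200 l., GLUE).  **`Scale.EA (L.bal a P f)`**, cut law.   `Cc` from `pn_pot_coer` (grid `g 0`), `V₀ = Cc m₁ m₂ K² Cf²` (`pn_pot_var_le`), `M = max a⁻¹ 1`, `ε' = ε / (M (V₀ + Cf² + 1))`, `CB = ∑ row²` (`pn_pg_row_dens`);
`w, r₀` from `pn_pot_bal_grid`;  `t k` = the vector of `pn_pot_bal_grid` if `r ≤ ν k` and the density bound holds at `k` (`Classical.choose`), `0` otherwise;  `|t k κ| ≤ √(w² V₀)`;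
`gVar 1 ≤ M gVar a` (`pn_pot_gVar_one_le`);  `lawR Γ g row = plPin (lawR Γ g row) (Γ.sites g Γ.pin)` (`rfl` or `pl_law_eq_pin _ rfl`). -/
theorem pn_pot_ea_bal (Γ : CGeom m₁ m₂) (hΓ : Γ.NoDiag) {N : ℕ} (row : Fin N → Cell m₁ m₂ → ℝ) (K : ℕ) (g : ℕ → DGrid m₁ m₂) (ν : ℕ → ℕ)
    (hg : Admissible K g ν) {a : ℝ} (ha : 0 < a) (hPD : ∀ k, plPD (lawR Γ (g k) row) (Γ.sites (g k) Γ.pin)) (p : Finset (Cell m₁ m₂))
    (f : ∀ k, (Γ.graph (g k)).V → ℝ) (Cf : ℝ) (hf : ∀ᶠ k in atTop, ∀ x, |f k x| ≤ Cf / (ν k : ℝ) ^ 2) {ε : ℝ} (hε : 0 < ε) :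
    ∃ r₀ : ℕ, 0 < r₀ ∧ ∀ r, r₀ ≤ r → ∃ t : ℕ → Cell (r * m₁) (r * m₂) → ℝ, (∃ C : ℝ, ∀ k κ, |t k κ| ≤ C) ∧
      ∀ᶠ k in atTop, (lawR Γ (g k) row).gVar 1 (T32.bal (lawR Γ (g k) row) a (Γ.sites (g k) Γ.pin ∪ Γ.sites (g k) p) (f k)
        - ppCT Γ (g k) r (t k)) ≤ ε := by
  obtain ⟨Cc, hCc, hco⟩ := pn_pot_coer Γ row K ha (g 0) (hPD 0)
  obtain ⟨V₀, hV₀⟩ : ∃ V₀ : ℝ, V₀ = Cc * ((m₁ * m₂ : ℕ) * (K : ℝ) ^ 2) * Cf ^ 2 := ⟨_, rfl⟩
  have hV0 : 0 ≤ V₀ := by rw [hV₀]; positivity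
  obtain ⟨M, hM⟩ : ∃ M : ℝ, M = max a⁻¹ 1 := ⟨_, rfl⟩
  have hM0 : 0 < M := by rw [hM]; exact lt_of_lt_of_le one_pos (le_max_right _ _)
  have hS0 : 0 < V₀ + Cf ^ 2 + 1 := by positivity
  have hε' : 0 < ε / (M * (V₀ + Cf ^ 2 + 1)) := by positivity
  obtain ⟨w, r₀, hr₀, h⟩ := pn_pot_bal_grid Γ hΓ K ha (∑ o, ∑ κ, row o κ ^ 2) hε'
  refine ⟨r₀, hr₀, fun r hr => ?_⟩
  have hex : ∀ k, (r ≤ ν k ∧ ∀ x, |f k x| ≤ Cf / (ν k : ℝ) ^ 2) →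
      ∃ t : Cell (r * m₁) (r * m₂) → ℝ, (∀ κ, t κ ^ 2 ≤ w ^ 2 * V₀) ∧
        (lawR Γ (g k) row).gVar 1 (T32.bal (lawR Γ (g k) row) a (Γ.sites (g k) Γ.pin ∪ Γ.sites (g k) p) (f k) - ppCT Γ (g k) r t) ≤ ε := by
    rintro k ⟨hk1, hk2⟩
    have h1 : 1 ≤ ν k := by omega
    obtain ⟨t, ht1, -, ht3⟩ := h r hr (g k) (ν k) hk1 (hg.2 k).1 (hg.2 k).2 (lawR Γ (g k) row)
      (fun x => pn_pg_row_dens Γ (g k) row h1 (hg.2 k).1 x) p (Γ.sites (g k) Γ.pin) (hPD k) (f k) Cf hk2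
    have hV := pn_pot_var_le Γ (g k) h1 (hg.2 k).2 (lawR Γ (g k) row) ha hCc (hco (g k) (ν k) h1 (hg.2 k).1 (hg.2 k).2) (f k) hk2
    rw [← hV₀] at hV
    refine ⟨t, fun κ => (ht1 κ).trans (mul_le_mul_of_nonneg_left hV (sq_nonneg _)), ?_⟩
    have e : lawR Γ (g k) row = plPin (lawR Γ (g k) row) (Γ.sites (g k) Γ.pin) := pl_law_eq_pin _ rfl
    have h2 := pn_pot_gVar_one_le (plPin (lawR Γ (g k) row) (Γ.sites (g k) Γ.pin)) ha
      (T32.bal (lawR Γ (g k) row) a (Γ.sites (g k) Γ.pin ∪ Γ.sites (g k) p) (f k) - ppCT Γ (g k) r t)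
    rw [← hM] at h2
    have h3 : (plPin (lawR Γ (g k) row) (Γ.sites (g k) Γ.pin)).gVar a
        (T32.bal (lawR Γ (g k) row) a (Γ.sites (g k) Γ.pin ∪ Γ.sites (g k) p) (f k) - ppCT Γ (g k) r t)
        ≤ ε / (M * (V₀ + Cf ^ 2 + 1)) * (V₀ + Cf ^ 2 + 1) :=
      ht3.trans (mul_le_mul_of_nonneg_left (by linarith) hε'.le)
    have h4 : M * (ε / (M * (V₀ + Cf ^ 2 + 1)) * (V₀ + Cf ^ 2 + 1)) = ε := by
      field_simp
    have h5 : (lawR Γ (g k) row).gVar 1 (T32.bal (lawR Γ (g k) row) a (Γ.sites (g k) Γ.pin ∪ Γ.sites (g k) p) (f k) - ppCT Γ (g k) r t)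
        = (plPin (lawR Γ (g k) row) (Γ.sites (g k) Γ.pin)).gVar 1
          (T32.bal (lawR Γ (g k) row) a (Γ.sites (g k) Γ.pin ∪ Γ.sites (g k) p) (f k) - ppCT Γ (g k) r t) :=
      congrArg (fun L : HLaw (Γ.graph (g k)) => L.gVar 1
        (T32.bal (lawR Γ (g k) row) a (Γ.sites (g k) Γ.pin ∪ Γ.sites (g k) p) (f k) - ppCT Γ (g k) r t)) e
    rw [h5]
    calc _ ≤ M * _ := h2
      _ ≤ M * (ε / (M * (V₀ + Cf ^ 2 + 1)) * (V₀ + Cf ^ 2 + 1)) := mul_le_mul_of_nonneg_left h3 hM0.le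
      _ = ε := h4
  refine ⟨fun k => if hk : (r ≤ ν k ∧ ∀ x, |f k x| ≤ Cf / (ν k : ℝ) ^ 2) then Classical.choose (hex k hk) else 0,
    ⟨Real.sqrt (w ^ 2 * V₀), fun k κ => ?_⟩, ?_⟩
  · by_cases hk : (r ≤ ν k ∧ ∀ x, |f k x| ≤ Cf / (ν k : ℝ) ^ 2)
    · simp only [dif_pos hk]
      exact Real.abs_le_sqrt ((Classical.choose_spec (hex k hk)).1 κ)
    · simp only [dif_neg hk, Pi.zero_apply, abs_zero]
      exact Real.sqrt_nonneg _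
  · filter_upwards [hg.1.eventually_ge_atTop r, hf] with k h1 h2
    have hk : (r ≤ ν k ∧ ∀ x, |f k x| ≤ Cf / (ν k : ℝ) ^ 2) := ⟨h1, h2⟩
    simp only [dif_pos hk]
    exact (Classical.choose_spec (hex k hk)).2

/-- the balayage of the RESTORED law, read on the vertex set of `Γ` (the two graphs have the same vertices, definitionally; cf. `C3.cLapU`) -/
def ppBalU (Γ : CGeom m₁ m₂) (F : Finset (Cell m₁ m₂ × Bool)) (g : DGrid m₁ m₂) {N : ℕ} (row : Fin N → Cell m₁ m₂ → ℝ)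
    (a : ℝ) (P : Set (Γ.graph g).V) (f : (Γ.graph g).V → ℝ) : (Γ.graph g).V → ℝ :=
  T32.bal (G := (uncut Γ F).graph g) (lawR (uncut Γ F) g row) a P f

/-- the reference variance of the RESTORED law under the pins `P`, read on the vertex set of `Γ` -/
def ppVarU (Γ : CGeom m₁ m₂) (F : Finset (Cell m₁ m₂ × Bool)) (g : DGrid m₁ m₂) {N : ℕ} (row : Fin N → Cell m₁ m₂ → ℝ)
    (a : ℝ) (P : Set (Γ.graph g).V) (f : (Γ.graph g).V → ℝ) : ℝ :=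
  (plPin (G := (uncut Γ F).graph g) (lawR (uncut Γ F) g row) P).gVar a f

/-- **L-PP-D3** (~250 l.).  ONE GRID: for tests carried by own pins + guard the cost of the cut law is at most a constant times the cost of the restored law.
`pn_pot_ext_cost` for `T32.extU Γ row F row' g A hF hr hr'` (`e = Equiv.refl`: `x.e ⁻¹' P = P`, `h ∘ x.e = h` by `rfl`), `χ = domFn (psFarZ (sbG 2 g) (S23.fine 2 A) (ν/2))`, `C = 2 + (72/a + CB) (9 Cc)`, `CB = ∑ row²`;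
`hf`: `pn_pot_cutoff` (`pn_pg_row_l2`, `ν/2 ≤ ν ≤ 3 (ν/2)`);   `χ = 0` on `Γ.sites g A`: `ps_farZ_zero`, `pn_sb_region`;   `χ = 1` on `Γ.sites g p`: `ps_farZ_one` (`pn_pot_sub` with `r = 2`);
a cell of `S23.fine 2 p` is not `geoAdj` to a cell of `S23.fine 2 A` (`pn_pg_sep_ball` with `j = 1`, `pn_pg_ball_adj`, `pn_pg_sub_ball`). -/
theorem pn_pot_res_cost (Γ : CGeom m₁ m₂) {N : ℕ} (row : Fin N → Cell m₁ m₂ → ℝ) (K : ℕ) {a : ℝ} (ha : 0 < a) (A p : Finset (Cell m₁ m₂))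
    (hsep : C3.Sep A p) (F : Finset (Cell m₁ m₂ × Bool)) (hF : ∀ f ∈ F, FaceIn A f) {N' : ℕ} (row' : Fin (N + N') → Cell m₁ m₂ → ℝ)
    (hr : ∀ o, row' (Fin.castAdd N' o) = row o) (hr' : ∀ o, ∀ κ ∉ A, row' (Fin.natAdd N o) κ = 0) {Cc : ℝ} (hCc : 0 ≤ Cc) :
    ∃ C : ℝ, 0 ≤ C ∧ ∀ (g : DGrid m₁ m₂) (ν : ℕ), 6 ≤ ν → g.SideGe ν → g.SideLe (K * ν) →
      (∀ v : (Γ.graph g).V → ℝ, (∀ x ∈ Γ.sites g Γ.pin, v x = 0) → ∑ x, v x ^ 2 ≤ Cc * (ν : ℝ) ^ 2 * (lawR Γ g row).form a v) →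
      ∀ h : (Γ.graph g).V → ℝ, (∀ y, h y ≠ 0 → y ∈ Γ.sites g Γ.pin ∪ Γ.sites g p) →
        (lawR Γ g row).gVar a h ≤ C * ppVarU Γ F g row' a (Γ.sites g Γ.pin) h := by
  set CB : ℝ := ∑ o, ∑ κ, row o κ ^ 2 with hCBdef
  have hCB0 : 0 ≤ CB := Finset.sum_nonneg fun _ _ => Finset.sum_nonneg fun _ _ => sq_nonneg _
  have hC1 : 1 ≤ 2 + (72 / a + CB) * (9 * Cc) := by
    have : 0 ≤ (72 / a + CB) * (9 * Cc) := by positivity
    linarith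
  refine ⟨2 + (72 / a + CB) * (9 * Cc), by linarith, ?_⟩
  intro g ν h6 h1 h2 hco h hh
  have hok : sbOK 2 g := pn_sb_ok (by norm_num) (pn_sb_sideGe_mono (by omega) h1)
  have href : S23.Refines 2 (sbG 2 g) g := pn_sb_refines (by norm_num) hok
  obtain ⟨ν₂, hν₂⟩ : ∃ ν₂ : ℕ, ν₂ = sbNu 2 ν := ⟨_, rfl⟩
  have hν₂' : ν₂ = ν / 2 := by
    rw [hν₂]
    unfold sbNu
    rw [if_pos (by omega)]
  have h3 : 3 ≤ ν₂ := by omega
  have hle : ν₂ ≤ ν := by omega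
  have hle3 : ν ≤ 3 * ν₂ := by omega
  have A1 := pn_sb_adm1 (r := 2) (by norm_num) g.x₁ hok.1 K ν h1.1 h2.1
  have B1 := pn_sb_adm1 (r := 2) (by norm_num) g.x₂ hok.2 K ν h1.2 h2.2
  rw [← hν₂] at A1 B1
  have hge : (sbG 2 g).SideGe ν₂ := by
    refine ⟨fun i => ?_, fun j => ?_⟩
    · rw [pn_sb_x₁ hok, pn_sb_x₁ hok]
      exact (A1 i).1
    · rw [pn_sb_x₂ hok, pn_sb_x₂ hok]
      exact (B1 j).1
  have hν0 : (0 : ℝ) < ν := by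
    have : 0 < ν := by omega
    exact_mod_cast this
  have hν₂0 : (0 : ℝ) < ν₂ := by
    have : 0 < ν₂ := by omega
    exact_mod_cast this
  have hleR : (ν₂ : ℝ) ≤ ν := by exact_mod_cast hle
  have hle3R : (ν : ℝ) ≤ 3 * ν₂ := by exact_mod_cast hle3
  have hCB : ∑ o, ∑ x, (lawR Γ g row).B o x ^ 2 ≤ CB / (ν₂ : ℝ) ^ 2 := by
    refine (pn_pg_row_l2 Γ g row (by omega) h1).trans ?_
    exact div_le_div_of_nonneg_left hCB0 (by positivity) (pow_le_pow_left₀ hν₂0.le hleR 2)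
  have hco' : ∀ v : (Γ.graph g).V → ℝ, (∀ x ∈ Γ.sites g Γ.pin, v x = 0) →
      ∑ x, v x ^ 2 ≤ 9 * Cc * (ν₂ : ℝ) ^ 2 * (lawR Γ g row).form a v := by
    intro v hv
    refine (hco v hv).trans ?_
    refine mul_le_mul_of_nonneg_right ?_ (pl_form_nonneg _ ha v)
    have : (ν : ℝ) ^ 2 ≤ (3 * ν₂) ^ 2 := pow_le_pow_left₀ hν0.le hle3R 2
    nlinarith
  -- real properness from the coercivity
  have hPD : plPD (lawR Γ g row) (Γ.sites g Γ.pin) := by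
    intro v hv he ho
    have hform : (lawR Γ g row).form a v = 0 := by
      unfold HLaw.form HLaw.en
      have e1 : ∑ e, (v ((Γ.graph g).tgt e) - v ((Γ.graph g).src e) + (0 : (Γ.graph g).E → ℝ) e) ^ 2 = 0 := by
        refine Finset.sum_eq_zero fun e _ => ?_
        have := he e
        unfold plGrad at this
        rw [this, Pi.zero_apply]
        norm_num
      have e2 : ∑ o, (lawR Γ g row).obs v o ^ 2 = 0 := by
        refine Finset.sum_eq_zero fun o _ => ?_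
        rw [ho o]
        norm_num
      rw [e1, e2]
      norm_num
    have h5 := hco v hv
    rw [hform, mul_zero] at h5
    funext x
    have h7 : v x ^ 2 ≤ ∑ x, v x ^ 2 := Finset.single_le_sum (f := fun x => v x ^ 2) (fun _ _ => sq_nonneg _) (Finset.mem_univ x)
    have h8 : v x ^ 2 = 0 := le_antisymm (h7.trans h5) (sq_nonneg _)
    simpa using h8
  -- the cutoff
  obtain ⟨χ, hχ⟩ : ∃ χ : (Γ.graph g).V → ℝ, χ = domFn (D := g.region Γ.T) (cut := Γ.cutB g) (psFarZ (sbG 2 g) (S23.fine 2 A) ν₂) := ⟨_, rfl⟩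
  have hχ0 : ∀ v ∈ Γ.sites g A, χ v = 0 := by
    intro v hv
    rw [hχ]
    refine ps_farZ_zero (sbG 2 g) (S23.fine 2 A) ν₂ ?_
    rw [pn_sb_region href A]
    exact Finset.mem_coe.1 hv
  have hχ1 : ∀ v ∈ Γ.sites g p, χ v = 1 := by
    intro v hv
    rw [hχ]
    have hv' : domPos (D := g.region Γ.T) (cut := Γ.cutB g) v ∈ (sbG 2 g).region (S23.fine 2 p) := by
      rw [pn_sb_region href p]
      exact Finset.mem_coe.1 hv
    obtain ⟨κ, hκ, hz⟩ := Finset.mem_biUnion.1 hv'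
    refine ps_farZ_one (sbG 2 g) (S23.fine 2 A) ν₂ (by omega) hge (κ := κ) ?_ hz
    intro κ' hκ' hadj
    have hd := pn_pg_sep_ball (pn_pg_sep_symm hsep) (r := 2) (j := 0 + 1) (by norm_num)
    exact Finset.disjoint_left.1 hd hκ (pn_pg_ball_adj (S23.fine 2 A) 0 (pn_pg_sub_ball _ 0 hκ') hadj)
  have hf : ∀ v : (Γ.graph g).V → ℝ, (∀ y ∈ Γ.sites g Γ.pin, v y = 0) →
      (lawR Γ g row).form a (χ * v) ≤ (2 + (72 / a + CB) * (9 * Cc)) * (lawR Γ g row).form a v := by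
    intro v hv
    rw [hχ]
    exact pn_pot_cutoff (D := g.region Γ.T) (cut := Γ.cutB g) (sbG 2 g) (S23.fine 2 A) (by omega) (lawR Γ g row) ha hCB hco' v hv
  have key := pn_pot_ext_cost (lawR Γ g row) (T32.extU Γ row F row' g A hF hr hr') ha hPD hC1 χ hχ0 hf h
    (fun y hy => (hh y hy).imp id (hχ1 y))
  exact key

/-- a level-`r` cell test with coefficients carried by the cells of `p` vanishes off the sites of `p` -/
theorem pn_pot_CT_supp (Γ : CGeom m₁ m₂) (g : DGrid m₁ m₂) {r : ℕ} (href : S23.Refines r (sbG r g) g) (p : Finset (Cell m₁ m₂))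
    (t : Cell (r * m₁) (r * m₂) → ℝ) (ht : ∀ κ, κ ∉ S23.fine r (p ∩ Γ.T) → t κ = 0) (y : (Γ.graph g).V) (hy : y ∉ Γ.sites g p) :
    ppCT Γ g r t y = 0 := by
  show sbCT (S23.fine r Γ.T) (sbG r g) t (domPos y) = 0
  by_cases hc : ∃ κ, domPos y ∈ (sbG r g).cell κ
  · obtain ⟨κ, hκ⟩ := hc
    rw [pn_sb_CT_eval _ _ _ hκ]
    have : κ ∉ S23.fine r (p ∩ Γ.T) := by
      intro hmem
      have h1 : S23.coarse r κ ∈ p ∩ Γ.T := (Finset.mem_filter.1 hmem).2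
      exact hy (Finset.mem_coe.2 (Finset.mem_biUnion.2 ⟨_, (Finset.mem_inter.1 h1).1, Sec.sec_gr_cell_sub href κ hκ⟩))
    rw [ht κ this, zero_mul]
  · push Not at hc
    exact pn_sb_CT_zero _ _ _ hc

/-- **L-PP-D4** (~300 l., GLUE).  **`Scale.EA (L'.bal a P f)`**: balayage of the restored law, cost of the cut law.
As `pn_pot_ea_bal` for the geometry `uncut Γ F` and the rows `row'` (`plPD` of the restored law: `pn_pot_ext_PD (T32.extU ..)`; `pn_pot_coer`, `pn_pot_var_le`, `pn_pot_bal_grid` on `(uncut Γ F).graph g`; `(uncut Γ F).T = Γ.T`, `(uncut Γ F).pin = Γ.pin`, the sites and `domFn` agree by `rfl`), then `pn_pot_res_cost`: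
`h = bal' f - (cell test)` is carried by own pins + guard (`T32.pn_bal_supp`;  `t κ = 0` off `S23.fine r (p ∩ Γ.T)`: `pn_sb_CT_eval`, `pn_sb_CT_zero`, `Sec.sec_gr_cell_sub`). -/
theorem pn_pot_ea_bal_res (Γ : CGeom m₁ m₂) {N : ℕ} (row : Fin N → Cell m₁ m₂ → ℝ) (K : ℕ) (g : ℕ → DGrid m₁ m₂) (ν : ℕ → ℕ)
    (hg : Admissible K g ν) {a : ℝ} (ha : 0 < a) (hPD : ∀ k, plPD (lawR Γ (g k) row) (Γ.sites (g k) Γ.pin)) (A p : Finset (Cell m₁ m₂))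
    (hsep : C3.Sep A p) (F : Finset (Cell m₁ m₂ × Bool)) (hF : ∀ f ∈ F, FaceIn A f) (hΓ' : (uncut Γ F).NoDiag) {N' : ℕ}
    (row' : Fin (N + N') → Cell m₁ m₂ → ℝ) (hr : ∀ o, row' (Fin.castAdd N' o) = row o) (hr' : ∀ o, ∀ κ ∉ A, row' (Fin.natAdd N o) κ = 0)
    (f : ∀ k, (Γ.graph (g k)).V → ℝ) (Cf : ℝ) (hf : ∀ᶠ k in atTop, ∀ x, |f k x| ≤ Cf / (ν k : ℝ) ^ 2) {ε : ℝ} (hε : 0 < ε) :
    ∃ r₀ : ℕ, 0 < r₀ ∧ ∀ r, r₀ ≤ r → ∃ t : ℕ → Cell (r * m₁) (r * m₂) → ℝ, (∃ C : ℝ, ∀ k κ, |t k κ| ≤ C) ∧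
      ∀ᶠ k in atTop, (lawR Γ (g k) row).gVar 1 (ppBalU Γ F (g k) row' a (Γ.sites (g k) Γ.pin ∪ Γ.sites (g k) p) (f k)
        - ppCT Γ (g k) r (t k)) ≤ ε := by
  have hPD' : ∀ k, plPD (lawR (uncut Γ F) (g k) row') ((uncut Γ F).sites (g k) (uncut Γ F).pin) := fun k =>
    pn_pot_ext_PD (T32.extU Γ row F row' (g k) A hF hr hr') (hPD k)
  obtain ⟨Cc', hCc'0, hco'⟩ := pn_pot_coer (uncut Γ F) row' K ha (g 0) (hPD' 0)
  obtain ⟨Cc, hCc0, hco⟩ := pn_pot_coer Γ row K ha (g 0) (hPD 0)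
  obtain ⟨C, hC0, hres⟩ := pn_pot_res_cost Γ row K ha A p hsep F hF row' hr hr' hCc0
  obtain ⟨V₀, hV₀⟩ : ∃ V₀ : ℝ, V₀ = Cc' * ((m₁ * m₂ : ℕ) * (K : ℝ) ^ 2) * Cf ^ 2 := ⟨_, rfl⟩
  have hV₀0 : 0 ≤ V₀ := by rw [hV₀]; positivity
  obtain ⟨M, hM⟩ : ∃ M : ℝ, M = max a⁻¹ 1 := ⟨_, rfl⟩
  have hM0 : 0 < M := by rw [hM]; exact lt_of_lt_of_le one_pos (le_max_right _ _)
  have hden : 0 < M * (C + 1) * (V₀ + Cf ^ 2 + 1) := by positivity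
  obtain ⟨w, r₀, hr₀, hgrid⟩ := pn_pot_bal_grid (uncut Γ F) hΓ' K ha (∑ o, ∑ κ, row' o κ ^ 2)
    (ε := ε / (M * (C + 1) * (V₀ + Cf ^ 2 + 1))) (by positivity)
  refine ⟨r₀, hr₀, fun r hrr => ?_⟩
  have hr0 : 0 < r := lt_of_lt_of_le hr₀ hrr
  -- the good indices
  have hex : ∀ k, (max r 6 ≤ ν k ∧ ∀ x, |f k x| ≤ Cf / (ν k : ℝ) ^ 2) →
      ∃ t : Cell (r * m₁) (r * m₂) → ℝ, (∀ κ, |t κ| ≤ Real.sqrt (w ^ 2 * V₀)) ∧
        (lawR Γ (g k) row).gVar 1 (ppBalU Γ F (g k) row' a (Γ.sites (g k) Γ.pin ∪ Γ.sites (g k) p) (f k) - ppCT Γ (g k) r t) ≤ ε := by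
    rintro k ⟨hk, hfk⟩
    have hkr : r ≤ ν k := le_trans (le_max_left _ _) hk
    have hk6 : 6 ≤ ν k := le_trans (le_max_right _ _) hk
    have hk1 : 1 ≤ ν k := by omega
    obtain ⟨hge, hle⟩ := hg.2 k
    obtain ⟨t, ht1, ht2, ht3⟩ := hgrid r hrr (g k) (ν k) hkr hge hle (lawR (uncut Γ F) (g k) row')
      (fun x => pn_pg_row_dens (uncut Γ F) (g k) row' hk1 hge x) p ((uncut Γ F).sites (g k) (uncut Γ F).pin) (hPD' k) (f k) Cf hfk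
    have hvar : (plPin (lawR (uncut Γ F) (g k) row') ((uncut Γ F).sites (g k) (uncut Γ F).pin)).gVar a (f k) ≤ V₀ := by
      rw [hV₀]
      exact pn_pot_var_le (uncut Γ F) (g k) hk1 hle (lawR (uncut Γ F) (g k) row') ha hCc'0 (hco' (g k) (ν k) hk1 hge hle) (f k) hfk
    refine ⟨t, fun κ => Real.abs_le_sqrt ((ht1 κ).trans (mul_le_mul_of_nonneg_left hvar (sq_nonneg _))), ?_⟩
    obtain ⟨-, href, -, -⟩ := pn_pot_sub hr0 hkr hge hle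
    have hsupp : ∀ y, (ppBalU Γ F (g k) row' a (Γ.sites (g k) Γ.pin ∪ Γ.sites (g k) p) (f k) - ppCT Γ (g k) r t) y ≠ 0 →
        y ∈ Γ.sites (g k) Γ.pin ∪ Γ.sites (g k) p := by
      intro y hy
      by_contra hn
      apply hy
      have h1 : ppBalU Γ F (g k) row' a (Γ.sites (g k) Γ.pin ∪ Γ.sites (g k) p) (f k) y = 0 :=
        T32.pn_bal_supp (G := (uncut Γ F).graph (g k)) (lawR (uncut Γ F) (g k) row') a _ (f k) y hn
      have h2 : ppCT Γ (g k) r t y = 0 := pn_pot_CT_supp Γ (g k) href p t ht2 y fun h => hn (Or.inr h)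
      rw [Pi.sub_apply, h1, h2, sub_zero]
    have c1 := pn_pot_gVar_one_le (lawR Γ (g k) row) ha
      (ppBalU Γ F (g k) row' a (Γ.sites (g k) Γ.pin ∪ Γ.sites (g k) p) (f k) - ppCT Γ (g k) r t)
    have c2 := hres (g k) (ν k) hk6 hge hle (hco (g k) (ν k) hk1 hge hle) _ hsupp
    have c3 : ppVarU Γ F (g k) row' a (Γ.sites (g k) Γ.pin)
        (ppBalU Γ F (g k) row' a (Γ.sites (g k) Γ.pin ∪ Γ.sites (g k) p) (f k) - ppCT Γ (g k) r t)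
        ≤ ε / (M * (C + 1) * (V₀ + Cf ^ 2 + 1)) * (V₀ + Cf ^ 2) :=
      le_trans ht3 (mul_le_mul_of_nonneg_left (by linarith) (by positivity))
    rw [← hM] at c1
    have c4 : M * (C * (ε / (M * (C + 1) * (V₀ + Cf ^ 2 + 1)) * (V₀ + Cf ^ 2))) ≤ ε := by
      have e1 : M * (C * (ε / (M * (C + 1) * (V₀ + Cf ^ 2 + 1)) * (V₀ + Cf ^ 2)))
          = ε * ((C / (C + 1)) * ((V₀ + Cf ^ 2) / (V₀ + Cf ^ 2 + 1))) := by
        field_simp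
      rw [e1]
      have f1 : C / (C + 1) ≤ 1 := by rw [div_le_one (by positivity)]; linarith
      have f2 : (V₀ + Cf ^ 2) / (V₀ + Cf ^ 2 + 1) ≤ 1 := by rw [div_le_one (by positivity)]; linarith
      have f3 : 0 ≤ (V₀ + Cf ^ 2) / (V₀ + Cf ^ 2 + 1) := by positivity
      have f4 : (C / (C + 1)) * ((V₀ + Cf ^ 2) / (V₀ + Cf ^ 2 + 1)) ≤ 1 := by
        calc _ ≤ 1 * ((V₀ + Cf ^ 2) / (V₀ + Cf ^ 2 + 1)) := mul_le_mul_of_nonneg_right f1 f3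
          _ ≤ 1 := by rw [one_mul]; exact f2
      calc ε * _ ≤ ε * 1 := mul_le_mul_of_nonneg_left f4 hε.le
        _ = ε := mul_one _
    calc _ ≤ M * (lawR Γ (g k) row).gVar a _ := c1
      _ ≤ M * (C * ppVarU Γ F (g k) row' a (Γ.sites (g k) Γ.pin) _) := mul_le_mul_of_nonneg_left c2 hM0.le
      _ ≤ M * (C * (ε / (M * (C + 1) * (V₀ + Cf ^ 2 + 1)) * (V₀ + Cf ^ 2))) :=
          mul_le_mul_of_nonneg_left (mul_le_mul_of_nonneg_left c3 hC0) hM0.le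
      _ ≤ ε := c4
  refine ⟨fun k => if h : (max r 6 ≤ ν k ∧ ∀ x, |f k x| ≤ Cf / (ν k : ℝ) ^ 2) then (hex k h).choose else 0,
    ⟨Real.sqrt (w ^ 2 * V₀), fun k κ => ?_⟩, ?_⟩
  · by_cases h : (max r 6 ≤ ν k ∧ ∀ x, |f k x| ≤ Cf / (ν k : ℝ) ^ 2)
    · simp only [dif_pos h]
      exact (hex k h).choose_spec.1 κ
    · simp only [dif_neg h, Pi.zero_apply, abs_zero]
      exact Real.sqrt_nonneg _
  · filter_upwards [hf, hg.1.eventually_ge_atTop (max r 6)] with k h1 h2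
    have h : (max r 6 ≤ ν k ∧ ∀ x, |f k x| ≤ Cf / (ν k : ℝ) ^ 2) := ⟨h2, h1⟩
    simp only [dif_pos h]
    exact (hex k h).choose_spec.2

/-! ## 2. Probes (P2) -/

/-- the probes: `w ·` (average over a level-`r` cell of `A`);  zero if the grid is too coarse for the subdivision -/
def ppProbe (Γ : CGeom m₁ m₂) (g : DGrid m₁ m₂) (r : ℕ) (A : Finset (Cell m₁ m₂)) (w : ℝ) :
    Fin (S23.fine r (A ∩ Γ.T)).card → (Γ.graph g).V → ℝ :=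
  fun d => if sbOK r g then psSoftD (D := g.region Γ.T) (cut := Γ.cutB g) (pgBoxes (sbG r g) (S23.fine r (A ∩ Γ.T))) (fun _ => w) d else 0

theorem pn_pot_defs_cite : True := by
  have := @ppCT.eq_1; have := @ppBalU.eq_1; have := @ppVarU.eq_1; have := @ppProbe.eq_1; trivial

/-- the value of a probe on a good grid -/
theorem pn_pot_probe_val (Γ : CGeom m₁ m₂) (g : DGrid m₁ m₂) {r : ℕ} (h : sbOK r g) (A : Finset (Cell m₁ m₂)) (w : ℝ) (d : Fin (S23.fine r (A ∩ Γ.T)).card)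
    (x : (Γ.graph g).V) : ppProbe Γ g r A w d x
      = w * psAvg ((sbG r g).cell ((S23.fine r (A ∩ Γ.T)).equivFin.symm d).1) (domPos (D := g.region Γ.T) (cut := Γ.cutB g) x) := by
  have e : ppProbe Γ g r A w d = psSoftD (D := g.region Γ.T) (cut := Γ.cutB g) (pgBoxes (sbG r g) (S23.fine r (A ∩ Γ.T))) (fun _ => w) d := by
    unfold ppProbe
    exact if_pos h
  exact (congrFun e x).trans (pn_pg_soft_val (D := g.region Γ.T) (cut := Γ.cutB g) (sbG r g) (S23.fine r (A ∩ Γ.T)) w d x)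

/-- **L-PP-E0** (~200 l. for the three).  (`pn_pg_box_set`, `Sec.sec_gr_cell_sub`, `pn_sb_refines`; `r = 0`: there is no index `d`.) -/
theorem pn_pot_probe_supp (Γ : CGeom m₁ m₂) (g : DGrid m₁ m₂) (r : ℕ) (A : Finset (Cell m₁ m₂)) (w : ℝ) (d : Fin (S23.fine r (A ∩ Γ.T)).card)
    (x : (Γ.graph g).V) (hx : x ∉ Γ.sites g A) : ppProbe Γ g r A w d x = 0 := by
  by_cases h : sbOK r g
  · rw [pn_pot_probe_val Γ g h]
    obtain ⟨κ, hκ⟩ : ∃ κ, κ = (S23.fine r (A ∩ Γ.T)).equivFin.symm d := ⟨_, rfl⟩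
    rw [← hκ]
    have hr : 0 < r := by
      rcases Nat.eq_zero_or_pos r with rfl | hr
      · have := κ.1.1.2
        omega
      · exact hr
    have hm : S23.coarse r κ.1 ∈ A ∩ Γ.T := by
      have := κ.2
      unfold S23.fine at this
      simpa only [Finset.mem_filter, Finset.mem_univ, true_and] using this
    unfold psAvg
    rw [if_neg, mul_zero]
    intro hz
    apply hx
    have h1 := Sec.sec_gr_cell_sub (pn_sb_refines hr h) κ.1 hz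
    exact Finset.mem_coe.2 (Finset.mem_biUnion.2 ⟨_, (Finset.mem_inter.1 hm).1, h1⟩)
  · have e : ppProbe Γ g r A w d = 0 := by
      unfold ppProbe
      exact if_neg h
    rw [e]
    rfl

/-- the probes are level-`r` cell tests with FIXED coefficients (`pn_pg_soft_CT`) -/
theorem pn_pot_probe_CT (Γ : CGeom m₁ m₂) (g : DGrid m₁ m₂) {r : ℕ} (h : sbOK r g) (A : Finset (Cell m₁ m₂)) (w : ℝ) (d : Fin (S23.fine r (A ∩ Γ.T)).card) :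
    ppProbe Γ g r A w d = ppCT Γ g r (Pi.single ((S23.fine r (A ∩ Γ.T)).equivFin.symm d).1 w) := by
  have e : ppProbe Γ g r A w d = psSoftD (D := g.region Γ.T) (cut := Γ.cutB g) (pgBoxes (sbG r g) (S23.fine r (A ∩ Γ.T))) (fun _ => w) d := by
    unfold ppProbe
    exact if_pos h
  refine e.trans ?_
  unfold ppCT
  refine pn_pg_soft_CT (S23.fine r Γ.T) (sbG r g) (fun κ hκ => ?_) w d
  unfold S23.fine at hκ ⊢
  simp only [Finset.mem_filter, Finset.mem_univ, true_and] at hκ ⊢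
  exact (Finset.mem_inter.1 hκ).2

/-- (`|cell| ≥ (ν/r)² ≥ ν²/(2r)²`: `pn_pot_sub`, `pn_pg_card_ge`) -/
theorem pn_pot_probe_dens (Γ : CGeom m₁ m₂) (g : DGrid m₁ m₂) {r ν K : ℕ} (hr : 0 < r) (hν : r ≤ ν) (h1 : g.SideGe ν) (h2 : g.SideLe (K * ν))
    (A : Finset (Cell m₁ m₂)) (w : ℝ) (d : Fin (S23.fine r (A ∩ Γ.T)).card) (x : (Γ.graph g).V) :
    |ppProbe Γ g r A w d x| ≤ 4 * |w| * (r : ℝ) ^ 2 / (ν : ℝ) ^ 2 := by
  obtain ⟨hok, -, hge, -⟩ := pn_pot_sub hr hν h1 h2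
  rw [pn_pot_probe_val Γ g hok, abs_mul]
  obtain ⟨κ, hκ⟩ : ∃ κ, κ = ((S23.fine r (A ∩ Γ.T)).equivFin.symm d).1 := ⟨_, rfl⟩
  rw [← hκ]
  have hc := pn_pg_card_ge (sbG r g) κ hge
  obtain ⟨q, hq⟩ : ∃ q : ℕ, q = ν / r := ⟨_, rfl⟩
  rw [← hq] at hc
  have hq1 : 1 ≤ q := by rw [hq]; exact (Nat.one_le_div_iff hr).2 hν
  have hq2 : ν ≤ 2 * r * q := by
    have := Nat.lt_mul_div_succ ν hr
    rw [← hq] at this
    nlinarith
  have hqR : (0 : ℝ) < q := by exact_mod_cast hq1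
  have hrR : (0 : ℝ) < r := by exact_mod_cast hr
  have hνR : (0 : ℝ) < ν := by exact_mod_cast (lt_of_lt_of_le hr hν)
  have hq2R : (ν : ℝ) ≤ 2 * r * q := by exact_mod_cast hq2
  have hA : |psAvg ((sbG r g).cell κ) (domPos x)| ≤ ((q : ℝ) ^ 2)⁻¹ := by
    unfold psAvg
    split_ifs
    · rw [abs_of_nonneg (by positivity)]
      exact inv_anti₀ (by positivity) hc
    · rw [abs_zero]; positivity
  have hB : ((q : ℝ) ^ 2)⁻¹ ≤ 4 * (r : ℝ) ^ 2 / (ν : ℝ) ^ 2 := by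
    rw [inv_eq_one_div, div_le_div_iff₀ (by positivity) (by positivity)]
    have : (ν : ℝ) ^ 2 ≤ (2 * r * q) ^ 2 := pow_le_pow_left₀ hνR.le hq2R 2
    nlinarith
  calc |w| * |psAvg ((sbG r g).cell κ) (domPos x)| ≤ |w| * (4 * (r : ℝ) ^ 2 / (ν : ℝ) ^ 2) :=
        mul_le_mul_of_nonneg_left (hA.trans hB) (abs_nonneg _)
    _ = 4 * |w| * (r : ℝ) ^ 2 / (ν : ℝ) ^ 2 := by ring

/-- **L-PP-E1** (~300 l.).  ONE GRID.   Chart `(S23.refine 2 Γ, sbG 2 g)` (`Sec.noDiag_refine`, `pn_pg_chart`, `pn_pot_sub` with `r = 2`), `ν₂ = ν/2 ≥ 3`, `ν₂ ≤ ν ≤ 3 ν₂`;  `lam, σ` from `ps_probe_pin_chart (S23.refine 2 Γ) _ (2K+1) N ha CB (9 Cc) hε`;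
`w = 3 (2K+1) √lam`, `r₀ = ⌈3 (2K+1)/σ⌉₊ + 1`.   Layers around the guard: `pn_pg_lay (S23.refine 2 Γ) (S23.fine 2 p) 0`, `pn_pg_far` + `pn_pg_sep_ball` (`j = 2`) for `S23.fine 2 (A ∩ Γ.T)` (`pn_pg_sep_mono`);
boxes: `pn_pg_part_nest` (`c = 2`), `s = (2K+1)(ν/r) ≤ σ ν₂`, `lam |b_i| ≤ lam s² ≤ w² ν₂²`;  `psSitesD (sbG 2 g) (S23.fine 2 (A ∩ Γ.T)) = Γ.sites g A` (`pn_pg_sites`, `pn_pg_sites_inter`);  `ppProbe = psSoftD ..` (`if_pos`). -/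
theorem pn_pot_probe_grid (Γ : CGeom m₁ m₂) (hΓ : Γ.NoDiag) (K N : ℕ) {a : ℝ} (ha : 0 < a) (CB Cc : ℝ) (A p : Finset (Cell m₁ m₂)) (hsep : C3.Sep A p)
    {ε : ℝ} (hε : 0 < ε) :
    ∃ (w : ℝ) (r₀ : ℕ), 0 < r₀ ∧ ∀ r, r₀ ≤ r → 2 ∣ r → ∀ (g : DGrid m₁ m₂) (ν : ℕ), 6 ≤ ν → r ≤ ν → g.SideGe ν → g.SideLe (K * ν) →
    ∀ H : HLaw (Γ.graph g), Fintype.card H.O ≤ N → (∀ x, ∑ o, H.B o x ^ 2 ≤ CB / (ν : ℝ) ^ 4) → ∀ P : Set (Γ.graph g).V,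
    (∀ v : (Γ.graph g).V → ℝ, (∀ x ∈ P, v x = 0) → ∑ x, v x ^ 2 ≤ Cc * (ν : ℝ) ^ 2 * H.form a v) →
    (psAdd H (ppProbe Γ g r A w)).gPin a P (Γ.sites g A) (Γ.sites g p) ≤ ε := by
  obtain ⟨lam, σ, hlam, hσ, hmain⟩ := ps_probe_pin_chart (S23.refine 2 Γ) (Sec.noDiag_refine Γ hΓ 2) (2 * K + 1) N ha (max CB 0) (9 * max Cc 0) hε
  refine ⟨3 * (2 * K + 1 : ℕ) * Real.sqrt lam, ⌈3 * ((2 * K + 1 : ℕ) : ℝ) / σ⌉₊ + 1, Nat.succ_pos _, ?_⟩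
  intro r hr h2r g ν h6 hrν hge hle H hN hB P hco
  have hr0 : 0 < r := lt_of_lt_of_le (Nat.succ_pos _) hr
  obtain ⟨hok2, href2, hge2, hle2⟩ := pn_pot_sub (r := 2) (by norm_num) (by omega) hge hle
  obtain ⟨hokr, hrefr, hger, hler⟩ := pn_pot_sub hr0 hrν hge hle
  obtain ⟨ν₂, hν₂⟩ : ∃ ν₂ : ℕ, ν₂ = ν / 2 := ⟨_, rfl⟩
  rw [← hν₂] at hge2 hle2
  have h3 : 3 ≤ ν₂ := by omega
  have hle' : ν₂ ≤ ν := by omega
  have hle3 : ν ≤ 3 * ν₂ := by omega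
  have hν0 : (0 : ℝ) < ν := by exact_mod_cast (by omega : 0 < ν)
  have hν₂0 : (0 : ℝ) < ν₂ := by exact_mod_cast (by omega : 0 < ν₂)
  have hleR : (ν₂ : ℝ) ≤ ν := by exact_mod_cast hle'
  have hle3R : (ν : ℝ) ≤ 3 * ν₂ := by exact_mod_cast hle3
  have hsepA := pn_pg_sep_ball (pn_pg_sep_mono hsep (Finset.inter_subset_left (s₂ := Γ.T)) (Finset.Subset.refl p)) (r := 2) (j := 2) le_rfl
  obtain ⟨hOut, hDis⟩ := pn_pg_far (S23.refine 2 Γ) (S23.fine 2 p) 0 hsepA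
  have hAT : S23.fine 2 (A ∩ Γ.T) ⊆ (S23.refine 2 Γ).T := by
    intro κ hκ
    have h1 : S23.coarse 2 κ ∈ A ∩ Γ.T := (Finset.mem_filter.1 hκ).2
    exact Finset.mem_filter.2 ⟨Finset.mem_univ _, (Finset.mem_inter.1 h1).2⟩
  have hp : Γ.sites g p ⊆ psSitesD (D := g.region Γ.T) (cut := Γ.cutB g) (sbG 2 g) (shBall (S23.fine 2 p) 0) := by
    rw [← pn_pg_sites href2 Γ p]
    exact pn_pg_sitesD_mono _ (pn_pg_sub_ball _ 0)
  have hB' : ∀ x, ∑ o, H.B o x ^ 2 ≤ max CB 0 / (ν₂ : ℝ) ^ 4 := by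
    intro x
    refine (hB x).trans ?_
    calc CB / (ν : ℝ) ^ 4 ≤ max CB 0 / (ν : ℝ) ^ 4 := div_le_div_of_nonneg_right (le_max_left _ _) (by positivity)
      _ ≤ max CB 0 / (ν₂ : ℝ) ^ 4 :=
          div_le_div_of_nonneg_left (le_max_right _ _) (by positivity) (pow_le_pow_left₀ hν₂0.le hleR 4)
  have hco' : ∀ v : (Γ.graph g).V → ℝ, (∀ x ∈ P, v x = 0) → ∑ x, v x ^ 2 ≤ 9 * max Cc 0 * (ν₂ : ℝ) ^ 2 * H.form a v := by
    intro v hv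
    have hf0 := pl_form_nonneg H ha v
    have hsq : (ν : ℝ) ^ 2 ≤ 9 * (ν₂ : ℝ) ^ 2 := by
      have := pow_le_pow_left₀ hν0.le hle3R 2
      calc (ν : ℝ) ^ 2 ≤ (3 * (ν₂ : ℝ)) ^ 2 := this
        _ = 9 * (ν₂ : ℝ) ^ 2 := by ring
    calc ∑ x, v x ^ 2 ≤ Cc * (ν : ℝ) ^ 2 * H.form a v := hco v hv
      _ ≤ max Cc 0 * (ν : ℝ) ^ 2 * H.form a v :=
          mul_le_mul_of_nonneg_right (mul_le_mul_of_nonneg_right (le_max_left _ _) (by positivity)) hf0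
      _ ≤ max Cc 0 * (9 * (ν₂ : ℝ) ^ 2) * H.form a v :=
          mul_le_mul_of_nonneg_right (mul_le_mul_of_nonneg_left hsq (le_max_right _ _)) hf0
      _ = _ := by ring
  have hpart := pn_pg_part_nest (c := 2) (by norm_num) h2r hr0 hokr (A ∩ Γ.T) hler
  -- the size of the boxes
  have hq : ((ν / r : ℕ) : ℝ) ≤ (ν : ℝ) / r := Nat.cast_div_le
  have hrR : (0 : ℝ) < r := by exact_mod_cast hr0
  have hK0 : (0 : ℝ) < ((2 * K + 1 : ℕ) : ℝ) := by exact_mod_cast Nat.succ_pos _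
  have hrσ : 3 * ((2 * K + 1 : ℕ) : ℝ) ≤ σ * r := by
    have h1 : 3 * ((2 * K + 1 : ℕ) : ℝ) / σ ≤ r := by
      refine (Nat.le_ceil _).trans ?_
      exact_mod_cast (Nat.le_succ _).trans hr
    rw [div_le_iff₀ hσ] at h1
    linarith
  have hs : (((2 * K + 1) * (ν / r) : ℕ) : ℝ) ≤ σ * ν₂ := by
    rw [Nat.cast_mul]
    calc ((2 * K + 1 : ℕ) : ℝ) * ((ν / r : ℕ) : ℝ) ≤ ((2 * K + 1 : ℕ) : ℝ) * ((ν : ℝ) / r) := mul_le_mul_of_nonneg_left hq hK0.le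
      _ ≤ ((2 * K + 1 : ℕ) : ℝ) * ((3 * ν₂ : ℝ) / r) :=
          mul_le_mul_of_nonneg_left (div_le_div_of_nonneg_right hle3R hrR.le) hK0.le
      _ = (3 * ((2 * K + 1 : ℕ) : ℝ)) * ν₂ / r := by ring
      _ ≤ (σ * r) * ν₂ / r := div_le_div_of_nonneg_right (mul_le_mul_of_nonneg_right hrσ hν₂0.le) hrR.le
      _ = σ * ν₂ := by field_simp
  have hs2 : (((2 * K + 1) * (ν / r) : ℕ) : ℝ) ≤ 3 * ((2 * K + 1 : ℕ) : ℝ) * ν₂ := by
    rw [Nat.cast_mul]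
    have h1 : ((ν / r : ℕ) : ℝ) ≤ ν := by exact_mod_cast Nat.div_le_self ν r
    calc ((2 * K + 1 : ℕ) : ℝ) * ((ν / r : ℕ) : ℝ) ≤ ((2 * K + 1 : ℕ) : ℝ) * (3 * ν₂) := mul_le_mul_of_nonneg_left (h1.trans hle3R) hK0.le
      _ = _ := by ring
  have hcard : ∀ i, lam * (((pgBoxes (sbG r g) (S23.fine r (A ∩ Γ.T))) i).set.card : ℝ)
      ≤ (fun _ : Fin (S23.fine r (A ∩ Γ.T)).card => 3 * ((2 * K + 1 : ℕ) : ℝ) * Real.sqrt lam) i ^ 2 * (ν₂ : ℝ) ^ 2 := by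
    intro i
    have h1 : (((pgBoxes (sbG r g) (S23.fine r (A ∩ Γ.T))) i).set.card : ℝ) ≤ (((2 * K + 1) * (ν / r) : ℕ) : ℝ) ^ 2 := by
      unfold pgBoxes
      rw [pn_pg_box_set]
      exact pn_pg_card_le _ _ hler
    have h2 : (((2 * K + 1) * (ν / r) : ℕ) : ℝ) ^ 2 ≤ (3 * ((2 * K + 1 : ℕ) : ℝ) * ν₂) ^ 2 := pow_le_pow_left₀ (Nat.cast_nonneg _) hs2 2
    calc lam * _ ≤ lam * (3 * ((2 * K + 1 : ℕ) : ℝ) * ν₂) ^ 2 := mul_le_mul_of_nonneg_left (h1.trans h2) hlam.le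
      _ = (3 * ((2 * K + 1 : ℕ) : ℝ) * Real.sqrt lam) ^ 2 * (ν₂ : ℝ) ^ 2 := by
          rw [mul_pow _ (Real.sqrt lam), Real.sq_sqrt hlam.le]
          ring
  have key := (hmain (g.region Γ.T) (Γ.cutB g) (sbG 2 g) (pn_pg_chart href2 Γ) ν₂ h3 hge2 hle2 H hN hB' _ _ _
    (pn_pg_lay (S23.refine 2 Γ) (S23.fine 2 p) 0) (S23.fine 2 (A ∩ Γ.T)) hAT hOut hDis P (Γ.sites g p) hp hco'
    (Fin (S23.fine r (A ∩ Γ.T)).card) (pgBoxes (sbG r g) (S23.fine r (A ∩ Γ.T))) (fun _ => 3 * ((2 * K + 1 : ℕ) : ℝ) * Real.sqrt lam)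
    ((2 * K + 1) * (ν / r)) hpart hs hcard).2
  rw [pn_pg_sites href2 Γ (A ∩ Γ.T), pn_pg_sites_inter] at key
  have e : ppProbe Γ g r A (3 * ((2 * K + 1 : ℕ) : ℝ) * Real.sqrt lam)
      = psSoftD (D := g.region Γ.T) (cut := Γ.cutB g) (pgBoxes (sbG r g) (S23.fine r (A ∩ Γ.T))) (fun _ => 3 * ((2 * K + 1 : ℕ) : ℝ) * Real.sqrt lam) := by
    funext d
    unfold ppProbe
    exact if_pos hokr
  rw [e]
  exact key

/-- **L-PP-E2** (~120 l., GLUE).  **the field `gap` of `T32.ProbeOK`.**   `ε' = log (1 + ε)`;  `pn_pot_coer`, `pn_pg_row_dens`, `pn_pot_probe_grid`, `pn_pot_gzr` (`hR`: `pn_pot_probe_supp`; `hd`: `pn_pg_sites_disj`, `A` and `p` are disjoint by `hsep`). -/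
theorem pn_pot_probe (Γ : CGeom m₁ m₂) (hΓ : Γ.NoDiag) {N : ℕ} (row : Fin N → Cell m₁ m₂ → ℝ) (K : ℕ) (g : ℕ → DGrid m₁ m₂) (ν : ℕ → ℕ)
    (hg : Admissible K g ν) {a : ℝ} (ha : 0 < a) (hPD : ∀ k, plPD (lawR Γ (g k) row) (Γ.sites (g k) Γ.pin)) (A p : Finset (Cell m₁ m₂))
    (hsep : C3.Sep A p) {ε : ℝ} (hε : 0 < ε) :
    ∃ (w : ℝ) (r₀ : ℕ), 0 < r₀ ∧ ∀ r, r₀ ≤ r → 2 ∣ r → ∀ᶠ k in atTop,
      T32.gzr (lawR Γ (g k) row) (ppProbe Γ (g k) r A w) a (Γ.sites (g k) Γ.pin) 0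
          / T32.gzr (lawR Γ (g k) row) (ppProbe Γ (g k) r A w) a (Γ.sites (g k) Γ.pin ∪ Γ.sites (g k) p) 0
        - Real.exp (-(lawR Γ (g k) row).gPin a (Γ.sites (g k) Γ.pin) (Γ.sites (g k) A) (Γ.sites (g k) p)) ≤ ε := by
  obtain ⟨Cc, -, hco⟩ := pn_pot_coer Γ row K ha (g 0) (hPD 0)
  have hε' : 0 < Real.log (1 + ε) := Real.log_pos (by linarith)
  obtain ⟨w, r₀, hr₀, h⟩ := pn_pot_probe_grid Γ hΓ K N ha (∑ o, ∑ κ, row o κ ^ 2) Cc A p hsep hε'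
  refine ⟨w, r₀, hr₀, fun r hr h2 => ?_⟩
  filter_upwards [hg.1.eventually_ge_atTop (max 6 r)] with k hk
  have hk6 : 6 ≤ ν k := le_trans (le_max_left _ _) hk
  have hkr : r ≤ ν k := le_trans (le_max_right _ _) hk
  have key := h r hr h2 (g k) (ν k) hk6 hkr (hg.2 k).1 (hg.2 k).2 (lawR Γ (g k) row) (le_of_eq (Fintype.card_fin N))
    (fun x => pn_pg_row_dens Γ (g k) row (by omega) (hg.2 k).1 x) (Γ.sites (g k) Γ.pin)
    (hco (g k) (ν k) (by omega) (hg.2 k).1 (hg.2 k).2)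
  have hdis : Disjoint A p := by
    rw [Finset.disjoint_left]
    intro κ h1 h2
    have := hsep κ h1 κ h2
    omega
  have h3 := pn_pot_gzr (lawR Γ (g k) row) (ppProbe Γ (g k) r A w) ha (hPD k) (Γ.sites (g k) A) (Γ.sites (g k) p)
    (fun i x hx => by
      by_contra hx'
      exact hx (pn_pot_probe_supp Γ (g k) r A w i x hx'))
    (by rw [pn_pg_sites_disj Γ (g k) hdis]; exact Set.empty_subset _) key
  rw [Real.exp_log (by linarith)] at h3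
  linarith

/-! ## 3. The band law (P3) -/

theorem pn_pot_band_sideLe_mono {g : DGrid m₁ m₂} {n n' : ℕ} (hn : n ≤ n') (h : g.SideLe n) : g.SideLe n' :=
  ⟨fun i => (h.1 i).trans (by exact_mod_cast hn), fun j => (h.2 j).trans (by exact_mod_cast hn)⟩

/-- **L-PP-F1** (~300 l.).  **The Gaussian pin interaction of the band law tends to `0`**, uniformly in the mesh and in the geometry.   MEDIUM geometry `Γ : CGeom n₁ n₂`, fine chart `(S23.refine s Γ, g')` of the graph `domG D cut`; band `pgKb Γ X j` around `X`.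
`rintro ⟨rfl, rfl⟩`.   `lam₀', σ` from `ps_band_pin_chart n₁ n₂ (K+1) 0 ha 0 ((K+1)²) hε`, applied with `lam' = lam/(K+1)²`:  `lam₀ = lam₀' (K+1)²`, `s₀ = max 3 (⌈(K+1)/σ⌉₊ + 1)`.
Chart: `pn_pg_chart' (pn_pg_med_refines ..) Γ`, medium scale `s ν ≥ 3`, `pn_pg_med_side`;  `H = lawR (S23.refine s Γ) g' C3.noRow` (no rows: `Fintype.card (Fin 0) = 0`, empty sums);  layers `pn_pg_lay Γ X j`, `pn_pg_far`, `pn_pg_sub_ball`;
boxes `pgBoxes g' (S23.fine s (pgKb Γ X j))`: `pn_pg_part`, box side `≤ K ν ≤ σ (s ν)`;  `w = √lam / s`: `w² (s ν)² = lam ν²`, `ν² ≤ |b_i| ≤ (K+1)² ν²` (`pn_pg_card_ge/le`);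
`pn_pg_band_eqv` (the rows of `sbLaw` and of `lawR` agree by `rfl`; `psEqv` does not see the lattice), `ps_eqv_gPin`, `ps_eqv_PD`;  `pn_pg_sites'`. -/
theorem pn_pot_band (n₁ n₂ K : ℕ) {a : ℝ} (ha : 0 < a) {ε : ℝ} (hε : 0 < ε) :
    ∃ lam₀ : ℝ, 0 < lam₀ ∧ ∀ lam : ℝ, lam₀ ≤ lam → ∃ s₀ : ℕ, ∀ s, s₀ ≤ s → ∀ (D : Finset (ℤ × ℤ)) (cut : Set Bond) (Γ : CGeom n₁ n₂)
      (g' : DGrid (s * n₁) (s * n₂)), PsChart D cut (S23.refine s Γ) g' → ∀ ν : ℕ, 1 ≤ ν → g'.SideGe ν → g'.SideLe (K * ν) →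
    ∀ (X : Finset (Cell n₁ n₂)) (j : ℕ) (P₀ : Set (ℤ × ℤ)) (P : Set (domG D cut).V),
      plPD (sbLaw D cut P₀ fun o => sbCT (S23.fine s Γ.T) g' (shRow s (pgKb Γ X j) lam o)) P →
    ∀ A : Finset (Cell n₁ n₂), Disjoint A (shBall X (j + 2)) →
      (sbLaw D cut P₀ fun o => sbCT (S23.fine s Γ.T) g' (shRow s (pgKb Γ X j) lam o)).gPin a P
        (psSitesD g' (S23.fine s A)) (psSitesD g' (S23.fine s X)) ≤ ε := by
  obtain ⟨lam₀', h0', h⟩ := ps_band_pin_chart n₁ n₂ (K + 1) 0 ha 0 (((K : ℝ) + 1) ^ 2) hε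
  have hK1 : (0 : ℝ) < ((K : ℝ) + 1) ^ 2 := by positivity
  refine ⟨lam₀' * ((K : ℝ) + 1) ^ 2, by positivity, fun lam hlam => ?_⟩
  have hlam0 : 0 < lam := lt_of_lt_of_le (by positivity) hlam
  have hlam' : lam₀' ≤ lam / ((K : ℝ) + 1) ^ 2 := by rwa [le_div_iff₀ hK1]
  obtain ⟨σ, hσ, h'⟩ := h (lam / ((K : ℝ) + 1) ^ 2) hlam'
  refine ⟨max 3 (⌈((K : ℝ) + 1) / σ⌉₊ + 1), fun s hs => ?_⟩
  have hs3 : 3 ≤ s := le_trans (le_max_left _ _) hs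
  have hs0 : 0 < s := by omega
  have hsσ : (K : ℝ) + 1 ≤ σ * s := by
    have h1 : ⌈((K : ℝ) + 1) / σ⌉₊ ≤ s := by have := le_trans (le_max_right _ _) hs; omega
    have h2 : ((K : ℝ) + 1) / σ ≤ s := (Nat.le_ceil _).trans (by exact_mod_cast h1)
    rw [div_le_iff₀ hσ] at h2
    linarith
  rintro D cut Γ g' ⟨rfl, rfl⟩ ν hν h1 h2 X j P₀ P hPD A hA
  have href := pn_pg_med_refines hs0 g'
  have hchart := pn_pg_chart' href Γ
  obtain ⟨hm1, hm2⟩ := pn_pg_med_side hs0 g' h1 h2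
  have hm2' : (shMed s g').SideLe ((K + 1) * (s * ν)) :=
    pn_pot_band_sideLe_mono (Nat.mul_le_mul_right _ (Nat.le_succ K)) hm2
  have hν3 : 3 ≤ s * ν := le_trans hs3 (Nat.le_mul_of_pos_right s hν)
  have hKb : pgKb Γ X j ⊆ Γ.T := Finset.filter_subset _ _
  have heqv := pn_pg_band_eqv s Γ g' hKb lam
  have heqv' : psEqv (sbLaw (g'.region (S23.refine s Γ).T) ((S23.refine s Γ).cutB g') P₀
        fun o => sbCT (S23.fine s Γ.T) g' (shRow s (pgKb Γ X j) lam o))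
      (psAdd (lawR (S23.refine s Γ) g' C3.noRow)
        (psSoftD (D := g'.region (S23.refine s Γ).T) (cut := (S23.refine s Γ).cutB g') (pgBoxes g' (S23.fine s (pgKb Γ X j)))
          fun _ => Real.sqrt lam / s)) := fun x y => heqv x y
  obtain ⟨hfar1, hfar2⟩ := pn_pg_far Γ X j hA
  have hsν : (0 : ℝ) < (s : ℝ) := by exact_mod_cast hs0
  have hνR : (0 : ℝ) < (ν : ℝ) := by exact_mod_cast hν
  have key := h' _ _ Γ (shMed s g') hchart (s * ν) hν3 hm1 hm2' (shBall X j) (pgKb Γ X j) (pgOut X j) (pn_pg_lay Γ X j)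
    (lawR (S23.refine s Γ) g' C3.noRow) (le_of_eq (Fintype.card_fin 0)) (fun o => Fin.elim0 o)
    (by
      have : ∑ o : Fin 0, ∑ x, (lawR (S23.refine s Γ) g' C3.noRow).B o x ^ 2 = 0 := Finset.sum_empty
      exact le_of_eq (by rw [zero_div]; exact this))
    (Fin (S23.fine s (pgKb Γ X j)).card) (pgBoxes g' (S23.fine s (pgKb Γ X j))) (fun _ => Real.sqrt lam / s) (K * ν)
    (pn_pg_part href (pgKb Γ X j) h2)
    (by
      push_cast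
      have : (K : ℝ) * ν ≤ (σ * s) * ν := mul_le_mul_of_nonneg_right (by linarith) hνR.le
      linarith)
    (fun i => by
      have hw : (Real.sqrt lam / s) ^ 2 * (((s * ν : ℕ) : ℝ)) ^ 2 = lam * (ν : ℝ) ^ 2 := by
        push_cast
        rw [div_pow, Real.sq_sqrt hlam0.le]
        field_simp
      have hset : (pgBoxes g' (S23.fine s (pgKb Γ X j)) i).set = g'.cell ((S23.fine s (pgKb Γ X j)).equivFin.symm i).1 :=
        pn_pg_box_set g' _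
      have c1 := pn_pg_card_ge g' ((S23.fine s (pgKb Γ X j)).equivFin.symm i).1 h1
      have c2 := pn_pg_card_le g' ((S23.fine s (pgKb Γ X j)).equivFin.symm i).1 h2
      rw [hw, hset]
      constructor
      · have e1 : ((K * ν : ℕ) : ℝ) ^ 2 ≤ ((K : ℝ) + 1) ^ 2 * (ν : ℝ) ^ 2 := by
          push_cast
          rw [mul_pow]
          have : (K : ℝ) ^ 2 ≤ ((K : ℝ) + 1) ^ 2 := by nlinarith [(Nat.cast_nonneg K : (0 : ℝ) ≤ K)]
          exact mul_le_mul_of_nonneg_right this (by positivity)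
        rw [div_mul_eq_mul_div, div_le_iff₀ hK1]
        calc lam * _ ≤ lam * (((K : ℝ) + 1) ^ 2 * (ν : ℝ) ^ 2) := mul_le_mul_of_nonneg_left (c2.trans e1) hlam0.le
          _ = lam * (ν : ℝ) ^ 2 * ((K : ℝ) + 1) ^ 2 := by ring
      · have e2 : ((K : ℝ) + 1) ^ 2 * (lam / ((K : ℝ) + 1) ^ 2) = lam := by field_simp
        rw [e2]
        exact mul_le_mul_of_nonneg_left c1 hlam0.le)
    P (psSitesD g' (S23.fine s A)) (psSitesD g' (S23.fine s X)) ((ps_eqv_PD heqv' P).1 hPD)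
    (by
      intro x hx
      have hx' : x ∈ psSitesD (D := g'.region (S23.refine s Γ).T) (cut := (S23.refine s Γ).cutB g') (shMed s g') X := by
        unfold psSitesD at hx ⊢
        rwa [pn_sb_region href X] at hx
      exact pn_pg_sitesD_mono (shMed s g') (pn_pg_sub_ball X j) hx')
    (by
      intro x hx
      have hx' : x ∈ psSitesD (D := g'.region (S23.refine s Γ).T) (cut := (S23.refine s Γ).cutB g') (shMed s g') A := by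
        unfold psSitesD at hx ⊢
        rwa [pn_sb_region href A] at hx
      exact ⟨pn_pg_sitesD_mono (shMed s g') hfar1 hx', pn_pg_sitesD_notMem (shMed s g') hfar2 hx'⟩)
  rw [ps_eqv_gPin heqv']
  exact key.2

/-- the same in the vocabulary of `Pins/ShiftDefs.lean` -/
theorem pn_pot_band_sh (n₁ n₂ K : ℕ) {a : ℝ} (ha : 0 < a) {ε : ℝ} (hε : 0 < ε) :
    ∃ lam₀ : ℝ, 0 < lam₀ ∧ ∀ lam : ℝ, lam₀ ≤ lam → ∃ s₀ : ℕ, ∀ s, s₀ ≤ s → ∀ (Γ : CGeom n₁ n₂) (J : ℕ) (g' : DGrid (s * n₁) (s * n₂)) (ν : ℕ),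
      1 ≤ ν → g'.SideGe ν → g'.SideLe (K * ν) → ∀ P : Set (shG s Γ g').V, plPD (shLaw s Γ J lam g') P →
    ∀ A : Finset (Cell n₁ n₂), Disjoint A (shBall Γ.pin (J + 3)) →
      (shLaw s Γ J lam g').gPin a P (shSites s Γ g' A) (shSites s Γ g' Γ.pin) ≤ ε := by
  obtain ⟨lam₀, h0, h⟩ := pn_pot_band n₁ n₂ K ha hε
  refine ⟨lam₀, h0, fun lam hl => ?_⟩
  obtain ⟨s₀, hs⟩ := h lam hl
  exact ⟨s₀, fun s hss Γ J g' ν h1 h2 h3 P hPD A hA =>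
    hs s hss _ _ (shFree Γ) g' (psChart_self _ _) ν h1 h2 h3 Γ.pin (J + 1) _ P hPD A hA⟩

end

end Claimed.Agent.R285.Pins
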