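import Claimed.Agent.R285.Pins.T32Lim
import Claimed.Agent.R285.Pins.T32PotB
import Claimed.Agent.R285.Pins.T32Pin

/-!
# ROW 285, PINS, T3.2 package.  FILE 9 (helper122): `C3.cond_transfer` and `C3.restoration_transfer` VERBATIM.  NO SORRY IN THIS FILE.  Inputs: two contracts + the POT exports of `Pins/T32Pot.lean`, `Pins/T32PotB.lean` (helper53).

 contract                 owner          content
 `pn_in_lap`, `pn_in_bd`  helper217, 67  [C]T3.1 with moving rows (contracts of `Pins/T32Asy.lean`, helper178) => `T31In` (`pn_fin_t31`)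
 `pn_fi_pin_interaction`  helper178      `C3.pin_interaction` verbatim (`Pins/T32Pin.lean`)
 POT (glue PROVED here):  `Two.In.gapB` = `pn_pot_gapB`;  `pn_fin_probes` <- `pn_pot_probe`, `pn_pot_probe_supp/CT/dens`, `pn_pot_ea_bal`;  `pn_fin_bal` <- `pn_pot_ea_bal`;  `pn_fin_bal'` <- `pn_pot_ea_bal_res`.
Everything else is proved: `T32Res.lean` (assembly), `T32Lim.lean` (the four `Scale.Lim`, `EA` of cell tests and of level-`r` tests).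
-/

set_option autoImplicit false

namespace Claimed.Agent.R285.Pins.T32

open Filter Topology MeasureTheory
open Claimed.Agent.R285.Pot
open Claimed.Agent.R285.C3
open scoped Classical

noncomputable section

/-- [C]T3.1 with moving rows, from the contracts `pn_in_lap`, `pn_in_bd` of `Pins/T32Asy.lean` (helper178; owners helper217, helper67) -/
theorem pn_fin_t31 {a : ℝ} {b : ℕ → ℝ} {ν : ℕ → ℕ} (hS : Scen a b ν) : T31In a b ν := by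
  intro n₁ n₂ Γ hΓ K g ν' hg hν N R Rb hR hU t Tb ht
  refine ⟨fun X hX => ?_, pn_in_bd Γ K g ν' hg R ⟨Rb, hR⟩ hU t ⟨Tb, ht⟩⟩
  obtain ⟨b₀, b₁, h0, h1⟩ := hS.b_cpt
  have hP : ∀ k, (lawR Γ (g k) (R k)).Proper := fun k =>
    (pn_sb_ok_of_pd (lawR Γ (g k) (R k)) rfl (pn_sb_pd_of_uconf Γ R hU k (g k)) (lt_of_lt_of_le h0 (h1 k).1)).1
  refine (pn_in_lap hS Γ hΓ K g ν' hg hν R ⟨Rb, hR⟩ hU t ⟨Tb, ht⟩).congr fun k => ?_
  rw [pn_hLap_eq_logLap _ (hP k) (b k) _ (X k) (hX k)]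

section pin

variable {a : ℝ} {b : ℕ → ℝ} {ν : ℕ → ℕ} {m₁ m₂ : ℕ} (Γ : CGeom m₁ m₂) {N : ℕ} (row : Fin N → Cell m₁ m₂ → ℝ)

/-- `C3.pin_interaction`, verbatim (`Pins/T32Pin.lean`, helper178) -/
theorem pn_fin_pin (hS : Scen a b ν) (hΓ : Γ.NoDiag) (hpin : Γ.pin = ∅) (K : ℕ) (g : ℕ → DGrid m₁ m₂) (hg : Admissible K g ν)
    (hP : ∀ k, (lawR Γ (g k) row).Proper) (hOk : ∀ k, ((lawR Γ (g k) row).sys (b k)).Ok)
    (A p : Finset (Cell m₁ m₂)) (hsep : C3.Sep A p) :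
    Tendsto (fun k => (lawR Γ (g k) row).dPin (b k) (Γ.sites (g k) A) (Γ.sites (g k) p)
      - (lawR Γ (g k) row).gPin a (Γ.sites (g k) Γ.pin) (Γ.sites (g k) A) (Γ.sites (g k) p)) atTop (𝓝 0) :=
  pn_fi_pin_interaction Γ row hS hΓ hpin K g hg hP hOk A p hsep

end pin

variable {a : ℝ} {b : ℕ → ℝ} {ν : ℕ → ℕ} {m₁ m₂ : ℕ} {Γ : CGeom m₁ m₂} {N : ℕ} {row : Fin N → Cell m₁ m₂ → ℝ}

variable {F : Finset (Cell m₁ m₂ × Bool)} {N' : ℕ} {row' : Fin (N + N') → Cell m₁ m₂ → ℝ} {A p : Finset (Cell m₁ m₂)} {g : ℕ → DGrid m₁ m₂} {K : ℕ}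

/-- `EA` only sees the tests eventually -/
theorem pn_fin_ea_congr {L : LSeq} (S : Scale L) {f f' : L.T} (hf : S.EA f) (h : ∀ᶠ k in atTop, f k = f' k) : S.EA f' := by
  intro ε hε
  obtain ⟨r₀, hr₀, h1⟩ := hf ε hε
  refine ⟨r₀, hr₀, fun r hd hr => ?_⟩
  obtain ⟨t, ht, h2⟩ := h1 r hd hr
  refine ⟨t, ht, ?_⟩
  filter_upwards [h2, h] with k h3 h4
  rw [← h4]
  exact h3

/-- cell tests have bounded densities -/
theorem pn_fin_dens (hg : Admissible K g ν) (t : ℕ → Cell m₁ m₂ → ℝ) (Tb : ℝ) (ht : ∀ k κ, |t k κ| ≤ Tb) :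
    ∀ᶠ k in atTop, ∀ x, |asT Γ g t k x| ≤ |Tb| / (ν k : ℝ) ^ 2 := by
  filter_upwards [hg.1.eventually_ge_atTop 1] with k hk x
  exact pn_pg_CT_dens Γ.T (g k) (t k) (abs_nonneg _) (fun κ => (ht k κ).trans (le_abs_self _)) hk (hg.2 k).1 x

/-- POT (P1), any sequence of tests with bounded densities, cut law (`pn_pot_ea_bal`) -/
theorem pn_fin_bal_dens (ha : 0 < a) (hΓ : Γ.NoDiag) (hg : Admissible K g ν) (h : AsOk Γ row g b) (p : Finset (Cell m₁ m₂))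
    (f : (asL h).T) (Cf : ℝ) (hf : ∀ᶠ k in atTop, ∀ x, |f k x| ≤ Cf / (ν k : ℝ) ^ 2) :
    (asS h).EA ((asL h).bal a (fun k => Γ.sites (g k) p) f) := by
  intro ε hε
  obtain ⟨r₀, hr₀, h1⟩ := Pins.pn_pot_ea_bal Γ hΓ row K g ν hg ha (pn_pd (asL h)) p f Cf hf hε
  exact ⟨r₀, hr₀, fun r hd hr => h1 r (Nat.le_of_dvd hr hd)⟩

/-- **POT-BAL**: the balayage of a cell test onto the guard is energy-approximable (cut law) -/
theorem pn_fin_bal (ha : 0 < a) (hΓ : Γ.NoDiag) (hg : Admissible K g ν) (h : AsOk Γ row g b) (R : AsRes Γ row F row' A p)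
    (t : ℕ → Cell m₁ m₂ → ℝ) (Tb : ℝ) (ht : ∀ k κ, |t k κ| ≤ Tb) : (asS h).EA ((asW h R).L.bal a (asW h R).P (asT Γ g t)) :=
  pn_fin_bal_dens ha hΓ hg h p (asT Γ g t) |Tb| (pn_fin_dens hg t Tb ht)

/-- **POT-BAL'**: the same for the balayage of the RESTORED law (`pn_pot_ea_bal_res`) -/
theorem pn_fin_bal' (ha : 0 < a) (hΓ' : (uncut Γ F).NoDiag) (hg : Admissible K g ν) (hsep : C3.Sep A p) (h : AsOk Γ row g b)
    (R : AsRes Γ row F row' A p) (t : ℕ → Cell m₁ m₂ → ℝ) (Tb : ℝ) (ht : ∀ k κ, |t k κ| ≤ Tb) :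
    (asS h).EA ((asW h R).L'.bal a (asW h R).P (asT Γ g t)) := by
  intro ε hε
  obtain ⟨r₀, hr₀, h1⟩ := Pins.pn_pot_ea_bal_res Γ row K g ν hg ha (pn_pd (asL h)) A p hsep F R.face hΓ' row' R.old R.new (asT Γ g t) |Tb|
    (pn_fin_dens hg t Tb ht) hε
  exact ⟨r₀, hr₀, fun r hd hr => h1 r (Nat.le_of_dvd hr hd)⟩

theorem pn_fin_sites_empty (Γ : CGeom m₁ m₂) (g : DGrid m₁ m₂) : Γ.sites g ∅ = ∅ := by
  refine Set.eq_empty_iff_forall_notMem.2 fun v hv => ?_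
  have h1 : domPos v ∈ g.region ∅ := Finset.mem_coe.1 hv
  simp [DGrid.region] at h1

/-- **POT-PROBES**: probes = `w ·` (averages over the level-`r` cells of `A`)  (`pn_pot_probe`, `pn_pot_probe_supp`, `pn_pot_probe_CT`, `pn_pot_probe_dens`) -/
theorem pn_fin_probes (ha : 0 < a) (hΓ : Γ.NoDiag) (hpin : Γ.pin = ∅) (hg : Admissible K g ν) (hsep : C3.Sep A p) (h : AsOk Γ row g b) (R : AsRes Γ row F row' A p) :
    ∀ ε > 0, ∃ (n : ℕ) (Rp : Fin n → (asW h R).L.T), ProbeOK (asS h) a (asW h R).P (asW h R).A₀ Rp ε := by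
  intro ε hε
  obtain ⟨w, r₀, hr₀, h1⟩ := Pins.pn_pot_probe Γ hΓ row K g ν hg ha (pn_pd (asL h)) A p hsep hε
  have hr : 0 < 2 * r₀ := by omega
  have hev := pn_sb_ev hg hr
  refine ⟨_, fun d k => ppProbe Γ (g k) (2 * r₀) A w d, ?_, fun d => ?_, fun d => ?_, ?_⟩
  · intro d k x hx
    refine Pins.pn_pot_probe_supp Γ (g k) (2 * r₀) A w d x fun hxA => hx ⟨hxA, fun hxp => ?_⟩
    have h2 : x ∈ Γ.sites (g k) Γ.pin := hxp
    rw [hpin, pn_fin_sites_empty] at h2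
    exact h2
  · refine pn_fin_ea_congr (asS h) (pn_lim_ea_sub hg h hr (fun _ => Pi.single ((S23.fine (2 * r₀) (A ∩ Γ.T)).equivFin.symm d).1 w) |w| ?_)
      (hev.mono fun k hk => (Pins.pn_pot_probe_CT Γ (g k) hk A w d).symm)
    intro _ κ
    by_cases hκ : κ = ((S23.fine (2 * r₀) (A ∩ Γ.T)).equivFin.symm d).1
    · rw [hκ, Pi.single_eq_same]
    · rw [Pi.single_eq_of_ne hκ, abs_zero]
      exact abs_nonneg _
  · refine pn_fin_bal_dens ha hΓ hg h p _ (4 * |w| * ((2 * r₀ : ℕ) : ℝ) ^ 2) ?_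
    filter_upwards [hg.1.eventually_ge_atTop (2 * r₀)] with k hk x
    exact Pins.pn_pot_probe_dens Γ (g k) hr hk (hg.2 k).1 (hg.2 k).2 A w d x
  · refine (h1 (2 * r₀) (by omega) (Dvd.intro _ rfl)).mono fun k hk => ?_
    have e : (lawR Γ (g k) row).gPin a (Γ.sites (g k) Γ.pin) (Γ.sites (g k) A \ Γ.sites (g k) Γ.pin) (Γ.sites (g k) p)
        = (lawR Γ (g k) row).gPin a (Γ.sites (g k) Γ.pin) (Γ.sites (g k) A) (Γ.sites (g k) p) := pn_gPin_absorb _ a _ _ _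
    show gzr (lawR Γ (g k) row) (ppProbe Γ (g k) (2 * r₀) A w) a (Γ.sites (g k) Γ.pin) 0
          / gzr (lawR Γ (g k) row) (ppProbe Γ (g k) (2 * r₀) A w) a (Γ.sites (g k) Γ.pin ∪ Γ.sites (g k) p) 0
        - Real.exp (-(lawR Γ (g k) row).gPin a (Γ.sites (g k) Γ.pin) (Γ.sites (g k) A \ Γ.sites (g k) Γ.pin) (Γ.sites (g k) p)) ≤ ε
    rw [e]
    exact hk

/-- all inputs on the cut laws -/
theorem pn_fin_in (hS : Scen a b ν) (hΓ : Γ.NoDiag) (hpin : Γ.pin = ∅) (hg : Admissible K g ν) (hsep : C3.Sep A p) (h : AsOk Γ row g b)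
    (R : AsRes Γ row F row' A p) : AsIn h R a (asS h) where
  two :=
    { a_pos := hS.a_pos
      lim := pn_lim_cut (pn_fin_t31 hS) hΓ hg h
      limP := pn_lim_cutP (pn_fin_t31 hS) hΓ hg h p
      hD := pn_fin_pin Γ row hS hΓ hpin K g hg h.proper h.ok A p hsep
      gapB := Pins.pn_pot_gapB Γ row K g ν hg hS.a_pos (pn_pd (asL h)) A p hsep
      probes := pn_fin_probes hS.a_pos hΓ hpin hg hsep h R }
  ea := pn_lim_ea hg h

/-- the additional inputs of the transfer principle -/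
theorem pn_fin_in' (hS : Scen a b ν) (hΓ : Γ.NoDiag) (hΓ' : (uncut Γ F).NoDiag) (hg : Admissible K g ν) (hsep : C3.Sep A p)
    (h : AsOk Γ row g b) (R : AsRes Γ row F row' A p) : AsIn' h R a (asS h) where
  lim' := pn_lim_res (pn_fin_t31 hS) hΓ' hg h R
  limP' := pn_lim_resP (pn_fin_t31 hS) hΓ' hg h R
  ea_bal := pn_fin_bal hS.a_pos hΓ hg h R
  ea_bal' := pn_fin_bal' hS.a_pos hΓ' hg hsep h R

end

section verbatim

variable {a : ℝ} {b : ℕ → ℝ} {ν : ℕ → ℕ} {m₁ m₂ : ℕ} (Γ : CGeom m₁ m₂) {N : ℕ} (row : Fin N → Cell m₁ m₂ → ℝ)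

/-- `C3.cond_transfer`, verbatim -/
theorem pn_fin_cond_transfer (hS : Scen a b ν) (hΓ : Γ.NoDiag) (hpin : Γ.pin = ∅) (K : ℕ) (g : ℕ → DGrid m₁ m₂) (hg : Admissible K g ν)
    (hP : ∀ k, (lawR Γ (g k) row).Proper) (hOk : ∀ k, ((lawR Γ (g k) row).sys (b k)).Ok)
    (A p : Finset (Cell m₁ m₂)) (hsep : C3.Sep A p)
    (F : Finset (Cell m₁ m₂ × Bool)) (hF : ∀ f ∈ F, FaceIn A f) (hΓ' : (uncut Γ F).NoDiag) {N' : ℕ} (row' : Fin (N + N') → Cell m₁ m₂ → ℝ)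
    (hr : ∀ o, row' (Fin.castAdd N' o) = row o) (hr' : ∀ o, ∀ κ ∉ A, row' (Fin.natAdd N o) κ = 0)
    (top : Bool) {J J' : ℕ} (tX : Fin J → ℕ → Cell m₁ m₂ → ℝ) (tX' : Fin J' → ℕ → Cell m₁ m₂ → ℝ) (tL : ℕ → Cell m₁ m₂ → ℝ)
    (Tb : ℝ) (hX : ∀ i k κ, |tX i k κ| ≤ Tb) (hX' : ∀ i k κ, |tX' i k κ| ≤ Tb) (hL : ∀ k κ, |tL k κ| ≤ Tb)
    (Φ : (Fin J → ℝ) × (Fin J' → ℝ) × ℝ → ℝ) (hΦ : Continuous Φ) (hΦb : ∃ C, ∀ x, |Φ x| ≤ C) :
    Tendsto (fun k =>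
      (if top then ExU Γ F (g k) row' (b k) (Γ.cellTest (g k) (tL k)) else
          ExT (lawR Γ (g k) row) (b k) (Γ.cellTest (g k) (tL k)))
        (fun h => Φ (fun i => cLap (lawR Γ (g k) row) (b k) (Γ.sites (g k) p) (Γ.cellTest (g k) (tX i k)) h,
          fun i => cLapU Γ F (g k) row' (b k) (Γ.sites (g k) p) (Γ.cellTest (g k) (tX' i k)) h,
          rPin (lawR Γ (g k) row) (b k) (Γ.sites (g k) p) (Γ.sites (g k) A) h))
      - (if top then gExU Γ F (g k) row' a (Γ.sites (g k) Γ.pin) (Γ.cellTest (g k) (tL k)) else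
          gExT (lawR Γ (g k) row) a (Γ.sites (g k) Γ.pin) (Γ.cellTest (g k) (tL k)))
        (fun φ => Φ (fun i => gcLap (lawR Γ (g k) row) a (Γ.sites (g k) Γ.pin ∪ Γ.sites (g k) p) (Γ.cellTest (g k) (tX i k)) φ,
          fun i => gcLapU Γ F (g k) row' a (Γ.sites (g k) Γ.pin ∪ Γ.sites (g k) p) (Γ.cellTest (g k) (tX' i k)) φ,
          grPin (lawR Γ (g k) row) a (Γ.sites (g k) Γ.pin ∪ Γ.sites (g k) p) (Γ.sites (g k) A) φ))) atTop (𝓝 0) :=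
  have h := pn_as_ok Γ row hS g hP hOk
  have R : AsRes Γ row F row' A p := ⟨pn_rs_sep_disj hsep, hF, hr, hr'⟩
  pn_as_cond h R (pn_fin_in hS hΓ hpin hg hsep h R) (pn_fin_in' hS hΓ hΓ' hg hsep h R) top tX tX' tL Tb hX hX' hL Φ hΦ hΦb

variable (F : Finset (Cell m₁ m₂ × Bool)) {N' : ℕ} (row' : Fin (N + N') → Cell m₁ m₂ → ℝ)

/-- `C3.restoration_transfer`, verbatim -/
theorem pn_fin_restoration_transfer (hS : Scen a b ν) (hΓ : Γ.NoDiag) (hpin : Γ.pin = ∅) (K : ℕ) (g : ℕ → DGrid m₁ m₂) (hg : Admissible K g ν)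
    (hP : ∀ k, (lawR Γ (g k) row).Proper) (hOk : ∀ k, ((lawR Γ (g k) row).sys (b k)).Ok)
    (A p : Finset (Cell m₁ m₂)) (hsep : C3.Sep A p) (hF : ∀ f ∈ F, FaceIn A f)
    (hr : ∀ o, row' (Fin.castAdd N' o) = row o) (hr' : ∀ o, ∀ κ ∉ A, row' (Fin.natAdd N o) κ = 0)
    (tL tL' : ℕ → Cell m₁ m₂ → ℝ) (Tb : ℝ) (hL : ∀ k κ, |tL k κ| ≤ Tb) (hL' : ∀ k κ, |tL' k κ| ≤ Tb)
    (Ψ : ∀ k, ((Γ.graph (g k)).V → ℤ) → ℝ) (h01 : ∀ k h, 0 ≤ Ψ k h ∧ Ψ k h ≤ 1)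
    (hloc : ∀ k h, Ψ k h = Ψ k (C3.resZ (Γ.sites (g k) p) h)) :
    Tendsto (fun k => ExT (lawR Γ (g k) row) (b k) (Γ.cellTest (g k) (tL k)) (Ψ k)) atTop (𝓝 0) ↔
      Tendsto (fun k => ExU Γ F (g k) row' (b k) (Γ.cellTest (g k) (tL' k)) (Ψ k)) atTop (𝓝 0) :=
  have h := pn_as_ok Γ row hS g hP hOk
  have R : AsRes Γ row F row' A p := ⟨pn_rs_sep_disj hsep, hF, hr, hr'⟩
  pn_as_rest h R (pn_fin_in hS hΓ hpin hg hsep h R) tL tL' Tb hL hL' Ψ h01 hloc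

end verbatim

end Claimed.Agent.R285.Pins.T32
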