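import Claimed.Agent.R285.Pins.T32Two
import Claimed.Agent.R285.Sec.Grid

/-!
# ROW 285, PINS, T3.2 package (architect helper178).  FILE 6: GLUE, EXACT PART.   The five exact statements of `Read/C3.lean` s3-4 from the abstract layer.

`pn_gl_dPin_nonneg, pn_gl_rPin_mem, pn_gl_rPin_mean, pn_gl_sandwich, pn_gl_density` have VERBATIM the statements of `C3.dPin_nonneg, rPin_mem, rPin_mean, restoration_sandwich, restoration_density`.
`extU` = the restored law as an extension (`Ext`) of the cut law.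
-/

set_option autoImplicit false

namespace Claimed.Agent.R285.Pins.T32

open Filter Topology MeasureTheory
open Claimed.Agent.R285.Pot
open Claimed.Agent.R285.C3
open scoped Classical

noncomputable section

variable {m₁ m₂ : ℕ} (Γ : CGeom m₁ m₂) {N : ℕ} (row : Fin N → Cell m₁ m₂ → ℝ)

theorem pn_gl_splits (g : DGrid m₁ m₂) (P : Set (Γ.graph g).V) : Splits (lawR Γ g row) P := by
  intro h hh v hv
  have h0 : h v = 0 := hh v hv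
  simp [C3.resZ, h0]

theorem pn_gl_disj (g : DGrid m₁ m₂) {A p : Finset (Cell m₁ m₂)} (hd : Disjoint A p) : Disjoint (Γ.sites g A) (Γ.sites g p) := by
  rw [Set.disjoint_left]
  intro v h1 h2
  obtain ⟨κ, hκ, h3⟩ := Finset.mem_biUnion.1 (Finset.mem_coe.1 h1)
  obtain ⟨κ', hκ', h4⟩ := Finset.mem_biUnion.1 (Finset.mem_coe.1 h2)
  have := Sec.sec_cell_unique g h3 h4
  subst this
  exact Finset.disjoint_left.1 hd hκ hκ'

/-- T3.2: `D_n(A,p) ≥ 0` -/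
theorem pn_gl_dPin_nonneg (g : DGrid m₁ m₂) (β : ℝ) (hβ : 0 < β) (hP : (lawR Γ g row).Proper) (hOk : ((lawR Γ g row).sys β).Ok)
    (A p : Finset (Cell m₁ m₂)) : 0 ≤ (lawR Γ g row).dPin β (Γ.sites g A) (Γ.sites g p) :=
  pn_dPin_nonneg _ ⟨hβ, hP, hOk⟩ _ _

/-- T3.2: `0 < r ≤ 1` -/
theorem pn_gl_rPin_mem (g : DGrid m₁ m₂) (β : ℝ) (hβ : 0 < β) (hP : (lawR Γ g row).Proper) (hOk : ((lawR Γ g row).sys β).Ok)
    (A p : Finset (Cell m₁ m₂)) (hd : Disjoint A p) (u : (Γ.graph g).V → ℤ) :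
    0 < rPin (lawR Γ g row) β (Γ.sites g p) (Γ.sites g A) u ∧ rPin (lawR Γ g row) β (Γ.sites g p) (Γ.sites g A) u ≤ 1 :=
  pn_rPin_mem _ ⟨hβ, hP, hOk⟩ _ _ u

/-- T3.2: `E_μ r = e^{-D}` -/
theorem pn_gl_rPin_mean (g : DGrid m₁ m₂) (β : ℝ) (hβ : 0 < β) (hP : (lawR Γ g row).Proper) (hOk : ((lawR Γ g row).sys β).Ok)
    (A p : Finset (Cell m₁ m₂)) (hd : Disjoint A p) :
    ExT (lawR Γ g row) β 0 (rPin (lawR Γ g row) β (Γ.sites g p) (Γ.sites g A))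
      = Real.exp (-(lawR Γ g row).dPin β (Γ.sites g A) (Γ.sites g p)) := by
  rw [pn_ExT_eq _ ⟨hβ, hP, hOk⟩]
  exact pn_rPin_mean _ ⟨hβ, hP, hOk⟩ _ _ (pn_gl_splits Γ row g _) (pn_gl_disj Γ g hd)

/-! ## The restored law as an extension of the cut law -/

theorem pn_gl_cut_sub (F : Finset (Cell m₁ m₂ × Bool)) (g : DGrid m₁ m₂) : (uncut Γ F).cutB g ⊆ Γ.cutB g := by
  rintro e ⟨f, hf, h⟩
  exact ⟨f, (Finset.mem_sdiff.1 hf).1, h⟩

theorem pn_gl_bonds_sub (F : Finset (Cell m₁ m₂ × Bool)) (g : DGrid m₁ m₂) {e : Bond} (he : e ∈ domBonds (g.region Γ.T) (Γ.cutB g)) :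
    e ∈ domBonds (g.region Γ.T) ((uncut Γ F).cutB g) := by
  rw [domBonds, Finset.mem_filter] at he ⊢
  exact ⟨he.1, he.2.1, fun h => he.2.2 (pn_gl_cut_sub Γ F g h)⟩

/-- a bond which leaves the cell `κ` in the direction `d` enters the neighbour of `κ` in this direction -/
theorem pn_gl_cross (g : DGrid m₁ m₂) {κ κ' : Cell m₁ m₂} {e : Bond} (h1 : e.1 ∈ g.cell κ) (h2 : e.snd ∉ g.cell κ) (h3 : e.snd ∈ g.cell κ') :
    (e.2 = true ∧ κ.1.1 + 1 = κ'.1.1 ∧ κ.2 = κ'.2) ∨ (e.2 = false ∧ κ.1 = κ'.1 ∧ κ.2.1 + 1 = κ'.2.1) := by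
  obtain ⟨⟨x, y⟩, d⟩ := e
  rw [Sec.sec_mem_cell] at h1 h2 h3
  cases d with
  | true =>
    left
    simp only [Bond.snd, if_true] at h1 h2 h3 ⊢
    have e2 : κ.2 = κ'.2 := le_antisymm (Sec.sec_idx_le g.mono₂ h1.2.1 h3.2.2) (Sec.sec_idx_le g.mono₂ h3.2.1 h1.2.2)
    refine ⟨trivial, ?_, e2⟩
    have h4 : g.x₁ κ.1.succ ≤ x + 1 := by
      by_contra hc
      exact h2 ⟨⟨by omega, by omega⟩, h1.2⟩
    have h5 : g.x₁ κ.1.succ = x + 1 := by omega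
    -- `κ.1.succ` is the left line of `κ'.1`
    have a1 : κ.1.succ < κ'.1.succ := g.mono₁.lt_iff_lt.1 (by omega)
    have a2 : κ'.1.castSucc ≤ κ.1.succ := g.mono₁.le_iff_le.1 (by omega)
    rw [Fin.lt_def] at a1
    rw [Fin.le_def] at a2
    simp only [Fin.val_castSucc, Fin.val_succ] at a1 a2
    omega
  | false =>
    right
    simp only [Bond.snd, Bool.false_eq_true, if_false] at h1 h2 h3 ⊢
    have e2 : κ.1 = κ'.1 := le_antisymm (Sec.sec_idx_le g.mono₁ h1.1.1 h3.1.2) (Sec.sec_idx_le g.mono₁ h3.1.1 h1.1.2)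
    refine ⟨trivial, e2, ?_⟩
    have h4 : g.x₂ κ.2.succ ≤ y + 1 := by
      by_contra hc
      exact h2 ⟨h1.1, ⟨by omega, by omega⟩⟩
    have h5 : g.x₂ κ.2.succ = y + 1 := by omega
    have a1 : κ.2.succ < κ'.2.succ := g.mono₂.lt_iff_lt.1 (by omega)
    have a2 : κ'.2.castSucc ≤ κ.2.succ := g.mono₂.le_iff_le.1 (by omega)
    rw [Fin.lt_def] at a1
    rw [Fin.le_def] at a2
    simp only [Fin.val_castSucc, Fin.val_succ] at a1 a2
    omega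

/-- both ends of a restored bond lie in the core -/
theorem pn_gl_new (F : Finset (Cell m₁ m₂ × Bool)) (g : DGrid m₁ m₂) (A : Finset (Cell m₁ m₂)) (hF : ∀ f ∈ F, FaceIn A f) {e : Bond}
    (he : e ∈ domBonds (g.region Γ.T) ((uncut Γ F).cutB g)) (hn : e ∉ domBonds (g.region Γ.T) (Γ.cutB g)) :
    e.1 ∈ g.region A ∧ e.snd ∈ g.region A := by
  rw [domBonds, Finset.mem_filter] at he hn
  have hc : e ∈ Γ.cutB g := by
    by_contra hc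
    exact hn ⟨he.1, he.2.1, hc⟩
  obtain ⟨f, hf, h2, h3, h4⟩ := hc
  have hfF : f ∈ F := by
    by_contra hfF
    exact he.2.2 ⟨f, Finset.mem_sdiff.2 ⟨hf, hfF⟩, h2, h3, h4⟩
  obtain ⟨a1, a2⟩ := hF f hfF
  refine ⟨Finset.mem_biUnion.2 ⟨f.1, a1, h3⟩, ?_⟩
  obtain ⟨κ', -, h5⟩ := Finset.mem_biUnion.1 he.2.1
  refine Finset.mem_biUnion.2 ⟨κ', a2 κ' ?_, h5⟩
  rcases pn_gl_cross g h3 h4 h5 with ⟨b1, b2, b3⟩ | ⟨b1, b2, b3⟩
  · exact Or.inl ⟨h2 ▸ b1, b2, b3⟩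
  · exact Or.inr ⟨h2 ▸ b1, b2, b3⟩

variable (F : Finset (Cell m₁ m₂ × Bool)) {N' : ℕ} (row' : Fin (N + N') → Cell m₁ m₂ → ℝ)

/-- the restored law is the cut law with more precision inside the core -/
def extU (g : DGrid m₁ m₂) (A : Finset (Cell m₁ m₂)) (hF : ∀ f ∈ F, FaceIn A f)
    (hr : ∀ o, row' (Fin.castAdd N' o) = row o) (hr' : ∀ o, ∀ κ ∉ A, row' (Fin.natAdd N o) κ = 0) :
    Ext (lawR Γ g row) (lawR (uncut Γ F) g row') (Γ.sites g A) where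
  e := Equiv.refl _
  iE := ⟨fun e => ⟨e.1, pn_gl_bonds_sub Γ F g e.2⟩, fun e e' h => Subtype.ext (congrArg (fun z : {e : Bond // e ∈ domBonds (g.region Γ.T) ((uncut Γ F).cutB g)} => z.1) h)⟩
  iO := Fin.castAddEmb N'
  src_eq _ := rfl
  tgt_eq _ := rfl
  row_eq o v := by
    show ∑ κ, row' (Fin.castAdd N' o) κ * _ = ∑ κ, row o κ * _
    rw [hr o]
    rfl
  lam _ := Iff.rfl
  newE x' hx' := by
    have hn : x'.1 ∉ domBonds (g.region Γ.T) (Γ.cutB g) := fun h => hx' ⟨⟨x'.1, h⟩, rfl⟩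
    exact pn_gl_new Γ F g A hF x'.2 hn
  newO o' ho' v hv := by
    obtain ⟨o, rfl⟩ : ∃ o : Fin N', o' = Fin.natAdd N o := by
      refine Fin.addCases (motive := fun o' => o' ∉ Set.range (Fin.castAddEmb N') → ∃ o : Fin N', o' = Fin.natAdd N o)
        (fun i h => (h ⟨i, rfl⟩).elim) (fun o _ => ⟨o, rfl⟩) o' ho'
    show ∑ κ, row' (Fin.natAdd N o) κ * (uncut Γ F).avgRow g {κ} v = 0
    refine Finset.sum_eq_zero fun κ _ => ?_
    by_cases hκ : κ ∈ A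
    · have : (uncut Γ F).avgRow g {κ} v = 0 := by
        unfold CGeom.avgRow
        rw [if_neg]
        intro h
        apply hv
        obtain ⟨κ', h1, h2⟩ := Finset.mem_biUnion.1 (Finset.mem_coe.1 h)
        rw [Finset.mem_singleton] at h1
        subst h1
        exact Finset.mem_coe.2 (Finset.mem_biUnion.2 ⟨κ', hκ, h2⟩)
      rw [this, mul_zero]
    · rw [hr' o κ hκ, zero_mul]

theorem pn_gl_rDel_eq (g : DGrid m₁ m₂) (A : Finset (Cell m₁ m₂)) (hF : ∀ f ∈ F, FaceIn A f)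
    (hr : ∀ o, row' (Fin.castAdd N' o) = row o) (hr' : ∀ o, ∀ κ ∉ A, row' (Fin.natAdd N o) κ = 0) (β : ℝ) (P : Set (Γ.graph g).V)
    (u : (Γ.graph g).V → ℤ) : rDel Γ row F row' g β P u = (extU Γ row F row' g A hF hr hr').rr β P u := rfl

theorem pn_gl_zr_eq (g : DGrid m₁ m₂) (A : Finset (Cell m₁ m₂)) (hF : ∀ f ∈ F, FaceIn A f)
    (hr : ∀ o, row' (Fin.castAdd N' o) = row o) (hr' : ∀ o, ∀ κ ∉ A, row' (Fin.natAdd N o) κ = 0) (β : ℝ) (P : Set (Γ.graph g).V)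
    (u : (Γ.graph g).V → ℤ) :
    (extU Γ row F row' g A hF hr hr').zr β P u = ZCU Γ F g row' β P u (fun _ => 1) / ZC (lawR Γ g row) β P u fun _ => 1 := rfl

/-- L3.9, (3.30) first part (exact): `r_A ≤ r_Δ ≤ 1`. -/
theorem pn_gl_sandwich (g : DGrid m₁ m₂) (β : ℝ) (hβ : 0 < β) (hP : (lawR Γ g row).Proper) (hOk : ((lawR Γ g row).sys β).Ok)
    (A p : Finset (Cell m₁ m₂)) (hd : Disjoint A p) (hF : ∀ f ∈ F, FaceIn A f)
    (hr : ∀ o, row' (Fin.castAdd N' o) = row o) (hr' : ∀ o, ∀ κ ∉ A, row' (Fin.natAdd N o) κ = 0) (u : (Γ.graph g).V → ℤ) :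
    rPin (lawR Γ g row) β (Γ.sites g p) (Γ.sites g A) u ≤ rDel Γ row F row' g β (Γ.sites g p) u ∧
      rDel Γ row F row' g β (Γ.sites g p) u ≤ 1 := by
  have h := pn_ext_sandwich _ (extU Γ row F row' g A hF hr hr') ⟨hβ, hP, hOk⟩ (Γ.sites g p) (pn_gl_disj Γ g hd) u
  rw [pn_gl_rDel_eq Γ row F row' g A hF hr hr']
  exact ⟨h.1, h.2.1⟩

/-- L3.9, (3.30) last part (exact): `r_A ≤ dν_p/dμ_p ≤ e^{D(A,p)}`. -/
theorem pn_gl_density (g : DGrid m₁ m₂) (β : ℝ) (hβ : 0 < β) (hP : (lawR Γ g row).Proper) (hOk : ((lawR Γ g row).sys β).Ok)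
    (A p : Finset (Cell m₁ m₂)) (hd : Disjoint A p) (hF : ∀ f ∈ F, FaceIn A f)
    (hr : ∀ o, row' (Fin.castAdd N' o) = row o) (hr' : ∀ o, ∀ κ ∉ A, row' (Fin.natAdd N o) κ = 0) (u : (Γ.graph g).V → ℤ) :
    rPin (lawR Γ g row) β (Γ.sites g p) (Γ.sites g A) u * (ZC (lawR Γ g row) β (Γ.sites g p) u (fun _ => 1) / ZC (lawR Γ g row) β ∅ 0 fun _ => 1)
        ≤ ZCU Γ F g row' β (Γ.sites g p) u (fun _ => 1) / ZCU Γ F g row' β ∅ 0 (fun _ => 1) ∧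
      ZCU Γ F g row' β (Γ.sites g p) u (fun _ => 1) / ZCU Γ F g row' β ∅ 0 (fun _ => 1)
        ≤ Real.exp ((lawR Γ g row).dPin β (Γ.sites g A) (Γ.sites g p))
          * (ZC (lawR Γ g row) β (Γ.sites g p) u (fun _ => 1) / ZC (lawR Γ g row) β ∅ 0 fun _ => 1) := by
  have hG : Gd (lawR Γ g row) β := ⟨hβ, hP, hOk⟩
  obtain ⟨x, hx⟩ : ∃ x, x = extU Γ row F row' g A hF hr hr' := ⟨_, rfl⟩
  have hs := pn_ext_sandwich _ x hG (Γ.sites g p) (pn_gl_disj Γ g hd) u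
  have hs0 := pn_ext_sandwich _ x hG (Γ.sites g p) (pn_gl_disj Γ g hd) 0
  have hsE := pn_ext_sandwich _ x hG ∅ (Set.disjoint_empty _) 0
  have hc := pn_ext_const _ x hG (Γ.sites g p) (pn_gl_splits Γ row g _) (pn_gl_disj Γ g hd)
  have hr0 := (pn_rPin_mem _ hG (Γ.sites g p) (Γ.sites g A) u).1
  have z1 := pn_ZC_one_pos _ hG (Γ.sites g p) u
  have z2 := pn_ZC_one_pos _ hG ∅ 0
  have e1 : x.zr β (Γ.sites g p) u = ZCU Γ F g row' β (Γ.sites g p) u (fun _ => 1) / ZC (lawR Γ g row) β (Γ.sites g p) u fun _ => 1 := by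
    rw [hx]; rfl
  have e2 : x.zr β ∅ 0 = ZCU Γ F g row' β ∅ 0 (fun _ => 1) / ZC (lawR Γ g row) β ∅ 0 fun _ => 1 := by
    rw [hx]; rfl
  obtain ⟨Zu, hZu⟩ : ∃ z, z = ZC (lawR Γ g row) β (Γ.sites g p) u fun _ => 1 := ⟨_, rfl⟩
  obtain ⟨Z0, hZ0⟩ : ∃ z, z = ZC (lawR Γ g row) β ∅ 0 fun _ => 1 := ⟨_, rfl⟩
  obtain ⟨Zu', hZu'⟩ : ∃ z, z = ZCU Γ F g row' β (Γ.sites g p) u (fun _ => 1) := ⟨_, rfl⟩
  obtain ⟨Z0', hZ0'⟩ : ∃ z, z = ZCU Γ F g row' β ∅ 0 (fun _ => 1) := ⟨_, rfl⟩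
  rw [← hZu, ← hZu'] at e1
  rw [← hZ0, ← hZ0'] at e2
  rw [← hZu] at z1
  rw [← hZ0] at z2
  rw [← hZu, ← hZ0, ← hZu', ← hZ0']
  obtain ⟨a, ha⟩ : ∃ a, a = x.zr β (Γ.sites g p) u := ⟨_, rfl⟩
  obtain ⟨a0, ha0⟩ : ∃ a, a = x.zr β (Γ.sites g p) 0 := ⟨_, rfl⟩
  obtain ⟨aE, haE⟩ : ∃ a, a = x.zr β ∅ 0 := ⟨_, rfl⟩
  have hrr : x.rr β (Γ.sites g p) u = a / a0 := by rw [ha, ha0]; rfl
  rw [hrr] at hs
  rw [← ha] at hs e1
  rw [← ha0] at hs0 hc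
  rw [← haE] at hsE hc e2
  have pa := hs.2.2
  have pa0 := hs0.2.2
  have paE := hsE.2.2
  have eZu' : Zu' = a * Zu := by rw [e1]; field_simp
  have eZ0' : Z0' = aE * Z0 := by rw [e2]; field_simp
  have key : Zu' / Z0' = (a / a0) * (a0 / aE) * (Zu / Z0) := by
    rw [eZu', eZ0']; field_simp
  rw [key]
  have q : 0 < Zu / Z0 := div_pos z1 z2
  have q1 : 0 < a / a0 := div_pos pa pa0
  constructor
  · apply mul_le_mul_of_nonneg_right _ q.le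
    calc _ ≤ a / a0 := hs.1
      _ = a / a0 * 1 := (mul_one _).symm
      _ ≤ a / a0 * (a0 / aE) := mul_le_mul_of_nonneg_left hc.1 q1.le
  · apply mul_le_mul_of_nonneg_right _ q.le
    calc a / a0 * (a0 / aE) ≤ 1 * (a0 / aE) := mul_le_mul_of_nonneg_right hs.2.1 (div_pos pa0 paE).le
      _ = a0 / aE := one_mul _
      _ ≤ _ := hc.2

end

end Claimed.Agent.R285.Pins.T32
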