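import Claimed.Agent.R285.Base.HeightDefs

/-!
# ROW 285, PINS: FK sign clusters, exploration, reference costs.  DEFINITIONS ONLY (owner helper85; chief of PINS helper235).

Replaces the cable construction of [C]s3 (30-pins.tex l.236-300) and [B]s3 (annular.tex l.171-252).  Everything lives on the PRIMARY graph, is exact, and is written for ONE finite graph.

* heights are integers `h : G.V → ℤ`; one temperature per bond `β : G.E → ℝ`;
* `fkW β h ω`: extended weight of a height and a bond configuration (`ω e = true`: open).  closed: `p(|h_x|+|h_y|)`; open: `p(|h_x|-|h_y|) - p(|h_x|+|h_y|)` if `h_x h_y > 0`, else `0`;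
* `ext β P F` : integral of `F(h,ω) ≥ 0` against the BASE measure (bare weights, hard zero pins on `P`; sigma-finite if a component of `G` does not meet `P`: the translations are summed).
  All band weights, penalties, tilts, events are part of the integrand `F`.  Values in `ℝ≥0∞`: "all nonnegative calculations can first be made by Tonelli".
* `Sg ω` : the group of the sign fields which are constant along open bonds (= one sign per cluster); `SgOn ω T`: those which are `1` off `T`;
* clusters are never a type: `conn ω x y` (same cluster), `clu ω x` (cluster of `x`), `vis ω A` (sites visited from `A`),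
  `cq ω f g h = ∑_C S_C(f) S_C(g)` (`= ∑_C M_C(f) M_C(g)` on the support of `fkW`), `mass ω f h x = M_{C_x}(f)`.
  A size-biased cluster sum is a SITE sum: `∑_C M_C(f) J(C) = ∑_x f_x |h_x| J(C_x)`; a plain cluster sum is `∑_x J(C_x)/|C_x|`.
* `RefLe G U f R`: the unit-edge reference cost of the test `f` in the network grounded on `U` is at most `R`, in DUAL (Poincare) form.
-/

set_option autoImplicit false

namespace Claimed.Agent.R285.Pins

open scoped Classical ENNReal

noncomputable section

/-- weight of a CLOSED bond -/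
def fkCl (β : ℝ) (x y : ℤ) : ℝ := bes β (|x| + |y|)

/-- weight of an OPEN bond -/
def fkOp (β : ℝ) (x y : ℤ) : ℝ := if 0 < x * y then bes β (|x| - |y|) - bes β (|x| + |y|) else 0

variable (G : HGraph)

/-- the extended weight of a height and a bond configuration, one temperature per bond -/
def fkW (β : G.E → ℝ) (h : G.V → ℤ) (ω : G.E → Bool) : ℝ :=
  ∏ e, if ω e = true then fkOp (β e) (h (G.src e)) (h (G.tgt e)) else fkCl (β e) (h (G.src e)) (h (G.tgt e))

/-- the bare weight -/
def bareW (β : G.E → ℝ) (h : G.V → ℤ) : ℝ := ∏ e, bes (β e) (h (G.tgt e) - h (G.src e))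

/-- integral against the base FK-height measure with hard zero pins on `P` -/
def ext (β : G.E → ℝ) (P : Set G.V) (F : (G.V → ℤ) → (G.E → Bool) → ℝ≥0∞) : ℝ≥0∞ :=
  ∑' h : HLaw.pinned P, ∑ ω : G.E → Bool, F h ω * ENNReal.ofReal (fkW G β h ω)

/-- integral against the base height measure with hard zero pins on `P` -/
def bare (β : G.E → ℝ) (P : Set G.V) (F : (G.V → ℤ) → ℝ≥0∞) : ℝ≥0∞ :=
  ∑' h : HLaw.pinned P, F h * ENNReal.ofReal (bareW G β h)

/-! ## signs -/

/-- sign fields which are constant along the open bonds -/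
def Sg (ω : G.E → Bool) : Subgroup (G.V → ℤˣ) where
  carrier := {s | ∀ e, ω e = true → s (G.src e) = s (G.tgt e)}
  one_mem' := fun _ _ => rfl
  mul_mem' := by
    intro a b ha hb e he
    simp only [Pi.mul_apply, ha e he, hb e he]
  inv_mem' := by
    intro a ha e he
    simp only [Pi.inv_apply, ha e he]

/-- sign fields which are constant along the open bonds and trivial off `T` -/
def SgOn (ω : G.E → Bool) (T : Set G.V) : Subgroup (G.V → ℤˣ) where
  carrier := {s | (∀ e, ω e = true → s (G.src e) = s (G.tgt e)) ∧ ∀ v, v ∉ T → s v = 1}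
  one_mem' := ⟨fun _ _ => rfl, fun _ _ => rfl⟩
  mul_mem' := by
    intro a b ha hb
    refine ⟨fun e he => ?_, fun v hv => ?_⟩
    · simp only [Pi.mul_apply, ha.1 e he, hb.1 e he]
    · simp only [Pi.mul_apply, ha.2 v hv, hb.2 v hv, mul_one]
  inv_mem' := by
    intro a ha
    refine ⟨fun e he => ?_, fun v hv => ?_⟩
    · simp only [Pi.inv_apply, ha.1 e he]
    · simp only [Pi.inv_apply, ha.2 v hv, inv_one]

variable {G}

/-- action of a sign field on a height -/
def sgAct (s : G.V → ℤˣ) (h : G.V → ℤ) : G.V → ℤ := fun v => ((s v : ℤˣ) : ℤ) * h v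

/-- average over a group of sign fields (`ℝ≥0∞`) -/
def sgAvg (K : Subgroup (G.V → ℤˣ)) (F : (G.V → ℤ) → ℝ≥0∞) (h : G.V → ℤ) : ℝ≥0∞ :=
  (Fintype.card K : ℝ≥0∞)⁻¹ * ∑ s : K, F (sgAct (s : G.V → ℤˣ) h)

/-- average over a group of sign fields (real) -/
def sgAvgR (K : Subgroup (G.V → ℤˣ)) (F : (G.V → ℤ) → ℝ) (h : G.V → ℤ) : ℝ :=
  (Fintype.card K : ℝ)⁻¹ * ∑ s : K, F (sgAct (s : G.V → ℤˣ) h)

/-- a real linear statistic of the INTEGER height -/
def lin (f : G.V → ℝ) (h : G.V → ℤ) : ℝ := ∑ v, f v * (h v : ℝ)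

variable (G)

/-! ## clusters -/

/-- two sites are joined by an open bond -/
def oAdj (ω : G.E → Bool) (x y : G.V) : Prop :=
  ∃ e, ω e = true ∧ ((G.src e = x ∧ G.tgt e = y) ∨ (G.src e = y ∧ G.tgt e = x))

/-- same cluster -/
def conn (ω : G.E → Bool) (x y : G.V) : Prop := Relation.ReflTransGen (oAdj G ω) x y

/-- the cluster of `x` -/
def clu (ω : G.E → Bool) (x : G.V) : Set G.V := {v | conn G ω x v}

/-- the sites visited by the exploration from `A` (`A` itself and all clusters meeting `A`) -/
def vis (ω : G.E → Bool) (A : Set G.V) : Set G.V := {v | ∃ a ∈ A, conn G ω a v}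

/-- `∑_C S_C(f) S_C(g)`, `S_C(f) = ∑_{x ∈ C} f_x h_x` -/
def cq (ω : G.E → Bool) (f g : G.V → ℝ) (h : G.V → ℤ) : ℝ :=
  ∑ x, ∑ y, if conn G ω x y then (f x * (h x : ℝ)) * (g y * (h y : ℝ)) else 0

/-- `M_{C_x}(f) = ∑_{y ∈ C_x} f_y |h_y|` -/
def mass (ω : G.E → Bool) (f : G.V → ℝ) (h : G.V → ℤ) (x : G.V) : ℝ :=
  ∑ y, if conn G ω x y then f y * |(h y : ℝ)| else 0

/-- restriction of a row vector to a set of sites -/
def resF (T : Set G.V) (f : G.V → ℝ) : G.V → ℝ := fun v => if v ∈ T then f v else 0

/-! ## exploration -/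

/-- restriction of a height to `U`, extended by zero -/
def resZ (U : Set G.V) (h : G.V → ℤ) : G.V → ℤ := fun v => if v ∈ U then h v else 0

/-- a bond between `U` and its complement -/
def bdry (U : Set G.V) (e : G.E) : Prop := ¬ (G.src e ∈ U ↔ G.tgt e ∈ U)

/-- a bond with an endpoint in `U` -/
def touch (U : Set G.V) (e : G.E) : Prop := G.src e ∈ U ∨ G.tgt e ∈ U

/-- the bond configuration off `U` (all bonds touching `U` are declared closed) -/
def maskOut (U : Set G.V) (ω : G.E → Bool) : G.E → Bool := fun e => if touch G U e then false else ω e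

/-- `F` is measurable at the completion of the exploration from `A`: it depends only on the visited set, the visited heights and the states of the bonds touching the visited set -/
def ExpMeas (A : Set G.V) (F : (G.V → ℤ) → (G.E → Bool) → ℝ≥0∞) : Prop :=
  ∀ h h' ω ω', vis G ω A = vis G ω' A → (∀ v ∈ vis G ω A, h v = h' v) →
    (∀ e, touch G (vis G ω A) e → ω e = ω' e) → F h ω = F h' ω'

/-- `F` is signless: invariant under all cluster sign flips -/
def Signless (F : (G.V → ℤ) → (G.E → Bool) → ℝ≥0∞) : Prop :=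
  ∀ h ω, ∀ s ∈ Sg G ω, F (sgAct s h) ω = F h ω

/-! ## reference costs -/

/-- unit-edge Dirichlet energy -/
def dir (v : G.V → ℝ) : ℝ := ∑ e, (v (G.tgt e) - v (G.src e)) ^ 2

/-- the unit-edge reference cost of the test `f` in the network grounded on `U` is at most `R` (dual form: `⟨f,v⟩² ≤ R 𝓔(v)` for all `v` vanishing on `U`) -/
def RefLe (U : Set G.V) (f : G.V → ℝ) (R : ℝ) : Prop :=
  ∀ v : G.V → ℝ, (∀ x ∈ U, v x = 0) → (∑ x, f x * v x) ^ 2 ≤ R * dir G v

end

end Claimed.Agent.R285.Pins
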