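import Claimed.Agent.R285.Base.Geom
import Claimed.Agent.R285.Pins.FkDefs

/-!
# ROW 285, PINS / ANCHOR (Pins/Plan.lean s2; [C]L3.4), part 2: DEFINITIONS      (architect helper80)

The graph is `G = domG D cut` (n.n. graph on `D ⊂ ℤ²` without the bonds of `cut`).  A CHART of `(D, cut)` is a combinatorial geometry `Γ` with a grid `g` which produces the same sites and the same bonds (`AnChart`).
One graph has many charts (fine band cells, coarse cells): no transport between graphs is ever needed.  `Γ.graph g` is charted by `(Γ, g)` itself: `anChart_self`.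

* `AnRep G U f t` : `t` is a flow for the test `f` in the network grounded on `U`: `⟨f,v⟩ = ∑_e t_e ∇_e v` for all `v` vanishing on `U`;
* `AnFlow U f R s W` : there is such a flow with `∑ t² ≤ R`, `|t| ≤ s`, supported on the bonds whose FIRST endpoint lies in `W`   (`FlowLe` of the plan + support);
* `anRho W`   : the uniform probability on `W ⊂ ℤ²` as a row vector (full denominator `|W|`);
* `AnFull D cut a a' c c'` : the rectangle `[a,a') × [c,c')` lies in `D` and none of its inner bonds is cut;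
* `gAdj G x y`: joined by a bond;  `AnJoin G U p q`: a path of `G` from `p` to `q` all of whose sites after `p` lie in `U`;
* `AnTouch U g ν d` : the cell `d` is touched by a path inside `U` (the visited set) which starts in `d` and reaches sup distance `ν`;
* `anNb d`    : the `3 × 3` block of cells around `d`.

## Part 1 (former `AnRect.lean`, Mathlib only; proved by helper8)

* AN-1a `pn_an_exit`  : first exit + discrete intermediate values for a nearest neighbour path in `ℤ²`.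
    [`j` = least index with `ν ≤ anDist (γ 0) (γ j)` (`Nat.find`); before `j` the distance is `< ν`, at `j` it is `= ν` (one step changes it by at most one).  Say the first coordinate realises it.
     Integer sequence `i ↦ (γ i).1`, steps of size `≤ 1`, from `s₀` to `s₀ ± ν`: every integer in between is attained (induction on `j`).]
* AN-1b `pn_an_short` : a chain inside a finite set can be taken of length `< card`.
    [take a chain of minimal length `n` (`Nat.find`); it is injective on `{0..n}` (if `γ i = γ j`, `i < j`, skip: `k ↦ if k ≤ i then γ k else γ (k + (j - i))` is shorter); `Finset.card_le_card_of_injOn` from `range (n+1)` into `𝒦`.]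
* AN-2  `pn_fl_abel`, `pn_fl_part`, `pn_fl_row2`, `pn_fl_col2` : Abel summation on rows and columns.
    [`pn_fl_abel`: induction on `(a' - a).toNat`, or `Finset.sum_range_by_parts` after the shift `x = a + k`.  `pn_fl_part`: both partial sums lie in `[0, s]` (`Finset.sum_le_sum_of_subset_of_nonneg`).
     `pn_fl_row2`: `Finset.sum_product_right` + `pn_fl_abel` in each row.  `pn_fl_col2` = `pn_fl_row2` for `p ∘ swap`, or directly.]
-/

set_option autoImplicit false

namespace Claimed.Agent.R285.Pins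

noncomputable section

/-! ## Part 1: Mathlib-only lemmas (former `AnRect.lean`) -/

section AnRectPart

/-- sup distance in `ℤ²` -/
def anDist (z z' : ℤ × ℤ) : ℤ := max |z.1 - z'.1| |z.2 - z'.2|

/-- discrete intermediate values -/
theorem pn_anr_ivt (f : ℕ → ℤ) (j : ℕ) (hstep : ∀ i < j, |f (i + 1) - f i| ≤ 1) (t : ℤ)
    (h : (f 0 ≤ t ∧ t ≤ f j) ∨ (f j ≤ t ∧ t ≤ f 0)) : ∃ i ≤ j, f i = t := by
  induction j with
  | zero => exact ⟨0, le_rfl, by omega⟩
  | succ j ih =>
    by_cases h' : (f 0 ≤ t ∧ t ≤ f j) ∨ (f j ≤ t ∧ t ≤ f 0)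
    · obtain ⟨i, hi, he⟩ := ih (fun i hi => hstep i (by omega)) h'
      exact ⟨i, by omega, he⟩
    · have h1 := abs_le.1 (hstep j (by omega))
      exact ⟨j + 1, le_rfl, by omega⟩

/-- **AN-1a** first exit and intermediate values: a path with steps of sup length `≤ 1` which reaches sup distance `ν` from its origin has an initial piece inside the box of radius `ν`
one of whose coordinates takes `ν + 1` consecutive values. -/
theorem pn_an_exit (γ : ℕ → ℤ × ℤ) (n ν : ℕ) (hstep : ∀ i < n, anDist (γ i) (γ (i + 1)) ≤ 1)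
    (hfar : (ν : ℤ) ≤ anDist (γ 0) (γ n)) :
    ∃ j ≤ n, (∀ i ≤ j, anDist (γ 0) (γ i) ≤ ν) ∧ ∃ s : ℤ,
      (∀ t ∈ Finset.Icc s (s + ν), ∃ i ≤ j, (γ i).1 = t) ∨
      (∀ t ∈ Finset.Icc s (s + ν), ∃ i ≤ j, (γ i).2 = t) := by
  classical
  have hex : ∃ j, (ν : ℤ) ≤ anDist (γ 0) (γ j) := ⟨n, hfar⟩
  obtain ⟨j, hj⟩ : ∃ j, j = Nat.find hex := ⟨_, rfl⟩
  have hjn : j ≤ n := hj ▸ Nat.find_min' hex hfar
  have hjge : (ν : ℤ) ≤ anDist (γ 0) (γ j) := hj ▸ Nat.find_spec hex
  have hlt : ∀ i < j, anDist (γ 0) (γ i) < ν := fun i hi => not_le.1 (Nat.find_min hex (hj ▸ hi))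
  have hs1 : ∀ i < j, |(γ (i + 1)).1 - (γ i).1| ≤ 1 := by
    intro i hi
    have h := hstep i (by omega)
    unfold anDist at h
    have h2 := (le_max_left _ _).trans h
    rwa [abs_sub_comm] at h2
  have hs2 : ∀ i < j, |(γ (i + 1)).2 - (γ i).2| ≤ 1 := by
    intro i hi
    have h := hstep i (by omega)
    unfold anDist at h
    have h2 := (le_max_right _ _).trans h
    rwa [abs_sub_comm] at h2
  have hjle : anDist (γ 0) (γ j) ≤ ν := by
    rcases Nat.eq_zero_or_pos j with h0 | h0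
    · rw [h0]
      simp [anDist]
    · obtain ⟨i, rfl⟩ : ∃ i, j = i + 1 := ⟨j - 1, by omega⟩
      have h1 := hlt i (by omega)
      have h2 := abs_le.1 (hs1 i (by omega))
      have h3 := abs_le.1 (hs2 i (by omega))
      unfold anDist at h1 ⊢
      have h4 := abs_lt.1 (lt_of_le_of_lt (le_max_left _ _) h1)
      have h5 := abs_lt.1 (lt_of_le_of_lt (le_max_right _ _) h1)
      refine max_le (abs_le.2 ⟨by omega, by omega⟩) (abs_le.2 ⟨by omega, by omega⟩)
  refine ⟨j, hjn, fun i hi => ?_, ?_⟩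
  · rcases Nat.lt_or_ge i j with h | h
    · exact (hlt i h).le
    · rw [show i = j by omega]
      exact hjle
  · have heq : anDist (γ 0) (γ j) = ν := le_antisymm hjle hjge
    unfold anDist at heq
    rcases max_choice |(γ 0).1 - (γ j).1| |(γ 0).2 - (γ j).2| with hm | hm
    · rw [hm] at heq
      rcases abs_choice ((γ 0).1 - (γ j).1) with ha | ha
      · refine ⟨(γ j).1, Or.inl fun t ht => ?_⟩
        rw [Finset.mem_Icc] at ht
        exact pn_anr_ivt (fun i => (γ i).1) j hs1 t (Or.inr ⟨by omega, by omega⟩)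
      · refine ⟨(γ 0).1, Or.inl fun t ht => ?_⟩
        rw [Finset.mem_Icc] at ht
        exact pn_anr_ivt (fun i => (γ i).1) j hs1 t (Or.inl ⟨by omega, by omega⟩)
    · rw [hm] at heq
      rcases abs_choice ((γ 0).2 - (γ j).2) with ha | ha
      · refine ⟨(γ j).2, Or.inr fun t ht => ?_⟩
        rw [Finset.mem_Icc] at ht
        exact pn_anr_ivt (fun i => (γ i).2) j hs2 t (Or.inr ⟨by omega, by omega⟩)
      · refine ⟨(γ 0).2, Or.inr fun t ht => ?_⟩
        rw [Finset.mem_Icc] at ht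
        exact pn_anr_ivt (fun i => (γ i).2) j hs2 t (Or.inl ⟨by omega, by omega⟩)

/-- a chain as a sequence -/
theorem pn_an_chain {α : Type} (r : α → α → Prop) {p q : α} (h : Relation.ReflTransGen r p q) :
    ∃ (n : ℕ) (γ : ℕ → α), γ 0 = p ∧ γ n = q ∧ ∀ i < n, r (γ i) (γ (i + 1)) := by
  induction h with
  | refl => exact ⟨0, fun _ => p, rfl, rfl, fun i hi => absurd hi (Nat.not_lt_zero i)⟩
  | @tail b c _ hbc ih =>
    obtain ⟨n, γ, h0, hn, hs⟩ := ih
    refine ⟨n + 1, fun i => if i ≤ n then γ i else c, ?_, ?_, ?_⟩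
    · simp [h0]
    · simp
    · intro i hi
      rcases Nat.lt_succ_iff_lt_or_eq.1 hi with h | h
      · have h1 : i ≤ n := h.le
        have h2 : i + 1 ≤ n := h
        simp only [h1, h2, if_true]
        exact hs i h
      · subst h
        simp only [le_refl, if_true, Nat.add_one_le_iff, lt_irrefl, if_false]
        rw [hn]
        exact hbc

/-- **AN-1b** a chain inside a finite set can be taken of length `< card`. -/
theorem pn_an_short {ι : Type} (r : ι → ι → Prop) (𝒦 : Finset ι) {i₀ j : ι} (h0 : i₀ ∈ 𝒦)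
    (h : Relation.ReflTransGen (fun x y => r x y ∧ x ∈ 𝒦 ∧ y ∈ 𝒦) i₀ j) :
    ∃ (n : ℕ) (γ : ℕ → ι), n < 𝒦.card ∧ γ 0 = i₀ ∧ γ n = j ∧ (∀ i ≤ n, γ i ∈ 𝒦) ∧ ∀ i < n, r (γ i) (γ (i + 1)) := by
  classical
  have hex : ∃ n : ℕ, ∃ γ : ℕ → ι, γ 0 = i₀ ∧ γ n = j ∧ ∀ i < n, (r (γ i) (γ (i + 1)) ∧ γ i ∈ 𝒦 ∧ γ (i + 1) ∈ 𝒦) :=
    pn_an_chain _ h
  obtain ⟨n, hn⟩ : ∃ n, n = Nat.find hex := ⟨_, rfl⟩
  obtain ⟨γ, g0, gn, gs⟩ : ∃ γ : ℕ → ι, γ 0 = i₀ ∧ γ n = j ∧
      ∀ i < n, (r (γ i) (γ (i + 1)) ∧ γ i ∈ 𝒦 ∧ γ (i + 1) ∈ 𝒦) := hn ▸ Nat.find_spec hex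
  have hmin : ∀ n' < n, ¬ ∃ γ : ℕ → ι, γ 0 = i₀ ∧ γ n' = j ∧
      ∀ i < n', (r (γ i) (γ (i + 1)) ∧ γ i ∈ 𝒦 ∧ γ (i + 1) ∈ 𝒦) := fun n' h' => Nat.find_min hex (hn ▸ h')
  have hmem : ∀ i ≤ n, γ i ∈ 𝒦 := by
    intro i hi
    rcases Nat.lt_or_ge i n with h1 | h1
    · exact (gs i h1).2.1
    · rcases Nat.eq_zero_or_pos i with h2 | h2
      · rw [h2, g0]; exact h0
      · have := (gs (i - 1) (by omega)).2.2
        rwa [show i - 1 + 1 = i by omega] at this
  have hinj : ∀ a b, a < b → b ≤ n → γ a ≠ γ b := by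
    intro a b hab hb he
    refine hmin (n - (b - a)) (by omega) ⟨fun k => if k ≤ a then γ k else γ (k + (b - a)), ?_, ?_, ?_⟩
    · simp [g0]
    · by_cases h1 : n - (b - a) ≤ a
      · have h2 : b = n := by omega
        have h3 : n - (b - a) = a := by omega
        simp only [h3, le_refl, if_true]
        rw [he, h2, gn]
      · simp only [h1, if_false]
        rw [show n - (b - a) + (b - a) = n by omega, gn]
    · intro k hk
      by_cases h1 : k + 1 ≤ a
      · have h2 : k ≤ a := by omega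
        simp only [h1, h2, if_true]
        exact gs k (by omega)
      · by_cases h2 : k ≤ a
        · have h3 : k = a := by omega
          subst h3
          simp only [le_refl, if_true, h1, if_false]
          rw [he, show k + 1 + (b - k) = b + 1 by omega]
          exact gs b (by omega)
        · simp only [h1, h2, if_false]
          rw [show k + 1 + (b - a) = k + (b - a) + 1 by omega]
          exact gs _ (by omega)
  refine ⟨n, γ, ?_, g0, gn, hmem, fun i hi => (gs i hi).1⟩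
  have hc : (Finset.range (n + 1)).card ≤ 𝒦.card := by
    refine Finset.card_le_card_of_injOn γ (fun i hi => hmem i (by
      have := Finset.mem_range.1 (Finset.mem_coe.1 hi)
      omega)) ?_
    intro a ha b hb he
    have ha' := Finset.mem_range.1 (Finset.mem_coe.1 ha)
    have hb' := Finset.mem_range.1 (Finset.mem_coe.1 hb)
    rcases Nat.lt_trichotomy a b with h1 | h1 | h1
    · exact absurd he (hinj a b h1 (by omega))
    · exact h1
    · exact absurd he.symm (hinj b a h1 (by omega))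
  rw [Finset.card_range] at hc
  omega

theorem pn_anr_reindex (f : ℤ → ℝ) (s : ℤ) (q : ℕ) :
    ∑ j ∈ Finset.Ico s (s + q), f j = ∑ n ∈ Finset.range q, f (s + n) := by
  refine Finset.sum_nbij' (fun j => (j - s).toNat) (fun n => s + (n : ℤ)) ?_ ?_ ?_ ?_ ?_
  · intro j hj
    rw [Finset.mem_Ico] at hj
    rw [Finset.mem_range]
    omega
  · intro n hn
    rw [Finset.mem_range] at hn
    rw [Finset.mem_Ico]
    omega
  · intro j hj
    rw [Finset.mem_Ico] at hj
    show s + ((j - s).toNat : ℤ) = j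
    omega
  · intro n hn
    show (s + (n : ℤ) - s).toNat = n
    omega
  · intro j hj
    rw [Finset.mem_Ico] at hj
    congr 1
    show j = s + ((j - s).toNat : ℤ)
    omega

/-- Abel summation on `ℕ` -/
theorem pn_anr_abel (f g : ℕ → ℝ) (n : ℕ) :
    ∑ k ∈ Finset.range (n + 1), f k * g k = (∑ k ∈ Finset.range (n + 1), f k) * g n
      - ∑ k ∈ Finset.range n, (∑ i ∈ Finset.range (k + 1), f i) * (g (k + 1) - g k) := by
  induction n with
  | zero => simp
  | succ n ih =>
    rw [Finset.sum_range_succ, ih, Finset.sum_range_succ (fun k => f k) (n + 1),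
      Finset.sum_range_succ (fun k => (∑ i ∈ Finset.range (k + 1), f i) * (g (k + 1) - g k)) n]
    ring

/-- **AN-2** Abel summation for a density of zero total mass. -/
theorem pn_fl_abel (p w : ℤ → ℝ) (a a' : ℤ) (h0 : ∑ x ∈ Finset.Ico a a', p x = 0) :
    ∑ x ∈ Finset.Ico a a', p x * w x
      = ∑ x ∈ Finset.Ico a (a' - 1), (-∑ x' ∈ Finset.Ico a (x + 1), p x') * (w (x + 1) - w x) := by
  rcases le_or_gt a' a with h | h
  · rw [Finset.Ico_eq_empty (by omega), Finset.Ico_eq_empty (by omega)]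
    simp
  · obtain ⟨n, hn⟩ : ∃ n : ℕ, a' = a + ((n + 1 : ℕ) : ℤ) := ⟨(a' - a - 1).toNat, by push_cast; omega⟩
    have hn' : a' - 1 = a + (n : ℤ) := by rw [hn]; push_cast; ring
    rw [hn'] 
    rw [hn] at h0 ⊢
    rw [pn_anr_reindex] at h0 ⊢
    rw [pn_anr_reindex, pn_anr_abel (fun k => p (a + k)) (fun k => w (a + k)) n, h0, zero_mul, zero_sub,
      ← Finset.sum_neg_distrib]
    refine Finset.sum_congr rfl fun k _ => ?_
    have e : a + (k : ℤ) + 1 = a + ((k + 1 : ℕ) : ℤ) := by push_cast; ring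
    rw [e, pn_anr_reindex]
    ring

/-- **AN-2** the partial sums of a difference of two nonnegative densities of the same mass `≤ s`. -/
theorem pn_fl_part (p q : ℤ → ℝ) (hp : ∀ x, 0 ≤ p x) (hq : ∀ x, 0 ≤ q x) (a a' : ℤ) (s : ℝ)
    (hpq : ∑ x ∈ Finset.Ico a a', p x = ∑ x ∈ Finset.Ico a a', q x) (hs : ∑ x ∈ Finset.Ico a a', p x ≤ s)
    (x : ℤ) (hx : x < a') : |∑ x' ∈ Finset.Ico a (x + 1), (p x' - q x')| ≤ s := by
  have hsub : Finset.Ico a (x + 1) ⊆ Finset.Ico a a' := Finset.Ico_subset_Ico le_rfl (by omega)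
  have h1 : ∑ x' ∈ Finset.Ico a (x + 1), p x' ≤ s :=
    (Finset.sum_le_sum_of_subset_of_nonneg hsub fun i _ _ => hp i).trans hs
  have h2 : ∑ x' ∈ Finset.Ico a (x + 1), q x' ≤ s :=
    (Finset.sum_le_sum_of_subset_of_nonneg hsub fun i _ _ => hq i).trans (hpq ▸ hs)
  have h3 : 0 ≤ ∑ x' ∈ Finset.Ico a (x + 1), p x' := Finset.sum_nonneg fun i _ => hp i
  have h4 : 0 ≤ ∑ x' ∈ Finset.Ico a (x + 1), q x' := Finset.sum_nonneg fun i _ => hq i
  rw [Finset.sum_sub_distrib, abs_le]
  constructor <;> linarith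

/-- the horizontal flow of a density with zero row sums: minus the partial row sums -/
def anTh (p : ℤ × ℤ → ℝ) (a : ℤ) (z : ℤ × ℤ) : ℝ := -∑ x' ∈ Finset.Ico a (z.1 + 1), p (x', z.2)

/-- the vertical flow of a density with zero column sums: minus the partial column sums -/
def anTv (p : ℤ × ℤ → ℝ) (c : ℤ) (z : ℤ × ℤ) : ℝ := -∑ y' ∈ Finset.Ico c (z.2 + 1), p (z.1, y')

/-- **AN-2** row lemma. -/
theorem pn_fl_row2 (p u : ℤ × ℤ → ℝ) (a a' c c' : ℤ) (h0 : ∀ y ∈ Finset.Ico c c', ∑ x ∈ Finset.Ico a a', p (x, y) = 0) :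
    ∑ z ∈ Finset.Ico a a' ×ˢ Finset.Ico c c', p z * u z
      = ∑ z ∈ Finset.Ico a (a' - 1) ×ˢ Finset.Ico c c', anTh p a z * (u (z.1 + 1, z.2) - u z) := by
  rw [Finset.sum_product_right, Finset.sum_product_right]
  refine Finset.sum_congr rfl fun y hy => ?_
  exact pn_fl_abel (fun x => p (x, y)) (fun x => u (x, y)) a a' (h0 y hy)

/-- **AN-2** column lemma. -/
theorem pn_fl_col2 (p u : ℤ × ℤ → ℝ) (a a' c c' : ℤ) (h0 : ∀ x ∈ Finset.Ico a a', ∑ y ∈ Finset.Ico c c', p (x, y) = 0) :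
    ∑ z ∈ Finset.Ico a a' ×ˢ Finset.Ico c c', p z * u z
      = ∑ z ∈ Finset.Ico a a' ×ˢ Finset.Ico c (c' - 1), anTv p c z * (u (z.1, z.2 + 1) - u z) := by
  rw [Finset.sum_product, Finset.sum_product]
  refine Finset.sum_congr rfl fun x hx => ?_
  exact pn_fl_abel (fun y => p (x, y)) (fun y => u (x, y)) c c' (h0 x hx)

end AnRectPart

/-! ## Part 2: definitions -/

open scoped Classical

/-- joined by a bond of the graph -/
def gAdj (G : HGraph) (x y : G.V) : Prop := ∃ e, (G.src e = x ∧ G.tgt e = y) ∨ (G.src e = y ∧ G.tgt e = x)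

/-- a path of `G` from `p` to `q`, all sites after `p` in `U` -/
def AnJoin (G : HGraph) (U : Set G.V) (p q : G.V) : Prop :=
  Relation.ReflTransGen (fun x y => gAdj G x y ∧ y ∈ U) p q

/-- `t` is a flow for the test `f` in the network grounded on `U` -/
def AnRep (G : HGraph) (U : Set G.V) (f : G.V → ℝ) (t : G.E → ℝ) : Prop :=
  ∀ v : G.V → ℝ, (∀ x ∈ U, v x = 0) → ∑ x, f x * v x = ∑ e, t e * (v (G.tgt e) - v (G.src e))

/-- the rectangle `[a,a') × [c,c')` -/
def anRect (a a' c c' : ℤ) : Finset (ℤ × ℤ) := Finset.Ico a a' ×ˢ Finset.Ico c c'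

/-- the rectangle lies in `D` and none of its inner bonds is cut -/
def AnFull (D : Finset (ℤ × ℤ)) (cut : Set Bond) (a a' c c' : ℤ) : Prop :=
  anRect a a' c c' ⊆ D ∧ ∀ e : Bond, e.1 ∈ anRect a a' c c' → e.snd ∈ anRect a a' c c' → e ∉ cut

/-- `(Γ, g)` is a chart of `(D, cut)` -/
structure AnChart (D : Finset (ℤ × ℤ)) (cut : Set Bond) {m₁ m₂ : ℕ} (Γ : CGeom m₁ m₂) (g : DGrid m₁ m₂) : Prop where
  dom : D = g.region Γ.T
  cut_iff : ∀ e : Bond, e.1 ∈ D → e.snd ∈ D → (e ∈ cut ↔ e ∈ Γ.cutB g)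

theorem anChart_self {m₁ m₂ : ℕ} (Γ : CGeom m₁ m₂) (g : DGrid m₁ m₂) : AnChart (g.region Γ.T) (Γ.cutB g) Γ g :=
  ⟨rfl, fun _ _ _ => Iff.rfl⟩

/-- the `3 × 3` block of cells around `d` -/
def anNb {m₁ m₂ : ℕ} (d : Fin m₁ × Fin m₂) : Finset (Fin m₁ × Fin m₂) :=
  Finset.univ.filter fun κ => κ.1.1 ≤ d.1.1 + 1 ∧ d.1.1 ≤ κ.1.1 + 1 ∧ κ.2.1 ≤ d.2.1 + 1 ∧ d.2.1 ≤ κ.2.1 + 1

section Dom

variable {D : Finset (ℤ × ℤ)} {cut : Set Bond}

/-- the vertex of `domG D cut` at a site of `D` -/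
def anV (z : ℤ × ℤ) (h : z ∈ D) : (domG D cut).V := (⟨z, h⟩ : {v : ℤ × ℤ // v ∈ D})

/-- extension by zero -/
def anExt (v : (domG D cut).V → ℝ) : ℤ × ℤ → ℝ := fun z => if h : z ∈ D then v (anV z h) else 0

/-- a flow for `f`, grounded on `U`, with `ℓ²` bound `R`, sup bound `s`, supported on the bonds whose first endpoint lies in `W` -/
def AnFlow (U : Set (domG D cut).V) (f : (domG D cut).V → ℝ) (R s : ℝ) (W : Finset (ℤ × ℤ)) : Prop :=
  ∃ t : (domG D cut).E → ℝ, AnRep (domG D cut) U f t ∧ ∑ e, t e ^ 2 ≤ R ∧ (∀ e, |t e| ≤ s) ∧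
    ∀ e, (domBond e).1 ∉ W → t e = 0

/-- the uniform probability on `W`, as a row vector -/
def anRho (W : Finset (ℤ × ℤ)) : (domG D cut).V → ℝ := fun x => if domPos x ∈ W then (W.card : ℝ)⁻¹ else 0

/-- the cell `d` is touched by a path inside `U` which starts in `d` and reaches sup distance `ν` -/
def AnTouch (U : Set (domG D cut).V) {m₁ m₂ : ℕ} (g : DGrid m₁ m₂) (ν : ℕ) (d : Fin m₁ × Fin m₂) : Prop :=
  ∃ p q : (domG D cut).V, p ∈ U ∧ domPos p ∈ g.cell d ∧ (ν : ℤ) ≤ anDist (domPos p) (domPos q) ∧ AnJoin (domG D cut) U p q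

end Dom

end

end Claimed.Agent.R285.Pins
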