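import Claimed.Agent.R285.Pins.AnDefs

/-!
# ROW 285, PINS / ANCHOR = Pins/Plan.lean s2 ([C] Lemma 3.4 "primary path anchoring", 30-pins.tex l.302-357; [B]L3.2).  EXIT THEOREMS      (architect helper80)

`G = domG D cut`, `U ⊆ G.V` the visited set, `(Γ, g)` ANY chart of `(D, cut)` (`AnChart`; `anChart_self` for `G = Γ.graph g`) whose cells have sides in `[ν, K ν]`.
`AnFlow U f R s W` (`Pins/AnDefs.lean`) = flow for `f` grounded on `U`, `∑ t² ≤ R`, `|t| ≤ s`, supported on the bonds with first endpoint in `W`.   `anRho W` = uniform probability on `W`.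

* (AN1) `pn_an_cell`   : `d` touched (`AnTouch`) ⟹ `AnFlow U ρ_d (anF1 K) (42/ν) (3×3 block)`.
* (AN2) `pn_an_family` : all `d ∈ 𝒟` touched ⟹ `AnFlow U (∑ c_d ρ_d) (9 anF1 K ∑ c_d²) (9 · 42 M/ν)`, `|c_d| ≤ M`.
* (AN3) `pn_an_fine` (AnPair.lean; general form `pn_fl_sub`, AnSub.lean): fine cell in a coarse cell, cost `2Kr + 2K`, sup `2/ν`;   `pn_an_conn`: two cells of one component, cost `(m₁m₂)² 24K`, sup `4 m₁m₂/ν`.
* (AN4) `pn_an_point` (AnPair.lean): `δ_x - ρ_c`, cost `2Kν + 2K`, sup `2`.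
* `pn_an_touch`: a path inside `U` from the cell `d` to a cell outside the `3×3` block of `d` touches `d`.   `pn_an_join_of_conn`: an FK cluster inside `U` provides the paths.
* `AnFlow.refLe` (AnCalc.lean): `RefLe G U f R`.
No hypothesis on the geometry (walls, junctions, slits, diagonal contacts are all allowed).

ALL PROVED (helper80, helper8, helper54, helper287).  This file = former `AnCalc`, `AnBridge`, `AnSub`, `AnGeo`, `AnSpan`, `AnPair`, `Anchor` (one section each, headers kept).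
-/

set_option autoImplicit false

namespace Claimed.Agent.R285.Pins

open scoped Classical

noncomputable section

/-!
# ROW 285, PINS / ANCHOR (Pins/Plan.lean s2), part 3: calculus of flows      (architect helper80)

`AnFlow.mono`, `anti`, `congr`, `smul`, `neg`, `add`, `sub`, `ground`, `refLe` (Cauchy-Schwarz: a flow bounds the reference cost in dual form) and
* AN-3 `AnFlow.sum` : a finite sum of flows whose supports overlap at most `M` times: `ℓ²` bound `M ∑ R_i`, sup bound `M s`.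
    [choose `t i` (`Classical.choose`, `0` off `I`), `t = ∑_{i ∈ I} t i`.  For a bond `e` with first endpoint `z`: `t e = ∑_{i ∈ I, z ∈ W i} t i e` (`Finset.sum_filter_of_ne` / `Finset.sum_subset`);
     `(t e)² ≤ M ∑_{i ∈ I} (t i e)²` (`sq_sum_le_card_mul_sum_sq`), `|t e| ≤ M s` (`Finset.abs_sum_le_sum_abs`, `Finset.sum_le_card_nsmul`); exchange the sums (`Finset.sum_comm`).]
-/

section AnCalcPart

variable {D : Finset (ℤ × ℤ)} {cut : Set Bond} {U U' : Set (domG D cut).V} {f f' : (domG D cut).V → ℝ} {R R' s s' : ℝ}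
  {W W' : Finset (ℤ × ℤ)}

namespace AnFlow

theorem mono (h : AnFlow U f R s W) (hR : R ≤ R') (hs : s ≤ s') (hW : W ⊆ W') : AnFlow U f R' s' W' := by
  obtain ⟨t, h1, h2, h3, h4⟩ := h
  exact ⟨t, h1, h2.trans hR, fun e => (h3 e).trans hs, fun e he => h4 e fun h => he (hW h)⟩

theorem anti (h : AnFlow U f R s W) (hU : U ⊆ U') : AnFlow U' f R s W := by
  obtain ⟨t, h1, h2, h3, h4⟩ := h
  exact ⟨t, fun v hv => h1 v fun x hx => hv x (hU hx), h2, h3, h4⟩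

theorem congr (h : AnFlow U f R s W) (hf : ∀ x, f x = f' x) : AnFlow U f' R s W := by
  have : f = f' := funext hf
  rwa [← this]

theorem smul (h : AnFlow U f R s W) (c : ℝ) : AnFlow U (fun x => c * f x) (c ^ 2 * R) (|c| * s) W := by
  obtain ⟨t, h1, h2, h3, h4⟩ := h
  refine ⟨fun e => c * t e, fun v hv => ?_, ?_, fun e => ?_, fun e he => ?_⟩
  · have := h1 v hv
    calc ∑ x, c * f x * v x = c * ∑ x, f x * v x := by
          rw [Finset.mul_sum]; exact Finset.sum_congr rfl fun x _ => by ring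
      _ = c * ∑ e, t e * (v ((domG D cut).tgt e) - v ((domG D cut).src e)) := by rw [this]
      _ = _ := by rw [Finset.mul_sum]; exact Finset.sum_congr rfl fun x _ => by ring
  · calc ∑ e, (c * t e) ^ 2 = c ^ 2 * ∑ e, t e ^ 2 := by
          rw [Finset.mul_sum]; exact Finset.sum_congr rfl fun x _ => by ring
      _ ≤ c ^ 2 * R := mul_le_mul_of_nonneg_left h2 (sq_nonneg c)
  · rw [abs_mul]
    exact mul_le_mul_of_nonneg_left (h3 e) (abs_nonneg c)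
  · show c * t e = 0
    rw [h4 e he, mul_zero]

theorem neg (h : AnFlow U f R s W) : AnFlow U (fun x => - f x) R s W := by
  have := h.smul (-1)
  simp only [even_two, Even.neg_pow, one_pow, one_mul, abs_neg, abs_one, neg_mul] at this
  exact this

theorem add (h : AnFlow U f R s W) (h' : AnFlow U f' R' s' W') :
    AnFlow U (fun x => f x + f' x) (2 * R + 2 * R') (s + s') (W ∪ W') := by
  obtain ⟨t, h1, h2, h3, h4⟩ := h
  obtain ⟨t', h1', h2', h3', h4'⟩ := h'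
  refine ⟨fun e => t e + t' e, fun v hv => ?_, ?_, fun e => ?_, fun e he => ?_⟩
  · calc ∑ x, (f x + f' x) * v x = ∑ x, f x * v x + ∑ x, f' x * v x := by
          rw [← Finset.sum_add_distrib]; exact Finset.sum_congr rfl fun x _ => by ring
      _ = _ := by
          rw [h1 v hv, h1' v hv, ← Finset.sum_add_distrib]; exact Finset.sum_congr rfl fun x _ => by ring
  · calc ∑ e, (t e + t' e) ^ 2 ≤ ∑ e, (2 * t e ^ 2 + 2 * t' e ^ 2) :=
          Finset.sum_le_sum fun e _ => by nlinarith [sq_nonneg (t e - t' e)]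
      _ = 2 * ∑ e, t e ^ 2 + 2 * ∑ e, t' e ^ 2 := by rw [Finset.sum_add_distrib, Finset.mul_sum, Finset.mul_sum]
      _ ≤ 2 * R + 2 * R' := by linarith
  · exact (abs_add_le _ _).trans (add_le_add (h3 e) (h3' e))
  · show t e + t' e = 0
    rw [h4 e fun h => he (Finset.mem_union_left _ h), h4' e fun h => he (Finset.mem_union_right _ h), add_zero]

theorem sub (h : AnFlow U f R s W) (h' : AnFlow U f' R' s' W') :
    AnFlow U (fun x => f x - f' x) (2 * R + 2 * R') (s + s') (W ∪ W') :=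
  (h.add h'.neg).congr fun x => by ring

/-- a test carried by the grounded set needs no flow -/
theorem ground (hf : ∀ x, x ∉ U → f x = 0) : AnFlow U f 0 0 ∅ := by
  refine ⟨fun _ => 0, fun v hv => ?_, by simp, by simp, fun _ _ => rfl⟩
  have : ∑ x, f x * v x = 0 := Finset.sum_eq_zero fun x _ => by
    by_cases hx : x ∈ U
    · rw [hv x hx, mul_zero]
    · rw [hf x hx, zero_mul]
  simp [this]

/-- **AN-3** finite sums with bounded overlap -/
theorem sum {ι : Type} (I : Finset ι) (F : ι → (domG D cut).V → ℝ) (Ri : ι → ℝ) (hs : 0 ≤ s) (Wi : ι → Finset (ℤ × ℤ)) (M : ℕ)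
    (hM : ∀ z, (I.filter fun i => z ∈ Wi i).card ≤ M) (h : ∀ i ∈ I, AnFlow U (F i) (Ri i) s (Wi i)) :
    AnFlow U (fun x => ∑ i ∈ I, F i x) ((M : ℝ) * ∑ i ∈ I, Ri i) ((M : ℝ) * s) (I.biUnion Wi) := by
  choose! t ht using h
  have hfil : ∀ e, ∑ i ∈ I, t i e = ∑ i ∈ I.filter (fun i => (domBond e).1 ∈ Wi i), t i e := by
    intro e
    rw [Finset.sum_filter]
    refine Finset.sum_congr rfl fun i hi => ?_
    split_ifs with hz
    · rfl
    · exact (ht i hi).2.2.2 e hz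
  refine ⟨fun e => ∑ i ∈ I, t i e, fun v hv => ?_, ?_, fun e => ?_, fun e he => ?_⟩
  · calc ∑ x, (∑ i ∈ I, F i x) * v x = ∑ i ∈ I, ∑ x, F i x * v x := by
          rw [Finset.sum_comm]
          exact Finset.sum_congr rfl fun x _ => Finset.sum_mul _ _ _
      _ = ∑ i ∈ I, ∑ e, t i e * (v ((domG D cut).tgt e) - v ((domG D cut).src e)) :=
          Finset.sum_congr rfl fun i hi => (ht i hi).1 v hv
      _ = _ := by
          rw [Finset.sum_comm]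
          exact Finset.sum_congr rfl fun x _ => (Finset.sum_mul _ _ _).symm
  · calc ∑ e, (∑ i ∈ I, t i e) ^ 2 ≤ ∑ e, (M : ℝ) * ∑ i ∈ I, t i e ^ 2 := by
          refine Finset.sum_le_sum fun e _ => ?_
          rw [hfil e]
          calc (∑ i ∈ I.filter (fun i => (domBond e).1 ∈ Wi i), t i e) ^ 2
              ≤ ((I.filter fun i => (domBond e).1 ∈ Wi i).card : ℝ) *
                  ∑ i ∈ I.filter (fun i => (domBond e).1 ∈ Wi i), t i e ^ 2 := sq_sum_le_card_mul_sum_sq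
            _ ≤ (M : ℝ) * ∑ i ∈ I, t i e ^ 2 := by
                apply mul_le_mul (by exact_mod_cast hM _) _ (Finset.sum_nonneg fun _ _ => sq_nonneg _)
                  (Nat.cast_nonneg M)
                exact Finset.sum_le_sum_of_subset_of_nonneg (Finset.filter_subset _ _) fun _ _ _ => sq_nonneg _
      _ = (M : ℝ) * ∑ i ∈ I, ∑ e, t i e ^ 2 := by
          rw [← Finset.mul_sum, Finset.sum_comm]
      _ ≤ (M : ℝ) * ∑ i ∈ I, Ri i :=
          mul_le_mul_of_nonneg_left (Finset.sum_le_sum fun i hi => (ht i hi).2.1) (Nat.cast_nonneg M)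
  · show |∑ i ∈ I, t i e| ≤ (M : ℝ) * s
    rw [hfil e]
    calc |∑ i ∈ I.filter (fun i => (domBond e).1 ∈ Wi i), t i e|
        ≤ ∑ i ∈ I.filter (fun i => (domBond e).1 ∈ Wi i), |t i e| := Finset.abs_sum_le_sum_abs _ _
      _ ≤ (I.filter fun i => (domBond e).1 ∈ Wi i).card • s :=
          Finset.sum_le_card_nsmul _ _ _ fun i hi => (ht i (Finset.mem_filter.1 hi).1).2.2.1 e
      _ = ((I.filter fun i => (domBond e).1 ∈ Wi i).card : ℝ) * s := nsmul_eq_mul _ _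
      _ ≤ (M : ℝ) * s := mul_le_mul_of_nonneg_right (by exact_mod_cast hM _) hs
  · show ∑ i ∈ I, t i e = 0
    refine Finset.sum_eq_zero fun i hi => (ht i hi).2.2.2 e fun hz => he ?_
    exact Finset.mem_biUnion.2 ⟨i, hi, hz⟩

/-- a flow bounds the reference cost (dual form) -/
theorem refLe (h : AnFlow U f R s W) : RefLe (domG D cut) U f R := by
  obtain ⟨t, h1, h2, -, -⟩ := h
  intro v hv
  rw [h1 v hv]
  calc (∑ e, t e * (v ((domG D cut).tgt e) - v ((domG D cut).src e))) ^ 2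
      ≤ (∑ e, t e ^ 2) * ∑ e, (v ((domG D cut).tgt e) - v ((domG D cut).src e)) ^ 2 :=
        Finset.sum_mul_sq_le_sq_mul_sq _ _ _
    _ ≤ R * dir (domG D cut) v := mul_le_mul_of_nonneg_right h2 (Finset.sum_nonneg fun _ _ => sq_nonneg _)

end AnFlow

end AnCalcPart

/-!
# ROW 285, PINS / ANCHOR (Pins/Plan.lean s2), part 4: ROW LEMMA and COLUMN LEMMA on the graph      (architect helper80)

`R = [a,a') × [c,c')` a full rectangle of `(D, cut)`; `p, q ≥ 0` two densities with the same mass `≤ s` on every row of `R`.  Then `(p - q) 1_R` has a flow on the horizontal bonds of `R` with `|t| ≤ s`, hence `∑ t² ≤ |R| s²`.  Same for columns.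

AN-4 = `pn_fl_row`, `pn_fl_col` (PROVED, helper80).  General tool: `pn_br_flow`.
  [`t e := if (domBond e).2 = true ∧ (domBond e).1 ∈ Ico a (a'-1) ×ˢ Ico c c' then anTh (p - q) a (domBond e).1 else 0`.
   (i) REPRESENTATION.  For `v : G.V → ℝ` put `u = anExt v`.  `∑_{x : G.V} (if domPos x ∈ R then .. else 0) * v x = ∑_{z ∈ R} (p z - q z) * u z`: `G.V` is the subtype of `D` (`Finset.sum_coe_sort`, `Finset.sum_attach`, `Finset.sum_filter`, `R ⊆ D`, `dif_pos`).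
       `pn_fl_row2` gives `∑_{z ∈ Ico a (a'-1) ×ˢ Ico c c'} anTh (p - q) a z * (u (z.1+1, z.2) - u z)`.
       `z ↦ (z, true)` maps `Ico a (a'-1) ×ˢ Ico c c'` injectively into `domBonds D cut` (`AnFull`: both endpoints in `R ⊆ D`, not cut); `G.E` is the subtype of `domBonds D cut`; `tgt`, `src` are `Bond.snd`, `.1`
       (`Finset.sum_bij` / `Finset.sum_image` + `Finset.sum_subset`).
   (ii) `|t e| ≤ s` by `pn_fl_part` in the row `(domBond e).1.2` (`abs_neg`).     (iii) `∑ t² ≤ #{bonds} s² ≤ (a'-a)(c'-c) s²` (`Finset.card_product`, `Int.card_Ico`).     (iv) support: `Ico a (a'-1) ⊆ Ico a a'`.]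
-/

section AnBridgePart

variable {D : Finset (ℤ × ℤ)} {cut : Set Bond}

theorem pn_br_sumV (F : ℤ × ℤ → ℝ) : ∑ x : (domG D cut).V, F (domPos x) = ∑ z ∈ D, F z := by
  refine Finset.sum_bij (fun x _ => domPos x) (fun x _ => Subtype.property (p := fun v => v ∈ D) x)
    (fun a _ b _ h => Subtype.ext (p := fun v => v ∈ D) h) (fun z hz => ⟨anV z hz, Finset.mem_univ _, rfl⟩) (fun _ _ => rfl)

theorem pn_br_sumE (F : Bond → ℝ) : ∑ e : (domG D cut).E, F (domBond e) = ∑ e ∈ domBonds D cut, F e := by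
  refine Finset.sum_bij (fun x _ => domBond x) (fun x _ => Subtype.property (p := fun e => e ∈ domBonds D cut) x)
    (fun a _ b _ h => Subtype.ext (p := fun e => e ∈ domBonds D cut) h)
    (fun z hz => ⟨(⟨z, hz⟩ : {e : Bond // e ∈ domBonds D cut}), Finset.mem_univ _, rfl⟩) (fun _ _ => rfl)

theorem pn_br_ext (v : (domG D cut).V → ℝ) (w : (domG D cut).V) : anExt v (domPos w) = v w := by
  have hw : domPos w ∈ D := Subtype.property (p := fun v => v ∈ D) w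
  unfold anExt
  rw [dif_pos hw]
  rfl

theorem pn_br_tgt (v : (domG D cut).V → ℝ) (e : (domG D cut).E) :
    v ((domG D cut).tgt e) = anExt v (domBond e).snd := (pn_br_ext v _).symm

theorem pn_br_src (v : (domG D cut).V → ℝ) (e : (domG D cut).E) :
    v ((domG D cut).src e) = anExt v (domBond e).1 := (pn_br_ext v _).symm

/-- the flow on the graph of a function on the bonds `(z, β)`, `z ∈ R'` -/
def brT (β : Bool) (R' : Finset (ℤ × ℤ)) (τ : ℤ × ℤ → ℝ) (e : Bond) : ℝ := if e.2 = β ∧ e.1 ∈ R' then τ e.1 else 0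

theorem pn_br_sum (β : Bool) (R' : Finset (ℤ × ℤ)) (hR' : ∀ z ∈ R', ((z, β) : Bond) ∈ domBonds D cut) (τ : ℤ × ℤ → ℝ)
    (Φ : Bond → ℝ → ℝ) (hΦ : ∀ e, Φ e 0 = 0) :
    ∑ e : (domG D cut).E, Φ (domBond e) (brT β R' τ (domBond e)) = ∑ z ∈ R', Φ (z, β) (τ z) := by
  rw [pn_br_sumE (fun e => Φ e (brT β R' τ e))]
  have himg : R'.image (fun z => ((z, β) : Bond)) ⊆ domBonds D cut := by
    intro e he
    obtain ⟨z, hz, rfl⟩ := Finset.mem_image.1 he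
    exact hR' z hz
  rw [← Finset.sum_subset himg]
  · rw [Finset.sum_image (fun a _ b _ h => (Prod.mk.inj h).1)]
    refine Finset.sum_congr rfl fun z hz => ?_
    simp [brT, hz]
  · intro e _ he
    have : ¬ (e.2 = β ∧ e.1 ∈ R') := by
      rintro ⟨h1, h2⟩
      exact he (Finset.mem_image.2 ⟨e.1, h2, by rw [← h1]⟩)
    simp [brT, this, hΦ]

theorem pn_br_flow (β : Bool) (R R' : Finset (ℤ × ℤ)) (hRD : R ⊆ D) (hR'R : R' ⊆ R)
    (hR' : ∀ z ∈ R', ((z, β) : Bond) ∈ domBonds D cut) (ρ τ : ℤ × ℤ → ℝ)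
    (hrep : ∀ u : ℤ × ℤ → ℝ, ∑ z ∈ R, ρ z * u z = ∑ z ∈ R', τ z * (u (Bond.snd (z, β)) - u z))
    (s : ℝ) (hs0 : 0 ≤ s) (hτ : ∀ z ∈ R', |τ z| ≤ s) (N : ℝ) (hN : (R'.card : ℝ) ≤ N) :
    AnFlow (∅ : Set (domG D cut).V) (fun x => if domPos x ∈ R then ρ (domPos x) else 0) (N * s ^ 2) s R := by
  refine ⟨fun e => brT β R' τ (domBond e), fun v _ => ?_, ?_, fun e => ?_, fun e he => ?_⟩
  · have e1 : ∑ x : (domG D cut).V, (if domPos x ∈ R then ρ (domPos x) else 0) * v x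
        = ∑ x : (domG D cut).V, (fun z => (if z ∈ R then ρ z else 0) * anExt v z) (domPos x) :=
      Finset.sum_congr rfl fun x _ => by simp only [pn_br_ext]
    rw [e1, pn_br_sumV (fun z => (if z ∈ R then ρ z else 0) * anExt v z),
      ← Finset.sum_subset hRD (fun z _ hz => by simp [hz])]
    have e2 : ∑ z ∈ R, (if z ∈ R then ρ z else 0) * anExt v z = ∑ z ∈ R, ρ z * anExt v z :=
      Finset.sum_congr rfl fun z hz => by rw [if_pos hz]
    rw [e2, hrep (anExt v)]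
    have e3 := pn_br_sum (D := D) (cut := cut) β R' hR' τ (fun e r => r * (anExt v e.snd - anExt v e.1))
      (fun e => zero_mul _)
    rw [← e3]
    exact Finset.sum_congr rfl fun e _ => by rw [pn_br_tgt v e, pn_br_src v e]
  · have e3 := pn_br_sum (D := D) (cut := cut) β R' hR' τ (fun _ r => r ^ 2) (fun _ => by norm_num)
    rw [e3]
    calc ∑ z ∈ R', τ z ^ 2 ≤ ∑ _z ∈ R', s ^ 2 :=
          Finset.sum_le_sum fun z hz => by
            rw [← sq_abs]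
            exact pow_le_pow_left₀ (abs_nonneg _) (hτ z hz) 2
      _ = (R'.card : ℝ) * s ^ 2 := by rw [Finset.sum_const, nsmul_eq_mul]
      _ ≤ N * s ^ 2 := mul_le_mul_of_nonneg_right hN (sq_nonneg s)
  · show |brT β R' τ (domBond e)| ≤ s
    unfold brT
    split_ifs with h
    · exact hτ _ h.2
    · simpa using hs0
  · show brT β R' τ (domBond e) = 0
    unfold brT
    rw [if_neg fun h => he (hR'R h.2)]

theorem AnFull.sub {a a' c c' a₁ a₁' c₁ c₁' : ℤ} (h : AnFull D cut a a' c c') (h1 : a ≤ a₁) (h2 : a₁' ≤ a') (h3 : c ≤ c₁)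
    (h4 : c₁' ≤ c') : AnFull D cut a₁ a₁' c₁ c₁' := by
  have hsub : anRect a₁ a₁' c₁ c₁' ⊆ anRect a a' c c' :=
    Finset.product_subset_product (Finset.Ico_subset_Ico h1 h2) (Finset.Ico_subset_Ico h3 h4)
  exact ⟨hsub.trans h.1, fun e he he' => h.2 e (hsub he) (hsub he')⟩

theorem pn_br_mem {a a' c c' : ℤ} (h : AnFull D cut a a' c c') (e : Bond) (h1 : e.1 ∈ anRect a a' c c')
    (h2 : e.snd ∈ anRect a a' c c') : e ∈ domBonds D cut := by
  unfold domBonds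
  refine Finset.mem_filter.2 ⟨Finset.mem_product.2 ⟨h.1 h1, Finset.mem_univ _⟩, h.1 h2, h.2 e h1 h2⟩

theorem pn_br_card (a a' c c' a₂ c₂ : ℤ) (ha : a ≤ a') (hc : c ≤ c') (ha₂ : a₂ ≤ a') (hc₂ : c₂ ≤ c') :
    ((Finset.Ico a a₂ ×ˢ Finset.Ico c c₂).card : ℝ) ≤ ((a' - a : ℤ) : ℝ) * ((c' - c : ℤ) : ℝ) := by
  rw [Finset.card_product, Int.card_Ico, Int.card_Ico, Nat.cast_mul]
  have h1 : (((a₂ - a).toNat : ℕ) : ℝ) ≤ ((a' - a : ℤ) : ℝ) := by
    have : (((a₂ - a).toNat : ℕ) : ℤ) ≤ a' - a := by omega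
    exact_mod_cast this
  have h2 : (((c₂ - c).toNat : ℕ) : ℝ) ≤ ((c' - c : ℤ) : ℝ) := by
    have : (((c₂ - c).toNat : ℕ) : ℤ) ≤ c' - c := by omega
    exact_mod_cast this
  exact mul_le_mul h1 h2 (Nat.cast_nonneg _) (le_trans (Nat.cast_nonneg _) h1)

/-- **AN-4** row lemma on the graph -/
theorem pn_fl_row {a a' c c' : ℤ} (h : AnFull D cut a a' c c') (ha : a ≤ a') (hc : c ≤ c') (p q : ℤ × ℤ → ℝ) (hp : ∀ z, 0 ≤ p z)
    (hq : ∀ z, 0 ≤ q z) (s : ℝ) (hs0 : 0 ≤ s)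
    (hm : ∀ y ∈ Finset.Ico c c', ∑ x ∈ Finset.Ico a a', p (x, y) = ∑ x ∈ Finset.Ico a a', q (x, y))
    (hs : ∀ y ∈ Finset.Ico c c', ∑ x ∈ Finset.Ico a a', p (x, y) ≤ s) :
    AnFlow (∅ : Set (domG D cut).V) (fun x => if domPos x ∈ anRect a a' c c' then p (domPos x) - q (domPos x) else 0)
      (((a' - a : ℤ) : ℝ) * ((c' - c : ℤ) : ℝ) * s ^ 2) s (anRect a a' c c') := by
  have hsub : Finset.Ico a (a' - 1) ×ˢ Finset.Ico c c' ⊆ anRect a a' c c' :=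
    Finset.product_subset_product (Finset.Ico_subset_Ico le_rfl (by omega)) (Finset.Subset.refl _)
  refine pn_br_flow true (anRect a a' c c') (Finset.Ico a (a' - 1) ×ˢ Finset.Ico c c') h.1 hsub ?_
    (fun z => p z - q z) (anTh (fun z => p z - q z) a) ?_ s hs0 ?_ _ (pn_br_card a a' c c' (a' - 1) c' ha hc (by omega) le_rfl)
  · intro z hz
    refine pn_br_mem h _ (hsub hz) ?_
    have hz' := Finset.mem_product.1 hz
    have h1 := Finset.mem_Ico.1 hz'.1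
    show Bond.snd (z, true) ∈ anRect a a' c c'
    simp only [Bond.snd, if_true]
    exact Finset.mem_product.2 ⟨Finset.mem_Ico.2 ⟨by simp only; omega, by simp only; omega⟩, hz'.2⟩
  · intro u
    have := pn_fl_row2 (fun z => p z - q z) u a a' c c' (fun y hy => by
      rw [Finset.sum_sub_distrib, hm y hy, sub_self])
    rw [show anRect a a' c c' = Finset.Ico a a' ×ˢ Finset.Ico c c' from rfl, this]
    exact Finset.sum_congr rfl fun z _ => by simp [Bond.snd]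
  · intro z hz
    have hz' := Finset.mem_product.1 hz
    have h1 := Finset.mem_Ico.1 hz'.1
    unfold anTh
    rw [abs_neg]
    exact pn_fl_part (fun x => p (x, z.2)) (fun x => q (x, z.2)) (fun x => hp _) (fun x => hq _) a a' s (hm z.2 hz'.2)
      (hs z.2 hz'.2) z.1 (by omega)

/-- **AN-4** column lemma on the graph -/
theorem pn_fl_col {a a' c c' : ℤ} (h : AnFull D cut a a' c c') (ha : a ≤ a') (hc : c ≤ c') (p q : ℤ × ℤ → ℝ) (hp : ∀ z, 0 ≤ p z)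
    (hq : ∀ z, 0 ≤ q z) (s : ℝ) (hs0 : 0 ≤ s)
    (hm : ∀ x ∈ Finset.Ico a a', ∑ y ∈ Finset.Ico c c', p (x, y) = ∑ y ∈ Finset.Ico c c', q (x, y))
    (hs : ∀ x ∈ Finset.Ico a a', ∑ y ∈ Finset.Ico c c', p (x, y) ≤ s) :
    AnFlow (∅ : Set (domG D cut).V) (fun x => if domPos x ∈ anRect a a' c c' then p (domPos x) - q (domPos x) else 0)
      (((a' - a : ℤ) : ℝ) * ((c' - c : ℤ) : ℝ) * s ^ 2) s (anRect a a' c c') := by
  have hsub : Finset.Ico a a' ×ˢ Finset.Ico c (c' - 1) ⊆ anRect a a' c c' :=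
    Finset.product_subset_product (Finset.Subset.refl _) (Finset.Ico_subset_Ico le_rfl (by omega))
  refine pn_br_flow false (anRect a a' c c') (Finset.Ico a a' ×ˢ Finset.Ico c (c' - 1)) h.1 hsub ?_
    (fun z => p z - q z) (anTv (fun z => p z - q z) c) ?_ s hs0 ?_ _ (pn_br_card a a' c c' a' (c' - 1) ha hc le_rfl (by omega))
  · intro z hz
    refine pn_br_mem h _ (hsub hz) ?_
    have hz' := Finset.mem_product.1 hz
    have h1 := Finset.mem_Ico.1 hz'.2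
    show Bond.snd (z, false) ∈ anRect a a' c c'
    simp only [Bond.snd, Bool.false_eq_true, if_false]
    exact Finset.mem_product.2 ⟨hz'.1, Finset.mem_Ico.2 ⟨by simp only; omega, by simp only; omega⟩⟩
  · intro u
    have := pn_fl_col2 (fun z => p z - q z) u a a' c c' (fun x hx => by
      rw [Finset.sum_sub_distrib, hm x hx, sub_self])
    rw [show anRect a a' c c' = Finset.Ico a a' ×ˢ Finset.Ico c c' from rfl, this]
    exact Finset.sum_congr rfl fun z _ => by simp [Bond.snd]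
  · intro z hz
    have hz' := Finset.mem_product.1 hz
    have h1 := Finset.mem_Ico.1 hz'.2
    unfold anTv
    rw [abs_neg]
    exact pn_fl_part (fun y => p (z.1, y)) (fun y => q (z.1, y)) (fun x => hp _) (fun x => hq _) c c' s (hm z.1 hz'.1)
      (hs z.1 hz'.1) z.2 (by omega)

end AnBridgePart

/-!
# ROW 285, PINS / ANCHOR (Pins/Plan.lean s2), part 5: the two basic flows in a full rectangle      (architect helper80; ALL PROVED)

`R = [a,a') × [c,c')` full, `W = a' - a`, `H = c' - c`.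

* AN-5a `pn_fl_sub` : `R₁ = [a₁,a₁') × [c₁,c₁') ⊆ R` nonempty, `q = c₁' - c₁`:  `ρ_{R₁} - ρ_R` has a flow with cost `2 W/q + 2 H/W`, sup `1/q + 1/W`.
    [strip `S = [a,a') × [c₁,c₁')` (full: `AnFull.sub`).  `ρ_{R₁} - ρ_S`: `pn_fl_row` in `S`, `p = 1_{R₁}/|R₁|`, `q = 1_S/|S|`, row masses `1/q`, cost `W q (1/q)² = W/q`.
     `ρ_S - ρ_R`: `pn_fl_col` in `R`, `p = 1_S/|S|`, `q = 1_R/|R|`, column masses `1/W`, cost `W H (1/W)² = H/W`.  `AnFlow.add`, `mono`, `congr`.  `|anRect| = (a'-a)(c'-c)`: `Finset.card_product`, `Int.card_Ico`, `Int.toNat_of_nonneg`.]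
   = (AN3), first half (fine cell in a coarse cell), (AN4) (`R₁` = one site) and, twice, the flow between two cells with a common uncut face.
* AN-5b `pn_fl_anch_col`, `pn_fl_anch_row` : `J` a nonempty set of columns (rows) of `R` each containing a site of `U`:  `ρ_R` has a flow GROUNDED ON `U` with cost `2 W/H + 2 W H/|J|²`, sup `1/H + 1/|J|`.
    [choose `y_x` for `x ∈ J`.  `ρ_R - 1_{J × rows}/(|J| H)`: `pn_fl_row`, row masses `1/H`.   `1_{J × rows}/(|J| H) - ∑_{x ∈ J} δ_{(x,y_x)}/|J|`: `pn_fl_col`, column masses `1/|J|` (`0` off `J`), crude cost `W H/|J|²`.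
     The rest `∑_{x ∈ J} δ_{(x,y_x)}/|J|` is carried by `U`: `AnFlow.ground`.  `AnFlow.anti (Set.empty_subset U)`, `add`, `mono`, `congr`.]
-/

section AnSubPart

variable {D : Finset (ℤ × ℤ)} {cut : Set Bond}

/-- a test may be changed on the grounded set -/
theorem pn_sb_congr_off {U : Set (domG D cut).V} {f f' : (domG D cut).V → ℝ} {R s : ℝ} {W : Finset (ℤ × ℤ)}
    (h : AnFlow U f R s W) (hf : ∀ x, x ∉ U → f x = f' x) : AnFlow U f' R s W := by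
  obtain ⟨t, h1, h2, h3, h4⟩ := h
  refine ⟨t, fun v hv => ?_, h2, h3, h4⟩
  rw [← h1 v hv]
  refine Finset.sum_congr rfl fun x _ => ?_
  by_cases hx : x ∈ U
  · rw [hv x hx, mul_zero, mul_zero]
  · rw [hf x hx]

theorem pn_sb_sum_ite (S T : Finset ℤ) (hTS : T ⊆ S) (k : ℝ) : ∑ x ∈ S, (if x ∈ T then k else 0) = (T.card : ℝ) * k := by
  rw [Finset.sum_ite_mem, Finset.inter_eq_right.2 hTS, Finset.sum_const, nsmul_eq_mul]

theorem pn_sb_cardI (a a' : ℤ) (h : a ≤ a') : ((Finset.Ico a a').card : ℝ) = ((a' - a : ℤ) : ℝ) := by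
  rw [Int.card_Ico]
  have : (((a' - a).toNat : ℕ) : ℤ) = a' - a := Int.toNat_of_nonneg (by omega)
  exact_mod_cast this

theorem pn_sb_card (a a' c c' : ℤ) (ha : a ≤ a') (hc : c ≤ c') :
    ((anRect a a' c c').card : ℝ) = ((a' - a : ℤ) : ℝ) * ((c' - c : ℤ) : ℝ) := by
  unfold anRect
  rw [Finset.card_product, Nat.cast_mul, pn_sb_cardI a a' ha, pn_sb_cardI c c' hc]

/-- the uniform probability on `S`, as a function on `ℤ²` -/
def sbRho (S : Finset (ℤ × ℤ)) (z : ℤ × ℤ) : ℝ := if z ∈ S then (S.card : ℝ)⁻¹ else 0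

theorem sbRho_nonneg (S : Finset (ℤ × ℤ)) (z : ℤ × ℤ) : 0 ≤ sbRho S z := by
  unfold sbRho
  split_ifs
  · positivity
  · exact le_rfl

theorem pn_sb_row (a a' a₁ a₁' c₁ c₁' y : ℤ) (h1 : a ≤ a₁) (h2 : a₁ < a₁') (h3 : a₁' ≤ a') (hy : y ∈ Finset.Ico c₁ c₁') :
    ∑ x ∈ Finset.Ico a a', sbRho (anRect a₁ a₁' c₁ c₁') (x, y) = 1 / ((c₁' - c₁ : ℤ) : ℝ) := by
  have hy' := Finset.mem_Ico.1 hy
  have e : ∀ x ∈ Finset.Ico a a', sbRho (anRect a₁ a₁' c₁ c₁') (x, y)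
      = if x ∈ Finset.Ico a₁ a₁' then ((anRect a₁ a₁' c₁ c₁').card : ℝ)⁻¹ else 0 := by
    intro x _
    unfold sbRho
    refine if_congr ?_ rfl rfl
    unfold anRect
    rw [Finset.mem_product]
    exact ⟨fun h => h.1, fun h => ⟨h, hy⟩⟩
  rw [Finset.sum_congr rfl e, pn_sb_sum_ite _ _ (Finset.Ico_subset_Ico h1 h3), pn_sb_cardI _ _ h2.le,
    pn_sb_card _ _ _ _ h2.le (by omega)]
  have hw : ((a₁' - a₁ : ℤ) : ℝ) ≠ 0 := by
    have : a₁' - a₁ ≠ 0 := by omega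
    exact_mod_cast this
  have hq : ((c₁' - c₁ : ℤ) : ℝ) ≠ 0 := by
    have : c₁' - c₁ ≠ 0 := by omega
    exact_mod_cast this
  field_simp

theorem pn_sb_col (c c' a₁ a₁' c₁ c₁' x : ℤ) (h1 : c ≤ c₁) (h2 : c₁ < c₁') (h3 : c₁' ≤ c') (hx : x ∈ Finset.Ico a₁ a₁') :
    ∑ y ∈ Finset.Ico c c', sbRho (anRect a₁ a₁' c₁ c₁') (x, y) = 1 / ((a₁' - a₁ : ℤ) : ℝ) := by
  have hx' := Finset.mem_Ico.1 hx
  have e : ∀ y ∈ Finset.Ico c c', sbRho (anRect a₁ a₁' c₁ c₁') (x, y)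
      = if y ∈ Finset.Ico c₁ c₁' then ((anRect a₁ a₁' c₁ c₁').card : ℝ)⁻¹ else 0 := by
    intro y _
    unfold sbRho
    refine if_congr ?_ rfl rfl
    unfold anRect
    rw [Finset.mem_product]
    exact ⟨fun h => h.2, fun h => ⟨hx, h⟩⟩
  rw [Finset.sum_congr rfl e, pn_sb_sum_ite _ _ (Finset.Ico_subset_Ico h1 h3), pn_sb_cardI _ _ h2.le,
    pn_sb_card _ _ _ _ (by omega) h2.le]
  have hw : ((a₁' - a₁ : ℤ) : ℝ) ≠ 0 := by
    have : a₁' - a₁ ≠ 0 := by omega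
    exact_mod_cast this
  have hq : ((c₁' - c₁ : ℤ) : ℝ) ≠ 0 := by
    have : c₁' - c₁ ≠ 0 := by omega
    exact_mod_cast this
  field_simp

/-- **AN-5a** a subrectangle of a full rectangle -/
theorem pn_fl_sub {a a' c c' a₁ a₁' c₁ c₁' : ℤ} (h : AnFull D cut a a' c c') (h1 : a ≤ a₁) (h2 : a₁ < a₁') (h3 : a₁' ≤ a')
    (h4 : c ≤ c₁) (h5 : c₁ < c₁') (h6 : c₁' ≤ c') :
    AnFlow (∅ : Set (domG D cut).V) (fun x => anRho (anRect a₁ a₁' c₁ c₁') x - anRho (anRect a a' c c') x)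
      (2 * (((a' - a : ℤ) : ℝ) / ((c₁' - c₁ : ℤ) : ℝ)) + 2 * (((c' - c : ℤ) : ℝ) / ((a' - a : ℤ) : ℝ)))
      (1 / ((c₁' - c₁ : ℤ) : ℝ) + 1 / ((a' - a : ℤ) : ℝ)) (anRect a a' c c') := by
  have hW : (0 : ℝ) < ((a' - a : ℤ) : ℝ) := by
    have : 0 < a' - a := by omega
    exact_mod_cast this
  have hq : (0 : ℝ) < ((c₁' - c₁ : ℤ) : ℝ) := by
    have : 0 < c₁' - c₁ := by omega
    exact_mod_cast this
  have hSR : anRect a a' c₁ c₁' ⊆ anRect a a' c c' :=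
    Finset.product_subset_product (Finset.Subset.refl _) (Finset.Ico_subset_Ico h4 h6)
  have hR₁S : anRect a₁ a₁' c₁ c₁' ⊆ anRect a a' c₁ c₁' :=
    Finset.product_subset_product (Finset.Ico_subset_Ico h1 h3) (Finset.Subset.refl _)
  have F1 := pn_fl_row (h.sub le_rfl le_rfl h4 h6) (by omega) h5.le (sbRho (anRect a₁ a₁' c₁ c₁'))
    (sbRho (anRect a a' c₁ c₁')) (sbRho_nonneg _) (sbRho_nonneg _) (1 / ((c₁' - c₁ : ℤ) : ℝ)) (by positivity)
    (fun y hy => by rw [pn_sb_row a a' a₁ a₁' c₁ c₁' y h1 h2 h3 hy, pn_sb_row a a' a a' c₁ c₁' y le_rfl (by omega) le_rfl hy])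
    (fun y hy => by rw [pn_sb_row a a' a₁ a₁' c₁ c₁' y h1 h2 h3 hy])
  have F2 := pn_fl_col h (by omega) (by omega) (sbRho (anRect a a' c₁ c₁')) (sbRho (anRect a a' c c'))
    (sbRho_nonneg _) (sbRho_nonneg _) (1 / ((a' - a : ℤ) : ℝ)) (by positivity)
    (fun x hx => by rw [pn_sb_col c c' a a' c₁ c₁' x h4 h5 h6 hx, pn_sb_col c c' a a' c c' x le_rfl (by omega) le_rfl hx])
    (fun x hx => by rw [pn_sb_col c c' a a' c₁ c₁' x h4 h5 h6 hx])
  refine ((F1.add F2).congr fun x => ?_).mono ?_ le_rfl (Finset.union_subset hSR (Finset.Subset.refl _))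
  · show _ = sbRho (anRect a₁ a₁' c₁ c₁') (domPos x) - sbRho (anRect a a' c c') (domPos x)
    by_cases hx1 : domPos x ∈ anRect a a' c₁ c₁'
    · rw [if_pos hx1, if_pos (hSR hx1)]
      ring
    · have e1 : sbRho (anRect a₁ a₁' c₁ c₁') (domPos x) = 0 := if_neg fun hh => hx1 (hR₁S hh)
      have e2 : sbRho (anRect a a' c₁ c₁') (domPos x) = 0 := if_neg hx1
      rw [if_neg hx1, e1, e2]
      by_cases hx2 : domPos x ∈ anRect a a' c c'
      · rw [if_pos hx2]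
        ring
      · have e3 : sbRho (anRect a a' c c') (domPos x) = 0 := if_neg hx2
        rw [if_neg hx2, e3]
        ring
  · apply le_of_eq
    field_simp

/-- **AN-5b** a full rectangle with anchored columns -/
theorem pn_fl_anch_col {a a' c c' : ℤ} (h : AnFull D cut a a' c c') (U : Set (domG D cut).V) (J : Finset ℤ) (hJ : J.Nonempty)
    (hz : ∀ x ∈ J, ∃ y, (x, y) ∈ anRect a a' c c' ∧ ∃ w ∈ U, domPos w = (x, y)) :
    AnFlow U (anRho (anRect a a' c c'))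
      (2 * (((a' - a : ℤ) : ℝ) / ((c' - c : ℤ) : ℝ)) + 2 * (((a' - a : ℤ) : ℝ) * ((c' - c : ℤ) : ℝ) / (J.card : ℝ) ^ 2))
      (1 / ((c' - c : ℤ) : ℝ) + 1 / (J.card : ℝ)) (anRect a a' c c') := by
  choose! Y hY using hz
  obtain ⟨x₀, hx₀⟩ := hJ
  have hm₀ := Finset.mem_product.1 (hY x₀ hx₀).1
  have ha₀ := Finset.mem_Ico.1 hm₀.1
  have hc₀ := Finset.mem_Ico.1 hm₀.2
  simp only at ha₀ hc₀
  have haa : a < a' := by omega
  have hcc : c < c' := by omega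
  have hW : (0 : ℝ) < ((a' - a : ℤ) : ℝ) := by
    have : 0 < a' - a := by omega
    exact_mod_cast this
  have hH : (0 : ℝ) < ((c' - c : ℤ) : ℝ) := by
    have : 0 < c' - c := by omega
    exact_mod_cast this
  have hk : (0 : ℝ) < (J.card : ℝ) := by
    have : 0 < J.card := Finset.card_pos.2 ⟨x₀, hx₀⟩
    exact_mod_cast this
  have hJs : J ⊆ Finset.Ico a a' := fun x hx => (Finset.mem_product.1 (hY x hx).1).1
  have hYc : ∀ x ∈ J, Y x ∈ Finset.Ico c c' := fun x hx => (Finset.mem_product.1 (hY x hx).1).2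
  set κ : ℝ := ((J.card : ℝ) * ((c' - c : ℤ) : ℝ))⁻¹ with hκ
  set Q₂ : ℤ × ℤ → ℝ := fun z => if z.1 ∈ J ∧ z.2 ∈ Finset.Ico c c' then κ else 0 with hQ₂
  set Q₃ : ℤ × ℤ → ℝ := fun z => if z.1 ∈ J ∧ z.2 = Y z.1 then (J.card : ℝ)⁻¹ else 0 with hQ₃
  have hQ₂0 : ∀ z, 0 ≤ Q₂ z := fun z => by
    simp only [hQ₂]
    split_ifs
    · positivity
    · exact le_rfl
  have hQ₃0 : ∀ z, 0 ≤ Q₃ z := fun z => by
    simp only [hQ₃]
    split_ifs
    · positivity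
    · exact le_rfl
  have rowQ₂ : ∀ y ∈ Finset.Ico c c', ∑ x ∈ Finset.Ico a a', Q₂ (x, y) = 1 / ((c' - c : ℤ) : ℝ) := by
    intro y hy
    have e : ∀ x ∈ Finset.Ico a a', Q₂ (x, y) = if x ∈ J then κ else 0 := fun x _ =>
      if_congr ⟨fun hh => hh.1, fun hh => ⟨hh, hy⟩⟩ rfl rfl
    rw [Finset.sum_congr rfl e, pn_sb_sum_ite _ _ hJs, hκ]
    field_simp
  have colQ₂ : ∀ x ∈ Finset.Ico a a', ∑ y ∈ Finset.Ico c c', Q₂ (x, y) = if x ∈ J then 1 / (J.card : ℝ) else 0 := by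
    intro x _
    by_cases hx : x ∈ J
    · have e : ∀ y ∈ Finset.Ico c c', Q₂ (x, y) = if y ∈ Finset.Ico c c' then κ else 0 := fun y _ =>
        if_congr ⟨fun hh => hh.2, fun hh => ⟨hx, hh⟩⟩ rfl rfl
      rw [Finset.sum_congr rfl e, pn_sb_sum_ite _ _ (Finset.Subset.refl _), pn_sb_cardI _ _ hcc.le, hκ, if_pos hx]
      field_simp
    · rw [if_neg hx]
      exact Finset.sum_eq_zero fun y _ => if_neg fun hh => hx hh.1
  have colQ₃ : ∀ x ∈ Finset.Ico a a', ∑ y ∈ Finset.Ico c c', Q₃ (x, y) = if x ∈ J then 1 / (J.card : ℝ) else 0 := by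
    intro x _
    by_cases hx : x ∈ J
    · have e : ∀ y ∈ Finset.Ico c c', Q₃ (x, y) = if y = Y x then (J.card : ℝ)⁻¹ else 0 := fun y _ =>
        if_congr ⟨fun hh => hh.2, fun hh => ⟨hx, hh⟩⟩ rfl rfl
      rw [Finset.sum_congr rfl e, Finset.sum_ite_eq', if_pos (hYc x hx), if_pos hx, one_div]
    · rw [if_neg hx]
      exact Finset.sum_eq_zero fun y _ => if_neg fun hh => hx hh.1
  have F1 := pn_fl_row h haa.le hcc.le (sbRho (anRect a a' c c')) Q₂ (sbRho_nonneg _) hQ₂0 (1 / ((c' - c : ℤ) : ℝ))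
    (by positivity)
    (fun y hy => by rw [pn_sb_row a a' a a' c c' y le_rfl haa le_rfl hy, rowQ₂ y hy])
    (fun y hy => by rw [pn_sb_row a a' a a' c c' y le_rfl haa le_rfl hy])
  have F2 := pn_fl_col h haa.le hcc.le Q₂ Q₃ hQ₂0 hQ₃0 (1 / (J.card : ℝ)) (by positivity)
    (fun x hx => by rw [colQ₂ x hx, colQ₃ x hx])
    (fun x hx => by
      rw [colQ₂ x hx]
      split_ifs
      · exact le_rfl
      · positivity)
  refine (pn_sb_congr_off ((F1.add F2).anti (Set.empty_subset U)) fun x hxU => ?_).mono ?_ le_rfl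
    (Finset.union_subset (Finset.Subset.refl _) (Finset.Subset.refl _))
  · show _ = sbRho (anRect a a' c c') (domPos x)
    have e3 : Q₃ (domPos x) = 0 := by
      refine if_neg fun hh => hxU ?_
      obtain ⟨w, hw, hpw⟩ := (hY _ hh.1).2
      have : w = x := Subtype.ext (p := fun v => v ∈ D) (by
        show domPos w = domPos x
        rw [hpw, ← hh.2])
      rwa [← this]
    by_cases hx : domPos x ∈ anRect a a' c c'
    · simp only [if_pos hx, e3]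
      ring
    · have e1 : sbRho (anRect a a' c c') (domPos x) = 0 := if_neg hx
      simp only [if_neg hx, e1]
      ring
  · apply le_of_eq
    field_simp

/-- **AN-5b** a full rectangle with anchored rows -/
theorem pn_fl_anch_row {a a' c c' : ℤ} (h : AnFull D cut a a' c c') (U : Set (domG D cut).V) (J : Finset ℤ) (hJ : J.Nonempty)
    (hz : ∀ y ∈ J, ∃ x, (x, y) ∈ anRect a a' c c' ∧ ∃ w ∈ U, domPos w = (x, y)) :
    AnFlow U (anRho (anRect a a' c c'))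
      (2 * (((c' - c : ℤ) : ℝ) / ((a' - a : ℤ) : ℝ)) + 2 * (((a' - a : ℤ) : ℝ) * ((c' - c : ℤ) : ℝ) / (J.card : ℝ) ^ 2))
      (1 / ((a' - a : ℤ) : ℝ) + 1 / (J.card : ℝ)) (anRect a a' c c') := by
  choose! X hX using hz
  obtain ⟨y₀, hy₀⟩ := hJ
  have hm₀ := Finset.mem_product.1 (hX y₀ hy₀).1
  have ha₀ := Finset.mem_Ico.1 hm₀.1
  have hc₀ := Finset.mem_Ico.1 hm₀.2
  simp only at ha₀ hc₀
  have haa : a < a' := by omega
  have hcc : c < c' := by omega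
  have hW : (0 : ℝ) < ((a' - a : ℤ) : ℝ) := by
    have : 0 < a' - a := by omega
    exact_mod_cast this
  have hH : (0 : ℝ) < ((c' - c : ℤ) : ℝ) := by
    have : 0 < c' - c := by omega
    exact_mod_cast this
  have hk : (0 : ℝ) < (J.card : ℝ) := by
    have : 0 < J.card := Finset.card_pos.2 ⟨y₀, hy₀⟩
    exact_mod_cast this
  have hJs : J ⊆ Finset.Ico c c' := fun y hy => (Finset.mem_product.1 (hX y hy).1).2
  have hXa : ∀ y ∈ J, X y ∈ Finset.Ico a a' := fun y hy => (Finset.mem_product.1 (hX y hy).1).1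
  set κ : ℝ := ((J.card : ℝ) * ((a' - a : ℤ) : ℝ))⁻¹ with hκ
  set Q₂ : ℤ × ℤ → ℝ := fun z => if z.2 ∈ J ∧ z.1 ∈ Finset.Ico a a' then κ else 0 with hQ₂
  set Q₃ : ℤ × ℤ → ℝ := fun z => if z.2 ∈ J ∧ z.1 = X z.2 then (J.card : ℝ)⁻¹ else 0 with hQ₃
  have hQ₂0 : ∀ z, 0 ≤ Q₂ z := fun z => by
    simp only [hQ₂]
    split_ifs
    · positivity
    · exact le_rfl
  have hQ₃0 : ∀ z, 0 ≤ Q₃ z := fun z => by
    simp only [hQ₃]
    split_ifs
    · positivity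
    · exact le_rfl
  have colQ₂ : ∀ x ∈ Finset.Ico a a', ∑ y ∈ Finset.Ico c c', Q₂ (x, y) = 1 / ((a' - a : ℤ) : ℝ) := by
    intro x hx
    have e : ∀ y ∈ Finset.Ico c c', Q₂ (x, y) = if y ∈ J then κ else 0 := fun y _ =>
      if_congr ⟨fun hh => hh.1, fun hh => ⟨hh, hx⟩⟩ rfl rfl
    rw [Finset.sum_congr rfl e, pn_sb_sum_ite _ _ hJs, hκ]
    field_simp
  have rowQ₂ : ∀ y ∈ Finset.Ico c c', ∑ x ∈ Finset.Ico a a', Q₂ (x, y) = if y ∈ J then 1 / (J.card : ℝ) else 0 := by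
    intro y _
    by_cases hy : y ∈ J
    · have e : ∀ x ∈ Finset.Ico a a', Q₂ (x, y) = if x ∈ Finset.Ico a a' then κ else 0 := fun x _ =>
        if_congr ⟨fun hh => hh.2, fun hh => ⟨hy, hh⟩⟩ rfl rfl
      rw [Finset.sum_congr rfl e, pn_sb_sum_ite _ _ (Finset.Subset.refl _), pn_sb_cardI _ _ haa.le, hκ, if_pos hy]
      field_simp
    · rw [if_neg hy]
      exact Finset.sum_eq_zero fun x _ => if_neg fun hh => hy hh.1
  have rowQ₃ : ∀ y ∈ Finset.Ico c c', ∑ x ∈ Finset.Ico a a', Q₃ (x, y) = if y ∈ J then 1 / (J.card : ℝ) else 0 := by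
    intro y _
    by_cases hy : y ∈ J
    · have e : ∀ x ∈ Finset.Ico a a', Q₃ (x, y) = if x = X y then (J.card : ℝ)⁻¹ else 0 := fun x _ =>
        if_congr ⟨fun hh => hh.2, fun hh => ⟨hy, hh⟩⟩ rfl rfl
      rw [Finset.sum_congr rfl e, Finset.sum_ite_eq', if_pos (hXa y hy), if_pos hy, one_div]
    · rw [if_neg hy]
      exact Finset.sum_eq_zero fun x _ => if_neg fun hh => hy hh.1
  have F1 := pn_fl_col h haa.le hcc.le (sbRho (anRect a a' c c')) Q₂ (sbRho_nonneg _) hQ₂0 (1 / ((a' - a : ℤ) : ℝ))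
    (by positivity)
    (fun x hx => by rw [pn_sb_col c c' a a' c c' x le_rfl hcc le_rfl hx, colQ₂ x hx])
    (fun x hx => by rw [pn_sb_col c c' a a' c c' x le_rfl hcc le_rfl hx])
  have F2 := pn_fl_row h haa.le hcc.le Q₂ Q₃ hQ₂0 hQ₃0 (1 / (J.card : ℝ)) (by positivity)
    (fun y hy => by rw [rowQ₂ y hy, rowQ₃ y hy])
    (fun y hy => by
      rw [rowQ₂ y hy]
      split_ifs
      · exact le_rfl
      · positivity)
  refine (pn_sb_congr_off ((F1.add F2).anti (Set.empty_subset U)) fun x hxU => ?_).mono ?_ le_rfl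
    (Finset.union_subset (Finset.Subset.refl _) (Finset.Subset.refl _))
  · show _ = sbRho (anRect a a' c c') (domPos x)
    have e3 : Q₃ (domPos x) = 0 := by
      refine if_neg fun hh => hxU ?_
      obtain ⟨w, hw, hpw⟩ := (hX _ hh.1).2
      have : w = x := Subtype.ext (p := fun v => v ∈ D) (by
        show domPos w = domPos x
        rw [hpw, ← hh.2])
      rwa [← this]
    by_cases hx : domPos x ∈ anRect a a' c c'
    · simp only [if_pos hx, e3]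
      ring
    · have e1 : sbRho (anRect a a' c c') (domPos x) = 0 := if_neg hx
      simp only [if_neg hx, e1]
      ring
  · apply le_of_eq
    field_simp

end AnSubPart

/-!
# ROW 285, PINS / ANCHOR (Pins/Plan.lean s2), part 6: elementary geometry of a chart      (architect helper80)

LEAF AN-6 (all statements of this file; `Fin` / `ℤ` arithmetic, `omega`, `g.mono₁`, `g.mono₂`):
* `pn_an_cell_unique` : the cells are disjoint.   [`x₁ κ.1.castSucc ≤ z.1 < x₁ κ'.1.succ` gives `κ.1.castSucc < κ'.1.succ` (`g.mono₁.lt_iff_lt`), i.e. `κ.1.1 ≤ κ'.1.1`; symmetric.]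
* `anNb_card` : the block has at most nine cells.   [`anNb d ⊆ A ×ˢ B`, `A = univ.filter (i.1 ≤ d.1.1 + 1 ∧ d.1.1 ≤ i.1 + 1)`, `|A| ≤ 3`: injection `i ↦ i.1 + 1 - d.1.1` into `range 3`.]
* `pn_an_near` : a site at sup distance `≤ ν` from a site of the cell `d` lies in a cell of the block.
    [if `d.1.1 + 2 ≤ κ.1.1`: `z.1 ≥ x₁ κ.1.castSucc ≥ x₁ (d.1 + 2) ≥ x₁ (d.1 + 1) + ν > p.1 + ν` (`g.mono₁.monotone`, `SideGe` for the column `d.1 + 1`); same for the three other cases.]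
* `pn_an_bond_dist`, `pn_an_bond_adj` : a bond of the graph moves the position by one step and joins sites of one cell or of two cells with a common UNCUT face.
    [`e ∈ domBonds D cut`, `e.1 ∈ cell κ`, `e.snd ∈ cell κ'`, `κ ≠ κ'`.  If `e.2 = true`: the second coordinates agree, so `κ.2 = κ'.2`; `e.1.1 < x₁ κ.1.succ`, `x₁ κ'.1.castSucc ≤ e.1.1 + 1` etc. give `κ.1.1 + 1 = κ'.1.1`;
     `(κ,true) ∉ cutF`, otherwise `e ∈ Γ.cutB g`, so `e ∈ cut` (`AnChart.cut_iff`).  `κ, κ' ∈ Γ.T`: `AnChart.dom`, `Finset.mem_biUnion`, `pn_an_cell_unique`.]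
* `pn_an_cell_full`, `pn_an_pair_full_h`, `pn_an_pair_full_v` : cells of `T` and pairs of cells with a common uncut face are full rectangles.
    [a bond of `cutB` has its first endpoint in the cell `f.1`, its second endpoint outside, direction `f.2`; cells are disjoint.]
-/

section AnGeoPart

variable {D : Finset (ℤ × ℤ)} {cut : Set Bond} {m₁ m₂ : ℕ}

theorem anCell_eq (g : DGrid m₁ m₂) (κ : Fin m₁ × Fin m₂) :
    g.cell κ = anRect (g.x₁ κ.1.castSucc) (g.x₁ κ.1.succ) (g.x₂ κ.2.castSucc) (g.x₂ κ.2.succ) := rfl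

theorem anNb_symm {d κ : Fin m₁ × Fin m₂} : κ ∈ anNb d ↔ d ∈ anNb κ := by
  simp only [anNb, Finset.mem_filter, Finset.mem_univ, true_and]
  tauto

theorem anNb_self (d : Fin m₁ × Fin m₂) : d ∈ anNb d := by
  simp only [anNb, Finset.mem_filter, Finset.mem_univ, true_and]
  omega

theorem pn_ag_mem_cell (g : DGrid m₁ m₂) (κ : Fin m₁ × Fin m₂) (z : ℤ × ℤ) :
    z ∈ g.cell κ ↔ (g.x₁ κ.1.castSucc ≤ z.1 ∧ z.1 < g.x₁ κ.1.succ) ∧
      (g.x₂ κ.2.castSucc ≤ z.2 ∧ z.2 < g.x₂ κ.2.succ) := by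
  simp only [DGrid.cell, Finset.mem_product, Finset.mem_Ico]

theorem pn_ag_mem_rect (a a' c c' : ℤ) (z : ℤ × ℤ) :
    z ∈ anRect a a' c c' ↔ (a ≤ z.1 ∧ z.1 < a') ∧ (c ≤ z.2 ∧ z.2 < c') := by
  simp only [anRect, Finset.mem_product, Finset.mem_Ico]

/-- order of the intervals. -/
theorem pn_ag_le {m : ℕ} {x : Fin (m + 1) → ℤ} (hx : StrictMono x) {i j : Fin m} {a b : ℤ}
    (ha : x i.castSucc ≤ a) (hab : a ≤ b) (hb : b < x j.succ) : i.1 ≤ j.1 := by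
  have h1 : x i.castSucc < x j.succ := by omega
  have h2 : i.castSucc < j.succ := hx.lt_iff_lt.1 h1
  have h3 : i.1 < j.1 + 1 := h2
  omega

theorem pn_ag_uniq {m : ℕ} {x : Fin (m + 1) → ℤ} (hx : StrictMono x) {i j : Fin m} {a : ℤ}
    (h1 : x i.castSucc ≤ a) (h2 : a < x i.succ) (h3 : x j.castSucc ≤ a) (h4 : a < x j.succ) : i = j :=
  Fin.ext (le_antisymm (pn_ag_le hx h1 le_rfl h4) (pn_ag_le hx h3 le_rfl h2))

/-- the cells are disjoint -/
theorem pn_an_cell_unique (g : DGrid m₁ m₂) {z : ℤ × ℤ} {κ κ' : Fin m₁ × Fin m₂} (h : z ∈ g.cell κ) (h' : z ∈ g.cell κ') :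
    κ = κ' := by
  rw [pn_ag_mem_cell] at h h'
  exact Prod.ext (pn_ag_uniq g.mono₁ h.1.1 h.1.2 h'.1.1 h'.1.2)
    (pn_ag_uniq g.mono₂ h.2.1 h.2.2 h'.2.1 h'.2.2)

theorem pn_ag_card3 {m : ℕ} (a : ℕ) :
    (Finset.univ.filter fun i : Fin m => i.1 ≤ a + 1 ∧ a ≤ i.1 + 1).card ≤ 3 := by
  have h := Finset.card_le_card_of_injOn (s := Finset.univ.filter fun i : Fin m => i.1 ≤ a + 1 ∧ a ≤ i.1 + 1)
    (t := Finset.range 3) (fun i => i.1 + 1 - a) ?_ ?_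
  · simpa using h
  · intro i hi
    have hi' := (Finset.mem_filter.1 (Finset.mem_coe.1 hi)).2
    simp only [Finset.coe_range, Set.mem_Iio]
    omega
  · intro i hi j hj hij
    have hi' := (Finset.mem_filter.1 (Finset.mem_coe.1 hi)).2
    have hj' := (Finset.mem_filter.1 (Finset.mem_coe.1 hj)).2
    apply Fin.ext
    simp only [] at hij
    omega

/-- the block has at most nine cells -/
theorem anNb_card (d : Fin m₁ × Fin m₂) : (anNb d).card ≤ 9 := by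
  have hsub : anNb d ⊆ (Finset.univ.filter fun i : Fin m₁ => i.1 ≤ d.1.1 + 1 ∧ d.1.1 ≤ i.1 + 1) ×ˢ
      (Finset.univ.filter fun i : Fin m₂ => i.1 ≤ d.2.1 + 1 ∧ d.2.1 ≤ i.1 + 1) := by
    intro κ hκ
    simp only [anNb, Finset.mem_filter, Finset.mem_univ, true_and] at hκ
    simp only [Finset.mem_product, Finset.mem_filter, Finset.mem_univ, true_and]
    exact ⟨⟨hκ.1, hκ.2.1⟩, ⟨hκ.2.2.1, hκ.2.2.2⟩⟩
  refine (Finset.card_le_card hsub).trans ?_
  rw [Finset.card_product]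
  exact Nat.mul_le_mul (pn_ag_card3 d.1.1) (pn_ag_card3 d.2.1)

variable {Γ : CGeom m₁ m₂} {g : DGrid m₁ m₂}

theorem pn_ag_far {m : ℕ} {x : Fin (m + 1) → ℤ} (hx : StrictMono x) (ν : ℕ)
    (hs : ∀ i : Fin m, (ν : ℤ) ≤ x i.succ - x i.castSucc) {i j : Fin m} {a b : ℤ}
    (ha : a < x i.succ) (hb : x j.castSucc ≤ b) (hij : i.1 + 2 ≤ j.1) : a + ν < b := by
  have hj := j.2
  have h1 := hs ⟨i.1 + 1, by omega⟩
  have e1 : (⟨i.1 + 1, by omega⟩ : Fin m).castSucc = i.succ := rfl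
  rw [e1] at h1
  have h2 : x (⟨i.1 + 1, by omega⟩ : Fin m).succ ≤ x j.castSucc := by
    apply hx.monotone
    show i.1 + 1 + 1 ≤ j.1
    omega
  omega

theorem pn_ag_near1 {m : ℕ} {x : Fin (m + 1) → ℤ} (hx : StrictMono x) (ν : ℕ)
    (hs : ∀ i : Fin m, (ν : ℤ) ≤ x i.succ - x i.castSucc) {i j : Fin m} {a b : ℤ}
    (ha1 : x i.castSucc ≤ a) (ha2 : a < x i.succ) (hb1 : x j.castSucc ≤ b) (hb2 : b < x j.succ)
    (hab : |a - b| ≤ ν) : j.1 ≤ i.1 + 1 ∧ i.1 ≤ j.1 + 1 := by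
  rw [abs_le] at hab
  constructor
  · by_contra hc
    have := pn_ag_far hx ν hs ha2 hb1 (by omega)
    omega
  · by_contra hc
    have := pn_ag_far hx ν hs hb2 ha1 (by omega)
    omega

theorem pn_an_near (ν : ℕ) (h1 : g.SideGe ν) {p z : ℤ × ℤ} {d κ : Fin m₁ × Fin m₂} (hp : p ∈ g.cell d) (hz : z ∈ g.cell κ)
    (hd : anDist p z ≤ ν) : κ ∈ anNb d := by
  rw [pn_ag_mem_cell] at hp hz
  have hd1 : |p.1 - z.1| ≤ ν := (le_max_left _ _).trans hd
  have hd2 : |p.2 - z.2| ≤ ν := (le_max_right _ _).trans hd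
  have a1 := pn_ag_near1 g.mono₁ ν h1.1 hp.1.1 hp.1.2 hz.1.1 hz.1.2 hd1
  have a2 := pn_ag_near1 g.mono₂ ν h1.2 hp.2.1 hp.2.2 hz.2.1 hz.2.2 hd2
  simp only [anNb, Finset.mem_filter, Finset.mem_univ, true_and]
  exact ⟨a1.1, a1.2, a2.1, a2.2⟩

theorem pn_ag_snd_dist (e : Bond) : anDist e.1 e.snd ≤ 1 ∧ anDist e.snd e.1 ≤ 1 := by
  unfold anDist Bond.snd
  split_ifs <;> simp

/-- a bond of the graph moves the position by sup distance one -/
theorem pn_an_bond_dist {x y : (domG D cut).V} (h : gAdj (domG D cut) x y) : anDist (domPos x) (domPos y) ≤ 1 := by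
  obtain ⟨e, h | h⟩ := h
  · rw [← h.1, ← h.2]
    exact (pn_ag_snd_dist e.1).1
  · rw [← h.1, ← h.2]
    exact (pn_ag_snd_dist e.1).2

/-- consecutive sites lie in the same or in consecutive intervals. -/
theorem pn_ag_step {m : ℕ} {x : Fin (m + 1) → ℤ} (hx : StrictMono x) {i j : Fin m} {a : ℤ}
    (h1 : x i.castSucc ≤ a) (h2 : a < x i.succ) (h3 : x j.castSucc ≤ a + 1) (h4 : a + 1 < x j.succ) :
    i = j ∨ i.1 + 1 = j.1 := by
  have a1 : i.1 ≤ j.1 := pn_ag_le hx h1 (by omega) h4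
  have a2 : x j.castSucc ≤ x i.succ := by omega
  have a3 : j.castSucc ≤ i.succ := hx.le_iff_le.1 a2
  have a4 : j.1 ≤ i.1 + 1 := a3
  rcases Nat.lt_or_ge i.1 j.1 with h | h
  · right; omega
  · left; exact Fin.ext (by omega)

theorem pn_ag_mem_T (hc : AnChart D cut Γ g) {z : ℤ × ℤ} (hz : z ∈ D) {κ : Fin m₁ × Fin m₂}
    (hκ : z ∈ g.cell κ) : κ ∈ Γ.T := by
  rw [hc.dom, DGrid.region, Finset.mem_biUnion] at hz
  obtain ⟨κ0, h0, h1⟩ := hz
  rw [pn_an_cell_unique g hκ h1]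
  exact h0

/-- an oriented bond of the graph. -/
theorem pn_ag_bond (hc : AnChart D cut Γ g) {e : Bond} (he : e ∈ domBonds D cut) {κ κ' : Fin m₁ × Fin m₂}
    (hx : e.1 ∈ g.cell κ) (hy : e.snd ∈ g.cell κ') :
    κ = κ' ∨ (κ ∈ Γ.T ∧ κ' ∈ Γ.T ∧ ((κ.1.1 + 1 = κ'.1.1 ∧ κ.2 = κ'.2 ∧ (κ, true) ∉ Γ.cutF) ∨
      (κ.1 = κ'.1 ∧ κ.2.1 + 1 = κ'.2.1 ∧ (κ, false) ∉ Γ.cutF))) := by
  have hD1 := domBonds_fst he
  have hD2 := domBonds_snd he
  have hnc : e ∉ cut := (Finset.mem_filter.1 he).2.2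
  by_cases hκ : κ = κ'
  · exact Or.inl hκ
  right
  refine ⟨pn_ag_mem_T hc hD1 hx, pn_ag_mem_T hc hD2 hy, ?_⟩
  have hout : e.snd ∉ g.cell κ := fun h => hκ (pn_an_cell_unique g h hy)
  have hcutF : (κ, e.2) ∉ Γ.cutF := by
    intro hf
    exact hnc ((hc.cut_iff e hD1 hD2).2 ⟨(κ, e.2), hf, rfl, hx, hout⟩)
  have hx' := (pn_ag_mem_cell g κ _).1 hx
  have hy' := (pn_ag_mem_cell g κ' _).1 hy
  obtain ⟨⟨z1, z2⟩, b⟩ := e
  cases b with
  | true =>
    left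
    have e1 : Bond.snd ((z1, z2), true) = (z1 + 1, z2) := rfl
    rw [e1] at hy'
    have h2 : κ.2 = κ'.2 := pn_ag_uniq g.mono₂ hx'.2.1 hx'.2.2 hy'.2.1 hy'.2.2
    rcases pn_ag_step g.mono₁ hx'.1.1 hx'.1.2 hy'.1.1 hy'.1.2 with h1 | h1
    · exact absurd (Prod.ext h1 h2) hκ
    · exact ⟨h1, h2, hcutF⟩
  | false =>
    right
    have e1 : Bond.snd ((z1, z2), false) = (z1, z2 + 1) := rfl
    rw [e1] at hy'
    have h2 : κ.1 = κ'.1 := pn_ag_uniq g.mono₁ hx'.1.1 hx'.1.2 hy'.1.1 hy'.1.2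
    rcases pn_ag_step g.mono₂ hx'.2.1 hx'.2.2 hy'.2.1 hy'.2.2 with h1 | h1
    · exact absurd (Prod.ext h2 h1) hκ
    · exact ⟨h2, h1, hcutF⟩

theorem pn_an_bond_adj (hc : AnChart D cut Γ g) {x y : (domG D cut).V} (h : gAdj (domG D cut) x y) {κ κ' : Fin m₁ × Fin m₂}
    (hx : domPos x ∈ g.cell κ) (hy : domPos y ∈ g.cell κ') : κ = κ' ∨ Γ.Adj κ κ' := by
  obtain ⟨e, h | h⟩ := h
  · rw [← h.1] at hx
    rw [← h.2] at hy
    rcases pn_ag_bond hc e.2 hx hy with h1 | ⟨h1, h2, h3 | h3⟩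
    · exact Or.inl h1
    · exact Or.inr ⟨h1, h2, Or.inl h3⟩
    · exact Or.inr ⟨h1, h2, Or.inr (Or.inl h3)⟩
  · rw [← h.2] at hx
    rw [← h.1] at hy
    rcases pn_ag_bond hc e.2 hy hx with h1 | ⟨h1, h2, h3 | h3⟩
    · exact Or.inl h1.symm
    · exact Or.inr ⟨h2, h1, Or.inr (Or.inr (Or.inl ⟨h3.1, h3.2.1.symm, h3.2.2⟩))⟩
    · exact Or.inr ⟨h2, h1, Or.inr (Or.inr (Or.inr ⟨h3.1.symm, h3.2.1, h3.2.2⟩))⟩

theorem pn_ag_cell_sub (hc : AnChart D cut Γ g) {κ : Fin m₁ × Fin m₂} (hκ : κ ∈ Γ.T) : g.cell κ ⊆ D := by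
  rw [hc.dom]
  exact Finset.subset_biUnion_of_mem g.cell hκ

/-- a cell of `T` is a full rectangle -/
theorem pn_an_cell_full (hc : AnChart D cut Γ g) {κ : Fin m₁ × Fin m₂} (hκ : κ ∈ Γ.T) :
    AnFull D cut (g.x₁ κ.1.castSucc) (g.x₁ κ.1.succ) (g.x₂ κ.2.castSucc) (g.x₂ κ.2.succ) := by
  have hsub := pn_ag_cell_sub hc hκ
  refine ⟨hsub, fun e h1 h2 he => ?_⟩
  have h1' : e.1 ∈ g.cell κ := h1
  have h2' : e.snd ∈ g.cell κ := h2
  obtain ⟨f, -, -, hf1, hf2⟩ := (hc.cut_iff e (hsub h1') (hsub h2')).1 he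
  rw [pn_an_cell_unique g hf1 h1'] at hf2
  exact hf2 h2'

/-- two cells joined by an uncut vertical face form a full rectangle -/
theorem pn_an_pair_full_h (hc : AnChart D cut Γ g) {κ κ' : Fin m₁ × Fin m₂} (hκ : κ ∈ Γ.T) (hκ' : κ' ∈ Γ.T)
    (h1 : κ.1.1 + 1 = κ'.1.1) (h2 : κ.2 = κ'.2) (h3 : (κ, true) ∉ Γ.cutF) :
    g.x₁ κ.1.succ = g.x₁ κ'.1.castSucc ∧
      AnFull D cut (g.x₁ κ.1.castSucc) (g.x₁ κ'.1.succ) (g.x₂ κ.2.castSucc) (g.x₂ κ.2.succ) := by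
  have e0 : κ.1.succ = κ'.1.castSucc := Fin.ext h1
  have e1 : g.x₁ κ.1.succ = g.x₁ κ'.1.castSucc := by rw [e0]
  have hs := pn_ag_cell_sub hc hκ
  have hs' := pn_ag_cell_sub hc hκ'
  have hsplit : ∀ z, z ∈ anRect (g.x₁ κ.1.castSucc) (g.x₁ κ'.1.succ) (g.x₂ κ.2.castSucc) (g.x₂ κ.2.succ) →
      z ∈ g.cell κ ∨ z ∈ g.cell κ' := by
    intro z hz
    rw [pn_ag_mem_rect] at hz
    rw [pn_ag_mem_cell, pn_ag_mem_cell, ← h2, ← e1]
    rcases lt_or_ge z.1 (g.x₁ κ.1.succ) with h | h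
    · exact Or.inl ⟨⟨hz.1.1, h⟩, hz.2⟩
    · exact Or.inr ⟨⟨h, hz.1.2⟩, hz.2⟩
  have hD : ∀ z, z ∈ anRect (g.x₁ κ.1.castSucc) (g.x₁ κ'.1.succ) (g.x₂ κ.2.castSucc) (g.x₂ κ.2.succ) →
      z ∈ D := fun z hz => (hsplit z hz).elim (fun h => hs h) fun h => hs' h
  refine ⟨e1, hD, fun e ha hb he => ?_⟩
  obtain ⟨f, hf, hf0, hf1, hf2⟩ := (hc.cut_iff e (hD _ ha) (hD _ hb)).1 he
  obtain ⟨⟨z1, z2⟩, b⟩ := e
  rcases hsplit _ ha with h | h
  · have hfκ : f.1 = κ := pn_an_cell_unique g hf1 h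
    rw [hfκ] at hf2
    have hb' : Bond.snd ((z1, z2), b) ∈ g.cell κ' := (hsplit _ hb).resolve_left hf2
    rw [pn_ag_mem_cell] at h hb'
    cases b with
    | true =>
      apply h3
      have : f = (κ, true) := Prod.ext hfκ hf0.symm
      rw [← this]
      exact hf
    | false =>
      have e2 : Bond.snd ((z1, z2), false) = (z1, z2 + 1) := rfl
      rw [e2] at hb'
      have a1 := h.1.2
      have a2 := hb'.1.1
      simp only [] at a1 a2
      omega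
  · have hfκ : f.1 = κ' := pn_an_cell_unique g hf1 h
    rw [hfκ] at hf2
    have hb' : Bond.snd ((z1, z2), b) ∈ g.cell κ := (hsplit _ hb).resolve_right hf2
    rw [pn_ag_mem_cell] at h hb'
    have a1 := h.1.1
    have a2 := hb'.1.2
    cases b with
    | true =>
      have e2 : Bond.snd ((z1, z2), true) = (z1 + 1, z2) := rfl
      rw [e2] at a2
      simp only [] at a1 a2
      omega
    | false =>
      have e2 : Bond.snd ((z1, z2), false) = (z1, z2 + 1) := rfl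
      rw [e2] at a2
      simp only [] at a1 a2
      omega

/-- two cells joined by an uncut horizontal face form a full rectangle -/
theorem pn_an_pair_full_v (hc : AnChart D cut Γ g) {κ κ' : Fin m₁ × Fin m₂} (hκ : κ ∈ Γ.T) (hκ' : κ' ∈ Γ.T)
    (h1 : κ.1 = κ'.1) (h2 : κ.2.1 + 1 = κ'.2.1) (h3 : (κ, false) ∉ Γ.cutF) :
    g.x₂ κ.2.succ = g.x₂ κ'.2.castSucc ∧
      AnFull D cut (g.x₁ κ.1.castSucc) (g.x₁ κ.1.succ) (g.x₂ κ.2.castSucc) (g.x₂ κ'.2.succ) := by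
  have e0 : κ.2.succ = κ'.2.castSucc := Fin.ext h2
  have e1 : g.x₂ κ.2.succ = g.x₂ κ'.2.castSucc := by rw [e0]
  have hs := pn_ag_cell_sub hc hκ
  have hs' := pn_ag_cell_sub hc hκ'
  have hsplit : ∀ z, z ∈ anRect (g.x₁ κ.1.castSucc) (g.x₁ κ.1.succ) (g.x₂ κ.2.castSucc) (g.x₂ κ'.2.succ) →
      z ∈ g.cell κ ∨ z ∈ g.cell κ' := by
    intro z hz
    rw [pn_ag_mem_rect] at hz
    rw [pn_ag_mem_cell, pn_ag_mem_cell, ← h1, ← e1]
    rcases lt_or_ge z.2 (g.x₂ κ.2.succ) with h | h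
    · exact Or.inl ⟨hz.1, ⟨hz.2.1, h⟩⟩
    · exact Or.inr ⟨hz.1, ⟨h, hz.2.2⟩⟩
  have hD : ∀ z, z ∈ anRect (g.x₁ κ.1.castSucc) (g.x₁ κ.1.succ) (g.x₂ κ.2.castSucc) (g.x₂ κ'.2.succ) →
      z ∈ D := fun z hz => (hsplit z hz).elim (fun h => hs h) fun h => hs' h
  refine ⟨e1, hD, fun e ha hb he => ?_⟩
  obtain ⟨f, hf, hf0, hf1, hf2⟩ := (hc.cut_iff e (hD _ ha) (hD _ hb)).1 he
  obtain ⟨⟨z1, z2⟩, b⟩ := e
  rcases hsplit _ ha with h | h
  · have hfκ : f.1 = κ := pn_an_cell_unique g hf1 h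
    rw [hfκ] at hf2
    have hb' : Bond.snd ((z1, z2), b) ∈ g.cell κ' := (hsplit _ hb).resolve_left hf2
    rw [pn_ag_mem_cell] at h hb'
    cases b with
    | false =>
      apply h3
      have : f = (κ, false) := Prod.ext hfκ hf0.symm
      rw [← this]
      exact hf
    | true =>
      have e2 : Bond.snd ((z1, z2), true) = (z1 + 1, z2) := rfl
      rw [e2] at hb'
      have a1 := h.2.2
      have a2 := hb'.2.1
      simp only [] at a1 a2
      omega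
  · have hfκ : f.1 = κ' := pn_an_cell_unique g hf1 h
    rw [hfκ] at hf2
    have hb' : Bond.snd ((z1, z2), b) ∈ g.cell κ := (hsplit _ hb).resolve_right hf2
    rw [pn_ag_mem_cell] at h hb'
    have a1 := h.2.1
    have a2 := hb'.2.2
    cases b with
    | true =>
      have e2 : Bond.snd ((z1, z2), true) = (z1 + 1, z2) := rfl
      rw [e2] at a2
      simp only [] at a1 a2
      omega
    | false =>
      have e2 : Bond.snd ((z1, z2), false) = (z1, z2 + 1) := rfl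
      rw [e2] at a2
      simp only [] at a1 a2
      omega

end AnGeoPart

/-!
# ROW 285, PINS / ANCHOR (Pins/Plan.lean s2 (c)), part 7: a touched cell has an anchored cell in its `3 × 3` block      (architect helper80)

"In a fixed-factor enlargement of a touched cell, stop the primary path after it spans a comparable cell distance.  One coordinate spans a positive fraction of the lattice levels, giving anchored rows or columns."
"At a free wall or a permitted junction, use the bounded union of comparable rectangles within the same component."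
HERE: the stopped path visits a set `𝒦` of at most nine cells of the block; consecutive cells are joined by UNCUT faces (the path uses bonds of the graph), so `𝒦` is connected through faces: walls and junctions need no special case
and no hypothesis on the geometry (`NoDiag` is not used).  By the pigeonhole principle one of the cells contains `≥ ν/9` visited columns (or rows).

LEAF AN-7 `pn_an_span`.
    [`pn_an_chain` turns `AnJoin` into `γ : ℕ → G.V`; `pn_an_exit` for `i ↦ domPos (γ i)` (`pn_an_bond_dist`): `j`, `s`.  `κ i` := the cell of `domPos (γ i)` (`Finset.mem_biUnion`, `AnChart.dom`; `Classical.choose`).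
     `𝒦 := image κ (range (j+1))`; `⊆ anNb d` by `pn_an_near`; `κ 0 = d` by `pn_an_cell_unique`; connected from `d` by induction on `i` and `pn_an_bond_adj`.
     Pigeonhole (`Finset.exists_le_card_fiber_of_mul_le_card_of_maps_to`, or by contradiction with `Finset.card_eq_sum_card_fiberwise`): the `ν + 1` values `t ∈ Icc s (s+ν)` are coloured by the cell of a visit `i(t)`; `|𝒦| ≤ 9` (`anNb_card`).]
-/

section AnSpanPart

variable {D : Finset (ℤ × ℤ)} {cut : Set Bond} {m₁ m₂ : ℕ} {Γ : CGeom m₁ m₂} {g : DGrid m₁ m₂}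

theorem pn_as_pigeon {α : Type} (𝒦 : Finset α) (h9 : 𝒦.card ≤ 9) (S : Finset ℤ) (ν : ℕ)
    (hS : ν + 1 ≤ S.card) (f : ℤ → α) (hf : ∀ t ∈ S, f t ∈ 𝒦) :
    ∃ κ₀ ∈ 𝒦, ∃ A : Finset ℤ, (∀ t ∈ A, t ∈ S ∧ f t = κ₀) ∧ ν ≤ 9 * A.card := by
  by_contra hcon
  push Not at hcon
  have h1 := Finset.card_eq_sum_card_fiberwise (f := f) (s := S) (t := 𝒦) hf
  have h2 : ∑ b ∈ 𝒦, 9 * (S.filter fun t => f t = b).card ≤ 𝒦.card • ν :=
    Finset.sum_le_card_nsmul _ _ _ fun b hb =>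
      (hcon b hb (S.filter fun t => f t = b) fun t ht => Finset.mem_filter.1 ht).le
  rw [← Finset.mul_sum, ← h1, smul_eq_mul] at h2
  have h3 : 𝒦.card * ν ≤ 9 * ν := Nat.mul_le_mul_right _ h9
  omega

/-- **AN-7** a touched cell: the cells visited by the stopped path. -/
theorem pn_an_span (hc : AnChart D cut Γ g) (ν : ℕ) (hν : 1 ≤ ν) (h1 : g.SideGe ν) (U : Set (domG D cut).V)
    {d : Fin m₁ × Fin m₂} (hd : AnTouch U g ν d) :
    ∃ (𝒦 : Finset (Fin m₁ × Fin m₂)) (κ₀ : Fin m₁ × Fin m₂) (A : Finset ℤ),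
      𝒦 ⊆ Γ.T ∧ 𝒦 ⊆ anNb d ∧ d ∈ 𝒦 ∧ κ₀ ∈ 𝒦 ∧
      (∀ κ ∈ 𝒦, Relation.ReflTransGen (fun a b => Γ.Adj a b ∧ a ∈ 𝒦 ∧ b ∈ 𝒦) d κ) ∧
      ν ≤ 9 * A.card ∧
      ((∀ x ∈ A, ∃ y, (x, y) ∈ g.cell κ₀ ∧ ∃ w ∈ U, domPos w = (x, y)) ∨
       (∀ y ∈ A, ∃ x, (x, y) ∈ g.cell κ₀ ∧ ∃ w ∈ U, domPos w = (x, y))) := by
  have _ := hν
  obtain ⟨p, q, hpU, hpd, hfar, hjoin⟩ := hd
  obtain ⟨n, γ, hγ0, hγn, hstep⟩ := pn_an_chain _ hjoin
  have hU : ∀ i ≤ n, γ i ∈ U := by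
    intro i hi
    rcases Nat.eq_zero_or_pos i with rfl | hpos
    · rw [hγ0]; exact hpU
    · obtain ⟨k, rfl⟩ : ∃ k, i = k + 1 := ⟨i - 1, by omega⟩
      exact (hstep k (by omega)).2
  obtain ⟨j, hjn, hbox, s, hs⟩ := pn_an_exit (fun i => domPos (γ i)) n ν
    (fun i hi => pn_an_bond_dist (hstep i hi).1) (by simp only [hγ0, hγn]; exact hfar)
  have hcell : ∀ w : (domG D cut).V, ∃ κ, κ ∈ Γ.T ∧ domPos w ∈ g.cell κ := by
    intro w
    have hw : domPos w ∈ D := w.2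
    generalize domPos w = z at hw ⊢
    rw [hc.dom, DGrid.region, Finset.mem_biUnion] at hw
    exact hw
  choose cl hclT hclm using hcell
  set 𝒦 : Finset (Fin m₁ × Fin m₂) := (Finset.range (j + 1)).image fun i => cl (γ i) with h𝒦
  have hmem : ∀ i ≤ j, cl (γ i) ∈ 𝒦 := fun i hi =>
    Finset.mem_image.2 ⟨i, Finset.mem_range.2 (by omega), rfl⟩
  have hcl0 : cl (γ 0) = d := by
    apply pn_an_cell_unique g (hclm (γ 0))
    rw [hγ0]; exact hpd
  have hsubT : 𝒦 ⊆ Γ.T := by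
    intro κ hκ
    obtain ⟨i, -, rfl⟩ := Finset.mem_image.1 hκ
    exact hclT _
  have hsubN : 𝒦 ⊆ anNb d := by
    intro κ hκ
    obtain ⟨i, hi, rfl⟩ := Finset.mem_image.1 hκ
    rw [Finset.mem_range] at hi
    have h2 := hbox i (by omega)
    simp only [hγ0] at h2
    exact pn_an_near ν h1 hpd (hclm (γ i)) h2
  have hd𝒦 : d ∈ 𝒦 := by
    rw [← hcl0]; exact hmem 0 (Nat.zero_le _)
  have hconn : ∀ i ≤ j, Relation.ReflTransGen (fun a b => Γ.Adj a b ∧ a ∈ 𝒦 ∧ b ∈ 𝒦) d (cl (γ i)) := by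
    intro i
    induction i with
    | zero =>
      intro _
      rw [hcl0]
    | succ i ih =>
      intro hi
      have h2 := ih (by omega)
      rcases pn_an_bond_adj hc (hstep i (by omega)).1 (hclm (γ i)) (hclm (γ (i + 1))) with h3 | h3
      · rw [← h3]; exact h2
      · exact h2.tail ⟨h3, hmem i (by omega), hmem (i + 1) hi⟩
  have h9 : 𝒦.card ≤ 9 := (Finset.card_le_card hsubN).trans (anNb_card d)
  have hcard : ν + 1 ≤ (Finset.Icc s (s + ν)).card := by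
    rw [Int.card_Icc]
    omega
  rcases hs with hs | hs
  · choose! ι hι using hs
    obtain ⟨κ₀, hκ₀, A, hAS, hA⟩ := pn_as_pigeon 𝒦 h9 (Finset.Icc s (s + ν)) ν hcard
      (fun t => cl (γ (ι t))) fun t ht => hmem _ (hι t ht).1
    refine ⟨𝒦, κ₀, A, hsubT, hsubN, hd𝒦, hκ₀, ?_, hA, Or.inl ?_⟩
    · intro κ hκ
      obtain ⟨i, hi, rfl⟩ := Finset.mem_image.1 hκ
      exact hconn i (by rw [Finset.mem_range] at hi; omega)
    · intro x hx
      have hx := hAS x hx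
      obtain ⟨h2, h3⟩ := hι x hx.1
      have h4 : domPos (γ (ι x)) = (x, (domPos (γ (ι x))).2) := Prod.ext h3 rfl
      refine ⟨(domPos (γ (ι x))).2, ?_, γ (ι x), hU _ (h2.trans hjn), h4⟩
      rw [← h4, ← hx.2]
      exact hclm _
  · choose! ι hι using hs
    obtain ⟨κ₀, hκ₀, A, hAS, hA⟩ := pn_as_pigeon 𝒦 h9 (Finset.Icc s (s + ν)) ν hcard
      (fun t => cl (γ (ι t))) fun t ht => hmem _ (hι t ht).1
    refine ⟨𝒦, κ₀, A, hsubT, hsubN, hd𝒦, hκ₀, ?_, hA, Or.inr ?_⟩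
    · intro κ hκ
      obtain ⟨i, hi, rfl⟩ := Finset.mem_image.1 hκ
      exact hconn i (by rw [Finset.mem_range] at hi; omega)
    · intro y hy
      have hy := hAS y hy
      obtain ⟨h2, h3⟩ := hι y hy.1
      have h4 : domPos (γ (ι y)) = ((domPos (γ (ι y))).1, y) := Prod.ext rfl h3
      refine ⟨(domPos (γ (ι y))).1, ?_, γ (ι y), hU _ (h2.trans hjn), h4⟩
      rw [← h4, ← hy.2]
      exact hclm _

end AnSpanPart

/-!
# ROW 285, PINS / ANCHOR (Pins/Plan.lean s2 (a), (b), (AN3), (AN4)), part 8: flows of the cells of a chart      (architect helper80; ALL PROVED)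

Cells of a chart with sides in `[ν, K ν]`.  Only `pn_fl_sub`, `pn_fl_anch_col/row` (AnSub), `pn_an_cell_full`, `pn_an_pair_full_h/v` (AnGeo), the calculus (AnCalc) and arithmetic.

LEAF AN-8a `pn_an_pair` : two cells with a common uncut face: cost `24 K`, sup `4/ν`.
    [case `κ'` right of `κ`: `R∪` = the union rectangle (`pn_an_pair_full_h`), `W = w + w' ∈ [ν, 2Kν]`, `H = q ∈ [ν, Kν]`.  `pn_fl_sub` for `cell κ ⊆ R∪` and for `cell κ' ⊆ R∪` (`anCell_eq`, `κ.2 = κ'.2`): each cost `≤ 2·2K + 2·K = 6K`, sup `≤ 2/ν`;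
     `AnFlow.sub`, `congr` (`ρ_∪` cancels), `mono` (`anRect ∪ ⊆ cell κ ∪ cell κ'`: split at `x₁ κ.1.succ`).  `κ'` above `κ`: same with `pn_an_pair_full_v` (`W/q ≤ K`, `H/W ≤ 2K`).  The two other cases of `CGeom.Adj`: exchange `κ, κ'` and `AnFlow.neg`.]
LEAF AN-8b `pn_an_anch` : a cell with `≥ ν/9` anchored columns or rows: cost `2K + 162 K²`, sup `10/ν`.   [`W/H ≤ K`, `W H/|A|² ≤ K²ν² · 81/ν²`, `1/H ≤ 1/ν`, `1/|A| ≤ 9/ν`; `A.Nonempty` from `1 ≤ ν ≤ 9 |A|`.]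
LEAF AN-8c `pn_an_point` (AN4), `pn_an_fine` (AN3, first half).   [`pn_fl_sub`; `anRect x (x+1) y (y+1) = {(x,y)}`; `domPos` is injective (`Subtype.ext`).]
-/

section AnPairPart

variable {D : Finset (ℤ × ℤ)} {cut : Set Bond} {m₁ m₂ : ℕ} {Γ : CGeom m₁ m₂} {g : DGrid m₁ m₂}

/-- `pn_fl_sub` with bounds -/
theorem pn_pr_sub {a a' c c' a₁ a₁' c₁ c₁' : ℤ} (h : AnFull D cut a a' c c') (h1 : a ≤ a₁) (h2 : a₁ < a₁') (h3 : a₁' ≤ a')
    (h4 : c ≤ c₁) (h5 : c₁ < c₁') (h6 : c₁' ≤ c') (ν A B : ℝ) (hν : 0 < ν) (hq : ν ≤ ((c₁' - c₁ : ℤ) : ℝ))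
    (hWν : ν ≤ ((a' - a : ℤ) : ℝ)) (hWq : ((a' - a : ℤ) : ℝ) ≤ A * ((c₁' - c₁ : ℤ) : ℝ))
    (hHW : ((c' - c : ℤ) : ℝ) ≤ B * ((a' - a : ℤ) : ℝ)) :
    AnFlow (∅ : Set (domG D cut).V) (fun x => anRho (anRect a₁ a₁' c₁ c₁') x - anRho (anRect a a' c c') x)
      (2 * A + 2 * B) (2 / ν) (anRect a a' c c') := by
  have hq0 : 0 < ((c₁' - c₁ : ℤ) : ℝ) := lt_of_lt_of_le hν hq
  have hW0 : 0 < ((a' - a : ℤ) : ℝ) := lt_of_lt_of_le hν hWν
  refine (pn_fl_sub h h1 h2 h3 h4 h5 h6).mono ?_ ?_ (Finset.Subset.refl _)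
  · have e1 : ((a' - a : ℤ) : ℝ) / ((c₁' - c₁ : ℤ) : ℝ) ≤ A := (div_le_iff₀ hq0).2 hWq
    have e2 : ((c' - c : ℤ) : ℝ) / ((a' - a : ℤ) : ℝ) ≤ B := (div_le_iff₀ hW0).2 hHW
    linarith
  · have e1 : 1 / ((c₁' - c₁ : ℤ) : ℝ) ≤ 1 / ν := one_div_le_one_div_of_le hν hq
    have e2 : 1 / ((a' - a : ℤ) : ℝ) ≤ 1 / ν := one_div_le_one_div_of_le hν hWν
    have e3 : 2 / ν = 1 / ν + 1 / ν := by ring
    linarith

/-- sides of a cell, as real numbers -/
theorem pn_pr_side₁ (K ν : ℕ) (h1 : g.SideGe ν) (h2 : g.SideLe (K * ν)) (i : Fin m₁) :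
    (ν : ℝ) ≤ ((g.x₁ i.succ - g.x₁ i.castSucc : ℤ) : ℝ) ∧ ((g.x₁ i.succ - g.x₁ i.castSucc : ℤ) : ℝ) ≤ (K : ℝ) * (ν : ℝ) := by
  have a1 := h1.1 i
  have a2 := h2.1 i
  constructor
  · exact_mod_cast a1
  · exact_mod_cast a2

theorem pn_pr_side₂ (K ν : ℕ) (h1 : g.SideGe ν) (h2 : g.SideLe (K * ν)) (j : Fin m₂) :
    (ν : ℝ) ≤ ((g.x₂ j.succ - g.x₂ j.castSucc : ℤ) : ℝ) ∧ ((g.x₂ j.succ - g.x₂ j.castSucc : ℤ) : ℝ) ≤ (K : ℝ) * (ν : ℝ) := by
  have a1 := h1.2 j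
  have a2 := h2.2 j
  constructor
  · exact_mod_cast a1
  · exact_mod_cast a2

theorem pn_pr_pair_h (hc : AnChart D cut Γ g) (K ν : ℕ) (hν : 1 ≤ ν) (h1 : g.SideGe ν) (h2 : g.SideLe (K * ν))
    {κ κ' : Fin m₁ × Fin m₂} (hκ : κ ∈ Γ.T) (hκ' : κ' ∈ Γ.T) (e1 : κ.1.1 + 1 = κ'.1.1) (e2 : κ.2 = κ'.2)
    (e3 : (κ, true) ∉ Γ.cutF) :
    AnFlow (∅ : Set (domG D cut).V) (fun x => anRho (g.cell κ) x - anRho (g.cell κ') x) (24 * (K : ℝ)) (4 / (ν : ℝ))
      (g.cell κ ∪ g.cell κ') := by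
  obtain ⟨he, hfull⟩ := pn_an_pair_full_h hc hκ hκ' e1 e2 e3
  have hν0 : (0 : ℝ) < ν := by exact_mod_cast hν
  have hK0 : (0 : ℝ) ≤ K := Nat.cast_nonneg K
  obtain ⟨w1, w2⟩ := pn_pr_side₁ K ν h1 h2 κ.1
  obtain ⟨w1', w2'⟩ := pn_pr_side₁ K ν h1 h2 κ'.1
  obtain ⟨q1, q2⟩ := pn_pr_side₂ K ν h1 h2 κ.2
  have iw := h1.1 κ.1
  have iw' := h1.1 κ'.1
  have iq := h1.2 κ.2
  have hνz : (1 : ℤ) ≤ (ν : ℤ) := by exact_mod_cast hν
  have hWeq : ((g.x₁ κ'.1.succ - g.x₁ κ.1.castSucc : ℤ) : ℝ)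
      = ((g.x₁ κ.1.succ - g.x₁ κ.1.castSucc : ℤ) : ℝ) + ((g.x₁ κ'.1.succ - g.x₁ κ'.1.castSucc : ℤ) : ℝ) := by
    rw [← he]
    push_cast
    ring
  have hKq : (K : ℝ) * (ν : ℝ) ≤ (K : ℝ) * ((g.x₂ κ.2.succ - g.x₂ κ.2.castSucc : ℤ) : ℝ) :=
    mul_le_mul_of_nonneg_left q1 hK0
  have hKW : (K : ℝ) * (ν : ℝ) ≤ (K : ℝ) * ((g.x₁ κ'.1.succ - g.x₁ κ.1.castSucc : ℤ) : ℝ) :=
    mul_le_mul_of_nonneg_left (by rw [hWeq]; linarith) hK0
  have F1 := pn_pr_sub hfull (a₁ := g.x₁ κ.1.castSucc) (a₁' := g.x₁ κ.1.succ) le_rfl (by omega) (by omega) le_rfl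
    (by omega) le_rfl (ν : ℝ) (2 * (K : ℝ)) (K : ℝ) hν0 q1
    (by rw [hWeq]; linarith) (by rw [hWeq]; linarith) (by linarith)
  have F2 := pn_pr_sub hfull (a₁ := g.x₁ κ'.1.castSucc) (a₁' := g.x₁ κ'.1.succ) (by omega) (by omega) le_rfl le_rfl
    (by omega) le_rfl (ν : ℝ) (2 * (K : ℝ)) (K : ℝ) hν0 q1
    (by rw [hWeq]; linarith) (by rw [hWeq]; linarith) (by linarith)
  have hcell' : g.cell κ' = anRect (g.x₁ κ'.1.castSucc) (g.x₁ κ'.1.succ) (g.x₂ κ.2.castSucc) (g.x₂ κ.2.succ) := by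
    rw [anCell_eq, e2]
  rw [hcell', anCell_eq g κ]
  refine ((F1.sub F2).congr fun x => by ring).mono (by linarith) (le_of_eq (by ring)) ?_
  refine Finset.union_subset ?_ ?_ <;>
  · intro z hz
    obtain ⟨z1, z2⟩ := Finset.mem_product.1 hz
    have z1' := Finset.mem_Ico.1 z1
    by_cases hlt : z.1 < g.x₁ κ.1.succ
    · exact Finset.mem_union_left _ (Finset.mem_product.2 ⟨Finset.mem_Ico.2 ⟨z1'.1, hlt⟩, z2⟩)
    · exact Finset.mem_union_right _ (Finset.mem_product.2 ⟨Finset.mem_Ico.2 ⟨by omega, z1'.2⟩, z2⟩)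

theorem pn_pr_pair_v (hc : AnChart D cut Γ g) (K ν : ℕ) (hν : 1 ≤ ν) (h1 : g.SideGe ν) (h2 : g.SideLe (K * ν))
    {κ κ' : Fin m₁ × Fin m₂} (hκ : κ ∈ Γ.T) (hκ' : κ' ∈ Γ.T) (e1 : κ.1 = κ'.1) (e2 : κ.2.1 + 1 = κ'.2.1)
    (e3 : (κ, false) ∉ Γ.cutF) :
    AnFlow (∅ : Set (domG D cut).V) (fun x => anRho (g.cell κ) x - anRho (g.cell κ') x) (24 * (K : ℝ)) (4 / (ν : ℝ))
      (g.cell κ ∪ g.cell κ') := by
  obtain ⟨he, hfull⟩ := pn_an_pair_full_v hc hκ hκ' e1 e2 e3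
  have hν0 : (0 : ℝ) < ν := by exact_mod_cast hν
  have hK0 : (0 : ℝ) ≤ K := Nat.cast_nonneg K
  obtain ⟨w1, w2⟩ := pn_pr_side₁ K ν h1 h2 κ.1
  obtain ⟨q1, q2⟩ := pn_pr_side₂ K ν h1 h2 κ.2
  obtain ⟨q1', q2'⟩ := pn_pr_side₂ K ν h1 h2 κ'.2
  have iw := h1.1 κ.1
  have iq := h1.2 κ.2
  have iq' := h1.2 κ'.2
  have hνz : (1 : ℤ) ≤ (ν : ℤ) := by exact_mod_cast hν
  have hHeq : ((g.x₂ κ'.2.succ - g.x₂ κ.2.castSucc : ℤ) : ℝ)
      = ((g.x₂ κ.2.succ - g.x₂ κ.2.castSucc : ℤ) : ℝ) + ((g.x₂ κ'.2.succ - g.x₂ κ'.2.castSucc : ℤ) : ℝ) := by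
    rw [← he]
    push_cast
    ring
  have hKq : (K : ℝ) * (ν : ℝ) ≤ (K : ℝ) * ((g.x₂ κ.2.succ - g.x₂ κ.2.castSucc : ℤ) : ℝ) :=
    mul_le_mul_of_nonneg_left q1 hK0
  have hKq' : (K : ℝ) * (ν : ℝ) ≤ (K : ℝ) * ((g.x₂ κ'.2.succ - g.x₂ κ'.2.castSucc : ℤ) : ℝ) :=
    mul_le_mul_of_nonneg_left q1' hK0
  have hKW : (K : ℝ) * (ν : ℝ) ≤ (K : ℝ) * ((g.x₁ κ.1.succ - g.x₁ κ.1.castSucc : ℤ) : ℝ) :=
    mul_le_mul_of_nonneg_left w1 hK0
  have F1 := pn_pr_sub hfull (c₁ := g.x₂ κ.2.castSucc) (c₁' := g.x₂ κ.2.succ) le_rfl (by omega) le_rfl le_rfl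
    (by omega) (by omega) (ν : ℝ) (K : ℝ) (2 * (K : ℝ)) hν0 q1 w1 (by linarith) (by rw [hHeq]; linarith)
  have F2 := pn_pr_sub hfull (c₁ := g.x₂ κ'.2.castSucc) (c₁' := g.x₂ κ'.2.succ) le_rfl (by omega) le_rfl (by omega)
    (by omega) le_rfl (ν : ℝ) (K : ℝ) (2 * (K : ℝ)) hν0 q1' w1 (by linarith) (by rw [hHeq]; linarith)
  have hcell' : g.cell κ' = anRect (g.x₁ κ.1.castSucc) (g.x₁ κ.1.succ) (g.x₂ κ'.2.castSucc) (g.x₂ κ'.2.succ) := by
    rw [anCell_eq, e1]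
  rw [hcell', anCell_eq g κ]
  refine ((F1.sub F2).congr fun x => by ring).mono (by linarith) (le_of_eq (by ring)) ?_
  refine Finset.union_subset ?_ ?_ <;>
  · intro z hz
    obtain ⟨z1, z2⟩ := Finset.mem_product.1 hz
    have z2' := Finset.mem_Ico.1 z2
    by_cases hlt : z.2 < g.x₂ κ.2.succ
    · exact Finset.mem_union_left _ (Finset.mem_product.2 ⟨z1, Finset.mem_Ico.2 ⟨z2'.1, hlt⟩⟩)
    · exact Finset.mem_union_right _ (Finset.mem_product.2 ⟨z1, Finset.mem_Ico.2 ⟨by omega, z2'.2⟩⟩)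

/-- **AN-8a** (Plan s2 (a)) two cells with a common uncut face -/
theorem pn_an_pair (hc : AnChart D cut Γ g) (K ν : ℕ) (hν : 1 ≤ ν) (h1 : g.SideGe ν) (h2 : g.SideLe (K * ν))
    {κ κ' : Fin m₁ × Fin m₂} (h : Γ.Adj κ κ') :
    AnFlow (∅ : Set (domG D cut).V) (fun x => anRho (g.cell κ) x - anRho (g.cell κ') x) (24 * (K : ℝ)) (4 / (ν : ℝ))
      (g.cell κ ∪ g.cell κ') := by
  obtain ⟨hκ, hκ', h⟩ := h
  rcases h with ⟨e1, e2, e3⟩ | ⟨e1, e2, e3⟩ | ⟨e1, e2, e3⟩ | ⟨e1, e2, e3⟩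
  · exact pn_pr_pair_h hc K ν hν h1 h2 hκ hκ' e1 e2 e3
  · exact pn_pr_pair_v hc K ν hν h1 h2 hκ hκ' e1 e2 e3
  · rw [Finset.union_comm]
    exact (pn_pr_pair_h hc K ν hν h1 h2 hκ' hκ e1 e2.symm e3).neg.congr fun x => by ring
  · rw [Finset.union_comm]
    exact (pn_pr_pair_v hc K ν hν h1 h2 hκ' hκ e1.symm e2 e3).neg.congr fun x => by ring

/-- **AN-8b** (Plan s2 (b)) a cell with many anchored columns or rows -/
theorem pn_an_anch (hc : AnChart D cut Γ g) (K ν : ℕ) (hν : 1 ≤ ν) (h1 : g.SideGe ν) (h2 : g.SideLe (K * ν))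
    (U : Set (domG D cut).V) {κ : Fin m₁ × Fin m₂} (hκ : κ ∈ Γ.T) (A : Finset ℤ) (hA : ν ≤ 9 * A.card)
    (hz : (∀ x ∈ A, ∃ y, (x, y) ∈ g.cell κ ∧ ∃ w ∈ U, domPos w = (x, y)) ∨
      (∀ y ∈ A, ∃ x, (x, y) ∈ g.cell κ ∧ ∃ w ∈ U, domPos w = (x, y))) :
    AnFlow U (anRho (g.cell κ)) (2 * (K : ℝ) + 162 * (K : ℝ) ^ 2) (10 / (ν : ℝ)) (g.cell κ) := by
  have hfull := pn_an_cell_full hc hκ
  have hν0 : (0 : ℝ) < ν := by exact_mod_cast hν
  have hK0 : (0 : ℝ) ≤ K := Nat.cast_nonneg K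
  obtain ⟨w1, w2⟩ := pn_pr_side₁ K ν h1 h2 κ.1
  obtain ⟨q1, q2⟩ := pn_pr_side₂ K ν h1 h2 κ.2
  set W : ℝ := ((g.x₁ κ.1.succ - g.x₁ κ.1.castSucc : ℤ) : ℝ) with hW
  set H : ℝ := ((g.x₂ κ.2.succ - g.x₂ κ.2.castSucc : ℤ) : ℝ) with hH
  have hW0 : 0 < W := lt_of_lt_of_le hν0 w1
  have hH0 : 0 < H := lt_of_lt_of_le hν0 q1
  have hcard : 0 < A.card := by omega
  have hne : A.Nonempty := Finset.card_pos.1 hcard
  have hk : (ν : ℝ) ≤ 9 * (A.card : ℝ) := by exact_mod_cast hA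
  have hk0 : (0 : ℝ) < (A.card : ℝ) := by exact_mod_cast hcard
  have b1 : W / H ≤ (K : ℝ) := (div_le_iff₀ hH0).2 (w2.trans (mul_le_mul_of_nonneg_left q1 hK0))
  have b1' : H / W ≤ (K : ℝ) := (div_le_iff₀ hW0).2 (q2.trans (mul_le_mul_of_nonneg_left w1 hK0))
  have b2 : W * H / (A.card : ℝ) ^ 2 ≤ 81 * (K : ℝ) ^ 2 := by
    rw [div_le_iff₀ (by positivity)]
    have e1 : W * H ≤ ((K : ℝ) * (ν : ℝ)) * ((K : ℝ) * (ν : ℝ)) := mul_le_mul w2 q2 hH0.le (by positivity)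
    have e2 : (ν : ℝ) ^ 2 ≤ (9 * (A.card : ℝ)) ^ 2 := pow_le_pow_left₀ hν0.le hk 2
    have e3 : (K : ℝ) ^ 2 * (ν : ℝ) ^ 2 ≤ (K : ℝ) ^ 2 * (9 * (A.card : ℝ)) ^ 2 :=
      mul_le_mul_of_nonneg_left e2 (by positivity)
    nlinarith
  have b3 : 1 / (A.card : ℝ) ≤ 9 / (ν : ℝ) := by
    rw [div_le_div_iff₀ hk0 hν0]
    linarith
  have b4 : 1 / H ≤ 1 / (ν : ℝ) := one_div_le_one_div_of_le hν0 q1
  have b4' : 1 / W ≤ 1 / (ν : ℝ) := one_div_le_one_div_of_le hν0 w1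
  have b5 : 10 / (ν : ℝ) = 1 / (ν : ℝ) + 9 / (ν : ℝ) := by ring
  rw [anCell_eq g κ] at hz ⊢
  rcases hz with hz | hz
  · exact (pn_fl_anch_col hfull U A hne hz).mono (by linarith) (by linarith) (Finset.Subset.refl _)
  · exact (pn_fl_anch_row hfull U A hne hz).mono (by linarith) (by linarith) (Finset.Subset.refl _)

/-- **AN-8c = (AN3), first half**: a subrectangle of height `≥ ν` (e.g. a fine cell) of a coarse cell with sides in `[r ν, K r ν]` -/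
theorem pn_an_fine (hc : AnChart D cut Γ g) (K ν r : ℕ) (hν : 1 ≤ ν) (hr : 1 ≤ r) (h1 : g.SideGe (r * ν)) (h2 : g.SideLe (K * (r * ν)))
    {κ : Fin m₁ × Fin m₂} (hκ : κ ∈ Γ.T) {a₁ a₁' c₁ c₁' : ℤ} (ha : g.x₁ κ.1.castSucc ≤ a₁) (ha' : a₁ < a₁') (ha'' : a₁' ≤ g.x₁ κ.1.succ)
    (hb : g.x₂ κ.2.castSucc ≤ c₁) (hb' : (ν : ℤ) ≤ c₁' - c₁) (hb'' : c₁' ≤ g.x₂ κ.2.succ) :
    AnFlow (∅ : Set (domG D cut).V) (fun x => anRho (anRect a₁ a₁' c₁ c₁') x - anRho (g.cell κ) x)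
      (2 * ((K : ℝ) * (r : ℝ)) + 2 * (K : ℝ)) (2 / (ν : ℝ)) (g.cell κ) := by
  have hfull := pn_an_cell_full hc hκ
  have hν0 : (0 : ℝ) < ν := by exact_mod_cast hν
  have hr1 : (1 : ℝ) ≤ r := by exact_mod_cast hr
  have hK0 : (0 : ℝ) ≤ K := Nat.cast_nonneg K
  obtain ⟨w1, w2⟩ := pn_pr_side₁ K (r * ν) h1 h2 κ.1
  obtain ⟨q1, q2⟩ := pn_pr_side₂ K (r * ν) h1 h2 κ.2
  push_cast at w1 w2 q1 q2
  have hνz : (1 : ℤ) ≤ (ν : ℤ) := by exact_mod_cast hν
  have hq : (ν : ℝ) ≤ ((c₁' - c₁ : ℤ) : ℝ) := by exact_mod_cast hb'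
  have hrν : (ν : ℝ) ≤ (r : ℝ) * (ν : ℝ) := by nlinarith
  rw [anCell_eq g κ]
  refine pn_pr_sub hfull ha ha' ha'' hb (by omega) hb'' (ν : ℝ) ((K : ℝ) * (r : ℝ)) (K : ℝ) hν0 hq ?_ ?_ ?_
  · push_cast
    linarith
  · push_cast
    have : (K : ℝ) * (r : ℝ) * (ν : ℝ) ≤ (K : ℝ) * (r : ℝ) * ((c₁' - c₁ : ℤ) : ℝ) :=
      mul_le_mul_of_nonneg_left hq (by positivity)
    push_cast at this
    linarith
  · push_cast
    have : (K : ℝ) * ((r : ℝ) * (ν : ℝ)) ≤ (K : ℝ) * ((g.x₁ κ.1.succ : ℝ) - (g.x₁ κ.1.castSucc : ℝ)) :=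
      mul_le_mul_of_nonneg_left w1 hK0
    linarith

/-- **AN-8c = (AN4)** a point mass against the average of its cell -/
theorem pn_an_point (hc : AnChart D cut Γ g) (K ν : ℕ) (hν : 1 ≤ ν) (h1 : g.SideGe ν) (h2 : g.SideLe (K * ν))
    {κ : Fin m₁ × Fin m₂} (hκ : κ ∈ Γ.T) (x : (domG D cut).V) (hx : domPos x ∈ g.cell κ) :
    AnFlow (∅ : Set (domG D cut).V) (fun y => (if y = x then 1 else 0) - anRho (g.cell κ) y)
      (2 * ((K : ℝ) * (ν : ℝ)) + 2 * (K : ℝ)) 2 (g.cell κ) := by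
  have hfull := pn_an_cell_full hc hκ
  have hν0 : (0 : ℝ) < ν := by exact_mod_cast hν
  have hν1 : (1 : ℝ) ≤ ν := by exact_mod_cast hν
  have hK0 : (0 : ℝ) ≤ K := Nat.cast_nonneg K
  obtain ⟨w1, w2⟩ := pn_pr_side₁ K ν h1 h2 κ.1
  obtain ⟨q1, q2⟩ := pn_pr_side₂ K ν h1 h2 κ.2
  obtain ⟨z1, z2⟩ := Finset.mem_product.1 hx
  have z1' := Finset.mem_Ico.1 z1
  have z2' := Finset.mem_Ico.1 z2
  have hone : (((domPos x).2 + 1 - (domPos x).2 : ℤ) : ℝ) = 1 := by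
    have : (domPos x).2 + 1 - (domPos x).2 = 1 := by ring
    rw [this]
    norm_num
  have F := pn_pr_sub hfull (a₁ := (domPos x).1) (a₁' := (domPos x).1 + 1) (c₁ := (domPos x).2) (c₁' := (domPos x).2 + 1)
    z1'.1 (by omega) (by omega) z2'.1 (by omega) (by omega) 1 ((K : ℝ) * (ν : ℝ)) (K : ℝ) one_pos (by rw [hone])
    (hν1.trans w1) (by rw [hone, mul_one]; exact w2) (q2.trans (mul_le_mul_of_nonneg_left w1 hK0))
  rw [anCell_eq g κ]
  refine (F.congr fun y => ?_).mono le_rfl (by norm_num) (Finset.Subset.refl _)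
  congr 1
  have hsing : anRect (domPos x).1 ((domPos x).1 + 1) (domPos x).2 ((domPos x).2 + 1) = {domPos x} := by
    ext z
    simp only [anRect, Finset.mem_product, Finset.mem_Ico, Finset.mem_singleton]
    constructor
    · rintro ⟨⟨a1, a2⟩, b1, b2⟩
      exact Prod.ext (by omega) (by omega)
    · rintro rfl
      omega
  unfold anRho
  rw [hsing]
  by_cases hy : y = x
  · subst hy
    simp
  · have : domPos y ≠ domPos x := fun hh => hy (Subtype.ext (p := fun v => v ∈ D) hh)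
    simp [hy, this]

end AnPairPart

/-! # EXIT THEOREMS -/

section AnchorPart

/-- an FK cluster inside `U` provides the paths -/
theorem pn_an_join_of_conn (G : HGraph) (ω : G.E → Bool) (U : Set G.V) {p q : G.V} (h : conn G ω p q)
    (hU : ∀ y, conn G ω p y → y ∈ U) : AnJoin G U p q := by
  unfold conn at h
  induction h with
  | refl => exact Relation.ReflTransGen.refl
  | @tail b c hab hbc ih =>
    refine ih.tail ⟨?_, hU c (hab.tail hbc)⟩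
    obtain ⟨e, _, he⟩ := hbc
    exact ⟨e, he⟩

/-- the constant of (AN1) -/
def anF1 (K : ℕ) : ℝ := 2 * (8 * (8 * (24 * (K : ℝ)))) + 2 * (2 * (K : ℝ) + 162 * (K : ℝ) ^ 2)

theorem anF1_nonneg (K : ℕ) : 0 ≤ anF1 K := by unfold anF1; positivity

variable {D : Finset (ℤ × ℤ)} {cut : Set Bond} {m₁ m₂ : ℕ} {Γ : CGeom m₁ m₂} {g : DGrid m₁ m₂}

/-- a path inside `U` from the cell `d` to a cell outside the block of `d` touches `d` -/
theorem pn_an_touch (ν : ℕ) (h1 : g.SideGe ν) {U : Set (domG D cut).V} {p q : (domG D cut).V} {d κ : Fin m₁ × Fin m₂}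
    (hp : p ∈ U) (hpd : domPos p ∈ g.cell d) (hq : domPos q ∈ g.cell κ) (hκ : κ ∉ anNb d)
    (hj : AnJoin (domG D cut) U p q) : AnTouch U g ν d := by
  refine ⟨p, q, hp, hpd, ?_, hj⟩
  by_contra hlt
  exact hκ (pn_an_near ν h1 hpd hq (not_le.1 hlt).le)

/-- flows along a chain of cells -/
theorem pn_an_chain_flow (hc : AnChart D cut Γ g) (K ν : ℕ) (hν : 1 ≤ ν) (h1 : g.SideGe ν) (h2 : g.SideLe (K * ν))
    (n M : ℕ) (hn : n ≤ M) (γ : ℕ → Fin m₁ × Fin m₂) (hγ : ∀ i < n, Γ.Adj (γ i) (γ (i + 1))) :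
    AnFlow (∅ : Set (domG D cut).V) (fun x => anRho (g.cell (γ 0)) x - anRho (g.cell (γ n)) x)
      ((M : ℝ) * ((M : ℝ) * (24 * (K : ℝ)))) ((M : ℝ) * (4 / (ν : ℝ)))
      ((Finset.range n).biUnion fun i => g.cell (γ i) ∪ g.cell (γ (i + 1))) := by
  have hsum := AnFlow.sum (U := (∅ : Set (domG D cut).V)) (s := 4 / (ν : ℝ)) (Finset.range n)
    (fun i x => anRho (g.cell (γ i)) x - anRho (g.cell (γ (i + 1))) x) (fun _ => 24 * (K : ℝ)) (by positivity)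
    (fun i => g.cell (γ i) ∪ g.cell (γ (i + 1))) M
    (fun z => (Finset.card_filter_le _ _).trans (by rw [Finset.card_range]; exact hn))
    (fun i hi => pn_an_pair hc K ν hν h1 h2 (hγ i (Finset.mem_range.1 hi)))
  have hn' : (n : ℝ) ≤ (M : ℝ) := by exact_mod_cast hn
  refine (hsum.congr fun x => ?_).mono ?_ le_rfl (Finset.Subset.refl _)
  · exact Finset.sum_range_sub' (fun i => anRho (D := D) (cut := cut) (g.cell (γ i)) x) n
  · rw [Finset.sum_const, Finset.card_range, nsmul_eq_mul]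
    have : (n : ℝ) * (24 * (K : ℝ)) ≤ (M : ℝ) * (24 * (K : ℝ)) := mul_le_mul_of_nonneg_right hn' (by positivity)
    exact mul_le_mul_of_nonneg_left this (by positivity)

/-- **(AN1)** the average over a touched cell. -/
theorem pn_an_cell (hc : AnChart D cut Γ g) (K ν : ℕ) (hν : 1 ≤ ν) (h1 : g.SideGe ν) (h2 : g.SideLe (K * ν))
    (U : Set (domG D cut).V) {d : Fin m₁ × Fin m₂} (hd : AnTouch U g ν d) :
    AnFlow U (anRho (g.cell d)) (anF1 K) (42 / (ν : ℝ)) (g.region (anNb d)) := by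
  obtain ⟨𝒦, κ₀, A, hT, hN, hd𝒦, hκ₀, hconn, hA, hz⟩ := pn_an_span hc ν hν h1 U hd
  obtain ⟨n, γ, hn, h0, hnn, hmem, hstep⟩ := pn_an_short Γ.Adj 𝒦 hd𝒦 (hconn κ₀ hκ₀)
  have hcard : 𝒦.card ≤ 9 := (Finset.card_le_card hN).trans (anNb_card d)
  have hn8 : n ≤ 8 := by omega
  have hch := (pn_an_chain_flow hc K ν hν h1 h2 n 8 hn8 γ hstep).anti (Set.empty_subset U)
  have han := pn_an_anch hc K ν hν h1 h2 U (hT hκ₀) A hA hz
  rw [h0, hnn] at hch
  have hcell : ∀ κ ∈ 𝒦, g.cell κ ⊆ g.region (anNb d) := fun κ hκ => Finset.subset_biUnion_of_mem g.cell (hN hκ)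
  have hν0 : (0 : ℝ) < ν := by exact_mod_cast hν
  refine ((hch.add han).congr fun x => by ring).mono ?_ ?_ ?_
  · unfold anF1
    norm_num
  · have : ((8 : ℕ) : ℝ) * (4 / (ν : ℝ)) + 10 / (ν : ℝ) = 42 / (ν : ℝ) := by
      field_simp
      norm_num
    exact this.le
  · refine Finset.union_subset (Finset.biUnion_subset.2 fun i hi => ?_) (hcell κ₀ hκ₀)
    have hi' : i < n := Finset.mem_range.1 hi
    exact Finset.union_subset (hcell _ (hmem i hi'.le)) (hcell _ (hmem (i + 1) hi'))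

/-- every site lies in at most nine blocks -/
theorem pn_an_overlap (g : DGrid m₁ m₂) (𝒟 : Finset (Fin m₁ × Fin m₂)) (z : ℤ × ℤ) :
    (𝒟.filter fun d => z ∈ g.region (anNb d)).card ≤ 9 := by
  by_cases hne : (𝒟.filter fun d => z ∈ g.region (anNb d)).Nonempty
  · obtain ⟨d₀, hd₀⟩ := hne
    obtain ⟨κ₀, _, hz₀⟩ := Finset.mem_biUnion.1 (Finset.mem_filter.1 hd₀).2
    refine (Finset.card_le_card fun d hd => ?_).trans (anNb_card κ₀)
    obtain ⟨κ, hκ, hz⟩ := Finset.mem_biUnion.1 (Finset.mem_filter.1 hd).2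
    rw [pn_an_cell_unique g hz₀ hz]
    exact anNb_symm.1 hκ
  · rw [Finset.not_nonempty_iff_eq_empty.1 hne]
    simp

/-- **(AN2)** linear combinations of averages over touched cells. -/
theorem pn_an_family (hc : AnChart D cut Γ g) (K ν : ℕ) (hν : 1 ≤ ν) (h1 : g.SideGe ν) (h2 : g.SideLe (K * ν))
    (U : Set (domG D cut).V) (𝒟 : Finset (Fin m₁ × Fin m₂)) (h𝒟 : ∀ d ∈ 𝒟, AnTouch U g ν d)
    (c : Fin m₁ × Fin m₂ → ℝ) (M : ℝ) (hM0 : 0 ≤ M) (hM : ∀ d ∈ 𝒟, |c d| ≤ M) :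
    AnFlow U (fun x => ∑ d ∈ 𝒟, c d * anRho (g.cell d) x) (9 * (anF1 K * ∑ d ∈ 𝒟, c d ^ 2)) (9 * (M * (42 / (ν : ℝ))))
      (𝒟.biUnion fun d => g.region (anNb d)) := by
  have hsum := AnFlow.sum (U := U) (s := M * (42 / (ν : ℝ))) 𝒟 (fun d x => c d * anRho (g.cell d) x)
    (fun d => c d ^ 2 * anF1 K) (by positivity) (fun d => g.region (anNb d)) 9 (pn_an_overlap g 𝒟)
    (fun d hd => ((pn_an_cell hc K ν hν h1 h2 U (h𝒟 d hd)).smul (c d)).mono le_rfl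
      (mul_le_mul_of_nonneg_right (hM d hd) (by positivity)) (Finset.Subset.refl _))
  refine hsum.mono ?_ (by norm_num) (Finset.Subset.refl _)
  have : ∑ d ∈ 𝒟, c d ^ 2 * anF1 K = anF1 K * ∑ d ∈ 𝒟, c d ^ 2 := by
    rw [Finset.mul_sum]
    exact Finset.sum_congr rfl fun d _ => by ring
  rw [this]
  norm_num

/-- **(AN3), second half**: two cells of one component. -/
theorem pn_an_conn (hc : AnChart D cut Γ g) (K ν : ℕ) (hν : 1 ≤ ν) (h1 : g.SideGe ν) (h2 : g.SideLe (K * ν))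
    {κ κ' : Fin m₁ × Fin m₂} (h : Γ.Conn κ κ') :
    AnFlow (∅ : Set (domG D cut).V) (fun x => anRho (g.cell κ) x - anRho (g.cell κ') x)
      (((m₁ * m₂ : ℕ) : ℝ) * (((m₁ * m₂ : ℕ) : ℝ) * (24 * (K : ℝ)))) (((m₁ * m₂ : ℕ) : ℝ) * (4 / (ν : ℝ))) D := by
  have h' : Relation.ReflTransGen (fun a b => Γ.Adj a b ∧ a ∈ (Finset.univ : Finset (Fin m₁ × Fin m₂)) ∧
      b ∈ (Finset.univ : Finset (Fin m₁ × Fin m₂))) κ κ' :=
    Relation.ReflTransGen.mono (r := Γ.Adj) (fun a b hab => ⟨hab, Finset.mem_univ a, Finset.mem_univ b⟩) κ κ' h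
  obtain ⟨n, γ, hn, h0, hnn, -, hstep⟩ := pn_an_short Γ.Adj Finset.univ (Finset.mem_univ κ) h'
  have hcard : (Finset.univ : Finset (Fin m₁ × Fin m₂)).card = m₁ * m₂ := by simp
  have hn' : n ≤ m₁ * m₂ := by omega
  have hch := pn_an_chain_flow hc K ν hν h1 h2 n (m₁ * m₂) hn' γ hstep
  rw [h0, hnn] at hch
  refine hch.mono le_rfl le_rfl (Finset.biUnion_subset.2 fun i hi => ?_)
  have hadj := hstep i (Finset.mem_range.1 hi)
  rw [hc.dom]
  exact Finset.union_subset (Finset.subset_biUnion_of_mem g.cell hadj.1) (Finset.subset_biUnion_of_mem g.cell hadj.2.1)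

end AnchorPart

end

end Claimed.Agent.R285.Pins
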