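import Claimed.Agent.R285.Rsd.Calc
import Claimed.Agent.R285.Base.Height

/-!
# ROW 285, PINS-TILT 1: the `|Y|`-bias inequality in cosine form (architect + proofs helper64).   Paper-free, NO sorry.

Replaces the size-bias inequality (3.23) of [C] in the short route to vanishing reach (helper235, 15:25Z):

   `pn_bias_cos :  E0 (|Y| cos X) ≤ E0 |Y| · φ(X)`      for all tests `X, Y` of a proper centred system.

Proof.  `|y| = κ⁻¹ ∫_0^∞ (1 - cos ty) t⁻² dt` with `κ = ∫_0^∞ (1 - cos u) u⁻² du ∈ (0,∞)` (scaling; the value `Real.pi/2` is not needed).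
`E0 (cos tY cos X) = (φ(X + tY) + φ(X - tY))/2 ≥ √(φ(X+tY) φ(X-tY)) ≥ φ(X) φ(tY)` (`lsys_phi_four`), hence `g(t) = E0 ((φ(X) - cos X)(1 - cos tY)) ≥ 0`; integrate against `t⁻² dt`
(`hasSum_integral_of_summable_integral_norm`).
Also: `pn_bias_sq : V0 X · E0 |Y| ≤ E0 (X² |Y|)` = (3.23) of [C] itself.
-/

set_option autoImplicit false

namespace Claimed.Agent.R285.Pins

open MeasureTheory Set

noncomputable section

/-- `G(u) = (1 - cos u)/u²` -/
def pnG (u : ℝ) : ℝ := (1 - Real.cos u) / u ^ 2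

theorem pnG_nonneg (u : ℝ) : 0 ≤ pnG u := by
  unfold pnG
  have := Real.cos_le_one u
  positivity

theorem pnG_le_half (u : ℝ) : pnG u ≤ 1 / 2 := by
  unfold pnG
  rcases eq_or_ne u 0 with rfl | hu
  · simp
  · rw [div_le_iff₀ (by positivity)]
    have := Real.one_sub_sq_div_two_le_cos (x := u)
    linarith

theorem pnG_le_inv (u : ℝ) : pnG u ≤ 2 * u ^ (-2 : ℝ) := by
  unfold pnG
  have h1 := Real.neg_one_le_cos u
  have e : u ^ (-2 : ℝ) = (u ^ 2)⁻¹ := by
    rw [show (-2 : ℝ) = ((-2 : ℤ) : ℝ) by norm_num, Real.rpow_intCast]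
    rfl
  rw [e, div_eq_mul_inv]
  have : 0 ≤ (u ^ 2)⁻¹ := by positivity
  nlinarith

theorem pnG_meas : Measurable pnG := by
  unfold pnG
  fun_prop

theorem pnG_integrable : IntegrableOn pnG (Ioi 0) := by
  rw [← Ioc_union_Ioi_eq_Ioi (zero_le_one' ℝ)]
  refine IntegrableOn.union ?_ ?_
  · refine Measure.integrableOn_of_bounded (M := 1 / 2) (by simp) pnG_meas.aestronglyMeasurable ?_
    refine Filter.Eventually.of_forall fun u => ?_
    rw [Real.norm_eq_abs, abs_of_nonneg (pnG_nonneg u)]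
    exact pnG_le_half u
  · have h := (integrableOn_Ioi_rpow_of_lt (a := -2) (by norm_num) (zero_lt_one' ℝ)).const_mul 2
    refine Integrable.mono' h pnG_meas.aestronglyMeasurable ?_
    refine Filter.Eventually.of_forall fun u => ?_
    rw [Real.norm_eq_abs, abs_of_nonneg (pnG_nonneg u)]
    exact pnG_le_inv u

/-- the constant `κ = ∫_0^∞ (1 - cos u)/u² du` (its value is not needed) -/
def pnKappa : ℝ := ∫ u in Ioi (0 : ℝ), pnG u

theorem pnKappa_pos : 0 < pnKappa := by
  have h1 : ∫ u in Ioc (0 : ℝ) 1, (2 / Real.pi ^ 2 : ℝ) ≤ ∫ u in Ioc (0 : ℝ) 1, pnG u := by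
    refine setIntegral_mono_on (by simp) (pnG_integrable.mono_set Ioc_subset_Ioi_self) measurableSet_Ioc ?_
    intro u hu
    unfold pnG
    rw [le_div_iff₀ (by have := hu.1; positivity)]
    have hpi : |u| ≤ Real.pi := by
      rw [abs_of_pos hu.1]
      exact hu.2.trans (by linarith [Real.pi_gt_three])
    have := Real.cos_le_one_sub_mul_cos_sq hpi
    linarith
  have h2 : ∫ u in Ioc (0 : ℝ) 1, pnG u ≤ pnKappa :=
    setIntegral_mono_set pnG_integrable (Filter.Eventually.of_forall fun u => pnG_nonneg u)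
      (Filter.Eventually.of_forall fun u hu => Ioc_subset_Ioi_self hu)
  have h3 : ∫ u in Ioc (0 : ℝ) 1, (2 / Real.pi ^ 2 : ℝ) = 2 / Real.pi ^ 2 := by simp
  have : 0 < 2 / Real.pi ^ 2 := by positivity
  linarith

theorem pnG_scale (y t : ℝ) (ht : 0 < t) : (1 - Real.cos (t * y)) / t ^ 2 = y ^ 2 * pnG (|y| * t) := by
  unfold pnG
  rcases eq_or_ne y 0 with rfl | hy
  · simp
  · have e : Real.cos (|y| * t) = Real.cos (t * y) := by
      rcases abs_cases y with ⟨h, _⟩ | ⟨h, _⟩
      · rw [h, mul_comm]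
      · rw [h, neg_mul, Real.cos_neg, mul_comm]
    rw [e, mul_pow, sq_abs]
    field_simp

theorem pn_abs_integrable (y : ℝ) : IntegrableOn (fun t : ℝ => (1 - Real.cos (t * y)) / t ^ 2) (Ioi 0) := by
  rcases eq_or_ne y 0 with rfl | hy
  · simp
  · have h : IntegrableOn (fun t : ℝ => y ^ 2 * pnG (|y| * t)) (Ioi 0) := by
      refine Integrable.const_mul ?_ _
      have := (integrableOn_Ioi_comp_mul_left_iff pnG 0 (abs_pos.2 hy)).2 (by simpa using pnG_integrable)
      exact this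
    exact h.congr_fun (fun t ht => (pnG_scale y t ht).symm) measurableSet_Ioi

/-- `∫_0^∞ (1 - cos ty)/t² dt = κ |y|` -/
theorem pn_abs_integral (y : ℝ) : ∫ t in Ioi (0 : ℝ), (1 - Real.cos (t * y)) / t ^ 2 = pnKappa * |y| := by
  rcases eq_or_ne y 0 with rfl | hy
  · simp
  · have e : ∫ t in Ioi (0 : ℝ), (1 - Real.cos (t * y)) / t ^ 2 = ∫ t in Ioi (0 : ℝ), y ^ 2 * pnG (|y| * t) :=
      setIntegral_congr_fun measurableSet_Ioi fun t ht => pnG_scale y t ht
    rw [e, integral_const_mul, integral_comp_mul_left_Ioi pnG 0 (abs_pos.2 hy), mul_zero, smul_eq_mul]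
    have : y ^ 2 = |y| * |y| := by rw [← sq, sq_abs]
    rw [this]
    have h0 : |y| ≠ 0 := abs_ne_zero.2 hy
    unfold pnKappa
    field_simp

/-! ## the inequality -/

variable {S : LSys}

theorem pn_phi_prod (hS : S.Ok) (X Y : S.L →+ ℝ) :
    S.E0 (fun z => Real.cos (X z) * Real.cos (Y z)) = (S.phi (X + Y) + S.phi (X - Y)) / 2 := by
  have h : S.E0 (fun z => Real.cos ((X + Y) z) + Real.cos ((X - Y) z)) = S.phi (X + Y) + S.phi (X - Y) :=
    rd_E0_add hS (rd_dom_cos _) (rd_dom_cos _)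
  have h2 : S.E0 (fun z => Real.cos (X z) * Real.cos (Y z))
      = S.E0 fun z => (1 / 2 : ℝ) * (Real.cos ((X + Y) z) + Real.cos ((X - Y) z)) := by
    congr 1
    funext z
    simp only [AddMonoidHom.add_apply, AddMonoidHom.sub_apply, Real.cos_add, Real.cos_sub]
    ring
  rw [h2, rd_E0_smul, h]
  ring

/-- positive association of the cosines -/
theorem pn_phi_prod_ge (hS : S.Ok) (X Y : S.L →+ ℝ) :
    S.phi X * S.phi Y ≤ S.E0 fun z => Real.cos (X z) * Real.cos (Y z) := by
  rw [pn_phi_prod hS]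
  have h4 := lsys_phi_four S hS X Y
  have h1 := rd_phi_nonneg hS X
  have h2 := rd_phi_nonneg hS Y
  have h3 := rd_phi_nonneg hS (X + Y)
  have h5 := rd_phi_nonneg hS (X - Y)
  have h6 : (S.phi X * S.phi Y) ^ 2 ≤ ((S.phi (X + Y) + S.phi (X - Y)) / 2) ^ 2 := by
    nlinarith [sq_nonneg (S.phi (X + Y) - S.phi (X - Y))]
  exact (abs_le_of_sq_le_sq' h6 (by positivity)).2

/-- general principle: a bounded (or dominated) factor `A` with `E0 (A (1 - cos tY)) ≥ 0` for all `t > 0` has `E0 (A |Y|) ≥ 0` -/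
theorem pn_bias_principle (hS : S.Ok) (Y : S.L →+ ℝ) (A : S.L → ℝ) (hA : S.Dom A)
    (h : ∀ t : ℝ, 0 < t → 0 ≤ S.Zf 0 fun z => A z * (1 - Real.cos (t * Y z))) :
    0 ≤ S.Zf 0 fun z => A z * |Y z| := by
  have := rd_countable hS
  set F : S.L → ℝ → ℝ := fun z t => (A z * S.W ((z : S.Amb) + 0)) * ((1 - Real.cos (t * Y z)) / t ^ 2) with hF
  have hint : ∀ z, Integrable (F z) (volume.restrict (Ioi 0)) := fun z => (pn_abs_integrable (Y z)).const_mul _
  have hval : ∀ z, ∫ t in Ioi (0 : ℝ), F z t = pnKappa * (A z * |Y z| * S.W ((z : S.Amb) + 0)) := by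
    intro z
    simp only [hF]
    rw [integral_const_mul, pn_abs_integral]
    ring
  have hnorm : ∀ z, ∫ t in Ioi (0 : ℝ), ‖F z t‖ = pnKappa * (|A z| * |Y z| * S.W ((z : S.Amb) + 0)) := by
    intro z
    have e : ∀ t : ℝ, ‖F z t‖ = (|A z| * S.W ((z : S.Amb) + 0)) * ((1 - Real.cos (t * Y z)) / t ^ 2) := by
      intro t
      simp only [hF]
      rw [Real.norm_eq_abs, abs_mul, abs_mul, abs_of_pos (rd_W_pos hS _)]
      congr 1
      refine abs_of_nonneg ?_
      have := Real.cos_le_one (t * Y z)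
      positivity
    simp only [e]
    rw [integral_const_mul, pn_abs_integral]
    ring
  have hsum : Summable fun z => ∫ t in Ioi (0 : ℝ), ‖F z t‖ := by
    simp only [hnorm]
    exact (rd_dom_summable hS (rd_dom_mul (rd_dom_abs hA) (rd_dom_abs (rd_dom_test Y))) 0).mul_left _
  have hs := hasSum_integral_of_summable_integral_norm hint hsum
  have h1 : ∑' z, ∫ t in Ioi (0 : ℝ), F z t = pnKappa * S.Zf 0 fun z => A z * |Y z| := by
    simp only [hval]
    rw [tsum_mul_left]
    rfl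
  have h2 : 0 ≤ ∫ t in Ioi (0 : ℝ), ∑' z, F z t := by
    refine setIntegral_nonneg measurableSet_Ioi fun t ht => ?_
    have e : ∑' z, F z t = (S.Zf 0 fun z => A z * (1 - Real.cos (t * Y z))) / t ^ 2 := by
      unfold LSys.Zf
      rw [← tsum_div_const]
      exact tsum_congr fun z => by simp only [hF]; ring
    rw [e]
    exact div_nonneg (h t ht) (by positivity)
  rw [← hs.tsum_eq, h1] at h2
  exact nonneg_of_mul_nonneg_right h2 pnKappa_pos

/-- **the `|Y|`-bias inequality, cosine form** -/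
theorem pn_bias_cos (hS : S.Ok) (X Y : S.L →+ ℝ) :
    S.E0 (fun z => |Y z| * Real.cos (X z)) ≤ S.E0 (fun z => |Y z|) * S.phi X := by
  have hw := rd_w_pos hS 0
  have hA : S.Dom fun z => S.phi X - Real.cos (X z) := rd_dom_sub (rd_dom_const _) (rd_dom_cos _)
  have key := pn_bias_principle hS Y (fun z => S.phi X - Real.cos (X z)) hA ?_
  · have e : (S.Zf 0 fun z => (S.phi X - Real.cos (X z)) * |Y z|)
        = S.phi X * S.Zf 0 (fun z => |Y z|) - S.Zf 0 fun z => |Y z| * Real.cos (X z) := by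
      rw [← rd_Zf_smul, ← rd_Zf_sub hS (rd_dom_smul _ (rd_dom_abs (rd_dom_test Y)))
        (rd_dom_mul (rd_dom_abs (rd_dom_test Y)) (rd_dom_cos _))]
      exact rd_Zf_congr 0 fun z => by ring
    rw [e] at key
    rw [rd_E0_eq, rd_E0_eq, div_mul_eq_mul_div]
    refine div_le_div_of_nonneg_right ?_ hw.le
    linarith
  · intro t _
    have h1 := pn_phi_prod_ge hS X (t • Y)
    have e : (S.Zf 0 fun z => (S.phi X - Real.cos (X z)) * (1 - Real.cos (t * Y z)))
        = S.w 0 * ((S.E0 fun z => Real.cos (X z) * Real.cos ((t • Y) z)) - S.phi X * S.phi (t • Y)) := by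
      have e1 : (S.Zf 0 fun z => (S.phi X - Real.cos (X z)) * (1 - Real.cos (t * Y z)))
          = S.Zf 0 fun z => (S.phi X + Real.cos (X z) * Real.cos ((t • Y) z))
              - (S.phi X * Real.cos ((t • Y) z) + Real.cos (X z)) :=
        rd_Zf_congr 0 fun z => by
          simp only [AddMonoidHom.smul_apply, smul_eq_mul]
          ring
      have d1 : S.Dom fun z => Real.cos (X z) * Real.cos ((t • Y) z) := rd_dom_mul (rd_dom_cos _) (rd_dom_cos _)
      have d2 : S.Dom fun z => S.phi X * Real.cos ((t • Y) z) := rd_dom_smul _ (rd_dom_cos _)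
      rw [e1, rd_Zf_sub hS (rd_dom_add (rd_dom_const _) d1) (rd_dom_add d2 (rd_dom_cos _)),
        rd_Zf_add hS (rd_dom_const _) d1, rd_Zf_add hS d2 (rd_dom_cos _), rd_Zf_smul, rd_Zf_cos _ hS, rd_Zf_cos _ hS,
        rd_E0_eq]
      have e2 : S.Zf 0 (fun _ => S.phi X) = S.phi X * S.w 0 := by
        have := rd_Zf_smul (S := S) (S.phi X) (fun _ => (1 : ℝ)) 0
        simpa [LSys.w] using this
      rw [e2]
      field_simp
      ring
    rw [e]
    exact mul_nonneg hw.le (by linarith)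

end

end Claimed.Agent.R285.Pins
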