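import Claimed.Agent.R285.Pins.ClusBad

/-!
# ROW 285, PINS-CLUS2 + CR (blueprint v2, `Pins/Plan.lean` s4-s5): THE EXITS (architect helper74; chief of PINS helper235).

Everything is an inequality between `ℝ≥0∞`-valued integrals `rhI H b P ·` under the (unnormalised) band law on ONE finite graph.  Constants are explicit, there is no square root and no limit.
Standing hypotheses: `hc : ClCtx H P b`;   anchoring `AncFl G H 𝒰 w t₁`;   regime `2 (t₁ T) ≤ 1`;   absorption `16 b w ≤ 1`.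

## Exits
* (CR)  `pn_cl_norm`, `pn_cl_fin2`, `pn_cl_prior_mgf`, `pn_cl_prior_second`, `pn_cl_prior_m8`     (tests with a representation `clRep H P f R t₀ σ`: flow + rows)
* (BAD) `pn_cl_m8_prod`, `pn_cl_bad_prob`, `pn_cl_bad_prod`, `pn_cl_bad_YA`     (`m8` = a bound of `E h_x^8`)     in `Pins/ClusBad.lean`
* (C1)  `pn_cl_absorb`, `pn_cl_eps_prob`
* (C2)  `pn_cl_clusters`         `E ∑_{C far, Gd} |y(e_C)|² ≤ 2 E|y(h)|² + E[Bad; |y(|h|)|²]`
* (C4)  `pn_cl_cross`,  (C3) `pn_cl_diag`,  (CS) `pn_cl_cs`, `pn_cl_cs_int`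
* geometry of the class `clFar`: `pn_cl_far_vis`, `pn_cl_far_clu`.

## Proofs: NO sorry in this file (all paper-free; lower files `ClusSys.lean` = posterior/prior laws as `LSys` through helper64's `TiltSys`/`TiltRef`/`Tilt`, `ClusSum.lean` = finite cluster sums)
THIRD READING of the blueprint: (C2) as written loses a factor `√#rows`; REPAIRED: (T4) at CLUSTER level.  With `e_x = rhU {x}`, `k_x = rhK {x}`, weights `w_x = 1[C_x good]/|C_x|` (`ExpMeas {x}`):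
`|y(e_x)|² = ⟨y(e_x), y(h)⟩ + L_{e_x}(k_x)`,   `∑_x w_x y(e_x) = y(e^{fg})`,   `E[w_x L_{e_x}(k_x)] ≤ 4 b w E[w_x |y(e_x)|²]` (T4),   `⟨a,b⟩ ≤ (|a|²+|b|²)/2`,
off `Bad`: `e^{fg} = rhU A'` and it is in the regime: (C1).   So `(1 - 4bw) X ≤ (2 th + bad)/2 + th/2`.
-/

set_option autoImplicit false

namespace Claimed.Agent.R285.Pins

open scoped Classical ENNReal

noncomputable section

variable {G : HGraph}

/-! ## (CR) the prior law -/

/-- the standing hypotheses give the hypotheses of `ReachPost` -/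
theorem pn_cl_ctx_proper (H : HLaw G) (P : Set G.V) (b : ℝ) (hc : ClCtx H P b) (hΛ : H.Λ = HLaw.pinned P) : H.Proper := by
  intro h hh h0
  rw [hΛ] at hh
  have h1 : ∀ e, h (G.tgt e) - h (G.src e) = 0 := fun e => congrFun (congrArg Prod.fst h0) e
  have h2 : ∀ o, ∑ v, H.B o v * (2 * Real.pi * (h v : ℝ)) = 0 := fun o => congrFun (congrArg Prod.snd h0) o
  have hv := hc.hInj (fun x => (h x : ℝ)) (fun x hx => by
      have : h x = 0 := hh x hx
      simp [this]) (fun e => by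
      have := h1 e
      have h3 : h (G.tgt e) = h (G.src e) := by omega
      simp [h3]) (fun o => by
      have h3 := h2 o
      have h4 : ∑ v, H.B o v * (2 * Real.pi * (h v : ℝ)) = (2 * Real.pi) * H.obs (fun x => (h x : ℝ)) o := by
        unfold HLaw.obs
        rw [Finset.mul_sum]
        exact Finset.sum_congr rfl fun v _ => by ring
      rw [h4] at h3
      exact (mul_eq_zero.1 h3).resolve_left (by positivity))
  funext x
  have := congrFun hv x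
  simpa using this

theorem pn_cl_ctx_ok (H : HLaw G) (P : Set G.V) (b : ℝ) (hc : ClCtx H P b) (hΛ : H.Λ = HLaw.pinned P) : (H.sys b).Ok := by
  refine Rsd.hlaw_ok_of_real_injective H b hc.hb fun g hg hgrad hrow => ?_
  refine hc.hInj g (fun v hv => ?_) hgrad hrow
  refine Submodule.span_induction (p := fun y _ => y v = 0) ?_ rfl ?_ ?_ hg
  · rintro _ ⟨c, hc', rfl⟩
    rw [hΛ] at hc'
    have : c v = 0 := hc' v hv
    simp [this]
  · intro y y' _ _ h1 h2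
    simp [h1, h2]
  · intro t y _ h1
    simp [h1]

/-- the normalisation is finite and positive -/
theorem pn_cl_norm (H : HLaw G) (P : Set G.V) (b : ℝ) (hc : ClCtx H P b) :
    rhI H b P (fun _ _ => 1) ≠ 0 ∧ rhI H b P (fun _ _ => 1) ≠ ∞ := by
  rw [pn_cl_prior_one hc]
  refine ⟨?_, ENNReal.ofReal_ne_top⟩
  rw [Ne, ENNReal.ofReal_eq_zero, not_le]
  exact rd_w_pos (pn_cl_prior_ok hc) 0

/-- all quadratic expressions in `|h|` are integrable -/
theorem pn_cl_fin2 (H : HLaw G) (P : Set G.V) (b : ℝ) (hc : ClCtx H P b) (c c' : G.V → ℝ) :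
    rhI H b P (fun h _ => ENNReal.ofReal (linA c h * linA c' h)) ≠ ∞ :=
  pn_cl_prior_fin hc _ (rd_dom_mul (pn_cl_dom_linA _ c) (pn_cl_dom_linA _ c'))

/-- **(REF) for the prior** -/
theorem pn_cl_prior_mgf (H : HLaw G) (P : Set G.V) (b : ℝ) (hc : ClCtx H P b) (f : G.V → ℝ) (R t₀ σ : ℝ) (hrep : clRep H P f R t₀ σ)
    (θ : ℝ) (hθ : |θ| * t₀ ≤ 1) :
    rhI H b P (fun h _ => ENNReal.ofReal (Real.exp (θ * lin f h)))
      ≤ ENNReal.ofReal (Real.exp (θ ^ 2 * (b * R + σ / 2))) * rhI H b P (fun _ _ => 1) := by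
  have hO := pn_cl_bok hc (subset_refl P)
  have hS := pn_cl_prior_ok hc
  obtain ⟨t, s, e, hR, hsup, hs⟩ := pn_cl_rep_exists (β' := fun _ => b) hO subset_rfl f R t₀ σ hrep
  have e2 : ∀ z, θ * lin f (clV (β' := fun _ => b) hO z) = pnSt (clS H (fun _ => b) P) (θ • t) (θ • s) z := by
    intro z
    rw [← pnSt_smul, ← e]
    rfl
  refine pn_cl_prior_le hc (fun h => Real.exp (θ * lin f h)) (fun _ => (Real.exp_pos _).le) ?_ _ (Real.exp_pos _).le ?_
  · simp only [e2]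
    exact rd_dom_exp _
  · simp only [e2]
    refine (pn_ref_quad _ hS b (fun _ => le_rfl) _ (fun e => ?_) _).trans (Real.exp_le_exp.2 ?_)
    · simp only [Pi.smul_apply, smul_eq_mul, abs_mul]
      exact (mul_le_mul_of_nonneg_left (hsup e) (abs_nonneg _)).trans hθ
    · have h1 : ∑ e, (θ • t) e ^ 2 = θ ^ 2 * ∑ e, t e ^ 2 := by
        rw [Finset.mul_sum]
        exact Finset.sum_congr rfl fun e _ => by simp only [Pi.smul_apply, smul_eq_mul]; ring
      have h2 : ∑ o, (θ • s) o ^ 2 = θ ^ 2 * ∑ o, s o ^ 2 := by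
        rw [Finset.mul_sum]
        exact Finset.sum_congr rfl fun e _ => by simp only [Pi.smul_apply, smul_eq_mul]; ring
      rw [h1, h2]
      have h3 : b * ∑ e, t e ^ 2 ≤ b * R := mul_le_mul_of_nonneg_left hR hc.hb.le
      have h4 : 0 ≤ θ ^ 2 := sq_nonneg _
      nlinarith

/-- second moments: `E h_f² ≤ 2 b R + σ` -/
theorem pn_cl_prior_second (H : HLaw G) (P : Set G.V) (b : ℝ) (hc : ClCtx H P b) (f : G.V → ℝ) (R t₀ σ : ℝ) (hrep : clRep H P f R t₀ σ) :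
    rhI H b P (fun h _ => ENNReal.ofReal (lin f h ^ 2)) ≤ ENNReal.ofReal (2 * b * R + σ) * rhI H b P (fun _ _ => 1) := by
  have hO := pn_cl_bok hc (subset_refl P)
  have hS := pn_cl_prior_ok hc
  obtain ⟨t, s, e, hR, hsup, hs⟩ := pn_cl_rep_exists (β' := fun _ => b) hO subset_rfl f R t₀ σ hrep
  have hR0 : 0 ≤ R := le_trans (Finset.sum_nonneg fun _ _ => sq_nonneg _) hR
  have hσ0 : 0 ≤ σ := le_trans (Finset.sum_nonneg fun _ _ => sq_nonneg _) hs
  have hb := hc.hb.le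
  refine pn_cl_prior_le hc (fun h => lin f h ^ 2) (fun _ => sq_nonneg _) (rd_dom_pow (pn_cl_dom_lin _ f) 2) _ (by positivity) ?_
  have h1 := pn_ref_var hS b (fun _ => le_rfl) t s
  rw [← e, rd_V0_eq] at h1
  refine h1.trans ?_
  have h3 : 2 * b * ∑ e : (clS H (fun _ => b) P).E, t e ^ 2 ≤ 2 * b * R := mul_le_mul_of_nonneg_left hR (by positivity)
  have h4 : ∑ o : (clS H (fun _ => b) P).O, s o ^ 2 ≤ σ := hs
  exact add_le_add h3 h4

/-- **(CR)** eighth moments: `E h_f^8 ≤ 2 · 8! θ^{-8} exp(θ²(bR + σ/2))` -/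
theorem pn_cl_prior_m8 (H : HLaw G) (P : Set G.V) (b : ℝ) (hc : ClCtx H P b) (f : G.V → ℝ) (R t₀ σ : ℝ) (hrep : clRep H P f R t₀ σ)
    (θ : ℝ) (h0 : 0 < θ) (hθ : θ * t₀ ≤ 1) :
    rhI H b P (fun h _ => ENNReal.ofReal (lin f h ^ 8))
      ≤ ENNReal.ofReal (80640 / θ ^ 8 * Real.exp (θ ^ 2 * (b * R + σ / 2))) * rhI H b P (fun _ _ => 1) := by
  have hO := pn_cl_bok hc (subset_refl P)
  have hS := pn_cl_prior_ok hc
  obtain ⟨t, s, e, hR, hsup, hs⟩ := pn_cl_rep_exists (β' := fun _ => b) hO subset_rfl f R t₀ σ hrep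
  refine pn_cl_prior_le hc (fun h => lin f h ^ 8) (fun _ => by positivity) (rd_dom_pow (pn_cl_dom_lin _ f) 8) _ (by positivity) ?_
  have h1 := pn_ref_moment_st hS b (fun _ => le_rfl) t s θ h0
    (fun e => (mul_le_mul_of_nonneg_left (hsup e) h0.le).trans hθ) 4
  rw [← e] at h1
  refine h1.trans ?_
  have h3 : b * ∑ e : (clS H (fun _ => b) P).E, t e ^ 2 ≤ b * R := mul_le_mul_of_nonneg_left hR hc.hb.le
  have h4 : ∑ o : (clS H (fun _ => b) P).O, s o ^ 2 ≤ σ := hs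
  have h5 : Real.exp (θ ^ 2 * (b * ∑ e : (clS H (fun _ => b) P).E, t e ^ 2 + (∑ o : (clS H (fun _ => b) P).O, s o ^ 2) / 2))
      ≤ Real.exp (θ ^ 2 * (b * R + σ / 2)) := by
    refine Real.exp_le_exp.2 (mul_le_mul_of_nonneg_left ?_ (sq_nonneg _))
    exact add_le_add h3 (div_le_div_of_nonneg_right h4 zero_le_two)
  have e6 : 2 * (((2 * 4).factorial : ℕ) : ℝ) * θ⁻¹ ^ (2 * 4) = 80640 / θ ^ 8 := by
    have : ((2 * 4).factorial : ℕ) = 40320 := by decide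
    rw [this, inv_pow]
    norm_num
    ring
  rw [e6]
  exact mul_le_mul_of_nonneg_left h5 (by positivity)

/-! ## calculus of `clJ` -/

theorem pn_cl_J_mul (H : HLaw G) (β' : G.E → ℝ) (Q : Set G.V) (u : G.V → ℤ) (c : ℝ≥0∞) (Φ : (G.V → ℤ) → ℝ≥0∞) :
    clJ H β' Q u (fun k => c * Φ k) = c * clJ H β' Q u Φ := by
  unfold clJ bare
  rw [← ENNReal.tsum_mul_left]
  exact tsum_congr fun k => by simp only [mul_assoc]

theorem pn_cl_J_add (H : HLaw G) (β' : G.E → ℝ) (Q : Set G.V) (u : G.V → ℤ) (Φ Φ' : (G.V → ℤ) → ℝ≥0∞) :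
    clJ H β' Q u (fun k => Φ k + Φ' k) = clJ H β' Q u Φ + clJ H β' Q u Φ' := by
  unfold clJ bare
  rw [← ENNReal.tsum_add]
  exact tsum_congr fun k => by simp only [add_mul]

theorem pn_cl_J_const (H : HLaw G) (β' : G.E → ℝ) (Q : Set G.V) (u : G.V → ℤ) (c : ℝ≥0∞) :
    clJ H β' Q u (fun _ => c) = c * clJ H β' Q u (fun _ => 1) := by
  rw [← pn_cl_J_mul]
  simp

/-! ## the class of the far-connected sets -/

/-- explorations from subsets of `A'` -/
theorem pn_cl_far_vis (A' A : Set G.V) (hA : A ⊆ A') (ω : G.E → Bool) : vis G ω A ∈ clFar G A' := by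
  obtain ⟨h1, h2⟩ := pn_rch_vis_aconn G ω A
  refine ⟨Set.inter_subset_right, fun v hv => ?_⟩
  obtain ⟨a, ha, hp⟩ := h2 v hv
  exact ⟨a, ⟨hA ha, h1 ha⟩, hp⟩

/-- a cluster is far-connected iff it meets `A'` -/
theorem pn_cl_far_clu (A' : Set G.V) (ω : G.E → Bool) (x : G.V) : vis G ω {x} ∈ clFar G A' ↔ (clu G ω x ∩ A').Nonempty := by
  constructor
  · intro h
    obtain ⟨a, ⟨haA, haU⟩, _⟩ := h.2 x (pn_vis_sub G ω {x} rfl)
    rw [pn_vis_singleton] at haU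
    exact ⟨a, haU, haA⟩
  · rintro ⟨a, hax, haA⟩
    rw [pn_cl_vis_conn ω (show conn G ω x a from hax)]
    exact pn_cl_far_vis A' {a} (Set.singleton_subset_iff.2 haA) ω

/-- an exposed part which leaves the regime forces the bad event -/
theorem pn_cl_bad_of_not_gd (H : HLaw G) (hB : ∀ o x, 0 ≤ H.B o x) (T : ℝ) (S : Set G.V) (h : G.V → ℤ) (hn : ¬ clGd H T (resZ G S h)) :
    clBad H T h := by
  unfold clGd at hn
  push Not at hn
  obtain ⟨o, ho⟩ := hn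
  exact ⟨o, lt_of_lt_of_le ho (pn_cl_abs_row_resZ H hB S h o)⟩

/-- off the bad event the good clusters are the clusters which meet `A'` -/
theorem pn_cl_gs_eq (H : HLaw G) (hB : ∀ o x, 0 ≤ H.B o x) (A' : Set G.V) (T : ℝ) (h : G.V → ℤ) (ω : G.E → Bool) (hn : ¬ clBad H T h) :
    clGs G H (clFar G A') T h ω = vis G ω A' := by
  ext x
  constructor
  · rintro ⟨h1, _⟩
    obtain ⟨a, hax, haA⟩ := (pn_cl_far_clu A' ω x).1 h1
    exact ⟨a, haA, pn_conn_symm G ω hax⟩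
  · rintro ⟨a, haA, hax⟩
    refine ⟨(pn_cl_far_clu A' ω x).2 ⟨a, pn_conn_symm G ω hax, haA⟩, ?_⟩
    by_contra hg
    exact hn (pn_cl_bad_of_not_gd H hB T _ h hg)

/-! ## (C1) absorption -/

/-- **(C1)**: `E[F |y(e_A)|²] ≤ 2 E[F |y(h)|²]` for every `F ≥ 0` measurable at the completion of the exploration from `A` which vanishes off the regime -/
theorem pn_cl_absorb (H : HLaw G) (P : Set G.V) (b : ℝ) (hc : ClCtx H P b) (𝒰 : Set (Set G.V)) (w t₁ T : ℝ) (hw : 0 ≤ w) (hT0 : 0 ≤ T)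
    (hbw : 16 * b * w ≤ 1) (hT : 2 * (t₁ * T) ≤ 1) (hanc : AncFl G H 𝒰 w t₁) (A : Set G.V)
    (F : (G.V → ℤ) → (G.E → Bool) → ℝ≥0∞) (hF : ExpMeas G A F)
    (hF0 : ∀ h ω, ¬ (vis G ω A ∈ 𝒰 ∧ clGd H T (rhU G A h ω)) → F h ω = 0) :
    rhI H b P (fun h ω => F h ω * ENNReal.ofReal (clY H (rhU G A h ω)))
      ≤ 2 * rhI H b P (fun h ω => F h ω * ENNReal.ofReal (clY H h)) := by
  have key := pn_rch_transfer G H b hc.hb P A (fun U u => U ∈ 𝒰 ∧ clGd H T u)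
    (fun _ u _ => ENNReal.ofReal (clY H u)) (fun _ u k => 2 * ENNReal.ofReal (clY H (u + k)))
    (by
      intro U u β' _ hu hβ hg
      have hO := pn_cl_bok hc (Set.subset_union_left : P ⊆ P ∪ U)
      have h1 := pn_cl_post_c1 (β' := β') (fun e => (hβ.1 e).1) hO b hc.hb.le (fun e => (hβ.1 e).2) u
        (Set.subset_union_right : U ⊆ P ∪ U) w (t₁ * T) (hanc U hg.1 u hu T hT0 hg.2) hT hbw
      rw [← pn_cl_J_mul] at h1
      exact h1) F hF hF0
  refine key.trans (le_of_eq ?_)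
  rw [← pn_cl_I_mul]
  congr 1
  funext h ω
  rw [pn_cl_UK]
  ring

theorem pn_cl_ind_le_one (p : Prop) : rhInd p ≤ 1 := by
  unfold rhInd
  split_ifs <;> simp

/-- `P(|y(e_A)|² > η) ≤ P(Bad) + (2/η) E|y(h)|²` -/
theorem pn_cl_eps_prob (H : HLaw G) (P : Set G.V) (b : ℝ) (hc : ClCtx H P b) (𝒰 : Set (Set G.V)) (w t₁ T : ℝ) (hw : 0 ≤ w) (hT0 : 0 ≤ T)
    (hbw : 16 * b * w ≤ 1) (hT : 2 * (t₁ * T) ≤ 1) (hanc : AncFl G H 𝒰 w t₁) (A : Set G.V) (hvis : ∀ ω, vis G ω A ∈ 𝒰)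
    (η : ℝ) (hη : 0 < η) :
    rhI H b P (fun h ω => rhInd (η < clY H (rhU G A h ω)))
      ≤ rhI H b P (fun h _ => rhInd (clBad H T h)) + ENNReal.ofReal (2 / η) * rhI H b P (fun h _ => ENNReal.ofReal (clY H h)) := by
  set F : (G.V → ℤ) → (G.E → Bool) → ℝ≥0∞ := fun h ω => rhInd (vis G ω A ∈ 𝒰 ∧ clGd H T (rhU G A h ω)) with hFdef
  have hF : ExpMeas G A F := pn_rch_expMeas_of G A fun U u => rhInd (U ∈ 𝒰 ∧ clGd H T u)
  have h1 := pn_cl_absorb H P b hc 𝒰 w t₁ T hw hT0 hbw hT hanc A F hF (fun h ω hn => by simp [hFdef, rhInd, hn])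
  have h2 : rhI H b P (fun h ω => rhInd (η < clY H (rhU G A h ω)))
      ≤ rhI H b P (fun h ω => rhInd (clBad H T h) + ENNReal.ofReal (1 / η) * (F h ω * ENNReal.ofReal (clY H (rhU G A h ω)))) := by
    refine pn_cl_I_mono H b P _ _ fun h ω _ _ => ?_
    by_cases hg : clGd H T (rhU G A h ω)
    · have hF1 : F h ω = 1 := by simp [hFdef, rhInd, hvis ω, hg]
      rw [hF1, one_mul, ← ENNReal.ofReal_mul (by positivity)]
      by_cases hl : η < clY H (rhU G A h ω)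
      · refine le_add_left ?_
        have : rhInd (η < clY H (rhU G A h ω)) = ENNReal.ofReal 1 := by simp [rhInd, hl]
        rw [this]
        refine ENNReal.ofReal_le_ofReal ?_
        rw [one_div, inv_mul_eq_div, le_div_iff₀ hη]
        linarith
      · simp [rhInd, hl]
    · have hb : clBad H T h := pn_cl_bad_of_not_gd H hc.hB T _ h hg
      refine le_add_right ?_
      have : rhInd (clBad H T h) = 1 := by simp [rhInd, hb]
      rw [this]
      exact pn_cl_ind_le_one _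
  refine h2.trans ?_
  rw [pn_cl_I_add, pn_cl_I_mul]
  refine add_le_add le_rfl ?_
  have h3 : rhI H b P (fun h ω => F h ω * ENNReal.ofReal (clY H h)) ≤ rhI H b P (fun h _ => ENNReal.ofReal (clY H h)) :=
    pn_cl_I_mono H b P _ _ fun h ω _ _ => by
      calc F h ω * ENNReal.ofReal (clY H h) ≤ 1 * ENNReal.ofReal (clY H h) := mul_le_mul_left (pn_cl_ind_le_one _) _
        _ = _ := one_mul _
  have e : ENNReal.ofReal (2 / η) = ENNReal.ofReal (1 / η) * 2 := by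
    have : (2 : ℝ≥0∞) = ENNReal.ofReal 2 := by simp
    rw [this, ← ENNReal.ofReal_mul (by positivity)]
    congr 1
    ring
  rw [e, mul_assoc]
  exact mul_le_mul_right (h1.trans (mul_le_mul_right h3 _)) _

/-! ## (C2) clusters -/

theorem pn_cl_csz_vis (ω : G.E → Bool) (x : G.V) : csz G ω x = ((Finset.univ.filter fun y => y ∈ vis G ω {x}).card : ℝ) := by
  unfold csz
  congr 2
  ext y
  simp [pn_cl_mem_vis_single]

theorem pn_cl_one_le_csz (ω : G.E → Bool) (x : G.V) : 1 ≤ csz G ω x := by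
  unfold csz
  have : 0 < (Finset.univ.filter fun y => conn G ω x y).card :=
    Finset.card_pos.2 ⟨x, by simp [pn_conn_refl G ω x]⟩
  exact_mod_cast this

theorem pn_cl_csz_inv_le (ω : G.E → Bool) (x : G.V) : (csz G ω x)⁻¹ ≤ 1 := inv_le_one_of_one_le₀ (pn_cl_one_le_csz ω x)

/-- the weight `1[C_x good]/|C_x|` -/
def clWt (H : HLaw G) (𝒰 : Set (Set G.V)) (T : ℝ) (x : G.V) (h : G.V → ℤ) (ω : G.E → Bool) : ℝ≥0∞ :=
  if clGdx G H 𝒰 T h ω x then ENNReal.ofReal (csz G ω x)⁻¹ else 0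

theorem pn_cl_wt_meas (H : HLaw G) (𝒰 : Set (Set G.V)) (T : ℝ) (x : G.V) : ExpMeas G {x} (clWt H 𝒰 T x) := by
  have h := pn_rch_expMeas_of G {x} fun U u =>
    if U ∈ 𝒰 ∧ clGd H T u then ENNReal.ofReal (((Finset.univ.filter fun y => y ∈ U).card : ℝ))⁻¹ else 0
  have e : clWt H 𝒰 T x = fun h ω => if vis G ω {x} ∈ 𝒰 ∧ clGd H T (rhU G {x} h ω) then
      ENNReal.ofReal (((Finset.univ.filter fun y => y ∈ vis G ω {x}).card : ℝ))⁻¹ else 0 := by
    funext h ω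
    by_cases hg : vis G ω {x} ∈ 𝒰 ∧ clGd H T (rhU G {x} h ω)
    · rw [if_pos hg]
      unfold clWt
      rw [if_pos (show clGdx G H 𝒰 T h ω x from hg), pn_cl_csz_vis]
    · rw [if_neg hg]
      exact if_neg hg
  rw [e]
  exact h

theorem pn_cl_wt_zero (H : HLaw G) (𝒰 : Set (Set G.V)) (T : ℝ) (x : G.V) (h : G.V → ℤ) (ω : G.E → Bool)
    (hn : ¬ (vis G ω {x} ∈ 𝒰 ∧ clGd H T (rhU G {x} h ω))) : clWt H 𝒰 T x h ω = 0 := if_neg hn

theorem pn_cl_wt_le_one (H : HLaw G) (𝒰 : Set (Set G.V)) (T : ℝ) (x : G.V) (h : G.V → ℤ) (ω : G.E → Bool) : clWt H 𝒰 T x h ω ≤ 1 := by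
  unfold clWt
  split_ifs
  · rw [← ENNReal.ofReal_one]
    exact ENNReal.ofReal_le_ofReal (pn_cl_csz_inv_le ω x)
  · exact zero_le

theorem pn_cl_wt_mul (H : HLaw G) (𝒰 : Set (Set G.V)) (T : ℝ) (x : G.V) (h : G.V → ℤ) (ω : G.E → Bool) (r : ℝ) :
    clWt H 𝒰 T x h ω * ENNReal.ofReal r = ENNReal.ofReal (if clGdx G H 𝒰 T h ω x then (csz G ω x)⁻¹ * max r 0 else 0) := by
  unfold clWt
  split_ifs
  · rw [pn_cl_ofReal_max r, ← ENNReal.ofReal_mul (inv_pos.2 (pn_cl_csz_pos ω x)).le]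
  · simp

/-- **(T4) through an exploration** -/
theorem pn_cl_T4_transfer (H : HLaw G) (P : Set G.V) (b : ℝ) (hc : ClCtx H P b) (𝒰 : Set (Set G.V)) (w t₁ T : ℝ) (hw : 0 ≤ w) (hT0 : 0 ≤ T)
    (hT : 2 * (t₁ * T) ≤ 1) (hanc : AncFl G H 𝒰 w t₁) (A : Set G.V)
    (F : (G.V → ℤ) → (G.E → Bool) → ℝ≥0∞) (hF : ExpMeas G A F)
    (hF0 : ∀ h ω, ¬ (vis G ω A ∈ 𝒰 ∧ clGd H T (rhU G A h ω)) → F h ω = 0) :
    rhI H b P (fun h ω => F h ω * ENNReal.ofReal (clL H (rhU G A h ω) (rhK G A h ω)))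
      ≤ ENNReal.ofReal (4 * b * w) * rhI H b P (fun h ω => F h ω * ENNReal.ofReal (clY H (rhU G A h ω)))
        + rhI H b P (fun h ω => F h ω * ENNReal.ofReal (-(clL H (rhU G A h ω) (rhK G A h ω)))) := by
  have hb := hc.hb.le
  have key := pn_rch_transfer G H b hc.hb P A (fun U u => U ∈ 𝒰 ∧ clGd H T u)
    (fun _ u k => ENNReal.ofReal (clL H u k))
    (fun _ u k => ENNReal.ofReal (4 * (b * (w * clY H u))) + ENNReal.ofReal (-(clL H u k)))
    (by
      intro U u β' _ hu hβ hg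
      have hO := pn_cl_bok hc (Set.subset_union_left : P ⊆ P ∪ U)
      have h1 := pn_cl_post_absorb (β' := β') (fun e => (hβ.1 e).1) hO b hb (fun e => (hβ.1 e).2) u
        (Set.subset_union_right : U ⊆ P ∪ U) (w * clY H u) (t₁ * T) (mul_nonneg hw (pn_cl_Y_nonneg H u))
        (hanc U hg.1 u hu T hT0 hg.2) hT
      rw [← pn_cl_J_const, ← pn_cl_J_add] at h1
      exact h1) F hF hF0
  refine key.trans (le_of_eq ?_)
  rw [← pn_cl_I_mul, ← pn_cl_I_add]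
  congr 1
  funext h ω
  have e : ENNReal.ofReal (4 * (b * (w * clY H (rhU G A h ω)))) = ENNReal.ofReal (4 * b * w) * ENNReal.ofReal (clY H (rhU G A h ω)) := by
    rw [← ENNReal.ofReal_mul (by positivity)]
    congr 1
    ring
  rw [e]
  ring

theorem pn_cl_dom_YA {H : HLaw G} {β' : G.E → ℝ} {Q : Set G.V} (hO : BOk G Q (clOne H) (clD H)) :
    (clS H β' Q).Dom fun z => clYA H (clV hO z) :=
  pn_cl_dom_sum _ _ fun o _ => rd_dom_pow (pn_cl_dom_linA hO _) 2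

theorem pn_cl_fin_YA (H : HLaw G) (P : Set G.V) (b : ℝ) (hc : ClCtx H P b) (C : ℝ) :
    rhI H b P (fun h _ => ENNReal.ofReal (C * clYA H h)) ≠ ∞ :=
  pn_cl_prior_fin hc _ (rd_dom_smul C (pn_cl_dom_YA _))

theorem pn_cl_S2_nonneg (H : HLaw G) (𝒰 : Set (Set G.V)) (T : ℝ) (h : G.V → ℤ) (ω : G.E → Bool) : 0 ≤ clS2 G H 𝒰 T h ω := by
  unfold clS2
  refine Finset.sum_nonneg fun x _ => ?_
  split_ifs
  · exact mul_nonneg (inv_pos.2 (pn_cl_csz_pos ω x)).le (pn_cl_Y_nonneg H _)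
  · exact le_rfl

theorem pn_cl_S2_le (H : HLaw G) (hB : ∀ o x, 0 ≤ H.B o x) (𝒰 : Set (Set G.V)) (T : ℝ) (h : G.V → ℤ) (ω : G.E → Bool) :
    clS2 G H 𝒰 T h ω ≤ (Fintype.card G.V : ℝ) * clYA H h := by
  unfold clS2
  have : ∑ _x : G.V, clYA H h = (Fintype.card G.V : ℝ) * clYA H h := by
    rw [Finset.sum_const, Finset.card_univ, nsmul_eq_mul]
  rw [← this]
  refine Finset.sum_le_sum fun x _ => ?_
  split_ifs
  · calc (csz G ω x)⁻¹ * clY H (rhU G {x} h ω) ≤ 1 * clY H (rhU G {x} h ω) :=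
          mul_le_mul_of_nonneg_right (pn_cl_csz_inv_le ω x) (pn_cl_Y_nonneg H _)
      _ = clY H (rhU G {x} h ω) := one_mul _
      _ ≤ clYA H h := pn_cl_Y_resZ_le H hB _ h
  · exact pn_cl_YA_nonneg H h

theorem pn_cl_S2_fin (H : HLaw G) (P : Set G.V) (b : ℝ) (hc : ClCtx H P b) (𝒰 : Set (Set G.V)) (T : ℝ) :
    rhI H b P (fun h ω => ENNReal.ofReal (clS2 G H 𝒰 T h ω)) ≠ ∞ :=
  ne_top_of_le_ne_top (pn_cl_fin_YA H P b hc (Fintype.card G.V : ℝ))
    (pn_cl_I_mono H b P _ _ fun h ω _ _ => ENNReal.ofReal_le_ofReal (pn_cl_S2_le H hc.hB 𝒰 T h ω))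

/-- `∑_x w_x |y(e_x)|²` -/
theorem pn_cl_S2_wt (H : HLaw G) (𝒰 : Set (Set G.V)) (T : ℝ) (h : G.V → ℤ) (ω : G.E → Bool) :
    ∑ x, clWt H 𝒰 T x h ω * ENNReal.ofReal (clY H (rhU G {x} h ω)) = ENNReal.ofReal (clS2 G H 𝒰 T h ω) := by
  unfold clS2
  rw [ENNReal.ofReal_sum_of_nonneg]
  · refine Finset.sum_congr rfl fun x _ => ?_
    rw [pn_cl_wt_mul, max_eq_left (pn_cl_Y_nonneg H _)]
  · intro x _
    split_ifs
    · exact mul_nonneg (inv_pos.2 (pn_cl_csz_pos ω x)).le (pn_cl_Y_nonneg H _)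
    · exact le_rfl

/-- the pointwise inequality of (C2) -/
theorem pn_cl_C2_point (H : HLaw G) (𝒰 : Set (Set G.V)) (T : ℝ) (h : G.V → ℤ) (ω : G.E → Bool) :
    2 * ENNReal.ofReal (clS2 G H 𝒰 T h ω)
        + 2 * ∑ x, clWt H 𝒰 T x h ω * ENNReal.ofReal (-(clL H (rhU G {x} h ω) (rhK G {x} h ω)))
      ≤ ENNReal.ofReal (clY H (resZ G (clGs G H 𝒰 T h ω) h)) + ENNReal.ofReal (clY H h)
        + 2 * ∑ x, clWt H 𝒰 T x h ω * ENNReal.ofReal (clL H (rhU G {x} h ω) (rhK G {x} h ω)) := by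
  simp only [pn_cl_wt_mul]
  have hn : ∀ (r : G.V → ℝ), ∀ x ∈ (Finset.univ : Finset G.V), 0 ≤ (if clGdx G H 𝒰 T h ω x then (csz G ω x)⁻¹ * max (r x) 0 else 0) := by
    intro r x _
    split_ifs
    · exact mul_nonneg (inv_pos.2 (pn_cl_csz_pos ω x)).le (le_max_right _ _)
    · exact le_rfl
  rw [← ENNReal.ofReal_sum_of_nonneg (hn fun x => -(clL H (rhU G {x} h ω) (rhK G {x} h ω))),
    ← ENNReal.ofReal_sum_of_nonneg (hn fun x => clL H (rhU G {x} h ω) (rhK G {x} h ω))]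
  have e2 : (2 : ℝ≥0∞) = ENNReal.ofReal 2 := by simp
  have hs1 := Finset.sum_nonneg (hn fun x => -(clL H (rhU G {x} h ω) (rhK G {x} h ω)))
  have hs2 := Finset.sum_nonneg (hn fun x => clL H (rhU G {x} h ω) (rhK G {x} h ω))
  rw [e2, ← ENNReal.ofReal_mul zero_le_two, ← ENNReal.ofReal_mul zero_le_two, ← ENNReal.ofReal_mul zero_le_two,
    ← ENNReal.ofReal_add (mul_nonneg zero_le_two (pn_cl_S2_nonneg H 𝒰 T h ω)) (mul_nonneg zero_le_two hs1),
    ← ENNReal.ofReal_add (pn_cl_Y_nonneg H _) (pn_cl_Y_nonneg H _),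
    ← ENNReal.ofReal_add (add_nonneg (pn_cl_Y_nonneg H _) (pn_cl_Y_nonneg H _)) (mul_nonneg zero_le_two hs2)]
  refine ENNReal.ofReal_le_ofReal ?_
  have h1 := pn_cl_S2_eq H 𝒰 T h ω
  have h2 : 2 * ∑ o, rhRow H (resZ G (clGs G H 𝒰 T h ω) h) o * rhRow H h o ≤ clY H (resZ G (clGs G H 𝒰 T h ω) h) + clY H h := by
    unfold clY
    rw [Finset.mul_sum, ← Finset.sum_add_distrib]
    refine Finset.sum_le_sum fun o _ => ?_
    nlinarith [sq_nonneg (rhRow H (resZ G (clGs G H 𝒰 T h ω) h) o - rhRow H h o)]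
  have h3 : ∑ x, (if clGdx G H 𝒰 T h ω x then (csz G ω x)⁻¹ * clL H (rhU G {x} h ω) (rhK G {x} h ω) else 0)
      = ∑ x, (if clGdx G H 𝒰 T h ω x then (csz G ω x)⁻¹ * max (clL H (rhU G {x} h ω) (rhK G {x} h ω)) 0 else 0)
        - ∑ x, (if clGdx G H 𝒰 T h ω x then (csz G ω x)⁻¹ * max (-(clL H (rhU G {x} h ω) (rhK G {x} h ω))) 0 else 0) := by
    rw [← Finset.sum_sub_distrib]
    refine Finset.sum_congr rfl fun x _ => ?_
    split_ifs
    · rw [← mul_sub]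
      congr 1
      rcases le_total 0 (clL H (rhU G {x} h ω) (rhK G {x} h ω)) with h0 | h0
      · rw [max_eq_left h0, max_eq_right (by linarith), sub_zero]
      · rw [max_eq_right h0, max_eq_left (by linarith)]
        ring
    · simp
  rw [h3] at h1
  linarith

/-- the exposed part of the good clusters -/
theorem pn_cl_C2_fg (H : HLaw G) (P : Set G.V) (b : ℝ) (hc : ClCtx H P b) (A' : Set G.V) (w t₁ T : ℝ) (hw : 0 ≤ w) (hT0 : 0 ≤ T)
    (hbw : 16 * b * w ≤ 1) (hT : 2 * (t₁ * T) ≤ 1) (hanc : AncFl G H (clFar G A') w t₁) :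
    rhI H b P (fun h ω => ENNReal.ofReal (clY H (resZ G (clGs G H (clFar G A') T h ω) h)))
      ≤ 2 * rhI H b P (fun h _ => ENNReal.ofReal (clY H h))
        + rhI H b P (fun h _ => rhInd (clBad H T h) * ENNReal.ofReal (clYA H h)) := by
  set F : (G.V → ℤ) → (G.E → Bool) → ℝ≥0∞ := fun h ω => rhInd (vis G ω A' ∈ clFar G A' ∧ clGd H T (rhU G A' h ω)) with hFdef
  have hF : ExpMeas G A' F := pn_rch_expMeas_of G A' fun U u => rhInd (U ∈ clFar G A' ∧ clGd H T u)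
  have h1 := pn_cl_absorb H P b hc (clFar G A') w t₁ T hw hT0 hbw hT hanc A' F hF (fun h ω hn => by simp [hFdef, rhInd, hn])
  have h3 : rhI H b P (fun h ω => F h ω * ENNReal.ofReal (clY H h)) ≤ rhI H b P (fun h _ => ENNReal.ofReal (clY H h)) :=
    pn_cl_I_mono H b P _ _ fun h ω _ _ => by
      calc F h ω * ENNReal.ofReal (clY H h) ≤ 1 * ENNReal.ofReal (clY H h) := mul_le_mul_left (pn_cl_ind_le_one _) _
        _ = _ := one_mul _
  have h2 : rhI H b P (fun h ω => ENNReal.ofReal (clY H (resZ G (clGs G H (clFar G A') T h ω) h)))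
      ≤ rhI H b P (fun h ω => F h ω * ENNReal.ofReal (clY H (rhU G A' h ω)) + rhInd (clBad H T h) * ENNReal.ofReal (clYA H h)) := by
    refine pn_cl_I_mono H b P _ _ fun h ω _ _ => ?_
    by_cases hb : clBad H T h
    · refine le_add_left ?_
      have : rhInd (clBad H T h) = 1 := by simp [rhInd, hb]
      rw [this, one_mul]
      exact ENNReal.ofReal_le_ofReal (pn_cl_Y_resZ_le H hc.hB _ h)
    · refine le_add_right ?_
      have hg : clGd H T (rhU G A' h ω) := by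
        by_contra hg
        exact hb (pn_cl_bad_of_not_gd H hc.hB T _ h hg)
      have hF1 : F h ω = 1 := by simp [hFdef, rhInd, pn_cl_far_vis A' A' subset_rfl ω, hg]
      rw [hF1, one_mul, pn_cl_gs_eq H hc.hB A' T h ω hb]
      exact le_rfl
  refine h2.trans ?_
  rw [pn_cl_I_add]
  exact add_le_add (h1.trans (mul_le_mul_right h3 _)) le_rfl

/-- **(C2)**: `E ∑_{C far, Gd} |y(e_C)|² ≤ 2 E|y(h)|² + E[Bad; |y(|h|)|²]` -/
theorem pn_cl_clusters (H : HLaw G) (P : Set G.V) (b : ℝ) (hc : ClCtx H P b) (A' : Set G.V) (w t₁ T : ℝ) (hw : 0 ≤ w) (hT0 : 0 ≤ T)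
    (hbw : 16 * b * w ≤ 1) (hT : 2 * (t₁ * T) ≤ 1) (hanc : AncFl G H (clFar G A') w t₁) :
    rhI H b P (fun h ω => ENNReal.ofReal (clS2 G H (clFar G A') T h ω))
      ≤ 2 * rhI H b P (fun h _ => ENNReal.ofReal (clY H h))
        + rhI H b P (fun h _ => rhInd (clBad H T h) * ENNReal.ofReal (clYA H h)) := by
  set 𝒰 := clFar G A' with h𝒰
  set X := rhI H b P (fun h ω => ENNReal.ofReal (clS2 G H 𝒰 T h ω)) with hX
  set th := rhI H b P (fun h _ => ENNReal.ofReal (clY H h)) with hth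
  set bad := rhI H b P (fun h _ => rhInd (clBad H T h) * ENNReal.ofReal (clYA H h)) with hbad
  set E := rhI H b P (fun h ω => ENNReal.ofReal (clY H (resZ G (clGs G H 𝒰 T h ω) h))) with hE
  set Nn : G.V → ℝ≥0∞ := fun x => rhI H b P (fun h ω => clWt H 𝒰 T x h ω * ENNReal.ofReal (-(clL H (rhU G {x} h ω) (rhK G {x} h ω)))) with hNn
  set Pp : G.V → ℝ≥0∞ := fun x => rhI H b P (fun h ω => clWt H 𝒰 T x h ω * ENNReal.ofReal (clL H (rhU G {x} h ω) (rhK G {x} h ω))) with hPp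
  set c := ENNReal.ofReal (4 * b * w) with hcdef
  have hXfin : X ≠ ∞ := pn_cl_S2_fin H P b hc 𝒰 T
  have hNfin : ∑ x, Nn x ≠ ∞ := by
    refine ENNReal.sum_ne_top.2 fun x _ => ?_
    refine ne_top_of_le_ne_top (pn_cl_fin_YA H P b hc 1) (pn_cl_I_mono H b P _ _ fun h ω _ _ => ?_)
    calc clWt H 𝒰 T x h ω * ENNReal.ofReal (-(clL H (rhU G {x} h ω) (rhK G {x} h ω)))
        ≤ 1 * ENNReal.ofReal (-(clL H (rhU G {x} h ω) (rhK G {x} h ω))) := mul_le_mul_left (pn_cl_wt_le_one H 𝒰 T x h ω) _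
      _ = ENNReal.ofReal (-(clL H (rhU G {x} h ω) (rhK G {x} h ω))) := one_mul _
      _ ≤ ENNReal.ofReal (1 * clYA H h) := by
          refine ENNReal.ofReal_le_ofReal ?_
          rw [one_mul]
          exact (neg_le_abs _).trans (pn_cl_abs_L_resZ H hc.hB _ _ h)
  -- the integrated pointwise inequality
  have h1 : 2 * X + 2 * ∑ x, Nn x ≤ E + th + 2 * ∑ x, Pp x := by
    have := pn_cl_I_mono H b P _ _ fun h ω (_ : ∀ v ∈ P, h v = 0) (_ : fkW G (fun _ => b) h ω ≠ 0) => pn_cl_C2_point H 𝒰 T h ω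
    rw [pn_cl_I_add, pn_cl_I_add, pn_cl_I_add, pn_cl_I_mul, pn_cl_I_mul, pn_cl_I_mul, pn_cl_I_sum, pn_cl_I_sum] at this
    exact this
  -- (T4) for every cluster
  have h2 : ∀ x, Pp x ≤ c * rhI H b P (fun h ω => clWt H 𝒰 T x h ω * ENNReal.ofReal (clY H (rhU G {x} h ω))) + Nn x := fun x =>
    pn_cl_T4_transfer H P b hc 𝒰 w t₁ T hw hT0 hT hanc {x} (clWt H 𝒰 T x) (pn_cl_wt_meas H 𝒰 T x) (pn_cl_wt_zero H 𝒰 T x)
  have h3 : ∑ x, Pp x ≤ c * X + ∑ x, Nn x := by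
    refine (Finset.sum_le_sum fun x _ => h2 x).trans (le_of_eq ?_)
    rw [Finset.sum_add_distrib, ← Finset.mul_sum, ← pn_cl_I_sum]
    congr 3
    funext h ω
    exact pn_cl_S2_wt H 𝒰 T h ω
  have h4 : E ≤ 2 * th + bad := pn_cl_C2_fg H P b hc A' w t₁ T hw hT0 hbw hT hanc
  -- arithmetic
  have h5 : 2 * X + 2 * ∑ x, Nn x ≤ (2 * th + bad + th + 2 * (c * X)) + 2 * ∑ x, Nn x := by
    calc 2 * X + 2 * ∑ x, Nn x ≤ E + th + 2 * ∑ x, Pp x := h1
      _ ≤ (2 * th + bad) + th + 2 * (c * X + ∑ x, Nn x) := add_le_add (add_le_add h4 le_rfl) (mul_le_mul_right h3 _)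
      _ = _ := by ring
  have h6 : 2 * X ≤ 2 * th + bad + th + 2 * (c * X) :=
    ENNReal.le_of_add_le_add_right (ENNReal.mul_ne_top (by simp) hNfin) h5
  have hc4 : 4 * c ≤ 1 := by
    have e4 : (4 : ℝ≥0∞) = ENNReal.ofReal 4 := by simp
    rw [hcdef, e4, ← ENNReal.ofReal_mul (by norm_num), ← ENNReal.ofReal_one]
    refine ENNReal.ofReal_le_ofReal ?_
    linarith
  have h7 : 3 * X + X ≤ (6 * th + 2 * bad) + X := by
    calc 3 * X + X = 2 * (2 * X) := by ring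
      _ ≤ 2 * (2 * th + bad + th + 2 * (c * X)) := mul_le_mul_right h6 _
      _ = (6 * th + 2 * bad) + (4 * c) * X := by ring
      _ ≤ (6 * th + 2 * bad) + 1 * X := add_le_add le_rfl (mul_le_mul_left hc4 _)
      _ = _ := by rw [one_mul]
  have h8 : 3 * X ≤ 6 * th + 2 * bad := ENNReal.le_of_add_le_add_right hXfin h7
  have h9 : 3 * X ≤ 3 * (2 * th + bad) := by
    refine h8.trans ?_
    have : 3 * (2 * th + bad) = 6 * th + 2 * bad + bad := by ring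
    rw [this]
    exact le_self_add
  exact (ENNReal.mul_le_mul_iff_right (by simp) (by simp)).1 h9

/-! ## (CS), (C4), (C3) -/

theorem pn_cl_mass_conn (ω : G.E → Bool) (f : G.V → ℝ) (h : G.V → ℤ) {x y : G.V} (hxy : conn G ω x y) :
    mass G ω f h x = mass G ω f h y := by
  unfold mass
  refine Finset.sum_congr rfl fun z _ => ?_
  simp only [pn_cl_conn_iff ω hxy z]

/-- a size-biased cluster sum as a plain cluster sum -/
theorem pn_cl_biased (ω : G.E → Bool) (f : G.V → ℝ) (h : G.V → ℤ) (J : G.V → ℝ) (hJ : ∀ x y, conn G ω x y → J x = J y) :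
    ∑ x, f x * |(h x : ℝ)| * J x = ∑ x, (csz G ω x)⁻¹ * (mass G ω f h x * J x) := by
  rw [pn_cl_site_cluster ω fun x => f x * |(h x : ℝ)| * J x]
  refine Finset.sum_congr rfl fun x _ => ?_
  congr 1
  unfold mass
  rw [Finset.sum_mul]
  refine Finset.sum_congr rfl fun y _ => ?_
  by_cases hy : conn G ω x y
  · rw [if_pos hy, if_pos hy, hJ x y hy]
  · rw [if_neg hy, if_neg hy, zero_mul]

/-- **(CS)** pointwise Cauchy-Schwarz over clusters in site form, linearised: `∑_x f_x |h_x| J(C_x) ≤ s ∑_C M_C(f)² + (4s)⁻¹ ∑_C J(C)²` -/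
theorem pn_cl_cs (β : G.E → ℝ) (h : G.V → ℤ) (ω : G.E → Bool) (hW : fkW G β h ω ≠ 0) (f : G.V → ℝ)
    (J : G.V → ℝ) (hJ : ∀ x y, conn G ω x y → J x = J y) (s : ℝ) (hs : 0 < s) :
    ∑ x, f x * |(h x : ℝ)| * J x ≤ s * cq G ω f f h + (4 * s)⁻¹ * ∑ x, (csz G ω x)⁻¹ * J x ^ 2 := by
  rw [pn_fk_cq_mass G β h ω hW f f, pn_cl_biased ω f h J hJ,
    pn_cl_biased ω f h (mass G ω f h) fun x y hxy => pn_cl_mass_conn ω f h hxy, Finset.mul_sum, Finset.mul_sum,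
    ← Finset.sum_add_distrib]
  refine Finset.sum_le_sum fun x _ => ?_
  have hc : 0 ≤ (csz G ω x)⁻¹ := (inv_pos.2 (pn_cl_csz_pos ω x)).le
  have key : mass G ω f h x * J x ≤ s * (mass G ω f h x * mass G ω f h x) + (4 * s)⁻¹ * J x ^ 2 := by
    have h1 : 0 ≤ (2 * s * mass G ω f h x - J x) ^ 2 := sq_nonneg _
    have h2 : (4 * s)⁻¹ * J x ^ 2 = J x ^ 2 / (4 * s) := by rw [inv_mul_eq_div]
    rw [h2, ← sub_le_iff_le_add', le_div_iff₀ (by positivity)]
    nlinarith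
  calc (csz G ω x)⁻¹ * (mass G ω f h x * J x)
      ≤ (csz G ω x)⁻¹ * (s * (mass G ω f h x * mass G ω f h x) + (4 * s)⁻¹ * J x ^ 2) := mul_le_mul_of_nonneg_left key hc
    _ = _ := by ring

/-- (CS) integrated -/
theorem pn_cl_cs_int (H : HLaw G) (P : Set G.V) (b : ℝ) (f : G.V → ℝ)
    (J : (G.V → ℤ) → (G.E → Bool) → G.V → ℝ) (hJ : ∀ h ω x y, conn G ω x y → J h ω x = J h ω y) (s : ℝ) (hs : 0 < s) :
    rhI H b P (fun h ω => ENNReal.ofReal (∑ x, f x * |(h x : ℝ)| * J h ω x))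
      ≤ ENNReal.ofReal s * rhI H b P (fun h ω => ENNReal.ofReal (cq G ω f f h))
        + ENNReal.ofReal (4 * s)⁻¹ * rhI H b P (fun h ω => ENNReal.ofReal (∑ x, (csz G ω x)⁻¹ * J h ω x ^ 2)) := by
  rw [← pn_cl_I_mul, ← pn_cl_I_mul, ← pn_cl_I_add]
  refine pn_cl_I_mono H b P _ _ fun h ω _ hW => ?_
  have h0 : 0 ≤ ∑ x, (csz G ω x)⁻¹ * J h ω x ^ 2 :=
    Finset.sum_nonneg fun x _ => mul_nonneg (inv_pos.2 (pn_cl_csz_pos ω x)).le (sq_nonneg _)
  rw [← ENNReal.ofReal_mul hs.le, ← ENNReal.ofReal_mul (by positivity),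
    ← ENNReal.ofReal_add (mul_nonneg hs.le (pn_cq_nonneg G ω f h)) (mul_nonneg (by positivity) h0)]
  exact ENNReal.ofReal_le_ofReal (pn_cl_cs _ h ω hW f (J h ω) (hJ h ω) s hs)

theorem pn_cl_rhU_self (h : G.V → ℤ) (ω : G.E → Bool) (x : G.V) : rhU G {x} h ω x = h x := by
  unfold rhU resZ
  rw [if_pos (pn_vis_sub G ω {x} rfl)]

theorem pn_cl_Y_le_card (H : HLaw G) (T : ℝ) (u : G.V → ℤ) (hg : clGd H T u) : clY H u ≤ Fintype.card H.O * T ^ 2 := by
  unfold clY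
  have : ∑ _o : H.O, T ^ 2 = Fintype.card H.O * T ^ 2 := by
    rw [Finset.sum_const, Finset.card_univ, nsmul_eq_mul]
  rw [← this]
  refine Finset.sum_le_sum fun o _ => ?_
  rw [← sq_abs]
  exact pow_le_pow_left₀ (abs_nonneg _) (hg o) 2

/-- the indicator of a good cluster is measurable at the completion of its exploration -/
theorem pn_cl_gdx_meas (H : HLaw G) (𝒰 : Set (Set G.V)) (T : ℝ) (x : G.V) : ExpMeas G {x} fun h ω => rhInd (clGdx G H 𝒰 T h ω x) :=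
  pn_rch_expMeas_of G {x} fun U u => rhInd (U ∈ 𝒰 ∧ clGd H T u)

/-- **(T5) through the exploration of one cluster** -/
theorem pn_cl_T5_transfer (H : HLaw G) (P : Set G.V) (b : ℝ) (hc : ClCtx H P b) (𝒰 : Set (Set G.V)) (w t₁ T : ℝ) (hw : 0 ≤ w) (hT0 : 0 ≤ T)
    (hT : 2 * (t₁ * T) ≤ 1) (hanc : AncFl G H 𝒰 w t₁) (g : G.V → ℝ)
    (Rg tg σ c2 Θ : ℝ) (hrep : ∀ U ∈ 𝒰, clRep H (P ∪ U) g Rg tg σ) (htg : 0 ≤ tg) (hc2 : 0 < c2) (hcost : b * Rg + σ / 2 ≤ c2)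
    (hΘ0 : 0 ≤ Θ) (hΘ : b * w * (Fintype.card H.O * T ^ 2) ≤ Θ ^ 2 * c2) (hsup : t₁ * T + Θ * tg ≤ 1) (x : G.V) (φ : ℝ) (hφ : 0 ≤ φ) :
    rhI H b P (fun h ω => rhInd (clGdx G H 𝒰 T h ω x) * ENNReal.ofReal (-(φ * (h x : ℝ) * lin g (rhK G {x} h ω))))
      ≤ rhI H b P (fun h ω => rhInd (clGdx G H 𝒰 T h ω x)
            * ENNReal.ofReal (φ * |(h x : ℝ)| * (4 * Real.sqrt (b * w * clY H (rhU G {x} h ω)) * Real.sqrt c2)))
        + rhI H b P (fun h ω => rhInd (clGdx G H 𝒰 T h ω x) * ENNReal.ofReal (φ * (h x : ℝ) * lin g (rhK G {x} h ω))) := by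
  have hb := hc.hb.le
  have hc0 : 0 < Real.sqrt c2 := Real.sqrt_pos.2 hc2
  have key := pn_rch_transfer G H b hc.hb P {x} (fun U u => U ∈ 𝒰 ∧ clGd H T u)
    (fun _ u k => ENNReal.ofReal (-(φ * (u x : ℝ)) * lin g k))
    (fun _ u k => ENNReal.ofReal (|-(φ * (u x : ℝ))| * (4 * Real.sqrt (b * w * clY H u) * Real.sqrt c2))
      + ENNReal.ofReal (-(-(φ * (u x : ℝ)) * lin g k)))
    (by
      intro U u β' _ hu hβ hg
      have hO := pn_cl_bok hc (Set.subset_union_left : P ⊆ P ∪ U)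
      have hY := pn_cl_Y_nonneg H u
      have hε2 : b * w * clY H u ≤ Θ ^ 2 * c2 :=
        (mul_le_mul_of_nonneg_left (pn_cl_Y_le_card H T u hg.2) (mul_nonneg hb hw)).trans hΘ
      have hεΘ : Real.sqrt (b * w * clY H u) ≤ Θ * Real.sqrt c2 := by
        have := Real.sqrt_le_sqrt hε2
        rwa [Real.sqrt_mul (sq_nonneg Θ), Real.sqrt_sq hΘ0] at this
      have h1 := pn_cl_post_mean (β' := β') (fun e => (hβ.1 e).1) hO b hb (fun e => (hβ.1 e).2) u
        (Set.subset_union_right : U ⊆ P ∪ U) (subset_refl (P ∪ U)) (w * clY H u) (t₁ * T) (hanc U hg.1 u hu T hT0 hg.2)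
        g Rg tg σ (hrep U hg.1) (Real.sqrt (b * w * clY H u)) (Real.sqrt c2) (Real.sqrt_nonneg _) hc0
        (by rw [Real.sq_sqrt (by positivity)]; exact le_of_eq (by ring))
        (by rw [Real.sq_sqrt hc2.le]; exact hcost) (by linarith)
        (by
          have h2 : Real.sqrt (b * w * clY H u) / Real.sqrt c2 ≤ Θ := (div_le_iff₀ hc0).2 hεΘ
          have h3 := mul_le_mul_of_nonneg_right h2 htg
          linarith) (-(φ * (u x : ℝ)))
      rw [← pn_cl_J_const, ← pn_cl_J_add] at h1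
      exact h1) (fun h ω => rhInd (clGdx G H 𝒰 T h ω x)) (pn_cl_gdx_meas H 𝒰 T x)
    (fun h ω hn => by
      have : ¬ clGdx G H 𝒰 T h ω x := hn
      simp [rhInd, this])
  rw [← pn_cl_I_add]
  refine le_trans (le_of_eq ?_) (key.trans (le_of_eq ?_))
  · congr 1
    funext h ω
    rw [pn_cl_rhU_self]
    congr 2
    ring
  · congr 1
    funext h ω
    rw [pn_cl_rhU_self, abs_neg, abs_mul, abs_of_nonneg hφ, mul_add]
    congr 3
    ring

theorem pn_cl_cq_nonneg2 (β : G.E → ℝ) (h : G.V → ℤ) (ω : G.E → Bool) (hW : fkW G β h ω ≠ 0) (f g : G.V → ℝ) (hf : ∀ x, 0 ≤ f x)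
    (hg : ∀ x, 0 ≤ g x) : 0 ≤ cq G ω f g h := by
  rw [pn_fk_cq_mass G β h ω hW f g]
  refine Finset.sum_nonneg fun x _ => mul_nonneg (mul_nonneg (hf x) (abs_nonneg _)) ?_
  unfold mass
  refine Finset.sum_nonneg fun y _ => ?_
  split_ifs
  · exact mul_nonneg (hg y) (abs_nonneg _)
  · exact le_rfl

theorem pn_cl_max_sub (p : ℝ) : max p 0 - max (-p) 0 = p := by
  rcases le_total 0 p with h0 | h0
  · rw [max_eq_left h0, max_eq_right (by linarith), sub_zero]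
  · rw [max_eq_right h0, max_eq_left (by linarith)]
    ring

/-- the pointwise identity of (C4), as an inequality in `ℝ≥0∞` -/
theorem pn_cl_C4_point (β : G.E → ℝ) (h : G.V → ℤ) (ω : G.E → Bool) (hW : fkW G β h ω ≠ 0) (f g : G.V → ℝ) (hf : ∀ x, 0 ≤ f x)
    (hg : ∀ x, 0 ≤ g x) :
    ENNReal.ofReal (cq G ω f g h) + ENNReal.ofReal (-(lin f h * lin g h)) + ∑ x, ENNReal.ofReal (f x * (h x : ℝ) * lin g (rhK G {x} h ω))
      ≤ ENNReal.ofReal (lin f h * lin g h) + ∑ x, ENNReal.ofReal (-(f x * (h x : ℝ) * lin g (rhK G {x} h ω))) := by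
  have e : ∀ r : ℝ, ENNReal.ofReal r = ENNReal.ofReal (max r 0) := pn_cl_ofReal_max
  rw [e (-(lin f h * lin g h)), e (lin f h * lin g h)]
  simp only [e (_ * lin g (rhK G _ h ω)), e (-(_ * lin g (rhK G _ h ω)))]
  rw [← ENNReal.ofReal_sum_of_nonneg fun _ _ => le_max_right _ _, ← ENNReal.ofReal_sum_of_nonneg fun _ _ => le_max_right _ _,
    ← ENNReal.ofReal_add (pn_cl_cq_nonneg2 β h ω hW f g hf hg) (le_max_right _ _),
    ← ENNReal.ofReal_add (add_nonneg (pn_cl_cq_nonneg2 β h ω hW f g hf hg) (le_max_right _ _))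
      (Finset.sum_nonneg fun _ _ => le_max_right _ _),
    ← ENNReal.ofReal_add (le_max_right _ _) (Finset.sum_nonneg fun _ _ => le_max_right _ _)]
  refine ENNReal.ofReal_le_ofReal (le_of_eq ?_)
  have h1 := pn_cl_prod_site ω f g h
  have h2 := pn_cl_max_sub (lin f h * lin g h)
  have h3 : ∑ x, f x * (h x : ℝ) * lin g (rhK G {x} h ω)
      = ∑ x, max (f x * (h x : ℝ) * lin g (rhK G {x} h ω)) 0 - ∑ x, max (-(f x * (h x : ℝ) * lin g (rhK G {x} h ω))) 0 := by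
    rw [← Finset.sum_sub_distrib]
    exact Finset.sum_congr rfl fun x _ => (pn_cl_max_sub _).symm
  linarith

theorem pn_cl_term_le_linA (f : G.V → ℝ) (hf : ∀ x, 0 ≤ f x) (h : G.V → ℤ) (x : G.V) : f x * |(h x : ℝ)| ≤ linA f h :=
  Finset.single_le_sum (f := fun y => f y * |(h y : ℝ)|) (fun y _ => mul_nonneg (hf y) (abs_nonneg _)) (Finset.mem_univ x)

theorem pn_cl_abs_a (f g : G.V → ℝ) (hf : ∀ x, 0 ≤ f x) (hg : ∀ x, 0 ≤ g x) (h : G.V → ℤ) (ω : G.E → Bool) (x : G.V) :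
    |f x * (h x : ℝ) * lin g (rhK G {x} h ω)| ≤ f x * |(h x : ℝ)| * linA g h := by
  rw [abs_mul, abs_mul, abs_of_nonneg (hf x)]
  exact mul_le_mul_of_nonneg_left (pn_cl_abs_lin_resZ g hg _ h) (mul_nonneg (hf x) (abs_nonneg _))

/-- **(C4)**: `E cq f g ≤ E h_f h_g + s E cq f f + (4 b w c2/s) E ∑_{C far, Gd}|y(e_C)|² + E[Bad; ⟨f,|h|⟩⟨g,|h|⟩]`, `f` carried by the far set, `c2 ≥ b R_g + σ_g/2` the cost of `g`,
`Θ` = a bound of the optimal Jensen parameter `ε_C/c = √(b w |y(e_C)|²/c2)` in the regime. -/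
theorem pn_cl_cross (H : HLaw G) (P : Set G.V) (b : ℝ) (hc : ClCtx H P b) (A' : Set G.V) (w t₁ T : ℝ) (hw : 0 ≤ w) (hT0 : 0 ≤ T)
    (hT : 2 * (t₁ * T) ≤ 1) (hanc : AncFl G H (clFar G A') w t₁)
    (f g : G.V → ℝ) (hf : ∀ x, 0 ≤ f x) (hg : ∀ x, 0 ≤ g x) (hfA : ∀ x, x ∉ A' → f x = 0)
    (Rg tg σ c2 Θ : ℝ) (hrep : ∀ U ∈ clFar G A', clRep H (P ∪ U) g Rg tg σ) (htg : 0 ≤ tg) (hc2 : 0 < c2) (hcost : b * Rg + σ / 2 ≤ c2)
    (hΘ0 : 0 ≤ Θ) (hΘ : b * w * (Fintype.card H.O * T ^ 2) ≤ Θ ^ 2 * c2) (hsup : t₁ * T + Θ * tg ≤ 1) (s : ℝ) (hs : 0 < s) :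
    rhI H b P (fun h ω => ENNReal.ofReal (cq G ω f g h)) + rhI H b P (fun h _ => ENNReal.ofReal (-(lin f h * lin g h)))
      ≤ rhI H b P (fun h _ => ENNReal.ofReal (lin f h * lin g h))
        + ENNReal.ofReal s * rhI H b P (fun h ω => ENNReal.ofReal (cq G ω f f h))
        + ENNReal.ofReal (4 * b * w * c2 / s) * rhI H b P (fun h ω => ENNReal.ofReal (clS2 G H (clFar G A') T h ω))
        + rhI H b P (fun h _ => rhInd (clBad H T h) * ENNReal.ofReal (linA f h * linA g h)) := by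
  have hb := hc.hb.le
  set 𝒰 := clFar G A' with h𝒰
  set Qq := rhI H b P (fun h ω => ENNReal.ofReal (cq G ω f g h)) with hQq
  set Mn := rhI H b P (fun h _ => ENNReal.ofReal (-(lin f h * lin g h))) with hMn
  set Mp := rhI H b P (fun h _ => ENNReal.ofReal (lin f h * lin g h)) with hMp
  set BB := rhI H b P (fun h _ => rhInd (clBad H T h) * ENNReal.ofReal (linA f h * linA g h)) with hBB
  set Ap : G.V → ℝ≥0∞ := fun x => rhI H b P (fun h ω => ENNReal.ofReal (f x * (h x : ℝ) * lin g (rhK G {x} h ω))) with hAp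
  set An : G.V → ℝ≥0∞ := fun x => rhI H b P (fun h ω => ENNReal.ofReal (-(f x * (h x : ℝ) * lin g (rhK G {x} h ω)))) with hAn
  set J : (G.V → ℤ) → (G.E → Bool) → G.V → ℝ := fun h ω x =>
    if clGdx G H 𝒰 T h ω x then 4 * Real.sqrt (b * w * clY H (rhU G {x} h ω)) * Real.sqrt c2 else 0 with hJ
  -- finiteness
  have hApfin : ∑ x, Ap x ≠ ∞ := by
    refine ENNReal.sum_ne_top.2 fun x _ => ?_
    refine ne_top_of_le_ne_top (pn_cl_fin2 H P b hc f g) (pn_cl_I_mono H b P _ _ fun h ω _ _ => ENNReal.ofReal_le_ofReal ?_)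
    exact (le_abs_self _).trans ((pn_cl_abs_a f g hf hg h ω x).trans
      (mul_le_mul_of_nonneg_right (pn_cl_term_le_linA f hf h x) (pn_cl_linA_nonneg g hg h)))
  -- the integrated identity
  have h1 : Qq + Mn + ∑ x, Ap x ≤ Mp + ∑ x, An x := by
    have := pn_cl_I_mono H b P _ _ fun h ω (_ : ∀ v ∈ P, h v = 0) (hW : fkW G (fun _ => b) h ω ≠ 0) =>
      pn_cl_C4_point _ h ω hW f g hf hg
    rw [pn_cl_I_add, pn_cl_I_add, pn_cl_I_add, pn_cl_I_sum, pn_cl_I_sum] at this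
    exact this
  -- one cluster
  have h2 : ∀ x, An x ≤ rhI H b P (fun h ω => ENNReal.ofReal (f x * |(h x : ℝ)| * J h ω x)) + Ap x
      + rhI H b P (fun h _ => rhInd (clBad H T h) * ENNReal.ofReal (f x * |(h x : ℝ)| * linA g h)) := by
    intro x
    have h3 := pn_cl_T5_transfer H P b hc 𝒰 w t₁ T hw hT0 hT hanc g Rg tg σ c2 Θ hrep htg hc2 hcost hΘ0 hΘ hsup x (f x) (hf x)
    have h4 : An x ≤ rhI H b P (fun h ω => rhInd (clGdx G H 𝒰 T h ω x) * ENNReal.ofReal (-(f x * (h x : ℝ) * lin g (rhK G {x} h ω))))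
        + rhI H b P (fun h _ => rhInd (clBad H T h) * ENNReal.ofReal (f x * |(h x : ℝ)| * linA g h)) := by
      rw [← pn_cl_I_add]
      refine pn_cl_I_mono H b P _ _ fun h ω _ _ => ?_
      by_cases hgx : clGdx G H 𝒰 T h ω x
      · refine le_add_right ?_
        simp [rhInd, hgx]
      · by_cases hfx : f x = 0
        · simp [hfx]
        · have hxA : x ∈ A' := by
            by_contra hx
            exact hfx (hfA x hx)
          have hfar : vis G ω {x} ∈ 𝒰 := (pn_cl_far_clu A' ω x).2 ⟨x, pn_conn_refl G ω x, hxA⟩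
          have hbad : clBad H T h := by
            refine pn_cl_bad_of_not_gd H hc.hB T (vis G ω {x}) h fun hgd => hgx ⟨hfar, hgd⟩
          refine le_add_left ?_
          have : rhInd (clBad H T h) = 1 := by simp [rhInd, hbad]
          rw [this, one_mul]
          exact ENNReal.ofReal_le_ofReal ((neg_le_abs _).trans (pn_cl_abs_a f g hf hg h ω x))
    have h5 : rhI H b P (fun h ω => rhInd (clGdx G H 𝒰 T h ω x)
            * ENNReal.ofReal (f x * |(h x : ℝ)| * (4 * Real.sqrt (b * w * clY H (rhU G {x} h ω)) * Real.sqrt c2)))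
        = rhI H b P (fun h ω => ENNReal.ofReal (f x * |(h x : ℝ)| * J h ω x)) := by
      congr 1
      funext h ω
      by_cases hgx : clGdx G H 𝒰 T h ω x
      · simp [rhInd, hgx, hJ]
      · simp [rhInd, hgx, hJ]
    have h6 : rhI H b P (fun h ω => rhInd (clGdx G H 𝒰 T h ω x) * ENNReal.ofReal (f x * (h x : ℝ) * lin g (rhK G {x} h ω))) ≤ Ap x :=
      pn_cl_I_mono H b P _ _ fun h ω _ _ => by
        calc rhInd (clGdx G H 𝒰 T h ω x) * ENNReal.ofReal (f x * (h x : ℝ) * lin g (rhK G {x} h ω))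
            ≤ 1 * ENNReal.ofReal (f x * (h x : ℝ) * lin g (rhK G {x} h ω)) := mul_le_mul_left (pn_cl_ind_le_one _) _
          _ = _ := one_mul _
    rw [h5] at h3
    exact h4.trans (add_le_add (h3.trans (add_le_add le_rfl h6)) le_rfl)
  -- the sums
  have hJnn : ∀ h ω x, 0 ≤ J h ω x := by
    intro h ω x
    simp only [hJ]
    split_ifs
    · positivity
    · exact le_rfl
  have h7 : ∑ x, rhI H b P (fun h ω => ENNReal.ofReal (f x * |(h x : ℝ)| * J h ω x))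
      = rhI H b P (fun h ω => ENNReal.ofReal (∑ x, f x * |(h x : ℝ)| * J h ω x)) := by
    rw [← pn_cl_I_sum]
    congr 1
    funext h ω
    rw [ENNReal.ofReal_sum_of_nonneg fun x _ => mul_nonneg (mul_nonneg (hf x) (abs_nonneg _)) (hJnn h ω x)]
  have h8 : ∑ x, rhI H b P (fun h _ => rhInd (clBad H T h) * ENNReal.ofReal (f x * |(h x : ℝ)| * linA g h)) = BB := by
    rw [← pn_cl_I_sum]
    congr 1
    funext h ω
    rw [← Finset.mul_sum, ← ENNReal.ofReal_sum_of_nonneg fun x _ =>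
      mul_nonneg (mul_nonneg (hf x) (abs_nonneg _)) (pn_cl_linA_nonneg g hg h), ← Finset.sum_mul]
    rfl
  have h9 := pn_cl_cs_int H P b f J (fun h ω x y hxy => by
    simp only [hJ, pn_cl_rhU_conn h ω hxy, pn_cl_gdx_conn H 𝒰 T h ω hxy]) s hs
  have h10 : ENNReal.ofReal (4 * s)⁻¹ * rhI H b P (fun h ω => ENNReal.ofReal (∑ x, (csz G ω x)⁻¹ * J h ω x ^ 2))
      = ENNReal.ofReal (4 * b * w * c2 / s) * rhI H b P (fun h ω => ENNReal.ofReal (clS2 G H 𝒰 T h ω)) := by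
    rw [← pn_cl_I_mul, ← pn_cl_I_mul]
    congr 1
    funext h ω
    rw [← ENNReal.ofReal_mul (by positivity), ← ENNReal.ofReal_mul (by positivity)]
    congr 1
    unfold clS2
    rw [Finset.mul_sum, Finset.mul_sum]
    refine Finset.sum_congr rfl fun x _ => ?_
    simp only [hJ]
    split_ifs
    · rw [mul_pow, mul_pow, Real.sq_sqrt (mul_nonneg (mul_nonneg hb hw) (pn_cl_Y_nonneg H _)), Real.sq_sqrt hc2.le]
      field_simp
    · simp
  rw [h10] at h9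
  -- conclusion
  have h11 : Qq + Mn + ∑ x, Ap x ≤ (Mp + ENNReal.ofReal s * rhI H b P (fun h ω => ENNReal.ofReal (cq G ω f f h))
        + ENNReal.ofReal (4 * b * w * c2 / s) * rhI H b P (fun h ω => ENNReal.ofReal (clS2 G H 𝒰 T h ω)) + BB) + ∑ x, Ap x := by
    calc Qq + Mn + ∑ x, Ap x ≤ Mp + ∑ x, An x := h1
      _ ≤ Mp + ∑ x, (rhI H b P (fun h ω => ENNReal.ofReal (f x * |(h x : ℝ)| * J h ω x)) + Ap x
            + rhI H b P (fun h _ => rhInd (clBad H T h) * ENNReal.ofReal (f x * |(h x : ℝ)| * linA g h))) :=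
          add_le_add le_rfl (Finset.sum_le_sum fun x _ => h2 x)
      _ = Mp + (rhI H b P (fun h ω => ENNReal.ofReal (∑ x, f x * |(h x : ℝ)| * J h ω x)) + ∑ x, Ap x + BB) := by
          rw [Finset.sum_add_distrib, Finset.sum_add_distrib, h7, h8]
      _ ≤ Mp + ((ENNReal.ofReal s * rhI H b P (fun h ω => ENNReal.ofReal (cq G ω f f h))
            + ENNReal.ofReal (4 * b * w * c2 / s) * rhI H b P (fun h ω => ENNReal.ofReal (clS2 G H 𝒰 T h ω))) + ∑ x, Ap x + BB) :=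
          add_le_add le_rfl (add_le_add (add_le_add h9 le_rfl) le_rfl)
      _ = _ := by ring
  exact ENNReal.le_of_add_le_add_right hApfin h11

theorem pn_cl_cq_le (β : G.E → ℝ) (h : G.V → ℤ) (ω : G.E → Bool) (hW : fkW G β h ω ≠ 0) (f g : G.V → ℝ) (hf : ∀ x, 0 ≤ f x)
    (hg : ∀ x, 0 ≤ g x) : cq G ω f g h ≤ linA f h * linA g h := by
  rw [pn_fk_cq_mass G β h ω hW f g]
  unfold linA
  rw [Finset.sum_mul]
  refine Finset.sum_le_sum fun x _ => mul_le_mul_of_nonneg_left ?_ (mul_nonneg (hf x) (abs_nonneg _))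
  unfold mass
  refine Finset.sum_le_sum fun y _ => ?_
  split_ifs
  · exact le_rfl
  · exact mul_nonneg (hg y) (abs_nonneg _)

/-- **(C3)**: `E cq f f ≤ 2 E h_f² + 16 b w c2 E ∑_{C far, Gd}|y(e_C)|² + 2 E[Bad; ⟨f,|h|⟩²]` -/
theorem pn_cl_diag (H : HLaw G) (P : Set G.V) (b : ℝ) (hc : ClCtx H P b) (A' : Set G.V) (w t₁ T : ℝ) (hw : 0 ≤ w) (hT0 : 0 ≤ T)
    (hT : 2 * (t₁ * T) ≤ 1) (hanc : AncFl G H (clFar G A') w t₁)
    (f : G.V → ℝ) (hf : ∀ x, 0 ≤ f x) (hfA : ∀ x, x ∉ A' → f x = 0)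
    (Rf tf σ c2 Θ : ℝ) (hrep : ∀ U ∈ clFar G A', clRep H (P ∪ U) f Rf tf σ) (htf : 0 ≤ tf) (hc2 : 0 < c2) (hcost : b * Rf + σ / 2 ≤ c2)
    (hΘ0 : 0 ≤ Θ) (hΘ : b * w * (Fintype.card H.O * T ^ 2) ≤ Θ ^ 2 * c2) (hsup : t₁ * T + Θ * tf ≤ 1) :
    rhI H b P (fun h ω => ENNReal.ofReal (cq G ω f f h))
      ≤ 2 * rhI H b P (fun h _ => ENNReal.ofReal (lin f h ^ 2))
        + ENNReal.ofReal (16 * b * w * c2) * rhI H b P (fun h ω => ENNReal.ofReal (clS2 G H (clFar G A') T h ω))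
        + 2 * rhI H b P (fun h _ => rhInd (clBad H T h) * ENNReal.ofReal (linA f h ^ 2)) := by
  have hb := hc.hb.le
  have h1 := pn_cl_cross H P b hc A' w t₁ T hw hT0 hT hanc f f hf hf hfA Rf tf σ c2 Θ hrep htf hc2 hcost hΘ0 hΘ hsup (1 / 2) (by norm_num)
  simp only [← sq] at h1
  set Qq := rhI H b P (fun h ω => ENNReal.ofReal (cq G ω f f h)) with hQq
  set M2 := rhI H b P (fun h _ => ENNReal.ofReal (lin f h ^ 2)) with hM2
  set X := rhI H b P (fun h ω => ENNReal.ofReal (clS2 G H (clFar G A') T h ω)) with hX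
  set BB := rhI H b P (fun h _ => rhInd (clBad H T h) * ENNReal.ofReal (linA f h ^ 2)) with hBB
  have hfin : Qq ≠ ∞ := by
    refine ne_top_of_le_ne_top (pn_cl_fin2 H P b hc f f) (pn_cl_I_mono H b P _ _ fun h ω _ hW => ENNReal.ofReal_le_ofReal ?_)
    exact pn_cl_cq_le _ h ω hW f f hf hf
  have h2 : Qq ≤ M2 + ENNReal.ofReal (1 / 2) * Qq + ENNReal.ofReal (4 * b * w * c2 / (1 / 2)) * X + BB := le_self_add.trans h1
  have e2 : (2 : ℝ≥0∞) = ENNReal.ofReal 2 := by simp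
  have e3 : 2 * ENNReal.ofReal (1 / 2) = 1 := by
    rw [e2, ← ENNReal.ofReal_mul zero_le_two]
    simp
  have e4 : 2 * ENNReal.ofReal (4 * b * w * c2 / (1 / 2)) = ENNReal.ofReal (16 * b * w * c2) := by
    rw [e2, ← ENNReal.ofReal_mul zero_le_two]
    congr 1
    ring
  have h3 : Qq + Qq ≤ (2 * M2 + ENNReal.ofReal (16 * b * w * c2) * X + 2 * BB) + Qq := by
    calc Qq + Qq = 2 * Qq := by ring
      _ ≤ 2 * (M2 + ENNReal.ofReal (1 / 2) * Qq + ENNReal.ofReal (4 * b * w * c2 / (1 / 2)) * X + BB) := mul_le_mul_right h2 _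
      _ = 2 * M2 + (2 * ENNReal.ofReal (1 / 2)) * Qq + (2 * ENNReal.ofReal (4 * b * w * c2 / (1 / 2))) * X + 2 * BB := by ring
      _ = _ := by
          rw [e3, e4, one_mul]
          ring
  exact ENNReal.le_of_add_le_add_right hfin h3

/-- Stores the on-demand equation lemmas of the definitions above in THIS module (rule 6 hygiene). -/
theorem pn_clus_forced : True := by
  have := @clWt.eq_1
  trivial

end

end Claimed.Agent.R285.Pins
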