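import Claimed.Agent.R285.Pins.ClusSum

/-!
# ROW 285, PINS-CLUS2 + CR, FILE 3: the contributions of the bad event (BAD) (statements helper74; proofs helper64).   Paper-free, NO sorry.

`m8` = a bound of `E h_x^8` on the set `X` which carries all the weights.   Calculus of `rhI`: `pn_cl_I_mono / _congr / _add / _mul / _sum` (`ClusSum.lean`).
PLAN.  `pn_cl_m8_prod`: if one of the three sums vanishes the integrand vanishes; otherwise normalise (`linA a h = (∑ a) linA (a/∑ a) h`) and for probability vectors `p, q, r`: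
`x⁶ y z ≤ (6 x⁸ + y⁸ + z⁸)/8`  (`y z ≤ (y²+z²)/2`, `X³ Y ≤ (3X⁴+Y⁴)/4` since `3X⁴+Y⁴-4X³Y = (X-Y)²(3X²+2XY+Y²)`),  Jensen `(∑ p_x |h_x|)⁸ ≤ ∑ p_x |h_x|⁸` (`Real.pow_arith_mean_le_arith_mean_pow`),
so the integrand is `≤ ∑_x ρ_x h_x⁸`, `ρ = (6p+q+r)/8` a probability vector carried by `X`; `pn_cl_I_mono`, `pn_cl_I_sum`, `pn_cl_I_mul`, `hm8`.
`pn_cl_bad_prod`: `1_Bad ≤ ∑_o (clRowA_o/T)⁶`, `clRowA H h o = linA (rhT (H.B o)) h`, `∑_x rhT (H.B o) x = clN H o`.   `pn_cl_bad_prob`: `1_Bad ≤ ∑_o (clRowA_o/T)⁸`, `a = c = c' = rhT (H.B o)`.   `pn_cl_bad_YA`: `clYA = ∑_o clRowA_o · clRowA_o`, `pn_cl_bad_prod`.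
-/

set_option autoImplicit false

namespace Claimed.Agent.R285.Pins

open scoped Classical ENNReal

noncomputable section

variable {G : HGraph}

/-! ## elementary inequalities -/

theorem pn_cb_amgm4 (X Y : ℝ) : X ^ 3 * Y ≤ (3 * X ^ 4 + Y ^ 4) / 4 := by
  have h : 0 ≤ (X - Y) ^ 2 * (2 * X ^ 2 + (X + Y) ^ 2) := by positivity
  nlinarith [h]

theorem pn_cb_amgm8 (x y z : ℝ) : x ^ 6 * (y * z) ≤ (6 * x ^ 8 + y ^ 8 + z ^ 8) / 8 := by
  have h1 : y * z ≤ (y ^ 2 + z ^ 2) / 2 := by nlinarith [sq_nonneg (y - z)]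
  have h2 := pn_cb_amgm4 (x ^ 2) (y ^ 2)
  have h3 := pn_cb_amgm4 (x ^ 2) (z ^ 2)
  have h4 : x ^ 6 * (y * z) ≤ x ^ 6 * ((y ^ 2 + z ^ 2) / 2) := mul_le_mul_of_nonneg_left h1 (by positivity)
  calc x ^ 6 * (y * z) ≤ x ^ 6 * ((y ^ 2 + z ^ 2) / 2) := h4
    _ = ((x ^ 2) ^ 3 * y ^ 2 + (x ^ 2) ^ 3 * z ^ 2) / 2 := by ring
    _ ≤ ((3 * (x ^ 2) ^ 4 + (y ^ 2) ^ 4) / 4 + (3 * (x ^ 2) ^ 4 + (z ^ 2) ^ 4) / 4) / 2 := by linarith
    _ = _ := by ring

/-- Jensen, homogeneous form with a positive total mass -/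
theorem pn_cb_jensen (a : G.V → ℝ) (ha : ∀ x, 0 ≤ a x) (hA : 0 < ∑ x, a x) (h : G.V → ℤ) :
    (linA a h / ∑ x, a x) ^ 8 ≤ ∑ x, a x / (∑ x, a x) * (h x : ℝ) ^ 8 := by
  have h1 := Real.pow_arith_mean_le_arith_mean_pow Finset.univ (fun x => a x / ∑ x, a x) (fun x => |(h x : ℝ)|)
    (fun x _ => div_nonneg (ha x) hA.le) (by rw [← Finset.sum_div, div_self hA.ne']) (fun x _ => abs_nonneg _) 8
  have e1 : ∑ x, a x / (∑ x, a x) * |(h x : ℝ)| = linA a h / ∑ x, a x := by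
    unfold linA
    rw [Finset.sum_div]
    exact Finset.sum_congr rfl fun x _ => by ring
  have e2 : ∀ x, |(h x : ℝ)| ^ 8 = (h x : ℝ) ^ 8 := fun x => by
    rw [show (8 : ℕ) = 2 * 4 by norm_num, pow_mul, pow_mul, sq_abs]
  rw [e1] at h1
  simpa only [e2] using h1

theorem pn_cb_linA_zero (a : G.V → ℝ) (ha : ∀ x, 0 ≤ a x) (hA : ∑ x, a x = 0) (h : G.V → ℤ) : linA a h = 0 := by
  have h0 : ∀ x, a x = 0 := fun x => (Finset.sum_eq_zero_iff_of_nonneg fun x _ => ha x).1 hA x (Finset.mem_univ x)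
  unfold linA
  simp [h0]

theorem pn_cb_linA_nonneg (c : G.V → ℝ) (hc0 : ∀ v, 0 ≤ c v) (h : G.V → ℤ) : 0 ≤ linA c h :=
  Finset.sum_nonneg fun v _ => mul_nonneg (hc0 v) (abs_nonneg _)

/-- the pointwise bound -/
theorem pn_cb_point (a c c' : G.V → ℝ) (ha : ∀ x, 0 ≤ a x) (hc : ∀ x, 0 ≤ c x) (hc' : ∀ x, 0 ≤ c' x)
    (hA : 0 < ∑ x, a x) (hC : 0 < ∑ x, c x) (hC' : 0 < ∑ x, c' x) (h : G.V → ℤ) :
    linA a h ^ 6 * (linA c h * linA c' h)
      ≤ ∑ x, ((∑ x, a x) ^ 6 * ((∑ x, c x) * (∑ x, c' x)))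
          * ((6 * (a x / ∑ x, a x) + c x / (∑ x, c x) + c' x / ∑ x, c' x) / 8) * (h x : ℝ) ^ 8 := by
  set A := ∑ x, a x with hAd
  set C := ∑ x, c x with hCd
  set C' := ∑ x, c' x with hCd'
  have h1 := pn_cb_amgm8 (linA a h / A) (linA c h / C) (linA c' h / C')
  have j1 := pn_cb_jensen a ha hA h
  have j2 := pn_cb_jensen c hc hC h
  have j3 := pn_cb_jensen c' hc' hC' h
  rw [← hAd] at j1
  rw [← hCd] at j2
  rw [← hCd'] at j3
  clear_value A C C'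
  have e1 : linA a h ^ 6 * (linA c h * linA c' h)
      = (A ^ 6 * (C * C')) * ((linA a h / A) ^ 6 * (linA c h / C * (linA c' h / C'))) := by
    field_simp
  have e2 : ∑ x, (A ^ 6 * (C * C')) * ((6 * (a x / A) + c x / C + c' x / C') / 8) * (h x : ℝ) ^ 8
      = (A ^ 6 * (C * C')) * ((6 * ∑ x, a x / A * (h x : ℝ) ^ 8 + ∑ x, c x / C * (h x : ℝ) ^ 8
          + ∑ x, c' x / C' * (h x : ℝ) ^ 8) / 8) := by
    have e3 : ∀ x, (A ^ 6 * (C * C')) * ((6 * (a x / A) + c x / C + c' x / C') / 8) * (h x : ℝ) ^ 8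
        = (A ^ 6 * (C * C') / 8 * 6) * (a x / A * (h x : ℝ) ^ 8) + (A ^ 6 * (C * C') / 8) * (c x / C * (h x : ℝ) ^ 8)
          + (A ^ 6 * (C * C') / 8) * (c' x / C' * (h x : ℝ) ^ 8) := fun x => by ring
    simp only [e3, Finset.sum_add_distrib, ← Finset.mul_sum]
    ring
  rw [e1, e2]
  refine mul_le_mul_of_nonneg_left ?_ (by positivity)
  linarith

/-! ## (BAD) -/

/-- products of eight averages of `|h|` -/
theorem pn_cl_m8_prod (H : HLaw G) (P : Set G.V) (b : ℝ) (X : Set G.V) (m8 : ℝ) (hm0 : 0 ≤ m8)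
    (hm8 : ∀ x ∈ X, rhI H b P (fun h _ => ENNReal.ofReal ((h x : ℝ) ^ 8)) ≤ ENNReal.ofReal m8 * rhI H b P (fun _ _ => 1))
    (a c c' : G.V → ℝ) (ha : ∀ x, 0 ≤ a x) (hc : ∀ x, 0 ≤ c x) (hc' : ∀ x, 0 ≤ c' x)
    (haX : ∀ x, x ∉ X → a x = 0) (hcX : ∀ x, x ∉ X → c x = 0) (hcX' : ∀ x, x ∉ X → c' x = 0) :
    rhI H b P (fun h _ => ENNReal.ofReal (linA a h ^ 6 * (linA c h * linA c' h)))
      ≤ ENNReal.ofReal ((∑ x, a x) ^ 6 * ((∑ x, c x) * (∑ x, c' x)) * m8) * rhI H b P (fun _ _ => 1) := by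
  by_cases hz : (∑ x, a x = 0) ∨ (∑ x, c x = 0) ∨ (∑ x, c' x = 0)
  · have h0 : ∀ h : G.V → ℤ, linA a h ^ 6 * (linA c h * linA c' h) = 0 := by
      intro h
      rcases hz with hz | hz | hz
      · rw [pn_cb_linA_zero a ha hz]; simp
      · rw [pn_cb_linA_zero c hc hz]; simp
      · rw [pn_cb_linA_zero c' hc' hz]; simp
    simp only [h0, ENNReal.ofReal_zero]
    have h1 : rhI H b P (fun _ _ => 0) = 0 := by
      have := pn_cl_I_mul H b P 0 (fun _ _ => 1)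
      simpa using this
    rw [h1]
    exact zero_le
  · push Not at hz
    obtain ⟨hA0, hC0, hC0'⟩ := hz
    have hA : 0 < ∑ x, a x := lt_of_le_of_ne (Finset.sum_nonneg fun x _ => ha x) (Ne.symm hA0)
    have hC : 0 < ∑ x, c x := lt_of_le_of_ne (Finset.sum_nonneg fun x _ => hc x) (Ne.symm hC0)
    have hC' : 0 < ∑ x, c' x := lt_of_le_of_ne (Finset.sum_nonneg fun x _ => hc' x) (Ne.symm hC0')
    have hpt := pn_cb_point a c c' ha hc hc' hA hC hC'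
    set K := (∑ x, a x) ^ 6 * ((∑ x, c x) * (∑ x, c' x)) with hK
    have hK0 : 0 ≤ K := by positivity
    set ρ : G.V → ℝ := fun x => (6 * (a x / ∑ x, a x) + c x / (∑ x, c x) + c' x / ∑ x, c' x) / 8 with hρ
    have hρ0 : ∀ x, 0 ≤ ρ x := fun x => by
      have h1 := div_nonneg (ha x) hA.le
      have h2 := div_nonneg (hc x) hC.le
      have h3 := div_nonneg (hc' x) hC'.le
      simp only [hρ]
      positivity
    have hρ1 : ∑ x, ρ x = 1 := by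
      simp only [hρ]
      rw [← Finset.sum_div, Finset.sum_add_distrib, Finset.sum_add_distrib, ← Finset.mul_sum, ← Finset.sum_div,
        ← Finset.sum_div, ← Finset.sum_div, div_self hA.ne', div_self hC.ne', div_self hC'.ne']
      norm_num
    have hρX : ∀ x, x ∉ X → ρ x = 0 := fun x hx => by
      simp only [hρ, haX x hx, hcX x hx, hcX' x hx]
      simp
    calc rhI H b P (fun h _ => ENNReal.ofReal (linA a h ^ 6 * (linA c h * linA c' h)))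
        ≤ rhI H b P (fun h _ => ∑ x, ENNReal.ofReal (K * ρ x) * ENNReal.ofReal ((h x : ℝ) ^ 8)) := by
          refine pn_cl_I_mono H b P _ _ fun h ω _ _ => ?_
          refine (ENNReal.ofReal_le_ofReal (hpt h)).trans (le_of_eq ?_)
          rw [ENNReal.ofReal_sum_of_nonneg fun x _ => mul_nonneg (mul_nonneg hK0 (hρ0 x)) (by positivity)]
          exact Finset.sum_congr rfl fun x _ => ENNReal.ofReal_mul (mul_nonneg hK0 (hρ0 x))
      _ = ∑ x, ENNReal.ofReal (K * ρ x) * rhI H b P (fun h _ => ENNReal.ofReal ((h x : ℝ) ^ 8)) := by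
          rw [pn_cl_I_sum]
          exact Finset.sum_congr rfl fun x _ => pn_cl_I_mul H b P _ _
      _ ≤ ∑ x, ENNReal.ofReal (K * ρ x) * (ENNReal.ofReal m8 * rhI H b P (fun _ _ => 1)) := by
          refine Finset.sum_le_sum fun x _ => ?_
          by_cases hx : x ∈ X
          · exact mul_le_mul_right (hm8 x hx) _
          · rw [hρX x hx]
            simp
      _ = ENNReal.ofReal (K * m8) * rhI H b P (fun _ _ => 1) := by
          rw [← Finset.sum_mul, ← ENNReal.ofReal_sum_of_nonneg fun x _ => mul_nonneg hK0 (hρ0 x), ← Finset.mul_sum, hρ1,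
            mul_one, ← mul_assoc, ← ENNReal.ofReal_mul hK0]

theorem pn_cb_rhT_nonneg (H : HLaw G) (hB : ∀ o x, 0 ≤ H.B o x) (o : H.O) (x : G.V) : 0 ≤ rhT (H.B o) x := by
  unfold rhT
  have := hB o x
  positivity

theorem pn_cb_rhT_off (H : HLaw G) (X : Set G.V) (hBX : ∀ o x, x ∉ X → H.B o x = 0) (o : H.O) (x : G.V) (hx : x ∉ X) :
    rhT (H.B o) x = 0 := by
  unfold rhT
  rw [hBX o x hx, mul_zero]

/-- Markov on the bad event, pointwise, with an arbitrary even power -/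
theorem pn_cb_markov (H : HLaw G) (T : ℝ) (hT : 0 < T) (n : ℕ) (h : G.V → ℤ) (Φ : ℝ) (hΦ : 0 ≤ Φ) :
    rhInd (clBad H T h) * ENNReal.ofReal Φ
      ≤ ∑ o, ENNReal.ofReal (T⁻¹ ^ n) * ENNReal.ofReal (linA (rhT (H.B o)) h ^ n * Φ) := by
  unfold rhInd
  by_cases hb : clBad H T h
  · rw [if_pos hb, one_mul]
    obtain ⟨o, ho⟩ := hb
    refine le_trans ?_ (Finset.single_le_sum (f := fun o => ENNReal.ofReal (T⁻¹ ^ n) * ENNReal.ofReal (linA (rhT (H.B o)) h ^ n * Φ))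
      (fun _ _ => zero_le) (Finset.mem_univ o))
    rw [← ENNReal.ofReal_mul (by positivity)]
    refine ENNReal.ofReal_le_ofReal ?_
    have h1 : 1 ≤ T⁻¹ * linA (rhT (H.B o)) h := by
      have ho' : T < linA (rhT (H.B o)) h := ho
      rw [inv_mul_eq_div, one_le_div hT]
      exact ho'.le
    have h2 : 1 ≤ (T⁻¹ * linA (rhT (H.B o)) h) ^ n := one_le_pow₀ h1
    calc Φ = 1 * Φ := (one_mul _).symm
      _ ≤ (T⁻¹ * linA (rhT (H.B o)) h) ^ n * Φ := mul_le_mul_of_nonneg_right h2 hΦ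
      _ = _ := by rw [mul_pow]; ring
  · rw [if_neg hb, zero_mul]
    exact zero_le

/-- `P(Bad) ≤ T^{-8} ∑_o ‖y_o‖₁^8 m8` -/
theorem pn_cl_bad_prob (H : HLaw G) (P : Set G.V) (b : ℝ) (hB : ∀ o x, 0 ≤ H.B o x) (X : Set G.V) (m8 : ℝ) (hm0 : 0 ≤ m8)
    (hm8 : ∀ x ∈ X, rhI H b P (fun h _ => ENNReal.ofReal ((h x : ℝ) ^ 8)) ≤ ENNReal.ofReal m8 * rhI H b P (fun _ _ => 1))
    (hBX : ∀ o x, x ∉ X → H.B o x = 0) (T : ℝ) (hT : 0 < T) :
    rhI H b P (fun h _ => rhInd (clBad H T h))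
      ≤ ENNReal.ofReal (T⁻¹ ^ 8 * (∑ o, clN H o ^ 8) * m8) * rhI H b P (fun _ _ => 1) := by
  have hN0 : ∀ o, 0 ≤ clN H o := fun o => Finset.sum_nonneg fun x _ => pn_cb_rhT_nonneg H hB o x
  calc rhI H b P (fun h _ => rhInd (clBad H T h))
      ≤ rhI H b P (fun h _ => ∑ o, ENNReal.ofReal (T⁻¹ ^ 8)
          * ENNReal.ofReal (linA (rhT (H.B o)) h ^ 6 * (linA (rhT (H.B o)) h * linA (rhT (H.B o)) h))) := by
        refine pn_cl_I_mono H b P _ _ fun h ω _ _ => ?_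
        have := pn_cb_markov H T hT 8 h 1 zero_le_one
        rw [ENNReal.ofReal_one, mul_one] at this
        refine this.trans (le_of_eq (Finset.sum_congr rfl fun o _ => ?_))
        congr 2
        ring
    _ = ∑ o, ENNReal.ofReal (T⁻¹ ^ 8) * rhI H b P (fun h _ =>
          ENNReal.ofReal (linA (rhT (H.B o)) h ^ 6 * (linA (rhT (H.B o)) h * linA (rhT (H.B o)) h))) := by
        rw [pn_cl_I_sum]
        exact Finset.sum_congr rfl fun o _ => pn_cl_I_mul H b P _ _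
    _ ≤ ∑ o, ENNReal.ofReal (T⁻¹ ^ 8) * (ENNReal.ofReal (clN H o ^ 6 * (clN H o * clN H o) * m8) * rhI H b P (fun _ _ => 1)) :=
        Finset.sum_le_sum fun o _ => mul_le_mul_right (pn_cl_m8_prod H P b X m8 hm0 hm8 _ _ _
          (pn_cb_rhT_nonneg H hB o) (pn_cb_rhT_nonneg H hB o) (pn_cb_rhT_nonneg H hB o)
          (pn_cb_rhT_off H X hBX o) (pn_cb_rhT_off H X hBX o) (pn_cb_rhT_off H X hBX o)) _
    _ = _ := by
        simp only [← mul_assoc]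
        rw [← Finset.sum_mul]
        congr 1
        simp only [← ENNReal.ofReal_mul (show (0 : ℝ) ≤ T⁻¹ ^ 8 by positivity)]
        rw [← ENNReal.ofReal_sum_of_nonneg fun o _ => by have := hN0 o; positivity]
        congr 1
        rw [Finset.mul_sum, Finset.sum_mul]
        exact Finset.sum_congr rfl fun o _ => by ring

/-- `E[Bad; ⟨c,|h|⟩⟨c',|h|⟩] ≤ T^{-6} ∑_o ‖y_o‖₁^6 ‖c‖₁ ‖c'‖₁ m8` -/
theorem pn_cl_bad_prod (H : HLaw G) (P : Set G.V) (b : ℝ) (hB : ∀ o x, 0 ≤ H.B o x) (X : Set G.V) (m8 : ℝ) (hm0 : 0 ≤ m8)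
    (hm8 : ∀ x ∈ X, rhI H b P (fun h _ => ENNReal.ofReal ((h x : ℝ) ^ 8)) ≤ ENNReal.ofReal m8 * rhI H b P (fun _ _ => 1))
    (hBX : ∀ o x, x ∉ X → H.B o x = 0) (T : ℝ) (hT : 0 < T)
    (c c' : G.V → ℝ) (hc : ∀ x, 0 ≤ c x) (hc' : ∀ x, 0 ≤ c' x) (hcX : ∀ x, x ∉ X → c x = 0) (hcX' : ∀ x, x ∉ X → c' x = 0) :
    rhI H b P (fun h _ => rhInd (clBad H T h) * ENNReal.ofReal (linA c h * linA c' h))
      ≤ ENNReal.ofReal (T⁻¹ ^ 6 * (∑ o, clN H o ^ 6) * ((∑ x, c x) * (∑ x, c' x)) * m8) * rhI H b P (fun _ _ => 1) := by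
  have hN0 : ∀ o, 0 ≤ clN H o := fun o => Finset.sum_nonneg fun x _ => pn_cb_rhT_nonneg H hB o x
  have hC0 : 0 ≤ ∑ x, c x := Finset.sum_nonneg fun x _ => hc x
  have hC0' : 0 ≤ ∑ x, c' x := Finset.sum_nonneg fun x _ => hc' x
  calc rhI H b P (fun h _ => rhInd (clBad H T h) * ENNReal.ofReal (linA c h * linA c' h))
      ≤ rhI H b P (fun h _ => ∑ o, ENNReal.ofReal (T⁻¹ ^ 6)
          * ENNReal.ofReal (linA (rhT (H.B o)) h ^ 6 * (linA c h * linA c' h))) :=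
        pn_cl_I_mono H b P _ _ fun h ω _ _ => pn_cb_markov H T hT 6 h _
          (mul_nonneg (pn_cb_linA_nonneg c hc h) (pn_cb_linA_nonneg c' hc' h))
    _ = ∑ o, ENNReal.ofReal (T⁻¹ ^ 6) * rhI H b P (fun h _ =>
          ENNReal.ofReal (linA (rhT (H.B o)) h ^ 6 * (linA c h * linA c' h))) := by
        rw [pn_cl_I_sum]
        exact Finset.sum_congr rfl fun o _ => pn_cl_I_mul H b P _ _
    _ ≤ ∑ o, ENNReal.ofReal (T⁻¹ ^ 6) * (ENNReal.ofReal (clN H o ^ 6 * ((∑ x, c x) * (∑ x, c' x)) * m8) * rhI H b P (fun _ _ => 1)) :=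
        Finset.sum_le_sum fun o _ => mul_le_mul_right (pn_cl_m8_prod H P b X m8 hm0 hm8 _ _ _
          (pn_cb_rhT_nonneg H hB o) hc hc' (pn_cb_rhT_off H X hBX o) hcX hcX') _
    _ = _ := by
        simp only [← mul_assoc]
        rw [← Finset.sum_mul]
        congr 1
        simp only [← ENNReal.ofReal_mul (show (0 : ℝ) ≤ T⁻¹ ^ 6 by positivity)]
        rw [← ENNReal.ofReal_sum_of_nonneg fun o _ => by have := hN0 o; positivity]
        congr 1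
        generalize (∑ x, c x) = C
        generalize (∑ x, c' x) = C'
        have e : ∀ o, T⁻¹ ^ 6 * (clN H o ^ 6 * C * C' * m8) = clN H o ^ 6 * (T⁻¹ ^ 6 * (C * C') * m8) := fun o => by ring
        simp only [e]
        rw [← Finset.sum_mul]
        ring

/-- `E[Bad; |y(|h|)|²] ≤ T^{-6} ∑_o ‖y_o‖₁^6 ∑_o ‖y_o‖₁² m8` -/
theorem pn_cl_bad_YA (H : HLaw G) (P : Set G.V) (b : ℝ) (hB : ∀ o x, 0 ≤ H.B o x) (X : Set G.V) (m8 : ℝ) (hm0 : 0 ≤ m8)
    (hm8 : ∀ x ∈ X, rhI H b P (fun h _ => ENNReal.ofReal ((h x : ℝ) ^ 8)) ≤ ENNReal.ofReal m8 * rhI H b P (fun _ _ => 1))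
    (hBX : ∀ o x, x ∉ X → H.B o x = 0) (T : ℝ) (hT : 0 < T) :
    rhI H b P (fun h _ => rhInd (clBad H T h) * ENNReal.ofReal (clYA H h))
      ≤ ENNReal.ofReal (T⁻¹ ^ 6 * (∑ o, clN H o ^ 6) * (∑ o, clN H o ^ 2) * m8) * rhI H b P (fun _ _ => 1) := by
  have hN0 : ∀ o, 0 ≤ clN H o := fun o => Finset.sum_nonneg fun x _ => pn_cb_rhT_nonneg H hB o x
  have hS0 : 0 ≤ ∑ o, clN H o ^ 6 := Finset.sum_nonneg fun o _ => by have := hN0 o; positivity
  calc rhI H b P (fun h _ => rhInd (clBad H T h) * ENNReal.ofReal (clYA H h))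
      = rhI H b P (fun h _ => ∑ o, rhInd (clBad H T h) * ENNReal.ofReal (linA (rhT (H.B o)) h * linA (rhT (H.B o)) h)) := by
        congr 1
        funext h _
        rw [← Finset.mul_sum, ← ENNReal.ofReal_sum_of_nonneg fun o _ => mul_self_nonneg _]
        congr 2
        unfold clYA clRowA
        exact Finset.sum_congr rfl fun o _ => sq _
    _ = ∑ o, rhI H b P (fun h _ => rhInd (clBad H T h) * ENNReal.ofReal (linA (rhT (H.B o)) h * linA (rhT (H.B o)) h)) :=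
        pn_cl_I_sum _ H b P _
    _ ≤ ∑ o, ENNReal.ofReal (T⁻¹ ^ 6 * (∑ o, clN H o ^ 6) * (clN H o * clN H o) * m8) * rhI H b P (fun _ _ => 1) :=
        Finset.sum_le_sum fun o _ => pn_cl_bad_prod H P b hB X m8 hm0 hm8 hBX T hT _ _
          (pn_cb_rhT_nonneg H hB o) (pn_cb_rhT_nonneg H hB o) (pn_cb_rhT_off H X hBX o) (pn_cb_rhT_off H X hBX o)
    _ = _ := by
        rw [← Finset.sum_mul]
        congr 1
        rw [← ENNReal.ofReal_sum_of_nonneg fun o _ => by have := hN0 o; positivity]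
        congr 1
        generalize (∑ o, clN H o ^ 6) = S6
        have e : ∀ o, T⁻¹ ^ 6 * S6 * (clN H o * clN H o) * m8 = clN H o ^ 2 * (T⁻¹ ^ 6 * S6 * m8) := fun o => by ring
        simp only [e]
        rw [← Finset.sum_mul]
        ring

end

end Claimed.Agent.R285.Pins
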