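import Claimed.Agent.R285.Rsd.Bes

/-!
# ROW 285, PINS-EXPLORE 3a: the FIRST ZERO identity of the Bessel weight (helper5; part of leaf L-PIN-EX4).   ALL PROVED, no `sorry`.

`p_b(|m| + |k|) = ∫_0^b (|m|/t) p_t(m) p_{b-t}(k) dt`  for `m ≠ 0`:
* `pn_fz_main` (`∫⁻` form, the one used by `pn_ex_mix`), `pn_fz_real` + `pn_fz_integrable` (real form), `pn_fz_meas` (`t ↦ bes t k` is measurable).
Route: both Bessel series are nonnegative, so Tonelli gives a double series of Beta integrals (`pn_fz_beta`, integration by parts);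
along the antidiagonals the coefficients add up by the ballot convolution `∑_{i+j=n} A(M,i) B(K,j) = B(M+1+K,n)` (`pn_fz_conv`, double induction with Pascal's rule),
`A(M,i) = (M+1)(2i+M)!/(i!(i+M+1)!)`, `B(K,j) = binom(2j+K, j)`.
-/

set_option autoImplicit false

namespace Claimed.Agent.R285.Pins

open MeasureTheory
open scoped ENNReal

noncomputable section

/-- ballot numbers `(M+1) (2i+M)! / (i! (i+M+1)!)` -/
def fzA (M i : ℕ) : ℝ := ((M : ℝ) + 1) * ((2 * i + M).factorial : ℝ) / ((i.factorial : ℝ) * ((i + M + 1).factorial : ℝ))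

/-- `binom (2j+K) j` -/
def fzB (K j : ℕ) : ℝ := ((2 * j + K).factorial : ℝ) / ((j.factorial : ℝ) * ((j + K).factorial : ℝ))

theorem pn_fz_A_zero (M : ℕ) : fzA M 0 = 1 := by
  unfold fzA
  have h : ((M + 1).factorial : ℝ) = ((M : ℝ) + 1) * (M.factorial : ℝ) := by
    rw [Nat.factorial_succ]; push_cast; ring
  have h0 : (M.factorial : ℝ) ≠ 0 := by positivity
  have h1 : (M : ℝ) + 1 ≠ 0 := by positivity
  simp only [Nat.mul_zero, Nat.zero_add, Nat.factorial_zero, Nat.cast_one, one_mul]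
  rw [h]
  field_simp

theorem pn_fz_B_zero (K : ℕ) : fzB K 0 = 1 := by
  unfold fzB
  have h0 : (K.factorial : ℝ) ≠ 0 := by positivity
  simp only [Nat.mul_zero, Nat.zero_add, Nat.factorial_zero, Nat.cast_one, one_mul]
  field_simp

theorem pn_fz_A_first (i : ℕ) : fzA 0 (i + 1) = fzA 1 i := by
  unfold fzA
  have e1 : 2 * (i + 1) + 0 = (2 * i + 1) + 1 := by ring
  have e2 : i + 1 + 0 + 1 = i + 1 + 1 := by ring
  rw [e1, e2, Nat.factorial_succ (2 * i + 1), Nat.factorial_succ i]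
  have h0 : (i.factorial : ℝ) ≠ 0 := by positivity
  have h1 : ((i + 1 + 1).factorial : ℝ) ≠ 0 := by positivity
  have h2 : (i : ℝ) + 1 ≠ 0 := by positivity
  push_cast
  field_simp
  ring

theorem pn_fz_A_rec (M i : ℕ) : fzA (M + 1) (i + 1) = fzA M (i + 1) + fzA (M + 2) i := by
  unfold fzA
  have e1 : 2 * (i + 1) + (M + 1) = (2 * i + M + 2) + 1 := by ring
  have e2 : i + 1 + (M + 1) + 1 = (i + M + 2) + 1 := by ring
  have e3 : 2 * (i + 1) + M = 2 * i + M + 2 := by ring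
  have e4 : i + 1 + M + 1 = i + M + 2 := by ring
  have e5 : 2 * i + (M + 2) = 2 * i + M + 2 := by ring
  have e6 : i + (M + 2) + 1 = (i + M + 2) + 1 := by ring
  rw [e1, e2, e3, e4, e5, e6, Nat.factorial_succ (2 * i + M + 2), Nat.factorial_succ (i + M + 2), Nat.factorial_succ i]
  have h0 : (i.factorial : ℝ) ≠ 0 := by positivity
  have h1 : ((i + M + 2).factorial : ℝ) ≠ 0 := by positivity
  have h2 : (i : ℝ) + 1 ≠ 0 := by positivity
  have h3 : (i : ℝ) + M + 2 + 1 ≠ 0 := by positivity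
  push_cast
  field_simp
  ring

theorem pn_fz_B_rec (K n : ℕ) : fzB (K + 1) (n + 1) = fzB K (n + 1) + fzB (K + 2) n := by
  unfold fzB
  have e1 : 2 * (n + 1) + (K + 1) = (2 * n + K + 2) + 1 := by ring
  have e2 : n + 1 + (K + 1) = (n + K + 1) + 1 := by ring
  have e3 : 2 * (n + 1) + K = 2 * n + K + 2 := by ring
  have e4 : n + 1 + K = n + K + 1 := by ring
  have e5 : 2 * n + (K + 2) = 2 * n + K + 2 := by ring
  have e6 : n + (K + 2) = (n + K + 1) + 1 := by ring
  rw [e1, e2, e3, e4, e5, e6, Nat.factorial_succ (2 * n + K + 2), Nat.factorial_succ (n + K + 1), Nat.factorial_succ n]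
  have h0 : (n.factorial : ℝ) ≠ 0 := by positivity
  have h1 : ((n + K + 1).factorial : ℝ) ≠ 0 := by positivity
  have h2 : (n : ℝ) + 1 ≠ 0 := by positivity
  have h3 : (n : ℝ) + K + 1 + 1 ≠ 0 := by positivity
  push_cast
  field_simp
  ring

/-- the ballot convolution (Rothe-Hagen with step 2) -/
theorem pn_fz_conv (n : ℕ) : ∀ M K : ℕ, ∑ p ∈ Finset.HasAntidiagonal.antidiagonal n, fzA M p.1 * fzB K p.2 = fzB (M + 1 + K) n := by
  induction n with
  | zero =>
    intro M K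
    simp [pn_fz_A_zero, pn_fz_B_zero]
  | succ n ih =>
    intro M
    induction M with
    | zero =>
      intro K
      rw [Finset.Nat.sum_antidiagonal_succ]
      simp only [pn_fz_A_zero, one_mul, pn_fz_A_first]
      rw [ih 1 K]
      have e : 0 + 1 + K = K + 1 := by ring
      have e' : 1 + 1 + K = K + 2 := by ring
      rw [e, e', pn_fz_B_rec]
    | succ M ihM =>
      intro K
      have h1 := ihM K
      rw [Finset.Nat.sum_antidiagonal_succ] at h1 ⊢
      simp only [pn_fz_A_zero, one_mul] at h1 ⊢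
      simp only [pn_fz_A_rec, add_mul, Finset.sum_add_distrib]
      rw [ih (M + 2) K]
      have e : M + 1 + 1 + K = (M + 1 + K) + 1 := by ring
      have e' : M + 2 + 1 + K = (M + 1 + K) + 2 := by ring
      rw [e, e', pn_fz_B_rec, ← h1]
      ring

/-- the Beta integral -/
theorem pn_fz_beta (b : ℝ) (q : ℕ) : ∀ p : ℕ, ∫ t in (0 : ℝ)..b, t ^ p * (b - t) ^ q
    = b ^ (p + q + 1) * ((p.factorial : ℝ) * (q.factorial : ℝ)) / ((p + q + 1).factorial : ℝ) := by
  induction q with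
  | zero =>
    intro p
    simp only [pow_zero, mul_one, integral_pow, Nat.factorial_zero, Nat.cast_one, add_zero]
    rw [Nat.factorial_succ]
    have h0 : (p.factorial : ℝ) ≠ 0 := by positivity
    have h1 : (p : ℝ) + 1 ≠ 0 := by positivity
    push_cast
    field_simp
    simp
  | succ q ih =>
    intro p
    have hu : ∀ x ∈ Set.uIcc (0 : ℝ) b, HasDerivAt (fun t : ℝ => (b - t) ^ (q + 1)) (-(((q : ℝ) + 1) * (b - x) ^ q)) x := by
      intro x _
      have := ((hasDerivAt_id x).const_sub b).pow (q + 1)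
      simp only [id, Nat.add_sub_cancel] at this
      exact this.congr_deriv (by push_cast; ring)
    have hv : ∀ x ∈ Set.uIcc (0 : ℝ) b, HasDerivAt (fun t : ℝ => t ^ (p + 1) / ((p : ℝ) + 1)) (x ^ p) x := by
      intro x _
      have := ((hasDerivAt_id x).pow (p + 1)).div_const ((p : ℝ) + 1)
      simp only [id, Nat.add_sub_cancel] at this
      have h1 : (p : ℝ) + 1 ≠ 0 := by positivity
      exact this.congr_deriv (by push_cast; field_simp)
    have hu' : IntervalIntegrable (fun x : ℝ => -(((q : ℝ) + 1) * (b - x) ^ q)) volume 0 b :=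
      (by fun_prop : Continuous fun x : ℝ => -(((q : ℝ) + 1) * (b - x) ^ q)).intervalIntegrable _ _
    have hv' : IntervalIntegrable (fun x : ℝ => x ^ p) volume 0 b :=
      (by fun_prop : Continuous fun x : ℝ => x ^ p).intervalIntegrable _ _
    have key := intervalIntegral.integral_mul_deriv_eq_deriv_mul hu hv hu' hv'
    have e1 : ∫ t in (0 : ℝ)..b, t ^ p * (b - t) ^ (q + 1) = ∫ t in (0 : ℝ)..b, (b - t) ^ (q + 1) * t ^ p := by
      refine intervalIntegral.integral_congr fun t _ => ?_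
      ring
    have e2 : ∫ x in (0 : ℝ)..b, -(((q : ℝ) + 1) * (b - x) ^ q) * (x ^ (p + 1) / ((p : ℝ) + 1))
        = -(((q : ℝ) + 1) / ((p : ℝ) + 1)) * ∫ x in (0 : ℝ)..b, x ^ (p + 1) * (b - x) ^ q := by
      rw [← intervalIntegral.integral_const_mul]
      refine intervalIntegral.integral_congr fun t _ => ?_
      ring
    rw [e1, key, e2, ih (p + 1)]
    have e3 : p + 1 + q + 1 = p + (q + 1) + 1 := by ring
    rw [e3, Nat.factorial_succ p, Nat.factorial_succ q]
    have h1 : (p : ℝ) + 1 ≠ 0 := by positivity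
    have h2 : ((p + (q + 1) + 1).factorial : ℝ) ≠ 0 := by positivity
    push_cast
    simp only [sub_self, ne_eq, Nat.add_eq_zero_iff, one_ne_zero, and_false, not_false_eq_true, zero_pow, zero_mul, zero_div, mul_zero, sub_zero]
    field_simp
    ring

/-- the terms of the double series of the integrand -/
def fzU (b : ℝ) (M K : ℕ) (p : ℕ × ℕ) (t : ℝ) : ℝ :=
  (((M : ℝ) + 1) / 2 * ((t / 2) ^ (2 * p.1 + M) / ((p.1.factorial : ℝ) * ((p.1 + M + 1).factorial : ℝ))))
    * (((b - t) / 2) ^ (2 * p.2 + K) / ((p.2.factorial : ℝ) * ((p.2 + K).factorial : ℝ)))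

/-- their integrals -/
def fzV (b : ℝ) (M K : ℕ) (p : ℕ × ℕ) : ℝ :=
  (b / 2) ^ (2 * (p.1 + p.2) + (M + 1 + K)) / ((2 * (p.1 + p.2) + (M + 1 + K)).factorial : ℝ) * (fzA M p.1 * fzB K p.2)

theorem pn_fz_U_nonneg (b : ℝ) (M K : ℕ) (p : ℕ × ℕ) (t : ℝ) (h0 : 0 ≤ t) (h1 : t ≤ b) : 0 ≤ fzU b M K p t := by
  unfold fzU
  have : 0 ≤ b - t := by linarith
  positivity

theorem pn_fz_U_cont (b : ℝ) (M K : ℕ) (p : ℕ × ℕ) : Continuous (fzU b M K p) := by
  unfold fzU
  fun_prop

theorem pn_fz_U_integral (b : ℝ) (M K : ℕ) (p : ℕ × ℕ) : ∫ t in (0 : ℝ)..b, fzU b M K p t = fzV b M K p := by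
  have h1 : ∀ t : ℝ, fzU b M K p t = (((M : ℝ) + 1) / 2 / (2 ^ (2 * p.1 + M) * ((p.1.factorial : ℝ) * ((p.1 + M + 1).factorial : ℝ)))
      / (2 ^ (2 * p.2 + K) * ((p.2.factorial : ℝ) * ((p.2 + K).factorial : ℝ)))) * (t ^ (2 * p.1 + M) * (b - t) ^ (2 * p.2 + K)) := by
    intro t
    unfold fzU
    rw [div_pow, div_pow]
    field_simp
  simp_rw [h1]
  rw [intervalIntegral.integral_const_mul, pn_fz_beta]
  unfold fzV fzA fzB
  have e : 2 * p.1 + M + (2 * p.2 + K) + 1 = 2 * (p.1 + p.2) + (M + 1 + K) := by ring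
  rw [e, div_pow]
  have e2 : (2 : ℝ) ^ (2 * (p.1 + p.2) + (M + 1 + K)) = 2 * (2 ^ (2 * p.1 + M) * 2 ^ (2 * p.2 + K)) := by
    rw [← pow_add, ← pow_succ']
    congr 1
    ring
  rw [e2]
  field_simp

theorem pn_fz_U_lintegral (b : ℝ) (hb : 0 < b) (M K : ℕ) (p : ℕ × ℕ) :
    ∫⁻ t in Set.Ioo (0 : ℝ) b, ENNReal.ofReal (fzU b M K p t) = ENNReal.ofReal (fzV b M K p) := by
  rw [← pn_fz_U_integral, intervalIntegral.integral_of_le hb.le, integral_Ioc_eq_integral_Ioo]
  rw [ofReal_integral_eq_lintegral_ofReal]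
  · exact ((pn_fz_U_cont b M K p).integrableOn_Icc (a := 0) (b := b)).mono_set Set.Ioo_subset_Icc_self
  · rw [Filter.EventuallyLE, ae_restrict_iff' measurableSet_Ioo]
    exact Filter.Eventually.of_forall fun t ht => pn_fz_U_nonneg b M K p t ht.1.le ht.2.le

theorem pn_fz_V_nonneg (b : ℝ) (hb : 0 ≤ b) (M K : ℕ) (p : ℕ × ℕ) : 0 ≤ fzV b M K p := by
  unfold fzV fzA fzB
  positivity

theorem pn_fz_V_sum (b : ℝ) (M K n : ℕ) : ∑ p ∈ Finset.HasAntidiagonal.antidiagonal n, fzV b M K p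
    = (b / 2) ^ (2 * n + (M + 1 + K)) / ((n.factorial : ℝ) * ((n + (M + 1 + K)).factorial : ℝ)) := by
  have h1 : ∀ p ∈ Finset.HasAntidiagonal.antidiagonal n, fzV b M K p
      = (b / 2) ^ (2 * n + (M + 1 + K)) / ((2 * n + (M + 1 + K)).factorial : ℝ) * (fzA M p.1 * fzB K p.2) := by
    intro p hp
    unfold fzV
    rw [Finset.HasAntidiagonal.mem_antidiagonal.1 hp]
  rw [Finset.sum_congr rfl h1, ← Finset.mul_sum, pn_fz_conv]
  unfold fzB
  have h2 : ((2 * n + (M + 1 + K)).factorial : ℝ) ≠ 0 := by positivity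
  field_simp

/-- sum of a nonnegative double series along the antidiagonals -/
theorem pn_fz_tsum_anti (F : ℕ × ℕ → ℝ≥0∞) : ∑' p, F p = ∑' n, ∑ p ∈ Finset.HasAntidiagonal.antidiagonal n, F p := by
  rw [← (Finset.HasAntidiagonal.sigmaAntidiagonalEquivProd (A := ℕ)).tsum_eq F, ENNReal.tsum_sigma']
  refine tsum_congr fun n => ?_
  rw [← Finset.tsum_subtype]
  rfl

theorem pn_fz_V_tsum (b : ℝ) (hb : 0 ≤ b) (M K : ℕ) : ∑' p, ENNReal.ofReal (fzV b M K p)
    = ENNReal.ofReal (∑' n : ℕ, (b / 2) ^ (2 * n + (M + 1 + K)) / ((n.factorial : ℝ) * ((n + (M + 1 + K)).factorial : ℝ))) := by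
  rw [pn_fz_tsum_anti]
  have hs := bes_inner_summable b ((M + 1 + K : ℕ) : ℤ)
  simp only [Int.natAbs_natCast] at hs
  rw [ENNReal.ofReal_tsum_of_nonneg (fun n => by positivity) hs]
  refine tsum_congr fun n => ?_
  rw [← ENNReal.ofReal_sum_of_nonneg fun p _ => pn_fz_V_nonneg b hb M K p, pn_fz_V_sum]

/-- the hitting density as a series without singularity -/
theorem pn_fz_dens (t : ℝ) (ht : 0 < t) (M : ℕ) (m : ℤ) (hm : m.natAbs = M + 1) :
    ((|m| : ℤ) : ℝ) / t * bes t m = Real.exp (-t) * ∑' i : ℕ, ((M : ℝ) + 1) / 2 * ((t / 2) ^ (2 * i + M) / ((i.factorial : ℝ) * ((i + M + 1).factorial : ℝ))) := by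
  have h1 : ((|m| : ℤ) : ℝ) = (M : ℝ) + 1 := by
    rw [Int.abs_eq_natAbs, hm]
    push_cast
    ring
  unfold bes
  rw [h1, hm, mul_left_comm, ← tsum_mul_left]
  congr 1
  refine tsum_congr fun i => ?_
  have e : 2 * i + (M + 1) = (2 * i + M) + 1 := by ring
  have e' : i + (M + 1) = i + M + 1 := by ring
  rw [e, e', pow_succ]
  field_simp

theorem pn_fz_summ1 (t : ℝ) (M : ℕ) :
    Summable fun i : ℕ => ((M : ℝ) + 1) / 2 * ((t / 2) ^ (2 * i + M) / ((i.factorial : ℝ) * ((i + M + 1).factorial : ℝ))) := by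
  refine Summable.mul_left _ ?_
  have hs := (bes_inner_summable t ((M : ℕ) : ℤ)).abs
  simp only [Int.natAbs_natCast] at hs
  refine Summable.of_norm_bounded hs fun i => ?_
  rw [Real.norm_eq_abs, abs_div, abs_div]
  refine div_le_div_of_nonneg_left (abs_nonneg _) (by positivity) ?_
  rw [abs_of_nonneg (by positivity), abs_of_nonneg (by positivity)]
  refine mul_le_mul_of_nonneg_left ?_ (by positivity)
  exact_mod_cast Nat.factorial_le (Nat.le_succ _)

/-- the integrand as a nonnegative double series -/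
theorem pn_fz_expand (b t : ℝ) (h0 : 0 < t) (h1 : t < b) (M : ℕ) (m : ℤ) (hm : m.natAbs = M + 1) (k : ℤ) :
    ENNReal.ofReal (((|m| : ℤ) : ℝ) / t * bes t m) * ENNReal.ofReal (bes (b - t) k)
      = ENNReal.ofReal (Real.exp (-b)) * ∑' p, ENNReal.ofReal (fzU b M k.natAbs p t) := by
  have hbt : 0 ≤ b - t := by linarith
  rw [pn_fz_dens t h0 M m hm]
  unfold bes
  rw [ENNReal.ofReal_mul (Real.exp_pos _).le, ENNReal.ofReal_mul (Real.exp_pos _).le,
    ENNReal.ofReal_tsum_of_nonneg (fun i => by positivity) (pn_fz_summ1 t M),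
    ENNReal.ofReal_tsum_of_nonneg (fun i => by positivity) (bes_inner_summable (b - t) k)]
  have e1 : ENNReal.ofReal (Real.exp (-b)) = ENNReal.ofReal (Real.exp (-t)) * ENNReal.ofReal (Real.exp (-(b - t))) := by
    rw [← ENNReal.ofReal_mul (Real.exp_pos _).le, ← Real.exp_add]
    congr 2
    ring
  have e2 : ∑' p, ENNReal.ofReal (fzU b M k.natAbs p t)
      = (∑' i : ℕ, ENNReal.ofReal (((M : ℝ) + 1) / 2 * ((t / 2) ^ (2 * i + M) / ((i.factorial : ℝ) * ((i + M + 1).factorial : ℝ)))))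
        * ∑' j : ℕ, ENNReal.ofReal (((b - t) / 2) ^ (2 * j + k.natAbs) / ((j.factorial : ℝ) * ((j + k.natAbs).factorial : ℝ))) := by
    rw [ENNReal.tsum_prod' (f := fun p => ENNReal.ofReal (fzU b M k.natAbs p t)), ← ENNReal.tsum_mul_right]
    refine tsum_congr fun i => ?_
    rw [← ENNReal.tsum_mul_left]
    refine tsum_congr fun j => ?_
    unfold fzU
    rw [ENNReal.ofReal_mul (by positivity)]
  rw [e1, e2]
  ring

/-- (FZ) the first zero identity in `∫⁻` form -/
theorem pn_fz_main (b : ℝ) (hb : 0 < b) (m : ℤ) (hm : m ≠ 0) (k : ℤ) :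
    ENNReal.ofReal (bes b (|m| + |k|))
      = ∫⁻ t in Set.Ioo (0 : ℝ) b, ENNReal.ofReal ((|m| : ℤ) / t * bes t m) * ENNReal.ofReal (bes (b - t) k) := by
  obtain ⟨M, hM⟩ : ∃ M : ℕ, m.natAbs = M + 1 := ⟨m.natAbs - 1, by have := Int.natAbs_pos.2 hm; omega⟩
  have h1 : ∫⁻ t in Set.Ioo (0 : ℝ) b, ENNReal.ofReal ((|m| : ℤ) / t * bes t m) * ENNReal.ofReal (bes (b - t) k)
      = ∫⁻ t in Set.Ioo (0 : ℝ) b, ENNReal.ofReal (Real.exp (-b)) * ∑' p, ENNReal.ofReal (fzU b M k.natAbs p t) :=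
    setLIntegral_congr_fun measurableSet_Ioo fun t ht => pn_fz_expand b t ht.1 ht.2 M m hM k
  have hmeas : ∀ p, Measurable fun t : ℝ => ENNReal.ofReal (fzU b M k.natAbs p t) :=
    fun p => (pn_fz_U_cont b M k.natAbs p).measurable.ennreal_ofReal
  rw [h1, lintegral_const_mul _ (Measurable.tsum hmeas), lintegral_tsum fun p => (hmeas p).aemeasurable]
  simp_rw [pn_fz_U_lintegral b hb]
  rw [pn_fz_V_tsum b hb.le, ← ENNReal.ofReal_mul (Real.exp_pos _).le]
  congr 1
  unfold bes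
  have e : (|m| + |k|).natAbs = M + 1 + k.natAbs := by
    rw [Int.abs_eq_natAbs, Int.abs_eq_natAbs, hM]
    exact_mod_cast Int.natAbs_natCast _
  rw [e]

/-- measurability in the temperature -/
theorem pn_fz_meas (k : ℤ) : Measurable fun t : ℝ => bes t k := by
  unfold bes
  refine (Real.measurable_exp.comp measurable_neg).mul ?_
  refine measurable_of_tendsto_metrizable
    (f := fun (N : ℕ) (t : ℝ) => ∑ m ∈ Finset.range N, (t / 2) ^ (2 * m + k.natAbs)
      / ((m.factorial : ℝ) * ((m + k.natAbs).factorial : ℝ))) (fun N => ?_) ?_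
  · refine Finset.measurable_sum _ fun m _ => ?_
    exact ((measurable_id.div_const 2).pow_const _).div_const _
  · rw [tendsto_pi_nhds]
    intro t
    exact (bes_inner_summable t k).hasSum.tendsto_sum_nat

/-- (FZ), real form: integrability -/
theorem pn_fz_integrable (b : ℝ) (hb : 0 < b) (m : ℤ) (hm : m ≠ 0) (k : ℤ) :
    IntegrableOn (fun t : ℝ => ((|m| : ℤ) : ℝ) / t * bes t m * bes (b - t) k) (Set.Ioo 0 b) := by
  refine ⟨(((measurable_const.div measurable_id).mul (pn_fz_meas m)).mul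
    ((pn_fz_meas k).comp (measurable_const.sub measurable_id))).aestronglyMeasurable, ?_⟩
  rw [hasFiniteIntegral_iff_ofReal]
  · have h := pn_fz_main b hb m hm k
    have h2 : ∫⁻ t in Set.Ioo (0 : ℝ) b, ENNReal.ofReal (((|m| : ℤ) : ℝ) / t * bes t m * bes (b - t) k)
        = ∫⁻ t in Set.Ioo (0 : ℝ) b, ENNReal.ofReal ((|m| : ℤ) / t * bes t m) * ENNReal.ofReal (bes (b - t) k) := by
      refine setLIntegral_congr_fun measurableSet_Ioo fun t ht => ?_
      have : 0 ≤ ((|m| : ℤ) : ℝ) / t * bes t m :=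
        mul_nonneg (div_nonneg (by exact_mod_cast abs_nonneg m) ht.1.le) (bes_nonneg t ht.1.le m)
      exact ENNReal.ofReal_mul this
    rw [h2, ← h]
    exact ENNReal.ofReal_lt_top
  · rw [Filter.EventuallyLE, ae_restrict_iff' measurableSet_Ioo]
    refine Filter.Eventually.of_forall fun t ht => ?_
    exact mul_nonneg (mul_nonneg (div_nonneg (by exact_mod_cast abs_nonneg m) ht.1.le) (bes_nonneg t ht.1.le m))
      (bes_nonneg _ (by linarith [ht.2]) k)

/-- (FZ), real form -/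
theorem pn_fz_real (b : ℝ) (hb : 0 < b) (m : ℤ) (hm : m ≠ 0) (k : ℤ) :
    bes b (|m| + |k|) = ∫ t in (0 : ℝ)..b, ((|m| : ℤ) : ℝ) / t * bes t m * bes (b - t) k := by
  rw [intervalIntegral.integral_of_le hb.le, integral_Ioc_eq_integral_Ioo]
  have hnn : 0 ≤ᵐ[volume.restrict (Set.Ioo (0 : ℝ) b)] fun t : ℝ => ((|m| : ℤ) : ℝ) / t * bes t m * bes (b - t) k := by
    rw [Filter.EventuallyLE, ae_restrict_iff' measurableSet_Ioo]
    refine Filter.Eventually.of_forall fun t ht => ?_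
    exact mul_nonneg (mul_nonneg (div_nonneg (by exact_mod_cast abs_nonneg m) ht.1.le) (bes_nonneg t ht.1.le m))
      (bes_nonneg _ (by linarith [ht.2]) k)
  have h1 := ofReal_integral_eq_lintegral_ofReal (pn_fz_integrable b hb m hm k) hnn
  have h2 : ∫⁻ t in Set.Ioo (0 : ℝ) b, ENNReal.ofReal (((|m| : ℤ) : ℝ) / t * bes t m * bes (b - t) k)
      = ∫⁻ t in Set.Ioo (0 : ℝ) b, ENNReal.ofReal ((|m| : ℤ) / t * bes t m) * ENNReal.ofReal (bes (b - t) k) := by
    refine setLIntegral_congr_fun measurableSet_Ioo fun t ht => ?_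
    have : 0 ≤ ((|m| : ℤ) : ℝ) / t * bes t m :=
      mul_nonneg (div_nonneg (by exact_mod_cast abs_nonneg m) ht.1.le) (bes_nonneg t ht.1.le m)
    exact ENNReal.ofReal_mul this
  rw [h2, ← pn_fz_main b hb m hm k] at h1
  exact ((ENNReal.ofReal_eq_ofReal_iff (integral_nonneg_of_ae hnn) (bes_nonneg b hb.le _)).1 h1).symm

end

end Claimed.Agent.R285.Pins
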