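import Claimed.Agent.R285.Pins.FkDefs
import Claimed.Agent.R285.Rsd.Bes
import Claimed.Agent.R285.Pins.ExFz

/-!
# ROW 285, PINS-EXPLORE 3: the first zero identity turns closed boundary bonds into mixtures of zero pins (leaf L-PIN-EX4; architect helper85; PROVED by helper5, no `sorry`)

Abstract form, no graph.  `z` = outer configuration, `n i z` = outer height at the boundary bond `i`, `m i` = inner (visited) height.
Inputs (`Rsd/Bes2.lean`, helper235; restated here in the form which is used): `pn_bes_fz` (FZ in `∫⁻` form) and `pn_bes_meas`.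
Proof of `pn_ex_mix`: induction on a finset `s` of converted bonds, for all `τ` simultaneously:
   `∑' z, c₁ z * (∏_{i ∈ s} p_{β i}(|m i| + |n i z|)) * ∏_{i ∉ s} p_{τ i}(n i z) ≤ κ * (same with c₂)`.
Step `i₀`: if `m i₀ = 0` take `τ i₀ = β i₀` (`bes_neg`: `p(|n|) = p(n)`); otherwise insert `pn_bes_fz`, exchange `∑'` and `∫⁻` (`lintegral_tsum`, `lintegral_const_mul'`/`lintegral_mul_const'` with measurability from `pn_bes_meas`),
use the induction hypothesis at `τ i₀ = β i₀ - t`, `t ∈ (0, β i₀)`, and `lintegral_mono` (on the restricted measure: `setLIntegral_mono'`).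
-/

set_option autoImplicit false

namespace Claimed.Agent.R285.Pins

open MeasureTheory
open scoped Classical ENNReal

noncomputable section

/-- measurability in the temperature -/
theorem pn_bes_meas (k : ℤ) : Measurable fun t : ℝ => bes t k := pn_fz_meas k

/-- (FZ) the first zero identity in `∫⁻` form: `p_b(m + |k|) = ∫_0^b (m/t) p_t(m) p_{b-t}(k) dt`, `m ≥ 1` -/
theorem pn_bes_fz (b : ℝ) (hb : 0 < b) (m : ℤ) (hm : m ≠ 0) (k : ℤ) :
    ENNReal.ofReal (bes b (|m| + |k|))
      = ∫⁻ t in Set.Ioo (0 : ℝ) b, ENNReal.ofReal ((|m| : ℤ) / t * bes t m) * ENNReal.ofReal (bes (b - t) k) :=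
  pn_fz_main b hb m hm k

theorem pn_exm_meas_g (m : ℤ) : Measurable fun t : ℝ => ENNReal.ofReal ((|m| : ℤ) / t * bes t m) :=
  ((measurable_const.div measurable_id).mul (pn_bes_meas m)).ennreal_ofReal

theorem pn_exm_meas_p (b : ℝ) (k : ℤ) : Measurable fun t : ℝ => ENNReal.ofReal (bes (b - t) k) :=
  ((pn_bes_meas k).comp (measurable_const.sub measurable_id)).ennreal_ofReal

/-- one converted bond -/
theorem pn_exm_step {Z : Type} [Countable Z] (d : Z → ℝ≥0∞) (n : Z → ℤ) (b : ℝ) (hb : 0 < b) (m : ℤ) (hm : m ≠ 0) :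
    ∑' z, d z * ENNReal.ofReal (bes b (|m| + |n z|))
      = ∫⁻ t in Set.Ioo (0 : ℝ) b, ENNReal.ofReal ((|m| : ℤ) / t * bes t m) * ∑' z, d z * ENNReal.ofReal (bes (b - t) (n z)) := by
  have h1 : ∀ z, d z * ENNReal.ofReal (bes b (|m| + |n z|))
      = ∫⁻ t in Set.Ioo (0 : ℝ) b, ENNReal.ofReal ((|m| : ℤ) / t * bes t m) * (d z * ENNReal.ofReal (bes (b - t) (n z))) := by
    intro z
    rw [pn_bes_fz b hb m hm (n z)]
    have := lintegral_const_mul (μ := volume.restrict (Set.Ioo (0 : ℝ) b)) (d z) ((pn_exm_meas_g m).mul (pn_exm_meas_p b (n z)))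
    simp only [Pi.mul_apply] at this
    rw [← this]
    refine lintegral_congr fun t => ?_
    ring
  simp_rw [h1]
  rw [← lintegral_tsum]
  · refine lintegral_congr fun t => ?_
    rw [ENNReal.tsum_mul_left]
  · intro z
    exact ((pn_exm_meas_g m).mul (measurable_const.mul (pn_exm_meas_p b (n z)))).aemeasurable

/-- comparison for one converted bond -/
theorem pn_exm_one {Z : Type} [Countable Z] (d₁ d₂ : Z → ℝ≥0∞) (n : Z → ℤ) (b : ℝ) (hb : 0 < b) (m : ℤ) (κ : ℝ≥0∞)
    (hyp : ∀ x : ℝ, 0 < x → x ≤ b →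
      ∑' z, d₁ z * ENNReal.ofReal (bes x (n z)) ≤ κ * ∑' z, d₂ z * ENNReal.ofReal (bes x (n z))) :
    ∑' z, d₁ z * ENNReal.ofReal (bes b (|m| + |n z|)) ≤ κ * ∑' z, d₂ z * ENNReal.ofReal (bes b (|m| + |n z|)) := by
  by_cases hm : m = 0
  · have h0 : ∀ z, bes b (|m| + |n z|) = bes b (n z) := by
      intro z
      rw [hm, abs_zero, zero_add]
      rcases abs_choice (n z) with h | h
      · rw [h]
      · rw [h, bes_neg]
    simp_rw [h0]
    exact hyp b hb le_rfl
  · rw [pn_exm_step d₁ n b hb m hm, pn_exm_step d₂ n b hb m hm]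
    have hmeas : Measurable fun t : ℝ => ENNReal.ofReal ((|m| : ℤ) / t * bes t m) * ∑' z, d₂ z * ENNReal.ofReal (bes (b - t) (n z)) :=
      (pn_exm_meas_g m).mul (Measurable.tsum fun z => measurable_const.mul (pn_exm_meas_p b (n z)))
    rw [← lintegral_const_mul κ hmeas]
    refine setLIntegral_mono' measurableSet_Ioo fun t ht => ?_
    calc ENNReal.ofReal ((|m| : ℤ) / t * bes t m) * ∑' z, d₁ z * ENNReal.ofReal (bes (b - t) (n z))
        ≤ ENNReal.ofReal ((|m| : ℤ) / t * bes t m) * (κ * ∑' z, d₂ z * ENNReal.ofReal (bes (b - t) (n z))) := by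
          gcongr
          exact hyp (b - t) (by linarith [ht.2]) (by linarith [ht.1])
      _ = κ * (ENNReal.ofReal ((|m| : ℤ) / t * bes t m) * ∑' z, d₂ z * ENNReal.ofReal (bes (b - t) (n z))) := by ring

/-- **mixture lemma** -/
theorem pn_ex_mix {Z ι : Type} [Countable Z] [Fintype ι] (c₁ c₂ : Z → ℝ≥0∞) (n : ι → Z → ℤ) (m : ι → ℤ) (β : ι → ℝ) (hβ : ∀ i, 0 < β i)
    (κ : ℝ≥0∞)
    (hyp : ∀ τ : ι → ℝ, (∀ i, 0 < τ i ∧ τ i ≤ β i) →
      ∑' z, c₁ z * ∏ i, ENNReal.ofReal (bes (τ i) (n i z)) ≤ κ * ∑' z, c₂ z * ∏ i, ENNReal.ofReal (bes (τ i) (n i z))) :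
    ∑' z, c₁ z * ∏ i, ENNReal.ofReal (bes (β i) (|m i| + |n i z|))
      ≤ κ * ∑' z, c₂ z * ∏ i, ENNReal.ofReal (bes (β i) (|m i| + |n i z|)) := by
  have key : ∀ s : Finset ι, ∀ τ : ι → ℝ, (∀ i, 0 < τ i ∧ τ i ≤ β i) →
      ∑' z, c₁ z * ((∏ i ∈ s, ENNReal.ofReal (bes (β i) (|m i| + |n i z|))) * ∏ i ∈ sᶜ, ENNReal.ofReal (bes (τ i) (n i z)))
        ≤ κ * ∑' z, c₂ z * ((∏ i ∈ s, ENNReal.ofReal (bes (β i) (|m i| + |n i z|))) * ∏ i ∈ sᶜ, ENNReal.ofReal (bes (τ i) (n i z))) := by
    intro s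
    induction s using Finset.induction_on with
    | empty =>
      intro τ hτ
      simpa using hyp τ hτ
    | insert i₀ s hi₀ ih =>
      intro τ hτ
      -- the complement of `s` is `i₀` together with the complement of `insert i₀ s`
      have hc : sᶜ = insert i₀ (insert i₀ s)ᶜ := by
        ext i
        simp only [Finset.mem_compl, Finset.mem_insert, not_or]
        constructor
        · intro h
          by_cases hi : i = i₀
          · exact Or.inl hi
          · exact Or.inr ⟨hi, h⟩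
        · rintro (h | h)
          · rw [h]; exact hi₀
          · exact h.2
      have hni : i₀ ∉ (insert i₀ s)ᶜ := by simp
      have hre : ∀ (c : Z → ℝ≥0∞) (z : Z),
          c z * ((∏ i ∈ insert i₀ s, ENNReal.ofReal (bes (β i) (|m i| + |n i z|))) * ∏ i ∈ (insert i₀ s)ᶜ, ENNReal.ofReal (bes (τ i) (n i z)))
            = (c z * ((∏ i ∈ s, ENNReal.ofReal (bes (β i) (|m i| + |n i z|))) * ∏ i ∈ (insert i₀ s)ᶜ, ENNReal.ofReal (bes (τ i) (n i z))))
              * ENNReal.ofReal (bes (β i₀) (|m i₀| + |n i₀ z|)) := by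
        intro c z
        rw [Finset.prod_insert hi₀]
        ring
      simp_rw [hre]
      refine pn_exm_one _ _ (n i₀) (β i₀) (hβ i₀) (m i₀) κ fun x hx hxb => ?_
      have hτ' : ∀ i, 0 < Function.update τ i₀ x i ∧ Function.update τ i₀ x i ≤ β i := by
        intro i
        by_cases hi : i = i₀
        · subst hi
          simpa using ⟨hx, hxb⟩
        · simpa [Function.update_of_ne hi] using hτ i
      have := ih (Function.update τ i₀ x) hτ'
      have hre2 : ∀ (c : Z → ℝ≥0∞) (z : Z),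
          c z * ((∏ i ∈ s, ENNReal.ofReal (bes (β i) (|m i| + |n i z|))) * ∏ i ∈ sᶜ, ENNReal.ofReal (bes (Function.update τ i₀ x i) (n i z)))
            = (c z * ((∏ i ∈ s, ENNReal.ofReal (bes (β i) (|m i| + |n i z|))) * ∏ i ∈ (insert i₀ s)ᶜ, ENNReal.ofReal (bes (τ i) (n i z))))
              * ENNReal.ofReal (bes x (n i₀ z)) := by
        intro c z
        rw [hc, Finset.prod_insert hni, Function.update_self]
        have : ∏ i ∈ (insert i₀ s)ᶜ, ENNReal.ofReal (bes (Function.update τ i₀ x i) (n i z))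
            = ∏ i ∈ (insert i₀ s)ᶜ, ENNReal.ofReal (bes (τ i) (n i z)) := by
          refine Finset.prod_congr rfl fun i hi => ?_
          have : i ≠ i₀ := by
            rintro rfl
            exact hni hi
          rw [Function.update_of_ne this]
        rw [this]
        ring
      simp_rw [hre2] at this
      exact this
  have := key Finset.univ β fun i => ⟨hβ i, le_rfl⟩
  simpa using this

end

end Claimed.Agent.R285.Pins
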