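import Claimed.Agent.R285.Pins.ExFib
import Claimed.Agent.R285.Pins.ExMix

/-!
# ROW 285, PINS-EXPLORE: the exploration Markov property as a TRANSFER PRINCIPLE (architect helper85; assembly PROVED, no own `sorry`)

[B]s3 l.233-252, [C]s3 l.262-283: "Conditional on a completed exploration, the unvisited law before band weighting is a centred law with additional zero pins and tightened outgoing segments."
Exact form on the primary graph: the posterior of `(k, ω₂)` = (unvisited heights, unvisited bond states) is a MIXTURE over the boundary temperatures `0 < β' ≤ β` of the base FK-height measures pinned on `P ∪ U`.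
Consumers only use: an inequality `ext β' (P ∪ U) Ψ₁ ≤ κ ext β' (P ∪ U) Ψ₂` which holds for all boundary temperatures passes to the joint law, against every nonnegative functional of the exploration.
`Ψᵢ U u k ω₂`: `U` visited set, `u` visited heights (zero off `U`), `k` unvisited heights (zero on `U`), `ω₂` bond states off `U`.  Band weights, tilts, events, damping factors are all part of `Ψᵢ`.
-/

set_option autoImplicit false

namespace Claimed.Agent.R285.Pins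

open scoped Classical ENNReal

noncomputable section

variable (G : HGraph)

/-- the posterior sum in terms of `exB` -/
theorem pn_ex_post (β : G.E → ℝ) (hβ : ∀ e, 0 ≤ β e) (P U : Set G.V) (Ψ : (G.V → ℤ) → (G.E → Bool) → ℝ≥0∞) :
    ext G β (P ∪ U) Ψ = ENNReal.ofReal (∏ e, if G.src e ∈ U ∧ G.tgt e ∈ U then bes (β e) 0 else 1)
      * exB G β (P ∪ U) U (fun e n => ENNReal.ofReal (bes (β e) n)) Ψ := by
  unfold ext exB
  rw [← ENNReal.tsum_mul_left]
  refine tsum_congr fun k => ?_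
  rw [Finset.mul_sum]
  refine Finset.sum_congr rfl fun ω _ => ?_
  have hk : ∀ v ∈ U, (k : G.V → ℤ) v = 0 := fun v hv => k.2 v (Or.inr hv)
  rw [pn_ex_weight_post G β hβ U k hk ω]
  split_ifs
  · ring
  · simp

/-- `wBd` as a product over the boundary bonds -/
theorem pn_exa_wBd (U : Set G.V) (ρ : G.E → ℤ → ℝ≥0∞) (k : G.V → ℤ) :
    wBd G U ρ k = ∏ i : {e : G.E // bdry G U e}, ρ i.1 (k (G.src i.1) + k (G.tgt i.1)) := by
  unfold wBd
  rw [← Finset.prod_filter]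
  exact Finset.prod_subtype (Finset.univ.filter fun e => bdry G U e) (fun x => by simp) _

/-- `exB` as one sum -/
theorem pn_exa_exB (β : G.E → ℝ) (Q U : Set G.V) (ρ : G.E → ℤ → ℝ≥0∞) (Ψ : (G.V → ℤ) → (G.E → Bool) → ℝ≥0∞) :
    exB G β Q U ρ Ψ = ∑' z : HLaw.pinned Q × (G.E → Bool),
      (if maskOut G U z.2 = z.2 then Ψ z.1 z.2 * ENNReal.ofReal (wOut G β U z.1 z.2) else 0)
        * ∏ i : {e : G.E // bdry G U e}, ρ i.1 ((z.1 : G.V → ℤ) (G.src i.1) + (z.1 : G.V → ℤ) (G.tgt i.1)) := by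
  unfold exB
  rw [ENNReal.tsum_prod']
  refine tsum_congr fun k => ?_
  rw [tsum_fintype]
  refine Finset.sum_congr rfl fun ω _ => ?_
  rw [pn_exa_wBd]
  split_ifs
  · ring
  · simp

/-- mixture lemma on the graph -/
theorem pn_ex_mix_graph (β : G.E → ℝ) (hβ : ∀ e, 0 < β e) (Q U : Set G.V) (u : G.V → ℤ) (κ : ℝ≥0∞)
    (Ψ₁ Ψ₂ : (G.V → ℤ) → (G.E → Bool) → ℝ≥0∞)
    (hyp : ∀ β' : G.E → ℝ, (∀ e, 0 < β' e ∧ β' e ≤ β e) → (∀ e, ¬ bdry G U e → β' e = β e) →
      exB G β Q U (fun e n => ENNReal.ofReal (bes (β' e) n)) Ψ₁ ≤ κ * exB G β Q U (fun e n => ENNReal.ofReal (bes (β' e) n)) Ψ₂) :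
    exB G β Q U (fun e n => ENNReal.ofReal (bes (β e) (|u (G.src e) + u (G.tgt e)| + |n|))) Ψ₁
      ≤ κ * exB G β Q U (fun e n => ENNReal.ofReal (bes (β e) (|u (G.src e) + u (G.tgt e)| + |n|))) Ψ₂ := by
  rw [pn_exa_exB, pn_exa_exB]
  refine pn_ex_mix (Z := HLaw.pinned Q × (G.E → Bool)) (ι := {e : G.E // bdry G U e})
    (fun z => if maskOut G U z.2 = z.2 then Ψ₁ z.1 z.2 * ENNReal.ofReal (wOut G β U z.1 z.2) else 0)
    (fun z => if maskOut G U z.2 = z.2 then Ψ₂ z.1 z.2 * ENNReal.ofReal (wOut G β U z.1 z.2) else 0)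
    (fun i z => (z.1 : G.V → ℤ) (G.src i.1) + (z.1 : G.V → ℤ) (G.tgt i.1))
    (fun i => u (G.src i.1) + u (G.tgt i.1)) (fun i => β i.1) (fun i => hβ i.1) κ ?_
  intro τ hτ
  have h := hyp (fun e => if h : bdry G U e then τ ⟨e, h⟩ else β e)
    (fun e => by
      by_cases h : bdry G U e
      · simpa [h] using hτ ⟨e, h⟩
      · simpa [h] using hβ e)
    (fun e he => by simp [he])
  rw [pn_exa_exB, pn_exa_exB] at h
  have e1 : ∀ (z : HLaw.pinned Q × (G.E → Bool)),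
      ∏ i : {e : G.E // bdry G U e}, ENNReal.ofReal (bes (if h : bdry G U i.1 then τ ⟨i.1, h⟩ else β i.1)
          ((z.1 : G.V → ℤ) (G.src i.1) + (z.1 : G.V → ℤ) (G.tgt i.1)))
        = ∏ i : {e : G.E // bdry G U e}, ENNReal.ofReal (bes (τ i) ((z.1 : G.V → ℤ) (G.src i.1) + (z.1 : G.V → ℤ) (G.tgt i.1))) := by
    intro z
    refine Finset.prod_congr rfl fun i _ => ?_
    rw [dif_pos i.2]
  simp only [e1] at h
  exact h

/-- the fibre sum of a product integrand -/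
theorem pn_exa_fibre (β : G.E → ℝ) (hβ : ∀ e, 0 ≤ β e) (P A : Set G.V)
    (Ψ : Set G.V → (G.V → ℤ) → (G.V → ℤ) → (G.E → Bool) → ℝ≥0∞)
    (F : (G.V → ℤ) → (G.E → Bool) → ℝ≥0∞) (hF : ExpMeas G A F) (h₀ : G.V → ℤ) (hh₀ : h₀ ∈ HLaw.pinned P) (ω₀ : G.E → Bool) :
    ∑' x : {x : HLaw.pinned P × (G.E → Bool) // expl G A x.1 x.2 = expl G A h₀ ω₀},
        (F x.1.1 x.1.2 * Ψ (vis G x.1.2 A) (resZ G (vis G x.1.2 A) x.1.1) (resZ G (vis G x.1.2 A)ᶜ x.1.1) (maskOut G (vis G x.1.2 A) x.1.2))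
          * ENNReal.ofReal (fkW G β x.1.1 x.1.2)
      = F h₀ ω₀ * ENNReal.ofReal (wIn G β (vis G ω₀ A) (resZ G (vis G ω₀ A) h₀) ω₀)
        * exB G β (P ∪ vis G ω₀ A) (vis G ω₀ A)
            (fun e n => ENNReal.ofReal (bes (β e) (|resZ G (vis G ω₀ A) h₀ (G.src e) + resZ G (vis G ω₀ A) h₀ (G.tgt e)| + |n|)))
            (Ψ (vis G ω₀ A) (resZ G (vis G ω₀ A) h₀)) := by
  rw [pn_ex_fiber G P A h₀ hh₀ ω₀ (fun h ω =>
    (F h ω * Ψ (vis G ω A) (resZ G (vis G ω A) h) (resZ G (vis G ω A)ᶜ h) (maskOut G (vis G ω A) ω)) * ENNReal.ofReal (fkW G β h ω))]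
  set U := vis G ω₀ A with hU
  set u := resZ G U h₀ with hu
  unfold exB
  rw [← ENNReal.tsum_mul_left]
  refine tsum_congr fun k => ?_
  rw [Finset.mul_sum]
  refine Finset.sum_congr rfl fun ω₂ _ => ?_
  by_cases hm : maskOut G U ω₂ = ω₂
  · rw [if_pos hm, if_pos hm]
    have hk : ∀ v ∈ U, (k : G.V → ℤ) v = 0 := fun v hv => k.2 v (Or.inr hv)
    have hu0 : ∀ v, v ∉ U → u v = 0 := fun v hv => by simp [hu, resZ, hv]
    have hvis : vis G (glue G U ω₀ ω₂) A = U := pn_vis_glue G ω₀ ω₂ A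
    have hFe : F (u + k) (glue G U ω₀ ω₂) = F h₀ ω₀ := by
      refine hF _ _ _ _ hvis ?_ ?_
      · intro v hv
        rw [hvis] at hv
        simp [hu, resZ, hv, hk v hv]
      · intro e he
        rw [hvis] at he
        simp [glue, he]
    have h1 : resZ G U (u + k) = u := by
      funext v
      by_cases hv : v ∈ U
      · simp [resZ, hv, hk v hv]
      · simp [resZ, hv, hu]
    have h2 : resZ G Uᶜ (u + k) = k := by
      funext v
      by_cases hv : v ∈ U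
      · simp [resZ, hv, hk v hv]
      · simp [resZ, hv, hu]
    have h3 : maskOut G U (glue G U ω₀ ω₂) = ω₂ := by
      rw [← hm]
      funext e
      by_cases he : touch G U e <;> simp [maskOut, glue, he]
    rw [hvis, hFe, h1, h2, h3, pn_ex_weight_glue G β hβ U u k hu0 hk ω₀ ω₂ (fun e he => pn_vis_bdry G ω₀ A e he)]
    ring
  · rw [if_neg hm, if_neg hm, mul_zero]

/-- **exploration transfer principle** -/
theorem pn_ex_transfer (β : G.E → ℝ) (hβ : ∀ e, 0 < β e) (P A : Set G.V) (κ : ℝ≥0∞)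
    (Ψ₁ Ψ₂ : Set G.V → (G.V → ℤ) → (G.V → ℤ) → (G.E → Bool) → ℝ≥0∞)
    (hyp : ∀ (U : Set G.V) (u : G.V → ℤ) (β' : G.E → ℝ), A ⊆ U → (∀ v, v ∉ U → u v = 0) → (∀ e, 0 < β' e ∧ β' e ≤ β e) →
      (∀ e, ¬ bdry G U e → β' e = β e) → ext G β' (P ∪ U) (Ψ₁ U u) ≤ κ * ext G β' (P ∪ U) (Ψ₂ U u))
    (F : (G.V → ℤ) → (G.E → Bool) → ℝ≥0∞) (hF : ExpMeas G A F) :
    ext G β P (fun h ω => F h ω *
        Ψ₁ (vis G ω A) (resZ G (vis G ω A) h) (resZ G (vis G ω A)ᶜ h) (maskOut G (vis G ω A) ω))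
      ≤ κ * ext G β P (fun h ω => F h ω *
        Ψ₂ (vis G ω A) (resZ G (vis G ω A) h) (resZ G (vis G ω A)ᶜ h) (maskOut G (vis G ω A) ω)) := by
  have hβ0 : ∀ e, 0 ≤ β e := fun e => (hβ e).le
  rw [pn_ex_fiberwise G β P A, pn_ex_fiberwise G β P A, ← ENNReal.tsum_mul_left]
  refine ENNReal.tsum_le_tsum fun y => ?_
  by_cases hne : Nonempty {x : HLaw.pinned P × (G.E → Bool) // expl G A x.1 x.2 = y}
  · obtain ⟨⟨⟨h₀, ω₀⟩, hx⟩⟩ := hne
    simp only at hx
    subst hx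
    rw [pn_exa_fibre G β hβ0 P A Ψ₁ F hF h₀ h₀.2 ω₀, pn_exa_fibre G β hβ0 P A Ψ₂ F hF h₀ h₀.2 ω₀]
    set U := vis G ω₀ A with hU
    set u := resZ G U (h₀ : G.V → ℤ) with hu
    have hmix := pn_ex_mix_graph G β hβ (P ∪ U) U u κ (Ψ₁ U u) (Ψ₂ U u) (by
      intro β' hβ' hoff
      have h := hyp U u β' (pn_vis_sub G ω₀ A) (fun v hv => by simp [hu, resZ, hv]) hβ' hoff
      rw [pn_ex_post G β' (fun e => (hβ' e).1.le), pn_ex_post G β' (fun e => (hβ' e).1.le)] at h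
      have hc0 : ENNReal.ofReal (∏ e, if G.src e ∈ U ∧ G.tgt e ∈ U then bes (β' e) 0 else 1) ≠ 0 := by
        rw [Ne, ENNReal.ofReal_eq_zero, not_le]
        refine Finset.prod_pos fun e _ => ?_
        split_ifs
        · exact bes_pos _ (hβ' e).1 _
        · exact one_pos
      have hw : ∀ Ψ : (G.V → ℤ) → (G.E → Bool) → ℝ≥0∞,
          exB G β' (P ∪ U) U (fun e n => ENNReal.ofReal (bes (β' e) n)) Ψ = exB G β (P ∪ U) U (fun e n => ENNReal.ofReal (bes (β' e) n)) Ψ := by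
        intro Ψ
        unfold exB
        simp only [pn_ex_wOut_congr G β β' U hoff]
      rw [hw, hw, mul_left_comm] at h
      exact (ENNReal.mul_le_mul_iff_right hc0 ENNReal.ofReal_ne_top).1 h)
    calc F h₀ ω₀ * ENNReal.ofReal (wIn G β U u ω₀) * exB G β (P ∪ U) U _ (Ψ₁ U u)
        ≤ F h₀ ω₀ * ENNReal.ofReal (wIn G β U u ω₀) * (κ * exB G β (P ∪ U) U _ (Ψ₂ U u)) := mul_le_mul_right hmix _
      _ = κ * (F h₀ ω₀ * ENNReal.ofReal (wIn G β U u ω₀) * exB G β (P ∪ U) U _ (Ψ₂ U u)) := by ring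
  · have : IsEmpty {x : HLaw.pinned P × (G.E → Bool) // expl G A x.1 x.2 = y} := not_nonempty_iff.1 hne
    simp

end

end Claimed.Agent.R285.Pins
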