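import Claimed.Agent.R285.Pins.ExDefs

/-!
# ROW 285, PINS-EXPLORE 1: the visited set is determined by the bonds touching it (leaf L-PIN-EX1; architect helper85; PROVED by helper5, no `sorry`).   Paper-free, pure graph combinatorics (inductions on `Relation.ReflTransGen`).
-/

set_option autoImplicit false

namespace Claimed.Agent.R285.Pins

open scoped Classical ENNReal

noncomputable section

variable (G : HGraph)

theorem pn_exv_adj_symm (ω : G.E → Bool) {x y : G.V} (h : oAdj G ω x y) : oAdj G ω y x := by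
  obtain ⟨e, he, h1⟩ := h
  exact ⟨e, he, h1.symm⟩

theorem pn_exv_conn_symm (ω : G.E → Bool) {x y : G.V} (h : conn G ω x y) : conn G ω y x := by
  induction h with
  | refl => exact Relation.ReflTransGen.refl
  | tail _ hadj ih => exact Relation.ReflTransGen.head (pn_exv_adj_symm G ω hadj) ih

theorem pn_exv_vis_adj (ω : G.E → Bool) (A : Set G.V) {x y : G.V} (hx : x ∈ vis G ω A) (h : oAdj G ω x y) : y ∈ vis G ω A := by
  obtain ⟨a, ha, hc⟩ := hx
  exact ⟨a, ha, hc.tail h⟩

theorem pn_exv_vis_conn (ω : G.E → Bool) (A : Set G.V) {x y : G.V} (hx : x ∈ vis G ω A) (h : conn G ω x y) : y ∈ vis G ω A := by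
  obtain ⟨a, ha, hc⟩ := hx
  exact ⟨a, ha, hc.trans h⟩

theorem pn_vis_sub (ω : G.E → Bool) (A : Set G.V) : A ⊆ vis G ω A :=
  fun a ha => ⟨a, ha, Relation.ReflTransGen.refl⟩

/-- the boundary bonds of the visited set are closed -/
theorem pn_vis_bdry (ω : G.E → Bool) (A : Set G.V) (e : G.E) (he : bdry G (vis G ω A) e) : ω e = false := by
  by_contra hcon
  have ho : ω e = true := by simpa using hcon
  apply he
  constructor
  · intro h
    exact pn_exv_vis_adj G ω A h ⟨e, ho, Or.inl ⟨rfl, rfl⟩⟩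
  · intro h
    exact pn_exv_vis_adj G ω A h ⟨e, ho, Or.inr ⟨rfl, rfl⟩⟩

/-- locality -/
theorem pn_vis_local (ω ω' : G.E → Bool) (A : Set G.V) (h : ∀ e, touch G (vis G ω A) e → ω e = ω' e) : vis G ω' A = vis G ω A := by
  ext v
  constructor
  · rintro ⟨a, ha, hc⟩
    induction hc with
    | refl => exact pn_vis_sub G ω A ha
    | tail _ hadj ih =>
      obtain ⟨e, he, h1⟩ := hadj
      have htc : touch G (vis G ω A) e := by
        rcases h1 with ⟨h2, _⟩ | ⟨_, h2⟩
        · exact Or.inl (h2 ▸ ih)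
        · exact Or.inr (h2 ▸ ih)
      exact pn_exv_vis_adj G ω A ih ⟨e, (h e htc).trans he, h1⟩
  · rintro ⟨a, ha, hc⟩
    refine ⟨a, ha, ?_⟩
    induction hc with
    | refl => exact Relation.ReflTransGen.refl
    | @tail x y hxc hadj ih =>
      obtain ⟨e, he, h1⟩ := hadj
      have hx : x ∈ vis G ω A := ⟨a, ha, hxc⟩
      have htc : touch G (vis G ω A) e := by
        rcases h1 with ⟨h2, _⟩ | ⟨_, h2⟩
        · exact Or.inl (h2 ▸ hx)
        · exact Or.inr (h2 ▸ hx)
      exact ih.tail ⟨e, (h e htc).symm.trans he, h1⟩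

theorem pn_vis_glue (ω ω₂ : G.E → Bool) (A : Set G.V) : vis G (glue G (vis G ω A) ω ω₂) A = vis G ω A := by
  refine pn_vis_local G ω _ A fun e he => ?_
  simp [glue, he]

theorem pn_exv_resZ_eq (U : Set G.V) (h h' : G.V → ℤ) : resZ G U h = resZ G U h' ↔ ∀ v ∈ U, h v = h' v := by
  constructor
  · intro hh v hv
    have := congrFun hh v
    simpa [resZ, hv] using this
  · intro hh
    funext v
    by_cases hv : v ∈ U
    · simp [resZ, hv, hh v hv]
    · simp [resZ, hv]

theorem pn_exv_glue_eq (U : Set G.V) (ω ω' : G.E → Bool) :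
    glue G U ω (fun _ => false) = glue G U ω' (fun _ => false) ↔ ∀ e, touch G U e → ω e = ω' e := by
  constructor
  · intro hh e he
    have := congrFun hh e
    simpa [glue, he] using this
  · intro hh
    funext e
    by_cases he : touch G U e
    · simp [glue, he, hh e he]
    · simp [glue, he]

theorem pn_exv_expl_eq (A : Set G.V) (h h' : G.V → ℤ) (ω ω' : G.E → Bool) : expl G A h ω = expl G A h' ω' ↔
    vis G ω A = vis G ω' A ∧ (∀ v ∈ vis G ω A, h v = h' v) ∧ ∀ e, touch G (vis G ω A) e → ω e = ω' e := by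
  unfold expl
  rw [Prod.ext_iff, Prod.ext_iff]
  simp only
  constructor
  · rintro ⟨h1, h2, h3⟩
    rw [← h1] at h2 h3
    exact ⟨h1, (pn_exv_resZ_eq G _ _ _).1 h2, (pn_exv_glue_eq G _ _ _).1 h3⟩
  · rintro ⟨h1, h2, h3⟩
    rw [← h1]
    exact ⟨rfl, (pn_exv_resZ_eq G _ _ _).2 h2, (pn_exv_glue_eq G _ _ _).2 h3⟩

/-- `ExpMeas` = function of the exploration data -/
theorem pn_expMeas_iff (A : Set G.V) (F : (G.V → ℤ) → (G.E → Bool) → ℝ≥0∞) :
    ExpMeas G A F ↔ ∀ h h' ω ω', expl G A h ω = expl G A h' ω' → F h ω = F h' ω' := by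
  constructor
  · intro hF h h' ω ω' he
    obtain ⟨h1, h2, h3⟩ := (pn_exv_expl_eq G A h h' ω ω').1 he
    exact hF h h' ω ω' h1 h2 h3
  · intro hF h h' ω ω' h1 h2 h3
    exact hF h h' ω ω' ((pn_exv_expl_eq G A h h' ω ω').2 ⟨h1, h2, h3⟩)

theorem pn_exv_mask_adj (U : Set G.V) (ω : G.E → Bool) {x y : G.V} (h : oAdj G (maskOut G U ω) x y) : oAdj G ω x y := by
  obtain ⟨e, he, h1⟩ := h
  refine ⟨e, ?_, h1⟩
  unfold maskOut at he
  by_cases htc : touch G U e
  · simp [htc] at he
  · simpa [htc] using he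

/-- clusters off the visited set are not changed by masking -/
theorem pn_conn_mask (ω : G.E → Bool) (A : Set G.V) (x y : G.V) (hx : x ∉ vis G ω A) :
    conn G (maskOut G (vis G ω A) ω) x y ↔ conn G ω x y := by
  constructor
  · intro h
    induction h with
    | refl => exact Relation.ReflTransGen.refl
    | tail _ hadj ih => exact ih.tail (pn_exv_mask_adj G _ ω hadj)
  · intro h
    induction h with
    | refl => exact Relation.ReflTransGen.refl
    | @tail y z hxy hadj ih =>
      have hy : y ∉ vis G ω A := fun hy => hx (pn_exv_vis_conn G ω A hy (pn_exv_conn_symm G ω hxy))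
      have hz : z ∉ vis G ω A := fun hz => hy (pn_exv_vis_adj G ω A hz (pn_exv_adj_symm G ω hadj))
      obtain ⟨e, he, h1⟩ := hadj
      refine ih.tail ⟨e, ?_, h1⟩
      have htc : ¬ touch G (vis G ω A) e := by
        rintro (h2 | h2)
        · rcases h1 with ⟨h3, _⟩ | ⟨h3, _⟩
          · exact hy (h3 ▸ h2)
          · exact hz (h3 ▸ h2)
        · rcases h1 with ⟨_, h3⟩ | ⟨_, h3⟩
          · exact hz (h3 ▸ h2)
          · exact hy (h3 ▸ h2)
      simp [maskOut, htc, he]

/-- a visited site is isolated in the masked configuration -/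
theorem pn_conn_mask_in (ω : G.E → Bool) (U : Set G.V) (x y : G.V) (hx : x ∈ U) : conn G (maskOut G U ω) x y ↔ x = y := by
  constructor
  · intro h
    rcases Relation.ReflTransGen.cases_head h with h | ⟨z, hadj, _⟩
    · exact h
    · exfalso
      obtain ⟨e, he, h1⟩ := hadj
      have htc : touch G U e := by
        rcases h1 with ⟨h2, _⟩ | ⟨_, h2⟩
        · exact Or.inl (h2 ▸ hx)
        · exact Or.inr (h2 ▸ hx)
      simp [maskOut, htc] at he
  · rintro rfl
    exact Relation.ReflTransGen.refl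

theorem pn_vis_singleton (ω : G.E → Bool) (x : G.V) : vis G ω {x} = clu G ω x := by
  ext v
  simp [vis, clu]

/-- the cluster quantities split at the visited set: `Q = Q_vis + Q_U` -/
theorem pn_cq_vis (ω : G.E → Bool) (A : Set G.V) (f g : G.V → ℝ) (h : G.V → ℤ) :
    cq G ω f g h = cq G ω (resF G (vis G ω A) f) (resF G (vis G ω A) g) h
      + cq G (maskOut G (vis G ω A) ω) f g (resZ G (vis G ω A)ᶜ h) := by
  unfold cq
  rw [← Finset.sum_add_distrib]
  refine Finset.sum_congr rfl fun x _ => ?_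
  rw [← Finset.sum_add_distrib]
  refine Finset.sum_congr rfl fun y _ => ?_
  by_cases hx : x ∈ vis G ω A
  · have h2 : resZ G (vis G ω A)ᶜ h x = 0 := by simp [resZ, hx]
    by_cases hc : conn G ω x y
    · have hy : y ∈ vis G ω A := pn_exv_vis_conn G ω A hx hc
      simp [hc, resF, hx, hy, h2]
    · simp [hc, h2]
  · have h1 : resF G (vis G ω A) f x = 0 := by simp [resF, hx]
    have h2 : resZ G (vis G ω A)ᶜ h x = h x := by simp [resZ, hx]
    rw [pn_conn_mask G ω A x y hx]
    by_cases hc : conn G ω x y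
    · have hy : y ∉ vis G ω A := fun hy => hx (pn_exv_vis_conn G ω A hy (pn_exv_conn_symm G ω hc))
      have h3 : resZ G (vis G ω A)ᶜ h y = h y := by simp [resZ, hy]
      simp [hc, h1, h2, h3]
    · simp [hc]

/-- one exposed cluster: `∑_{C ⊆ clu x} S_C(f) S_C(g) = S_{C_x}(f) S_{C_x}(g)` -/
theorem pn_cq_clu (ω : G.E → Bool) (x : G.V) (f g : G.V → ℝ) (h : G.V → ℤ) :
    cq G ω (resF G (clu G ω x) f) (resF G (clu G ω x) g) h = lin (resF G (clu G ω x) f) h * lin (resF G (clu G ω x) g) h := by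
  unfold cq lin
  rw [Finset.sum_mul_sum]
  refine Finset.sum_congr rfl fun a _ => ?_
  refine Finset.sum_congr rfl fun b _ => ?_
  by_cases ha : a ∈ clu G ω x
  · by_cases hb : b ∈ clu G ω x
    · have hc : conn G ω a b := (pn_exv_conn_symm G ω ha).trans hb
      simp [hc]
    · simp [resF, hb]
  · simp [resF, ha]

end

end Claimed.Agent.R285.Pins
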