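import Claimed.Agent.R285.Pins.FkDefs
import Claimed.Agent.R285.Rsd.Bes

/-!
# ROW 285, PINS-FK 1: the bond weights, the marginal, the flip symmetry, the support (leaf L-PIN-FK1; architect helper85; PROVED by helper5, no `sorry`)

Paper-free.  Input: `bes_nonneg`, `bes_neg` (`Rsd/Bes.lean`) and the two-step monotonicity `pn_bes_two_step` (termwise comparison of the power series:
the term `m+1` of `I_j` dominates the term `m` of `I_{j+2}`: ratio `(m+1)/(m+j+2) ≤ 1`).
-/

set_option autoImplicit false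

namespace Claimed.Agent.R285.Pins

open scoped Classical ENNReal

noncomputable section

/-- `I_{j+2} ≤ I_j` -/
theorem pn_bes_two_step (β : ℝ) (hβ : 0 ≤ β) (j : ℕ) : bes β ((j : ℤ) + 2) ≤ bes β j := by
  unfold bes
  have e1 : ((j : ℤ) + 2).natAbs = j + 2 := by omega
  have e2 : ((j : ℕ) : ℤ).natAbs = j := Int.natAbs_natCast j
  rw [e1, e2]
  refine mul_le_mul_of_nonneg_left ?_ (Real.exp_pos _).le
  have hs2 := bes_inner_summable β ((j : ℤ) + 2)
  have hs0 := bes_inner_summable β (j : ℤ)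
  rw [e1] at hs2
  rw [e2] at hs0
  rw [hs0.tsum_eq_zero_add]
  have hs1 : Summable fun m : ℕ => (β / 2) ^ (2 * (m + 1) + j) / (((m + 1).factorial : ℝ) * ((m + 1 + j).factorial : ℝ)) :=
    (summable_nat_add_iff 1).2 hs0
  have h0 : 0 ≤ (β / 2) ^ (2 * 0 + j) / (((0 : ℕ).factorial : ℝ) * ((0 + j).factorial : ℝ)) := by positivity
  refine le_trans (hs2.tsum_le_tsum (fun m => ?_) hs1) (le_add_of_nonneg_left h0)
  have e3 : 2 * (m + 1) + j = 2 * m + (j + 2) := by ring
  rw [e3]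
  refine div_le_div_of_nonneg_left (by positivity) (by positivity) ?_
  have e4 : m + (j + 2) = (m + 1 + j) + 1 := by ring
  rw [e4, Nat.factorial_succ m, Nat.factorial_succ (m + 1 + j)]
  push_cast
  have h1 : (0 : ℝ) ≤ (m.factorial : ℝ) := by positivity
  have h2 : (0 : ℝ) ≤ ((m + 1 + j).factorial : ℝ) := by positivity
  have h3 : (0 : ℝ) ≤ (m.factorial : ℝ) * ((m + 1 + j).factorial : ℝ) := mul_nonneg h1 h2
  have h4 : (0 : ℝ) ≤ (j : ℝ) := by positivity
  nlinarith [mul_nonneg h3 h4, h3]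

theorem pn_fkb_steps (β : ℝ) (hβ : 0 ≤ β) (n r : ℕ) : bes β ((n : ℤ) + 2 * r) ≤ bes β n := by
  induction r with
  | zero => simp
  | succ r ih =>
    refine le_trans ?_ ih
    have := pn_bes_two_step β hβ (n + 2 * r)
    have e : ((n : ℤ) + 2 * ((r + 1 : ℕ) : ℤ)) = ((n + 2 * r : ℕ) : ℤ) + 2 := by push_cast; ring
    have e' : ((n : ℤ) + 2 * (r : ℤ)) = ((n + 2 * r : ℕ) : ℤ) := by push_cast; ring
    rw [e, e']
    exact this

theorem pn_fkb_abs (b : ℝ) (n : ℤ) : bes b |n| = bes b n := by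
  rcases abs_choice n with h | h
  · rw [h]
  · rw [h, bes_neg]

/-- `|i| ≤ |j|`, same parity: `p(j) ≤ p(i)` in the form used here -/
theorem pn_bes_sum_le_diff (β : ℝ) (hβ : 0 ≤ β) (x y : ℤ) : bes β (|x| + |y|) ≤ bes β (|x| - |y|) := by
  rw [← pn_fkb_abs β (|x| - |y|)]
  have h := pn_fkb_steps β hβ (|x| - |y|).natAbs (min x.natAbs y.natAbs)
  have e1 : (((|x| - |y|).natAbs : ℕ) : ℤ) = |(|x| - |y|)| := by rw [Int.abs_eq_natAbs (|x| - |y|)]
  have e2 : (((|x| - |y|).natAbs : ℕ) : ℤ) + 2 * ((min x.natAbs y.natAbs : ℕ) : ℤ) = |x| + |y| := by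
    rw [Int.abs_eq_natAbs x, Int.abs_eq_natAbs y]
    rcases le_total x.natAbs y.natAbs with hxy | hxy
    · rw [min_eq_left hxy]; omega
    · rw [min_eq_right hxy]; omega
  rw [e2, e1] at h
  exact h

theorem pn_fk_cl_nonneg (β : ℝ) (hβ : 0 ≤ β) (x y : ℤ) : 0 ≤ fkCl β x y := bes_nonneg β hβ _

theorem pn_fk_op_nonneg (β : ℝ) (hβ : 0 ≤ β) (x y : ℤ) : 0 ≤ fkOp β x y := by
  unfold fkOp
  split_ifs
  · exact sub_nonneg.2 (pn_bes_sum_le_diff β hβ x y)
  · exact le_rfl

/-- open + closed = bare -/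
theorem pn_fk_bond (β : ℝ) (x y : ℤ) : fkOp β x y + fkCl β x y = bes β (y - x) := by
  unfold fkOp fkCl
  by_cases h : 0 < x * y
  · rw [if_pos h, sub_add_cancel]
    rcases (mul_pos_iff.1 h) with ⟨hx, hy⟩ | ⟨hx, hy⟩
    · rw [abs_of_pos hx, abs_of_pos hy, ← bes_neg]
      congr 1; ring
    · rw [abs_of_neg hx, abs_of_neg hy]
      congr 1; ring
  · rw [if_neg h, zero_add]
    have h' : x * y ≤ 0 := not_lt.1 h
    rcases (mul_nonpos_iff.1 h') with ⟨hx, hy⟩ | ⟨hx, hy⟩
    · rw [abs_of_nonneg hx, abs_of_nonpos hy, ← bes_neg]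
      congr 1; ring
    · rw [abs_of_nonpos hx, abs_of_nonneg hy]
      congr 1; ring

variable (G : HGraph)

theorem pn_fk_nonneg (β : G.E → ℝ) (hβ : ∀ e, 0 ≤ β e) (h : G.V → ℤ) (ω : G.E → Bool) : 0 ≤ fkW G β h ω := by
  unfold fkW
  refine Finset.prod_nonneg fun e _ => ?_
  split_ifs
  · exact pn_fk_op_nonneg _ (hβ e) _ _
  · exact pn_fk_cl_nonneg _ (hβ e) _ _

theorem pn_fk_sum (β : G.E → ℝ) (h : G.V → ℤ) : ∑ ω : G.E → Bool, fkW G β h ω = bareW G β h := by
  unfold fkW bareW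
  have := Finset.prod_univ_sum (fun _ : G.E => (Finset.univ : Finset Bool))
    (fun e (o : Bool) => if o = true then fkOp (β e) (h (G.src e)) (h (G.tgt e)) else fkCl (β e) (h (G.src e)) (h (G.tgt e)))
  rw [Fintype.piFinset_univ] at this
  rw [← this]
  refine Finset.prod_congr rfl fun e _ => ?_
  rw [Fintype.sum_bool]
  simp only [if_true, Bool.false_eq_true, if_false]
  exact pn_fk_bond _ _ _

theorem pn_fkb_unit_abs (s : ℤˣ) (n : ℤ) : |(s : ℤ) * n| = |n| := by
  rcases Int.units_eq_one_or s with h | h <;> simp [h]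

theorem pn_fkb_unit_sq (s : ℤˣ) : (s : ℤ) * (s : ℤ) = 1 := by
  rcases Int.units_eq_one_or s with h | h <;> simp [h]

/-- flipping the sign on a union of clusters preserves the extended weight -/
theorem pn_fk_flip (β : G.E → ℝ) (h : G.V → ℤ) (ω : G.E → Bool) (s : G.V → ℤˣ) (hs : s ∈ Sg G ω) :
    fkW G β (sgAct s h) ω = fkW G β h ω := by
  unfold fkW
  refine Finset.prod_congr rfl fun e _ => ?_
  by_cases he : ω e = true
  · rw [if_pos he, if_pos he]
    have h1 : s (G.src e) = s (G.tgt e) := hs e he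
    unfold fkOp sgAct
    rw [pn_fkb_unit_abs, pn_fkb_unit_abs, h1]
    have : ((s (G.tgt e) : ℤˣ) : ℤ) * h (G.src e) * (((s (G.tgt e) : ℤˣ) : ℤ) * h (G.tgt e)) = h (G.src e) * h (G.tgt e) := by
      calc _ = (((s (G.tgt e) : ℤˣ) : ℤ) * ((s (G.tgt e) : ℤˣ) : ℤ)) * (h (G.src e) * h (G.tgt e)) := by ring
        _ = _ := by rw [pn_fkb_unit_sq, one_mul]
    rw [this]
  · rw [if_neg he, if_neg he]
    unfold fkCl sgAct
    rw [pn_fkb_unit_abs, pn_fkb_unit_abs]

/-- the height marginal of the base measure -/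
theorem pn_fk_marginal (β : G.E → ℝ) (hβ : ∀ e, 0 ≤ β e) (P : Set G.V) (F : (G.V → ℤ) → ℝ≥0∞) :
    ext G β P (fun h _ => F h) = bare G β P F := by
  unfold ext bare
  refine tsum_congr fun h => ?_
  rw [← Finset.mul_sum, ← ENNReal.ofReal_sum_of_nonneg fun ω _ => pn_fk_nonneg G β hβ _ ω, pn_fk_sum]

/-- support: open bonds join heights of the same strict sign -/
theorem pn_fk_supp (β : G.E → ℝ) (h : G.V → ℤ) (ω : G.E → Bool) (hW : fkW G β h ω ≠ 0) (e : G.E) (he : ω e = true) :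
    0 < h (G.src e) * h (G.tgt e) := by
  unfold fkW at hW
  have h1 := (Finset.prod_ne_zero_iff.1 hW) e (Finset.mem_univ e)
  rw [if_pos he] at h1
  unfold fkOp at h1
  by_contra hcon
  exact h1 (if_neg hcon)

/-- support: a cluster is a singleton or carries heights of one strict sign -/
theorem pn_fk_supp_conn (β : G.E → ℝ) (h : G.V → ℤ) (ω : G.E → Bool) (hW : fkW G β h ω ≠ 0) (x y : G.V) (hxy : conn G ω x y) :
    x = y ∨ 0 < h x * h y := by
  induction hxy with
  | refl => exact Or.inl rfl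
  | @tail y z _ hadj ih =>
    right
    have h1 : 0 < h y * h z := by
      obtain ⟨e, he, h2⟩ := hadj
      have h3 := pn_fk_supp G β h ω hW e he
      rcases h2 with ⟨h4, h5⟩ | ⟨h4, h5⟩
      · rw [h4, h5] at h3; exact h3
      · rw [h4, h5, mul_comm] at h3; exact h3
    rcases ih with rfl | h2
    · exact h1
    · have h3 : 0 < (h x * h z) * (h y * h y) := by
        have := mul_pos h2 h1
        calc 0 < h x * h y * (h y * h z) := this
          _ = _ := by ring
      have h4 : 0 ≤ h y * h y := mul_self_nonneg _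
      by_contra hcon
      have h5 : h x * h z ≤ 0 := not_lt.1 hcon
      have := mul_nonpos_of_nonpos_of_nonneg h5 h4
      omega

/-- on the support the signed cluster sums are the cluster masses: `∑_C S_C(f) S_C(g) = ∑_x f_x |h_x| M_{C_x}(g)` -/
theorem pn_fk_cq_mass (β : G.E → ℝ) (h : G.V → ℤ) (ω : G.E → Bool) (hW : fkW G β h ω ≠ 0) (f g : G.V → ℝ) :
    cq G ω f g h = ∑ x, f x * |(h x : ℝ)| * mass G ω g h x := by
  unfold cq mass
  refine Finset.sum_congr rfl fun x _ => ?_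
  rw [Finset.mul_sum]
  refine Finset.sum_congr rfl fun y _ => ?_
  by_cases hc : conn G ω x y
  · rw [if_pos hc, if_pos hc]
    have key : (h x : ℝ) * (h y : ℝ) = |(h x : ℝ)| * |(h y : ℝ)| := by
      rw [← abs_mul]
      rcases pn_fk_supp_conn G β h ω hW x y hc with rfl | h1
      · exact (abs_of_nonneg (mul_self_nonneg _)).symm
      · have : (0 : ℝ) < (h x : ℝ) * (h y : ℝ) := by exact_mod_cast h1
        exact (abs_of_pos this).symm
    calc f x * (h x : ℝ) * (g y * (h y : ℝ)) = f x * g y * ((h x : ℝ) * (h y : ℝ)) := by ring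
      _ = f x * g y * (|(h x : ℝ)| * |(h y : ℝ)|) := by rw [key]
      _ = _ := by ring
  · rw [if_neg hc, if_neg hc, mul_zero]

/-- an integrand may be changed off the support -/
theorem pn_ext_congr (β : G.E → ℝ) (P : Set G.V) (F F' : (G.V → ℤ) → (G.E → Bool) → ℝ≥0∞)
    (hF : ∀ h ω, (∀ v ∈ P, h v = 0) → fkW G β h ω ≠ 0 → F h ω = F' h ω) : ext G β P F = ext G β P F' := by
  unfold ext
  refine tsum_congr fun h => Finset.sum_congr rfl fun ω _ => ?_
  by_cases hW : fkW G β h ω = 0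
  · rw [hW]; simp
  · rw [hF h ω h.2 hW]

theorem pn_ext_mono (β : G.E → ℝ) (P : Set G.V) (F F' : (G.V → ℤ) → (G.E → Bool) → ℝ≥0∞)
    (hF : ∀ h ω, (∀ v ∈ P, h v = 0) → fkW G β h ω ≠ 0 → F h ω ≤ F' h ω) : ext G β P F ≤ ext G β P F' := by
  unfold ext
  refine ENNReal.tsum_le_tsum fun h => Finset.sum_le_sum fun ω _ => ?_
  by_cases hW : fkW G β h ω = 0
  · rw [hW]; simp
  · exact mul_le_mul_left (hF h ω h.2 hW) _

theorem pn_ext_add (β : G.E → ℝ) (P : Set G.V) (F F' : (G.V → ℤ) → (G.E → Bool) → ℝ≥0∞) :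
    ext G β P (fun h ω => F h ω + F' h ω) = ext G β P F + ext G β P F' := by
  unfold ext
  rw [← ENNReal.tsum_add]
  refine tsum_congr fun h => ?_
  rw [← Finset.sum_add_distrib]
  refine Finset.sum_congr rfl fun ω _ => ?_
  rw [add_mul]

theorem pn_ext_const_mul (β : G.E → ℝ) (P : Set G.V) (c : ℝ≥0∞) (F : (G.V → ℤ) → (G.E → Bool) → ℝ≥0∞) :
    ext G β P (fun h ω => c * F h ω) = c * ext G β P F := by
  unfold ext
  rw [← ENNReal.tsum_mul_left]
  refine tsum_congr fun h => ?_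
  rw [Finset.mul_sum]
  refine Finset.sum_congr rfl fun ω _ => ?_
  rw [mul_assoc]

theorem pn_ext_sum {ι : Type} (s : Finset ι) (β : G.E → ℝ) (P : Set G.V) (F : ι → (G.V → ℤ) → (G.E → Bool) → ℝ≥0∞) :
    ext G β P (fun h ω => ∑ i ∈ s, F i h ω) = ∑ i ∈ s, ext G β P (F i) := by
  induction s using Finset.induction_on with
  | empty => simp [ext]
  | insert i s hi ih =>
    simp only [Finset.sum_insert hi]
    rw [pn_ext_add, ih]

end

end Claimed.Agent.R285.Pins
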