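import Claimed.Agent.R285.Pins.FkDefs

/-!
# ROW 285, PINS-FK 3: Rademacher calculus of the cluster signs (leaf L-PIN-RAD1; second half: `Rad2.lean`; architect helper85)

ALL PROVED (helper282).
Paper-free, finite sums only.  `T` is a union of clusters (`OClosed`), `K = SgOn ω T` flips the clusters inside `T`.  `X(s) = lin (resF T f) (s·h) = ∑_{C ⊆ T} s_C S_C(f)`.
No quotient type is needed.  Tool: for `x ∈ T` the flip `s₀ = -1` on `clu ω x`, `+1` elsewhere, lies in `K` (`pn_rad_flip_mem`); averaging over `K` is invariant under `s ↦ s s₀`.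
* a monomial `s_x s_y` (`s_x s_y s_z s_w`) has average `0` unless every cluster contains an even number of the points;
* `1[pairing] = 1[x~y, z~w] + 1[x~z, y~w] + 1[x~w, y~z] - 2·1[all four connected]`, hence `E X⁴ = 3 Q² - 2 ∑_C S_C⁴`;
* mgf: induction on the number of sites of the support of `f`: `E e^{tX} = cosh(t S_{C₀}) E e^{tX'}`, `X'` = `X` without the cluster `C₀`; `cosh x ≤ e^{x²/2}`.
-/

set_option autoImplicit false

namespace Claimed.Agent.R285.Pins

open scoped Classical ENNReal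

noncomputable section

variable (G : HGraph)

/-- `T` is a union of clusters -/
def OClosed (ω : G.E → Bool) (T : Set G.V) : Prop := ∀ x y, conn G ω x y → (x ∈ T ↔ y ∈ T)

theorem pn_conn_refl (ω : G.E → Bool) (x : G.V) : conn G ω x x := Relation.ReflTransGen.refl
theorem pn_conn_symm (ω : G.E → Bool) {x y : G.V} (h : conn G ω x y) : conn G ω y x := by
  induction h with
  | refl => exact Relation.ReflTransGen.refl
  | tail _ hbc ih =>
    obtain ⟨e, he, h1⟩ := hbc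
    exact Relation.ReflTransGen.head ⟨e, he, h1.symm⟩ ih
theorem pn_conn_trans (ω : G.E → Bool) {x y z : G.V} (h : conn G ω x y) (h' : conn G ω y z) : conn G ω x z :=
  Relation.ReflTransGen.trans h h'

theorem pn_sg_conn (ω : G.E → Bool) (s : G.V → ℤˣ) (hs : s ∈ Sg G ω) {x y : G.V} (h : conn G ω x y) : s x = s y := by
  induction h with
  | refl => rfl
  | tail _ hbc ih =>
    obtain ⟨e, he, ⟨h1, h2⟩ | ⟨h1, h2⟩⟩ := hbc
    · rw [ih, ← h1, ← h2]; exact hs e he
    · rw [ih, ← h1, ← h2]; exact (hs e he).symm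

theorem pn_sgOn_le (ω : G.E → Bool) (T : Set G.V) : SgOn G ω T ≤ Sg G ω := fun _ hs => hs.1
theorem pn_sgOn_univ (ω : G.E → Bool) : SgOn G ω Set.univ = Sg G ω := by
  ext s
  exact ⟨fun hs => hs.1, fun hs => ⟨hs, fun v hv => absurd (Set.mem_univ v) hv⟩⟩
theorem pn_oclosed_clu (ω : G.E → Bool) (x : G.V) : OClosed G ω (clu G ω x) := fun _ _ h =>
  ⟨fun ha => pn_conn_trans G ω ha h, fun hb => pn_conn_trans G ω hb (pn_conn_symm G ω h)⟩
theorem pn_oclosed_vis (ω : G.E → Bool) (A : Set G.V) : OClosed G ω (vis G ω A) := fun _ _ h =>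
  ⟨fun ⟨a, ha, hax⟩ => ⟨a, ha, pn_conn_trans G ω hax h⟩,
    fun ⟨a, ha, hay⟩ => ⟨a, ha, pn_conn_trans G ω hay (pn_conn_symm G ω h)⟩⟩
theorem pn_oclosed_compl (ω : G.E → Bool) (T : Set G.V) (hT : OClosed G ω T) : OClosed G ω Tᶜ :=
  fun x y h => not_congr (hT x y h)

/-- the flip of one cluster -/
def flip1 (ω : G.E → Bool) (x : G.V) : G.V → ℤˣ := fun v => if conn G ω x v then -1 else 1

theorem pn_rad_flip_mem (ω : G.E → Bool) (T : Set G.V) (hT : OClosed G ω T) (x : G.V) (hx : x ∈ T) : flip1 G ω x ∈ SgOn G ω T := by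
  refine ⟨fun e he => ?_, fun v hv => ?_⟩
  · have hst : conn G ω (G.src e) (G.tgt e) :=
      Relation.ReflTransGen.single ⟨e, he, Or.inl ⟨rfl, rfl⟩⟩
    have hiff : conn G ω x (G.src e) ↔ conn G ω x (G.tgt e) :=
      ⟨fun h => pn_conn_trans G ω h hst, fun h => pn_conn_trans G ω h (pn_conn_symm G ω hst)⟩
    simp only [flip1, hiff]
  · have : ¬ conn G ω x v := fun h => hv ((hT x v h).1 hx)
    simp only [flip1, this, if_false]

/-! ### signs as real numbers -/

variable {G}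

/-- the sign at a site, as a real number -/
def pnRadEps (s : G.V → ℤˣ) (v : G.V) : ℝ := (((s v : ℤˣ) : ℤ) : ℝ)

theorem pn_rad_eps_cases (s : G.V → ℤˣ) (v : G.V) : pnRadEps s v = 1 ∨ pnRadEps s v = -1 := by
  unfold pnRadEps
  rcases Int.units_eq_one_or (s v) with h | h <;> rw [h] <;> simp

theorem pn_rad_eps_sq (s : G.V → ℤˣ) (v : G.V) : pnRadEps s v * pnRadEps s v = 1 := by
  rcases pn_rad_eps_cases s v with h | h <;> rw [h] <;> norm_num

theorem pn_rad_eps_abs (s : G.V → ℤˣ) (v : G.V) : |pnRadEps s v| = 1 := by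
  rcases pn_rad_eps_cases s v with h | h <;> rw [h] <;> norm_num

theorem pn_rad_eps_mul (s s' : G.V → ℤˣ) (v : G.V) :
    pnRadEps (s * s') v = pnRadEps s v * pnRadEps s' v := by
  simp [pnRadEps]

theorem pn_rad_act (s : G.V → ℤˣ) (h : G.V → ℤ) (v : G.V) :
    ((sgAct s h v : ℤ) : ℝ) = pnRadEps s v * (h v : ℝ) := by
  simp [sgAct, pnRadEps]

theorem pn_rad_lin (f : G.V → ℝ) (s : G.V → ℤˣ) (h : G.V → ℤ) :
    lin f (sgAct s h) = ∑ v, pnRadEps s v * (f v * (h v : ℝ)) := by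
  unfold lin
  refine Finset.sum_congr rfl fun v _ => ?_
  rw [pn_rad_act]; ring

variable (G)

theorem pn_rad_eps_conn (ω : G.E → Bool) (s : G.V → ℤˣ) (hs : s ∈ Sg G ω) {x y : G.V}
    (h : conn G ω x y) : pnRadEps s x = pnRadEps s y := by
  unfold pnRadEps; rw [pn_sg_conn G ω s hs h]

theorem pn_rad_eps_flip (ω : G.E → Bool) (x v : G.V) :
    pnRadEps (flip1 G ω x) v = if conn G ω x v then -1 else 1 := by
  unfold pnRadEps flip1
  split_ifs <;> simp

variable {G}

/-- sums over a group of sign fields are invariant under translation -/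
theorem pn_rad_sum_shift (K : Subgroup (G.V → ℤˣ)) (s₀ : G.V → ℤˣ) (h₀ : s₀ ∈ K)
    (F : (G.V → ℤˣ) → ℝ) :
    ∑ s : K, F (s : G.V → ℤˣ) = ∑ s : K, F ((s : G.V → ℤˣ) * s₀) :=
  (Equiv.sum_comp (Equiv.mulRight (⟨s₀, h₀⟩ : K)) fun s : K => F (s : G.V → ℤˣ)).symm

/-- an odd function (with respect to one translation) has sum zero -/
theorem pn_rad_sum_odd (K : Subgroup (G.V → ℤˣ)) (s₀ : G.V → ℤˣ) (h₀ : s₀ ∈ K)
    (F : (G.V → ℤˣ) → ℝ) (hF : ∀ s ∈ K, F (s * s₀) = - F s) : ∑ s : K, F (s : G.V → ℤˣ) = 0 := by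
  have h1 := pn_rad_sum_shift K s₀ h₀ F
  have h2 : ∑ s : K, F ((s : G.V → ℤˣ) * s₀) = - ∑ s : K, F (s : G.V → ℤˣ) := by
    rw [← Finset.sum_neg_distrib]
    exact Finset.sum_congr rfl fun s _ => hF s s.2
  linarith

theorem pn_rad_card_pos (K : Subgroup (G.V → ℤˣ)) : (0 : ℝ) < (Fintype.card K : ℝ) := by
  exact_mod_cast Fintype.card_pos

/-- the average of a constant -/
theorem pn_rad_avg_const (K : Subgroup (G.V → ℤˣ)) (c : ℝ) :
    (Fintype.card K : ℝ)⁻¹ * ∑ _s : K, c = c := by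
  rw [Finset.sum_const, Finset.card_univ, nsmul_eq_mul, ← mul_assoc,
    inv_mul_cancel₀ (pn_rad_card_pos K).ne', one_mul]

variable (G)

/-- first moment of one sign -/
theorem pn_rad_eps_mean (ω : G.E → Bool) (T : Set G.V) (hT : OClosed G ω T) (x : G.V) (hx : x ∈ T) :
    ∑ s : SgOn G ω T, pnRadEps (s : G.V → ℤˣ) x = 0 := by
  refine pn_rad_sum_odd _ (flip1 G ω x) (pn_rad_flip_mem G ω T hT x hx) (fun s => pnRadEps s x)
    fun s _ => ?_
  rw [pn_rad_eps_mul, pn_rad_eps_flip, if_pos (pn_conn_refl G ω x)]; ring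

/-- second moment of the signs -/
theorem pn_rad_eps_second (ω : G.E → Bool) (T : Set G.V) (hT : OClosed G ω T) (x y : G.V)
    (hx : x ∈ T) :
    (Fintype.card (SgOn G ω T) : ℝ)⁻¹ *
      ∑ s : SgOn G ω T, pnRadEps (s : G.V → ℤˣ) x * pnRadEps (s : G.V → ℤˣ) y =
      if conn G ω x y then 1 else 0 := by
  split_ifs with hxy
  · have : ∀ s : SgOn G ω T, pnRadEps (s : G.V → ℤˣ) x * pnRadEps (s : G.V → ℤˣ) y = 1 := by
      intro s
      rw [pn_rad_eps_conn G ω s (pn_sgOn_le G ω T s.2) hxy, pn_rad_eps_sq]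
    simp only [this]
    exact pn_rad_avg_const _ 1
  · rw [pn_rad_sum_odd _ (flip1 G ω x) (pn_rad_flip_mem G ω T hT x hx)
      (fun s => pnRadEps s x * pnRadEps s y) fun s _ => ?_, mul_zero]
    rw [pn_rad_eps_mul, pn_rad_eps_mul, pn_rad_eps_flip, pn_rad_eps_flip,
      if_pos (pn_conn_refl G ω x), if_neg hxy]
    ring

/-- the cluster quantities are signless -/
theorem pn_cq_sg (ω : G.E → Bool) (f g : G.V → ℝ) (h : G.V → ℤ) (s : G.V → ℤˣ) (hs : s ∈ Sg G ω) :
    cq G ω f g (sgAct s h) = cq G ω f g h := by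
  unfold cq
  refine Finset.sum_congr rfl fun x _ => Finset.sum_congr rfl fun y _ => ?_
  split_ifs with hxy
  · rw [pn_rad_act, pn_rad_act, pn_rad_eps_conn G ω s hs hxy]
    have := pn_rad_eps_sq s y
    calc f x * (pnRadEps s y * (h x : ℝ)) * (g y * (pnRadEps s y * (h y : ℝ)))
        = (pnRadEps s y * pnRadEps s y) * (f x * (h x : ℝ) * (g y * (h y : ℝ))) := by ring
      _ = f x * (h x : ℝ) * (g y * (h y : ℝ)) := by rw [this, one_mul]
  · rfl

theorem pn_mass_sg (ω : G.E → Bool) (f : G.V → ℝ) (h : G.V → ℤ) (x : G.V) (s : G.V → ℤˣ) :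
    mass G ω f (sgAct s h) x = mass G ω f h x := by
  unfold mass
  refine Finset.sum_congr rfl fun y _ => ?_
  rw [pn_rad_act, abs_mul, pn_rad_eps_abs, one_mul]

theorem pn_cq_symm (ω : G.E → Bool) (f g : G.V → ℝ) (h : G.V → ℤ) : cq G ω f g h = cq G ω g f h := by
  unfold cq
  rw [Finset.sum_comm]
  refine Finset.sum_congr rfl fun x _ => Finset.sum_congr rfl fun y _ => ?_
  have hiff : conn G ω y x ↔ conn G ω x y := ⟨pn_conn_symm G ω, pn_conn_symm G ω⟩
  simp only [hiff, mul_comm]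

/-- splitting into the clusters inside and outside `T` -/
theorem pn_cq_split (ω : G.E → Bool) (T : Set G.V) (hT : OClosed G ω T) (f g : G.V → ℝ) (h : G.V → ℤ) :
    cq G ω f g h = cq G ω (resF G T f) (resF G T g) h + cq G ω (resF G Tᶜ f) (resF G Tᶜ g) h := by
  unfold cq
  rw [← Finset.sum_add_distrib]
  refine Finset.sum_congr rfl fun x _ => ?_
  rw [← Finset.sum_add_distrib]
  refine Finset.sum_congr rfl fun y _ => ?_
  split_ifs with hxy
  · have hiff := hT x y hxy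
    by_cases hx : x ∈ T
    · have hy := hiff.1 hx
      simp [resF, hx, hy]
    · have hy : y ∉ T := fun hy => hx (hiff.2 hy)
      simp [resF, hx, hy]
  · simp

theorem pn_rad_mean (ω : G.E → Bool) (T : Set G.V) (hT : OClosed G ω T) (f : G.V → ℝ) (h : G.V → ℤ) :
    sgAvgR (SgOn G ω T) (lin (resF G T f)) h = 0 := by
  unfold sgAvgR
  simp only [pn_rad_lin]
  rw [Finset.sum_comm]
  have : ∀ v : G.V, ∑ s : SgOn G ω T, pnRadEps (s : G.V → ℤˣ) v * (resF G T f v * (h v : ℝ)) = 0 := by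
    intro v
    rw [← Finset.sum_mul]
    by_cases hv : v ∈ T
    · rw [pn_rad_eps_mean G ω T hT v hv, zero_mul]
    · simp [resF, hv]
  simp only [this, Finset.sum_const_zero, mul_zero]

theorem pn_rad_second (ω : G.E → Bool) (T : Set G.V) (hT : OClosed G ω T) (f g : G.V → ℝ) (h : G.V → ℤ) :
    sgAvgR (SgOn G ω T) (fun h' => lin (resF G T f) h' * lin (resF G T g) h') h = cq G ω (resF G T f) (resF G T g) h := by
  unfold sgAvgR cq
  simp only [pn_rad_lin, Finset.sum_mul_sum]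
  rw [Finset.sum_comm, Finset.mul_sum]
  refine Finset.sum_congr rfl fun x _ => ?_
  rw [Finset.sum_comm, Finset.mul_sum]
  refine Finset.sum_congr rfl fun y _ => ?_
  have h1 : ∀ s : SgOn G ω T, pnRadEps (s : G.V → ℤˣ) x * (resF G T f x * (h x : ℝ)) *
      (pnRadEps (s : G.V → ℤˣ) y * (resF G T g y * (h y : ℝ))) =
      (pnRadEps (s : G.V → ℤˣ) x * pnRadEps (s : G.V → ℤˣ) y) *
        ((resF G T f x * (h x : ℝ)) * (resF G T g y * (h y : ℝ))) := fun s => by ring
  simp only [h1]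
  rw [← Finset.sum_mul, ← mul_assoc]
  by_cases hx : x ∈ T
  · rw [pn_rad_eps_second G ω T hT x y hx]
    split_ifs <;> simp
  · simp [resF, hx]

theorem pn_rad_res_univ (f : G.V → ℝ) : resF G Set.univ f = f := by
  funext v; simp [resF]

theorem pn_rad_oclosed_univ (ω : G.E → Bool) : OClosed G ω Set.univ := fun _ _ _ => Iff.rfl

theorem pn_cq_nonneg (ω : G.E → Bool) (f : G.V → ℝ) (h : G.V → ℤ) : 0 ≤ cq G ω f f h := by
  have h1 := pn_rad_second G ω Set.univ (pn_rad_oclosed_univ G ω) f f h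
  rw [pn_rad_res_univ] at h1
  rw [← h1]
  unfold sgAvgR
  exact mul_nonneg (inv_nonneg.2 (pn_rad_card_pos _).le)
    (Finset.sum_nonneg fun s _ => mul_self_nonneg _)

/-- Cauchy-Schwarz over the clusters -/
theorem pn_cq_cs (ω : G.E → Bool) (f g : G.V → ℝ) (h : G.V → ℤ) : cq G ω f g h ^ 2 ≤ cq G ω f f h * cq G ω g g h := by
  have h1 := pn_rad_second G ω Set.univ (pn_rad_oclosed_univ G ω) f g h
  have h2 := pn_rad_second G ω Set.univ (pn_rad_oclosed_univ G ω) f f h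
  have h3 := pn_rad_second G ω Set.univ (pn_rad_oclosed_univ G ω) g g h
  rw [pn_rad_res_univ, pn_rad_res_univ] at h1
  rw [pn_rad_res_univ] at h2 h3
  rw [← h1, ← h2, ← h3]
  unfold sgAvgR
  have hcs := Finset.sum_mul_sq_le_sq_mul_sq (Finset.univ : Finset (SgOn G ω Set.univ))
    (fun s => lin f (sgAct (s : G.V → ℤˣ) h)) (fun s => lin g (sgAct (s : G.V → ℤˣ) h))
  have hc : 0 ≤ ((Fintype.card (SgOn G ω Set.univ) : ℝ)⁻¹) ^ 2 := by positivity
  calc ((Fintype.card (SgOn G ω Set.univ) : ℝ)⁻¹ * ∑ s : SgOn G ω Set.univ,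
          lin f (sgAct (s : G.V → ℤˣ) h) * lin g (sgAct (s : G.V → ℤˣ) h)) ^ 2
      = ((Fintype.card (SgOn G ω Set.univ) : ℝ)⁻¹) ^ 2 * (∑ s : SgOn G ω Set.univ,
          lin f (sgAct (s : G.V → ℤˣ) h) * lin g (sgAct (s : G.V → ℤˣ) h)) ^ 2 := by ring
    _ ≤ ((Fintype.card (SgOn G ω Set.univ) : ℝ)⁻¹) ^ 2 *
          ((∑ s : SgOn G ω Set.univ, lin f (sgAct (s : G.V → ℤˣ) h) ^ 2) *
            ∑ s : SgOn G ω Set.univ, lin g (sgAct (s : G.V → ℤˣ) h) ^ 2) :=
        mul_le_mul_of_nonneg_left hcs hc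
    _ = _ := by
        simp only [pow_two]
        ring

end

end Claimed.Agent.R285.Pins
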