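import Claimed.Agent.R285.Pins.ReachDefs
import Claimed.Agent.R285.Pins.Ex
import Claimed.Agent.R285.Pins.ExVis
import Claimed.Agent.R285.Pins.FkBond
import Claimed.Agent.R285.Pins.Rad

/-!
# ROW 285, PINS-REACH v2 (`Pins/Plan.lean` s6, s7), FILE 1: the exploration side, everything on ONE finite graph (architect helper121; chief of PINS helper235)

All statements are inequalities between `ℝ≥0∞`-valued integrals `rhI H b P ·`; no subtraction, no conditional expectation, no cluster type, no limit.   The posterior inequalities enter as HYPOTHESES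
(`PostCos`, `hpost`); they are produced in `ReachPost.lean` through the bridge `ReachBr.lean`.
* s1 `pn_rch_transfer` (master transfer with rows, `AConn`, a goodness predicate of the exposed data);     calculus of `rhI` (`pn_rch_I_*`);
* s2 `pn_rch_deficit`: ONE cosine deficit with an exploration-measurable bias `Φ`;   `Φ = 1`: (D1);   `Φ = |h_x|`, `A = {x}`: (D2);
* s3 `pn_rch_D13` ((D1) + (D3)), `pn_rch_D2` (summed over `x`), `pn_rch_result` (RESULT of s6);
* s4 `pn_rch_second` ((K1), transfer part), `pn_rch_pin` ((K2), transfer part).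
-/

set_option autoImplicit false

namespace Claimed.Agent.R285.Pins

open scoped Classical ENNReal

noncomputable section

variable (G : HGraph)

/-! ## 1. The master transfer -/

theorem pn_rch_oAdj_gAdj (ω : G.E → Bool) {x y : G.V} (h : oAdj G ω x y) : gAdj G x y := by
  obtain ⟨e, _, he⟩ := h
  exact ⟨e, he⟩

/-- the visited set is joined to `A` inside itself -/
theorem pn_rch_vis_aconn (ω : G.E → Bool) (A : Set G.V) : AConn G A (vis G ω A) := by
  refine ⟨fun a ha => ⟨a, ha, Relation.ReflTransGen.refl⟩, ?_⟩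
  rintro v ⟨a, ha, hav⟩
  refine ⟨a, ha, ?_⟩
  induction hav with
  | refl => exact Relation.ReflTransGen.refl
  | @tail y z hay hyz ih =>
    exact ih.tail ⟨pn_rch_oAdj_gAdj G ω hyz, ⟨a, ha, hay.tail hyz⟩⟩

theorem pn_rch_res_add (U : Set G.V) (h : G.V → ℤ) : resZ G U h + resZ G Uᶜ h = h := by
  funext v
  by_cases hv : v ∈ U <;> simp [resZ, hv]

/-- **master transfer**: an inequality between the posterior sums (height variables, rows included), valid for all visited sets joined to `A`, all exposed data which are `Gd`, all boundary temperatures,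
passes to the joint law against every functional of the exploration which vanishes off `Gd`. -/
theorem pn_rch_transfer (H : HLaw G) (b : ℝ) (hb : 0 < b) (P A : Set G.V)
    (Gd : Set G.V → (G.V → ℤ) → Prop) (Φ₁ Φ₂ : Set G.V → (G.V → ℤ) → (G.V → ℤ) → ℝ≥0∞)
    (hpost : ∀ (U : Set G.V) (u : G.V → ℤ) (β' : G.E → ℝ), AConn G A U → (∀ v, v ∉ U → u v = 0) → PostT G b U β' → Gd U u →
      bare G β' (P ∪ U) (fun k => Φ₁ U u k * ENNReal.ofReal (rhW H (u + k)))
        ≤ bare G β' (P ∪ U) (fun k => Φ₂ U u k * ENNReal.ofReal (rhW H (u + k))))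
    (F : (G.V → ℤ) → (G.E → Bool) → ℝ≥0∞) (hF : ExpMeas G A F)
    (hF0 : ∀ h ω, ¬ Gd (vis G ω A) (rhU G A h ω) → F h ω = 0) :
    rhI H b P (fun h ω => F h ω * Φ₁ (vis G ω A) (rhU G A h ω) (rhK G A h ω))
      ≤ rhI H b P (fun h ω => F h ω * Φ₂ (vis G ω A) (rhU G A h ω) (rhK G A h ω)) := by
  have key := pn_ex_transfer G (fun _ => b) (fun _ => hb) P A 1
    (fun U u k _ => if AConn G A U ∧ Gd U u then Φ₁ U u k * ENNReal.ofReal (rhW H (u + k)) else 0)
    (fun U u k _ => if AConn G A U ∧ Gd U u then Φ₂ U u k * ENNReal.ofReal (rhW H (u + k)) else 0)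
    (by
      intro U u β' _ hu hβ1 hβ2
      rw [one_mul]
      by_cases hc : AConn G A U ∧ Gd U u
      · simp only [hc, and_self, if_true]
        rw [pn_fk_marginal G β' (fun e => (hβ1 e).1.le), pn_fk_marginal G β' (fun e => (hβ1 e).1.le)]
        exact hpost U u β' hc.1 hu ⟨hβ1, hβ2⟩ hc.2
      · simp only [hc, if_false]
        exact le_refl _) F hF
  rw [one_mul] at key
  have conv : ∀ Φ : Set G.V → (G.V → ℤ) → (G.V → ℤ) → ℝ≥0∞,
      rhI H b P (fun h ω => F h ω * Φ (vis G ω A) (rhU G A h ω) (rhK G A h ω))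
        = ext G (fun _ => b) P (fun h ω => F h ω *
          (if AConn G A (vis G ω A) ∧ Gd (vis G ω A) (resZ G (vis G ω A) h) then
            Φ (vis G ω A) (resZ G (vis G ω A) h) (resZ G (vis G ω A)ᶜ h)
              * ENNReal.ofReal (rhW H (resZ G (vis G ω A) h + resZ G (vis G ω A)ᶜ h)) else 0)) := by
    intro Φ
    unfold rhI
    congr 1
    funext h ω
    by_cases hg : Gd (vis G ω A) (resZ G (vis G ω A) h)
    · simp only [pn_rch_vis_aconn G ω A, hg, and_self, if_true, pn_rch_res_add, rhU, rhK, mul_assoc]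
    · have : F h ω = 0 := hF0 h ω hg
      simp [this]
  rw [conv Φ₁, conv Φ₂]
  exact key

/-- functionals of the exposed data are measurable at the completion of the exploration -/
theorem pn_rch_expMeas_of (A : Set G.V) (J : Set G.V → (G.V → ℤ) → ℝ≥0∞) :
    ExpMeas G A (fun h ω => J (vis G ω A) (rhU G A h ω)) := by
  intro h h' ω ω' hv hh _
  have : rhU G A h ω = rhU G A h' ω' := by
    funext v
    unfold rhU resZ
    rw [← hv]
    by_cases hvv : v ∈ vis G ω A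
    · simp [hvv, hh v hvv]
    · simp [hvv]
  simp only [this, hv]

theorem pn_rch_expMeas_mul (A : Set G.V) (F F' : (G.V → ℤ) → (G.E → Bool) → ℝ≥0∞) (hF : ExpMeas G A F) (hF' : ExpMeas G A F') :
    ExpMeas G A (fun h ω => F h ω * F' h ω) := by
  intro h h' ω ω' hv hh he
  simp only [hF h h' ω ω' hv hh he, hF' h h' ω ω' hv hh he]

/-! ### calculus of `rhI` -/

section Calc

variable {G}
variable (H : HLaw G) (b : ℝ) (P : Set G.V)

theorem pn_rch_I_mono (F F' : (G.V → ℤ) → (G.E → Bool) → ℝ≥0∞)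
    (hF : ∀ h ω, (∀ v ∈ P, h v = 0) → fkW G (fun _ => b) h ω ≠ 0 → F h ω ≤ F' h ω) : rhI H b P F ≤ rhI H b P F' :=
  pn_ext_mono G _ P _ _ fun h ω hp hW => mul_le_mul_left (hF h ω hp hW) _

theorem pn_rch_I_congr (F F' : (G.V → ℤ) → (G.E → Bool) → ℝ≥0∞)
    (hF : ∀ h ω, (∀ v ∈ P, h v = 0) → fkW G (fun _ => b) h ω ≠ 0 → F h ω = F' h ω) : rhI H b P F = rhI H b P F' :=
  pn_ext_congr G _ P _ _ fun h ω hp hW => by rw [hF h ω hp hW]

theorem pn_rch_I_add (F F' : (G.V → ℤ) → (G.E → Bool) → ℝ≥0∞) :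
    rhI H b P (fun h ω => F h ω + F' h ω) = rhI H b P F + rhI H b P F' := by
  unfold rhI
  rw [← pn_ext_add]
  congr 1
  funext h ω
  rw [add_mul]

theorem pn_rch_I_const_mul (c : ℝ≥0∞) (F : (G.V → ℤ) → (G.E → Bool) → ℝ≥0∞) :
    rhI H b P (fun h ω => c * F h ω) = c * rhI H b P F := by
  unfold rhI
  rw [← pn_ext_const_mul]
  congr 1
  funext h ω
  rw [mul_assoc]

theorem pn_rch_I_zero : rhI H b P (fun _ _ => 0) = 0 := by
  have := pn_rch_I_const_mul H b P 0 (fun _ _ => 0)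
  simpa using this

theorem pn_rch_I_sum {ι : Type} (s : Finset ι) (F : ι → (G.V → ℤ) → (G.E → Bool) → ℝ≥0∞) :
    rhI H b P (fun h ω => ∑ i ∈ s, F i h ω) = ∑ i ∈ s, rhI H b P (F i) := by
  induction s using Finset.induction_on with
  | empty => simpa using pn_rch_I_zero H b P
  | insert a s ha ih =>
    simp only [Finset.sum_insert ha]
    rw [pn_rch_I_add, ih]

end Calc

theorem pn_rch_lin_add (f : G.V → ℝ) (h h' : G.V → ℤ) : lin f (h + h') = lin f h + lin f h' := by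
  simp only [lin, Pi.add_apply, Int.cast_add, mul_add, Finset.sum_add_distrib]

theorem pn_rch_lin_split (A : Set G.V) (f : G.V → ℝ) (h : G.V → ℤ) (ω : G.E → Bool) :
    lin f (rhU G A h ω) + lin f (rhK G A h ω) = lin f h := by
  rw [← pn_rch_lin_add]
  unfold rhU rhK
  rw [pn_rch_res_add]

/-! ## 2. The cosine deficit -/

/-- **the deficit inequality** ((D1), (D2) of the blueprint are instances).  `Φ` = a weight measurable at the completed exploration (`1`, or `|h_x|` for `A = {x}`), `f` = the test of a cell `B` (with the factor `s`),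
`q` = the prior characteristic coefficient, `hprior` = the `Φ`-biased prior coefficient is at most `q` (equality for `Φ = 1`; (SB) for `Φ = |h_x|`). -/
theorem pn_rch_deficit (H : HLaw G) (b : ℝ) (hb : 0 < b) (P A : Set G.V) (f : G.V → ℝ) (B : Set G.V) (q γ : ℝ)
    (kap : Set G.V → (G.V → ℤ) → ℝ) (hq : q ≤ 1) (hγ : 0 ≤ γ) (hkap : ∀ U u, 0 ≤ kap U u)
    (hpost : PostCos G H b P A f B q γ kap)
    (Φ : (G.V → ℤ) → (G.E → Bool) → ℝ≥0∞) (hΦ : ExpMeas G A Φ) (hfin : rhI H b P Φ ≠ ∞)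
    (hprior : ENNReal.ofReal (1 - q) * rhI H b P Φ ≤ rhI H b P (fun h ω => Φ h ω * ENNReal.ofReal (1 - Real.cos (lin f h)))) :
    ENNReal.ofReal γ * rhI H b P (fun h ω => Φ h ω * rhInd ((vis G ω A ∩ B).Nonempty))
      ≤ rhI H b P (fun h ω => Φ h ω * ENNReal.ofReal (1 - Real.cos (lin f (rhU G A h ω))))
        + rhI H b P (fun h ω => Φ h ω * ENNReal.ofReal (kap (vis G ω A) (rhU G A h ω))) := by
  have key := pn_rch_transfer G H b hb P A (fun _ _ => True)
    (fun U u k => ENNReal.ofReal (1 - Real.cos (lin f u + lin f k) + (if (U ∩ B).Nonempty then γ else 0)))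
    (fun U u _ => ENNReal.ofReal ((1 - q) + (1 - Real.cos (lin f u)) + kap U u))
    (fun U u β' hU hu hβ _ => hpost U u β' hU hu hβ) Φ hΦ (fun h ω hn => absurd trivial hn)
  have hcos : ∀ t : ℝ, 0 ≤ 1 - Real.cos t := fun t => sub_nonneg.2 (Real.cos_le_one t)
  have eL : rhI H b P (fun h ω => Φ h ω * ENNReal.ofReal (1 - Real.cos (lin f (rhU G A h ω) + lin f (rhK G A h ω))
        + (if (vis G ω A ∩ B).Nonempty then γ else 0)))
      = rhI H b P (fun h ω => Φ h ω * ENNReal.ofReal (1 - Real.cos (lin f h)))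
        + ENNReal.ofReal γ * rhI H b P (fun h ω => Φ h ω * rhInd ((vis G ω A ∩ B).Nonempty)) := by
    rw [← pn_rch_I_const_mul, ← pn_rch_I_add]
    congr 1
    funext h ω
    rw [pn_rch_lin_split, ENNReal.ofReal_add (hcos _) (by split_ifs <;> simp [hγ]), mul_add]
    congr 1
    unfold rhInd
    split_ifs <;> simp [mul_comm]
  have eR : rhI H b P (fun h ω => Φ h ω * ENNReal.ofReal ((1 - q) + (1 - Real.cos (lin f (rhU G A h ω))) + kap (vis G ω A) (rhU G A h ω)))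
      = ENNReal.ofReal (1 - q) * rhI H b P Φ
        + (rhI H b P (fun h ω => Φ h ω * ENNReal.ofReal (1 - Real.cos (lin f (rhU G A h ω))))
        + rhI H b P (fun h ω => Φ h ω * ENNReal.ofReal (kap (vis G ω A) (rhU G A h ω)))) := by
    rw [← pn_rch_I_const_mul, ← pn_rch_I_add, ← pn_rch_I_add]
    congr 1
    funext h ω
    rw [ENNReal.ofReal_add (add_nonneg (sub_nonneg.2 hq) (hcos _)) (hkap _ _), ENNReal.ofReal_add (sub_nonneg.2 hq) (hcos _)]
    ring
  rw [eL, eR] at key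
  have h2 : ENNReal.ofReal (1 - q) * rhI H b P Φ + ENNReal.ofReal γ * rhI H b P (fun h ω => Φ h ω * rhInd ((vis G ω A ∩ B).Nonempty))
      ≤ ENNReal.ofReal (1 - q) * rhI H b P Φ
        + (rhI H b P (fun h ω => Φ h ω * ENNReal.ofReal (1 - Real.cos (lin f (rhU G A h ω))))
        + rhI H b P (fun h ω => Φ h ω * ENNReal.ofReal (kap (vis G ω A) (rhU G A h ω)))) :=
    (add_le_add_left hprior _).trans key
  exact (ENNReal.add_le_add_iff_left (ENNReal.mul_ne_top ENNReal.ofReal_ne_top hfin)).1 h2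

/-! ## 3. (D1) + (D3), (D2), RESULT -/

theorem pn_rch_one_sub_cos_le (t : ℝ) : 1 - Real.cos t ≤ |t| := by
  by_cases h : |t| ≤ 2
  · have h1 := Real.one_sub_sq_div_two_le_cos (x := t)
    have h2 : t ^ 2 = |t| ^ 2 := (sq_abs t).symm
    nlinarith [abs_nonneg t]
  · have h1 := Real.neg_one_le_cos t
    push Not at h
    linarith

/-- the exposed part of a nonnegative test -/
theorem pn_rch_lin_exposed_le (A : Set G.V) (f : G.V → ℝ) (hf : ∀ x, 0 ≤ f x) (h : G.V → ℤ) (ω : G.E → Bool) :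
    |lin f (rhU G A h ω)| ≤ ∑ x, if x ∈ vis G ω A then f x * |(h x : ℝ)| else 0 := by
  unfold lin rhU resZ
  refine (Finset.abs_sum_le_sum_abs _ _).trans (Finset.sum_le_sum fun x _ => ?_)
  by_cases hx : x ∈ vis G ω A
  · simp only [hx, if_true, abs_mul, abs_of_nonneg (hf x)]
    exact le_rfl
  · simp [hx]

theorem pn_rch_F1_nonneg (ω : G.E → Bool) (f : G.V → ℝ) (hf : ∀ x, 0 ≤ f x) (Ci : Set G.V) (h : G.V → ℤ) : 0 ≤ rhF1 G ω f Ci h := by
  unfold rhF1
  refine Finset.sum_nonneg fun x _ => ?_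
  split_ifs
  · exact mul_nonneg (hf x) (abs_nonneg _)
  · exact le_rfl

/-- **(D3)**: a visited site of the cell `cB` lies in a cluster which meets `A`, hence a cell `cI i` -/
theorem pn_rch_exposed_le_F1 {ιI : Type} [Fintype ιI] (A cB : Set G.V) (cI : ιI → Set G.V) (fB : G.V → ℝ) (hfB0 : ∀ x, 0 ≤ fB x)
    (hfBs : ∀ x, x ∉ cB → fB x = 0)
    (hX2 : ∀ x ∈ cB, ∀ U, AConn G {x} U → (U ∩ A).Nonempty → ∃ i, (U ∩ cI i).Nonempty) (h : G.V → ℤ) (ω : G.E → Bool) :
    (∑ x, if x ∈ vis G ω A then fB x * |(h x : ℝ)| else 0) ≤ ∑ i, rhF1 G ω fB (cI i) h := by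
  unfold rhF1
  rw [Finset.sum_comm]
  refine Finset.sum_le_sum fun x _ => ?_
  have hnn : ∀ i ∈ (Finset.univ : Finset ιI), 0 ≤ (if (clu G ω x ∩ cI i).Nonempty then fB x * |(h x : ℝ)| else 0) := by
    intro i _
    split_ifs
    · exact mul_nonneg (hfB0 x) (abs_nonneg _)
    · exact le_rfl
  by_cases hx : x ∈ vis G ω A
  · rw [if_pos hx]
    by_cases hxB : x ∈ cB
    · obtain ⟨a, ha, hax⟩ := hx
      obtain ⟨i, hi⟩ := hX2 x hxB (vis G ω {x}) (pn_rch_vis_aconn G ω {x}) ⟨a, ⟨x, rfl, pn_exv_conn_symm G ω hax⟩, ha⟩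
      rw [pn_vis_singleton] at hi
      have := Finset.single_le_sum hnn (Finset.mem_univ i)
      rwa [if_pos hi] at this
    · have h0 : fB x * |(h x : ℝ)| = 0 := by rw [hfBs x hxB, zero_mul]
      rw [h0]
      exact Finset.sum_nonneg fun i _ => by split_ifs <;> exact le_rfl
  · rw [if_neg hx]
    exact Finset.sum_nonneg hnn

/-- **(D1) + (D3)**: `γ P(S_A meets B) ≤ ∑_i E ∑_{C meets i} M_C(f_B) + E κ_A` -/
theorem pn_rch_D13 {ιI : Type} [Fintype ιI] (H : HLaw G) (b : ℝ) (hb : 0 < b) (P A cB : Set G.V) (cI : ιI → Set G.V) (fB : G.V → ℝ)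
    (hfB0 : ∀ x, 0 ≤ fB x) (hfBs : ∀ x, x ∉ cB → fB x = 0)
    (hX2 : ∀ x ∈ cB, ∀ U, AConn G {x} U → (U ∩ A).Nonempty → ∃ i, (U ∩ cI i).Nonempty)
    (q γ : ℝ) (kap : Set G.V → (G.V → ℤ) → ℝ) (hq : q ≤ 1) (hγ : 0 ≤ γ) (hkap : ∀ U u, 0 ≤ kap U u)
    (hpost : PostCos G H b P A fB cB q γ kap) (hfin : rhI H b P (fun _ _ => 1) ≠ ∞)
    (hprior : ENNReal.ofReal (1 - q) * rhI H b P (fun _ _ => 1) ≤ rhI H b P (fun h _ => ENNReal.ofReal (1 - Real.cos (lin fB h)))) :
    ENNReal.ofReal γ * rhI H b P (fun _ ω => rhInd ((vis G ω A ∩ cB).Nonempty))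
      ≤ ∑ i, rhI H b P (fun h ω => ENNReal.ofReal (rhF1 G ω fB (cI i) h))
        + rhI H b P (fun h ω => ENNReal.ofReal (kap (vis G ω A) (rhU G A h ω))) := by
  have key := pn_rch_deficit G H b hb P A fB cB q γ kap hq hγ hkap hpost (fun _ _ => 1) (fun _ _ _ _ _ _ _ => rfl) hfin
    (by simpa only [one_mul] using hprior)
  simp only [one_mul] at key
  refine key.trans (add_le_add_left ?_ _)
  rw [← pn_rch_I_sum]
  refine pn_rch_I_mono H b P _ _ fun h ω _ _ => ?_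
  rw [← ENNReal.ofReal_sum_of_nonneg fun i _ => pn_rch_F1_nonneg G ω fB hfB0 (cI i) h]
  exact ENNReal.ofReal_le_ofReal (((pn_rch_one_sub_cos_le _).trans (pn_rch_lin_exposed_le G A fB hfB0 h ω)).trans
    (pn_rch_exposed_le_F1 G A cB cI fB hfB0 hfBs hX2 h ω))

theorem pn_rch_expMeas_site (x : G.V) : ExpMeas G {x} (fun h _ => ENNReal.ofReal |(h x : ℝ)|) := by
  intro h h' ω ω' _ hh _
  show ENNReal.ofReal |(h x : ℝ)| = ENNReal.ofReal |(h' x : ℝ)|
  rw [hh x (pn_vis_sub G ω {x} rfl)]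

theorem pn_rch_exposed_mass (x : G.V) (f : G.V → ℝ) (h : G.V → ℤ) (ω : G.E → Bool) :
    (∑ y, if y ∈ vis G ω {x} then f y * |(h y : ℝ)| else 0) = mass G ω f h x := by
  unfold mass
  refine Finset.sum_congr rfl fun y _ => ?_
  have : y ∈ vis G ω {x} ↔ conn G ω x y := by
    rw [pn_vis_singleton]
    rfl
  simp only [this]

/-- **(D2)**, summed over the sites of the cell `cB` with the weights `f_B`:   `γ E ∑_{C meets i} M_C(f_B) ≤ E cq f_B f_i + E ∑_x f_B(x) |h_x| κ(C_x)` -/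
theorem pn_rch_D2 (H : HLaw G) (b : ℝ) (hb : 0 < b) (P cB Ci : Set G.V) (fB fI : G.V → ℝ)
    (hfB0 : ∀ x, 0 ≤ fB x) (hfBs : ∀ x, x ∉ cB → fB x = 0) (hfI0 : ∀ x, 0 ≤ fI x)
    (q γ : ℝ) (kap : Set G.V → (G.V → ℤ) → ℝ) (hq : q ≤ 1) (hγ : 0 ≤ γ) (hkap : ∀ U u, 0 ≤ kap U u)
    (hpost : ∀ x ∈ cB, PostCos G H b P {x} fI Ci q γ kap)
    (hfin : ∀ x ∈ cB, rhI H b P (fun h _ => ENNReal.ofReal |(h x : ℝ)|) ≠ ∞)
    (hprior : ∀ x ∈ cB, ENNReal.ofReal (1 - q) * rhI H b P (fun h _ => ENNReal.ofReal |(h x : ℝ)|)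
      ≤ rhI H b P (fun h _ => ENNReal.ofReal |(h x : ℝ)| * ENNReal.ofReal (1 - Real.cos (lin fI h)))) :
    ENNReal.ofReal γ * rhI H b P (fun h ω => ENNReal.ofReal (rhF1 G ω fB Ci h))
      ≤ rhI H b P (fun h ω => ENNReal.ofReal (cq G ω fB fI h)) + rhI H b P (fun h ω => ENNReal.ofReal (rhKs G kap fB h ω)) := by
  have hcos : ∀ t : ℝ, 0 ≤ 1 - Real.cos t := fun t => sub_nonneg.2 (Real.cos_le_one t)
  -- the deficit at every site, multiplied by the weight
  have hx : ∀ x, ENNReal.ofReal (fB x) * (ENNReal.ofReal γ * rhI H b P (fun h ω => ENNReal.ofReal |(h x : ℝ)| * rhInd ((vis G ω {x} ∩ Ci).Nonempty)))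
      ≤ ENNReal.ofReal (fB x) * (rhI H b P (fun h ω => ENNReal.ofReal |(h x : ℝ)| * ENNReal.ofReal (1 - Real.cos (lin fI (rhU G {x} h ω))))
        + rhI H b P (fun h ω => ENNReal.ofReal |(h x : ℝ)| * ENNReal.ofReal (kap (vis G ω {x}) (rhU G {x} h ω)))) := by
    intro x
    by_cases hxB : x ∈ cB
    · exact mul_le_mul_right (pn_rch_deficit G H b hb P {x} fI Ci q γ kap hq hγ hkap (hpost x hxB) _ (pn_rch_expMeas_site G x)
        (hfin x hxB) (hprior x hxB)) _
    · rw [hfBs x hxB]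
      simp
  have hsum := Finset.sum_le_sum fun x (_ : x ∈ (Finset.univ : Finset G.V)) => hx x
  -- the left side
  have eL : ENNReal.ofReal γ * rhI H b P (fun h ω => ENNReal.ofReal (rhF1 G ω fB Ci h))
      = ∑ x, ENNReal.ofReal (fB x) * (ENNReal.ofReal γ * rhI H b P (fun h ω => ENNReal.ofReal |(h x : ℝ)| * rhInd ((vis G ω {x} ∩ Ci).Nonempty))) := by
    have e1 : ∀ x, ENNReal.ofReal (fB x) * (ENNReal.ofReal γ * rhI H b P (fun h ω => ENNReal.ofReal |(h x : ℝ)| * rhInd ((vis G ω {x} ∩ Ci).Nonempty)))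
        = ENNReal.ofReal γ * rhI H b P (fun h ω => ENNReal.ofReal (fB x) * (ENNReal.ofReal |(h x : ℝ)| * rhInd ((vis G ω {x} ∩ Ci).Nonempty))) := by
      intro x
      rw [pn_rch_I_const_mul]
      ring
    simp only [e1]
    rw [← Finset.mul_sum, ← pn_rch_I_sum]
    congr 2
    funext h ω
    unfold rhF1
    rw [ENNReal.ofReal_sum_of_nonneg fun x _ => by
      split_ifs
      · exact mul_nonneg (hfB0 x) (abs_nonneg _)
      · exact le_rfl]
    refine Finset.sum_congr rfl fun x _ => ?_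
    rw [pn_vis_singleton]
    unfold rhInd
    split_ifs
    · rw [mul_one, ENNReal.ofReal_mul (hfB0 x)]
    · simp
  -- the right side
  have eR : ∑ x, ENNReal.ofReal (fB x) * (rhI H b P (fun h ω => ENNReal.ofReal |(h x : ℝ)| * ENNReal.ofReal (1 - Real.cos (lin fI (rhU G {x} h ω))))
        + rhI H b P (fun h ω => ENNReal.ofReal |(h x : ℝ)| * ENNReal.ofReal (kap (vis G ω {x}) (rhU G {x} h ω))))
      = rhI H b P (fun h ω => ENNReal.ofReal (∑ x, fB x * |(h x : ℝ)| * (1 - Real.cos (lin fI (rhU G {x} h ω)))))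
        + rhI H b P (fun h ω => ENNReal.ofReal (rhKs G kap fB h ω)) := by
    simp only [mul_add, Finset.sum_add_distrib, ← pn_rch_I_const_mul]
    rw [← pn_rch_I_sum, ← pn_rch_I_sum]
    congr 2
    · funext h ω
      rw [ENNReal.ofReal_sum_of_nonneg fun x _ => mul_nonneg (mul_nonneg (hfB0 x) (abs_nonneg _)) (hcos _)]
      refine Finset.sum_congr rfl fun x _ => ?_
      rw [ENNReal.ofReal_mul (mul_nonneg (hfB0 x) (abs_nonneg _)), ENNReal.ofReal_mul (hfB0 x), mul_assoc]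
    · funext h ω
      unfold rhKs
      rw [ENNReal.ofReal_sum_of_nonneg fun x _ => mul_nonneg (mul_nonneg (hfB0 x) (abs_nonneg _)) (hkap _ _)]
      refine Finset.sum_congr rfl fun x _ => ?_
      rw [ENNReal.ofReal_mul (mul_nonneg (hfB0 x) (abs_nonneg _)), ENNReal.ofReal_mul (hfB0 x), mul_assoc]
  rw [eL]
  refine hsum.trans ?_
  rw [eR]
  refine add_le_add_left (pn_rch_I_mono H b P _ _ fun h ω _ hW => ENNReal.ofReal_le_ofReal ?_) _
  rw [pn_fk_cq_mass G _ h ω hW]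
  refine Finset.sum_le_sum fun x _ => mul_le_mul_of_nonneg_left ?_ (mul_nonneg (hfB0 x) (abs_nonneg _))
  rw [← pn_rch_exposed_mass]
  exact (pn_rch_one_sub_cos_le _).trans (pn_rch_lin_exposed_le G {x} fI hfI0 h ω)

/-- **RESULT of the blueprint s6** (unnormalised, no division):
`γ² P(S_A meets T) ≤ ∑_B [ γ E κ_A + ∑_i ( E cq f_B f_i + E ∑_x f_B(x)|h_x| κ(C_x) ) ]`. -/
theorem pn_rch_result {ιB ιI : Type} [Fintype ιB] [Fintype ιI] (H : HLaw G) (b : ℝ) (hb : 0 < b) (P A T : Set G.V)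
    (cB : ιB → Set G.V) (cI : ιI → Set G.V) (fB : ιB → G.V → ℝ) (fI : ιI → G.V → ℝ)
    (hfB0 : ∀ j x, 0 ≤ fB j x) (hfBs : ∀ j x, x ∉ cB j → fB j x = 0) (hfI0 : ∀ i x, 0 ≤ fI i x)
    (hX1 : ∀ U, AConn G A U → (U ∩ T).Nonempty → ∃ j, (U ∩ cB j).Nonempty)
    (hX2 : ∀ j, ∀ x ∈ cB j, ∀ U, AConn G {x} U → (U ∩ A).Nonempty → ∃ i, (U ∩ cI i).Nonempty)
    (qB : ιB → ℝ) (qI : ιI → ℝ) (γ : ℝ) (kap : Set G.V → (G.V → ℤ) → ℝ) (hqB : ∀ j, qB j ≤ 1) (hqI : ∀ i, qI i ≤ 1) (hγ : 0 ≤ γ)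
    (hkap : ∀ U u, 0 ≤ kap U u)
    (hpB : ∀ j, PostCos G H b P A (fB j) (cB j) (qB j) γ kap)
    (hpI : ∀ j, ∀ x ∈ cB j, ∀ i, PostCos G H b P {x} (fI i) (cI i) (qI i) γ kap)
    (hfin : rhI H b P (fun _ _ => 1) ≠ ∞) (hfinx : ∀ x, rhI H b P (fun h _ => ENNReal.ofReal |(h x : ℝ)|) ≠ ∞)
    (hprB : ∀ j, ENNReal.ofReal (1 - qB j) * rhI H b P (fun _ _ => 1) ≤ rhI H b P (fun h _ => ENNReal.ofReal (1 - Real.cos (lin (fB j) h))))
    (hprI : ∀ i x, ENNReal.ofReal (1 - qI i) * rhI H b P (fun h _ => ENNReal.ofReal |(h x : ℝ)|)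
      ≤ rhI H b P (fun h _ => ENNReal.ofReal |(h x : ℝ)| * ENNReal.ofReal (1 - Real.cos (lin (fI i) h)))) :
    ENNReal.ofReal γ * (ENNReal.ofReal γ * rhI H b P (fun _ ω => rhInd ((vis G ω A ∩ T).Nonempty)))
      ≤ ∑ j, (ENNReal.ofReal γ * rhI H b P (fun h ω => ENNReal.ofReal (kap (vis G ω A) (rhU G A h ω)))
        + ∑ i, (rhI H b P (fun h ω => ENNReal.ofReal (cq G ω (fB j) (fI i) h))
          + rhI H b P (fun h ω => ENNReal.ofReal (rhKs G kap (fB j) h ω)))) := by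
  -- union bound over the cells `B`
  have h1 : rhI H b P (fun _ ω => rhInd ((vis G ω A ∩ T).Nonempty)) ≤ ∑ j, rhI H b P (fun _ ω => rhInd ((vis G ω A ∩ cB j).Nonempty)) := by
    rw [← pn_rch_I_sum]
    refine pn_rch_I_mono H b P _ _ fun h ω _ _ => ?_
    unfold rhInd
    by_cases hT : (vis G ω A ∩ T).Nonempty
    · obtain ⟨j, hj⟩ := hX1 _ (pn_rch_vis_aconn G ω A) hT
      rw [if_pos hT]
      have := Finset.single_le_sum (f := fun j => if (vis G ω A ∩ cB j).Nonempty then (1 : ℝ≥0∞) else 0) (fun _ _ => zero_le) (Finset.mem_univ j)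
      simpa only [if_pos hj] using this
    · rw [if_neg hT]
      exact zero_le
  calc ENNReal.ofReal γ * (ENNReal.ofReal γ * rhI H b P (fun _ ω => rhInd ((vis G ω A ∩ T).Nonempty)))
      ≤ ENNReal.ofReal γ * (ENNReal.ofReal γ * ∑ j, rhI H b P (fun _ ω => rhInd ((vis G ω A ∩ cB j).Nonempty))) := by gcongr
    _ = ∑ j, ENNReal.ofReal γ * (ENNReal.ofReal γ * rhI H b P (fun _ ω => rhInd ((vis G ω A ∩ cB j).Nonempty))) := by
        rw [Finset.mul_sum, Finset.mul_sum]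
    _ ≤ ∑ j, ENNReal.ofReal γ * (∑ i, rhI H b P (fun h ω => ENNReal.ofReal (rhF1 G ω (fB j) (cI i) h))
          + rhI H b P (fun h ω => ENNReal.ofReal (kap (vis G ω A) (rhU G A h ω)))) := by
        refine Finset.sum_le_sum fun j _ => mul_le_mul_right ?_ _
        exact pn_rch_D13 G H b hb P A (cB j) cI (fB j) (hfB0 j) (hfBs j) (hX2 j) (qB j) γ kap (hqB j) hγ hkap (hpB j) hfin (hprB j)
    _ ≤ _ := by
        refine Finset.sum_le_sum fun j _ => ?_
        rw [mul_add, add_comm, Finset.mul_sum]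
        refine add_le_add_right (Finset.sum_le_sum fun i _ => ?_) _
        exact pn_rch_D2 G H b hb P (cB j) (cI i) (fB j) (fI i) (hfB0 j) (hfBs j) (hfI0 i) (qI i) γ kap (hqI i) hγ hkap
          (fun x hx => hpI j x hx i) (fun x _ => hfinx x) (fun x _ => hprI i x)

/-! ## 4. (K1), (K2): the transfer parts -/

/-- a test which vanishes on the visited set does not see the exposed heights -/
theorem pn_rch_lin_unvisited (A Sf : Set G.V) (f : G.V → ℝ) (hSf : ∀ x, x ∉ Sf → f x = 0) (h : G.V → ℤ) (ω : G.E → Bool)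
    (hn : ¬ (vis G ω A ∩ Sf).Nonempty) : lin f (rhK G A h ω) = lin f h := by
  rw [← pn_rch_lin_split G A f h ω]
  have : lin f (rhU G A h ω) = 0 := by
    unfold lin rhU resZ
    refine Finset.sum_eq_zero fun x _ => ?_
    by_cases hx : x ∈ vis G ω A
    · rw [hSf x fun hxS => hn ⟨x, hx, hxS⟩, zero_mul]
    · simp [hx]
  rw [this, zero_add]

/-- **(K1), transfer part**: on the good event (`ε² ≤ η`, the support `Sf` of the test is not visited) the posterior second moment is at most `c`. -/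
theorem pn_rch_second (H : HLaw G) (b : ℝ) (hb : 0 < b) (P A : Set G.V) (θ η c : ℝ) (f : G.V → ℝ) (Sf : Set G.V) (hSf : ∀ x, x ∉ Sf → f x = 0)
    (hpost : ∀ (U : Set G.V) (u : G.V → ℤ) (β' : G.E → ℝ), AConn G A U → (∀ x, x ∉ U → u x = 0) → PostT G b U β' → rhEps θ H u ≤ η →
      ¬ (U ∩ Sf).Nonempty →
      bare G β' (P ∪ U) (fun k => ENNReal.ofReal (lin f k ^ 2) * ENNReal.ofReal (rhW H (u + k)))
        ≤ bare G β' (P ∪ U) (fun k => ENNReal.ofReal c * ENNReal.ofReal (rhW H (u + k)))) :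
    rhI H b P (fun h _ => ENNReal.ofReal (lin f h ^ 2))
      ≤ ENNReal.ofReal c * rhI H b P (fun _ _ => 1)
        + rhI H b P (fun h ω => rhInd (η < rhEps θ H (rhU G A h ω) ∨ (vis G ω A ∩ Sf).Nonempty) * ENNReal.ofReal (lin f h ^ 2)) := by
  have key := pn_rch_transfer G H b hb P A (fun U u => rhEps θ H u ≤ η ∧ ¬ (U ∩ Sf).Nonempty)
    (fun _ _ k => ENNReal.ofReal (lin f k ^ 2)) (fun _ _ _ => ENNReal.ofReal c)
    (fun U u β' hU hu hβ hg => hpost U u β' hU hu hβ hg.1 hg.2)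
    (fun h ω => rhInd (rhEps θ H (rhU G A h ω) ≤ η ∧ ¬ (vis G ω A ∩ Sf).Nonempty))
    (pn_rch_expMeas_of G A fun U u => rhInd (rhEps θ H u ≤ η ∧ ¬ (U ∩ Sf).Nonempty))
    (fun h ω hn => if_neg hn)
  have e1 : rhI H b P (fun h _ => ENNReal.ofReal (lin f h ^ 2))
      = rhI H b P (fun h ω => rhInd (rhEps θ H (rhU G A h ω) ≤ η ∧ ¬ (vis G ω A ∩ Sf).Nonempty) * ENNReal.ofReal (lin f (rhK G A h ω) ^ 2))
        + rhI H b P (fun h ω => rhInd (η < rhEps θ H (rhU G A h ω) ∨ (vis G ω A ∩ Sf).Nonempty) * ENNReal.ofReal (lin f h ^ 2)) := by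
    rw [← pn_rch_I_add]
    congr 1
    funext h ω
    unfold rhInd
    by_cases hg : rhEps θ H (rhU G A h ω) ≤ η ∧ ¬ (vis G ω A ∩ Sf).Nonempty
    · have hb' : ¬ (η < rhEps θ H (rhU G A h ω) ∨ (vis G ω A ∩ Sf).Nonempty) := by
        rintro (h1 | h1)
        · exact absurd hg.1 (not_le.2 h1)
        · exact hg.2 h1
      rw [if_pos hg, if_neg hb', pn_rch_lin_unvisited G A Sf f hSf h ω hg.2]
      simp
    · have hb' : η < rhEps θ H (rhU G A h ω) ∨ (vis G ω A ∩ Sf).Nonempty := by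
        by_contra hcon
        push Not at hcon
        exact hg ⟨hcon.1, Set.not_nonempty_iff_eq_empty.2 hcon.2⟩
      rw [if_neg hg, if_pos hb']
      simp
  rw [e1]
  refine add_le_add_left (key.trans ?_) _
  rw [← pn_rch_I_const_mul]
  refine pn_rch_I_mono H b P _ _ fun h ω _ _ => ?_
  unfold rhInd
  split_ifs <;> simp

/-- **(K2) = [C](3.28), transfer part**: `c` = a lower bound of the posterior probability of the hard pin event on the good event. -/
theorem pn_rch_pin (H : HLaw G) (b : ℝ) (hb : 0 < b) (P A T : Set G.V) (θ η c : ℝ)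
    (hpost : ∀ (U : Set G.V) (u : G.V → ℤ) (β' : G.E → ℝ), AConn G A U → (∀ x, x ∉ U → u x = 0) → PostT G b U β' → rhEps θ H u ≤ η →
      ¬ (U ∩ T).Nonempty →
      bare G β' (P ∪ U) (fun k => ENNReal.ofReal c * ENNReal.ofReal (rhW H (u + k)))
        ≤ bare G β' (P ∪ U) (fun k => rhInd (∀ x ∈ T, k x = 0) * ENNReal.ofReal (rhW H (u + k)))) :
    ENNReal.ofReal c * rhI H b P (fun h ω => rhInd (rhEps θ H (rhU G A h ω) ≤ η ∧ ¬ (vis G ω A ∩ T).Nonempty))
      ≤ rhI H b P (fun h _ => rhInd (∀ x ∈ T, h x = 0)) := by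
  have key := pn_rch_transfer G H b hb P A (fun U u => rhEps θ H u ≤ η ∧ ¬ (U ∩ T).Nonempty)
    (fun _ _ _ => ENNReal.ofReal c) (fun _ _ k => rhInd (∀ x ∈ T, k x = 0))
    (fun U u β' hU hu hβ hg => hpost U u β' hU hu hβ hg.1 hg.2)
    (fun h ω => rhInd (rhEps θ H (rhU G A h ω) ≤ η ∧ ¬ (vis G ω A ∩ T).Nonempty))
    (pn_rch_expMeas_of G A fun U u => rhInd (rhEps θ H u ≤ η ∧ ¬ (U ∩ T).Nonempty))
    (fun h ω hn => if_neg hn)
  rw [← pn_rch_I_const_mul]
  simp only [mul_comm (ENNReal.ofReal c)]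
  refine key.trans (pn_rch_I_mono H b P _ _ fun h ω _ _ => ?_)
  unfold rhInd
  by_cases hg : rhEps θ H (rhU G A h ω) ≤ η ∧ ¬ (vis G ω A ∩ T).Nonempty
  · rw [if_pos hg, one_mul]
    have : (∀ x ∈ T, rhK G A h ω x = 0) ↔ ∀ x ∈ T, h x = 0 := by
      refine forall₂_congr fun x hx => ?_
      have hxv : x ∉ vis G ω A := fun hv => hg.2 ⟨x, hv, hx⟩
      simp [rhK, resZ, hxv]
    by_cases hT : ∀ x ∈ T, h x = 0
    · rw [if_pos (this.2 hT), if_pos hT]
    · rw [if_neg fun hh => hT (this.1 hh)]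
      exact zero_le
  · rw [if_neg hg, zero_mul]
    exact zero_le

end

end Claimed.Agent.R285.Pins
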