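import Claimed.Agent.R285.Pins.ClusSys
import Claimed.Agent.R285.Pins.Reach

/-!
# ROW 285, PINS-CLUS2 + CR, FILE 2: finite cluster sums, pointwise identities and bounds (helper74).   Paper-free, NO sorry.
-/

set_option autoImplicit false

namespace Claimed.Agent.R285.Pins

open scoped Classical ENNReal

noncomputable section

variable {G : HGraph}

/-! ## 0. calculus of `rhI` -/

theorem pn_cl_I_mono (H : HLaw G) (b : ℝ) (P : Set G.V) (F F' : (G.V → ℤ) → (G.E → Bool) → ℝ≥0∞)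
    (hF : ∀ h ω, (∀ v ∈ P, h v = 0) → fkW G (fun _ => b) h ω ≠ 0 → F h ω ≤ F' h ω) : rhI H b P F ≤ rhI H b P F' :=
  pn_ext_mono G _ P _ _ fun h ω hP hW => mul_le_mul_left (hF h ω hP hW) _

theorem pn_cl_I_congr (H : HLaw G) (b : ℝ) (P : Set G.V) (F F' : (G.V → ℤ) → (G.E → Bool) → ℝ≥0∞)
    (hF : ∀ h ω, (∀ v ∈ P, h v = 0) → fkW G (fun _ => b) h ω ≠ 0 → F h ω = F' h ω) : rhI H b P F = rhI H b P F' :=
  pn_ext_congr G _ P _ _ fun h ω hP hW => by rw [hF h ω hP hW]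

theorem pn_cl_I_add (H : HLaw G) (b : ℝ) (P : Set G.V) (F F' : (G.V → ℤ) → (G.E → Bool) → ℝ≥0∞) :
    rhI H b P (fun h ω => F h ω + F' h ω) = rhI H b P F + rhI H b P F' := by
  unfold rhI
  rw [← pn_ext_add]
  congr 1
  funext h ω
  rw [add_mul]

theorem pn_cl_I_mul (H : HLaw G) (b : ℝ) (P : Set G.V) (c : ℝ≥0∞) (F : (G.V → ℤ) → (G.E → Bool) → ℝ≥0∞) :
    rhI H b P (fun h ω => c * F h ω) = c * rhI H b P F := by
  unfold rhI
  rw [← pn_ext_const_mul]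
  congr 1
  funext h ω
  rw [mul_assoc]

theorem pn_cl_I_sum {ι : Type} (s : Finset ι) (H : HLaw G) (b : ℝ) (P : Set G.V) (F : ι → (G.V → ℤ) → (G.E → Bool) → ℝ≥0∞) :
    rhI H b P (fun h ω => ∑ i ∈ s, F i h ω) = ∑ i ∈ s, rhI H b P (F i) := by
  unfold rhI
  rw [← pn_ext_sum]
  congr 1
  funext h ω
  rw [Finset.sum_mul]

/-! ## 1. plain cluster sums -/

theorem pn_cl_csz_pos (ω : G.E → Bool) (x : G.V) : 0 < csz G ω x := by
  unfold csz
  have : 0 < (Finset.univ.filter fun y => conn G ω x y).card :=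
    Finset.card_pos.2 ⟨x, by simp [pn_conn_refl G ω x]⟩
  exact_mod_cast this

theorem pn_cl_conn_iff (ω : G.E → Bool) {x y : G.V} (h : conn G ω x y) (z : G.V) : conn G ω x z ↔ conn G ω y z :=
  ⟨fun hz => pn_conn_trans G ω (pn_conn_symm G ω h) hz, fun hz => pn_conn_trans G ω h hz⟩

theorem pn_cl_csz_conn (ω : G.E → Bool) {x y : G.V} (h : conn G ω x y) : csz G ω x = csz G ω y := by
  unfold csz
  congr 2
  ext z
  simp [pn_cl_conn_iff ω h z]

theorem pn_cl_sum_conn_const (ω : G.E → Bool) (y : G.V) (c : ℝ) : ∑ x, (if conn G ω y x then c else 0) = csz G ω y * c := by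
  rw [← Finset.sum_filter, Finset.sum_const, nsmul_eq_mul]
  rfl

/-- a site sum as a plain cluster sum -/
theorem pn_cl_site_cluster (ω : G.E → Bool) (a : G.V → ℝ) :
    ∑ x, a x = ∑ x, (csz G ω x)⁻¹ * ∑ y, if conn G ω x y then a y else 0 := by
  simp only [Finset.mul_sum]
  rw [Finset.sum_comm]
  refine Finset.sum_congr rfl fun y _ => ?_
  have e : ∀ x, (csz G ω x)⁻¹ * (if conn G ω x y then a y else 0) = if conn G ω y x then (csz G ω y)⁻¹ * a y else 0 := by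
    intro x
    by_cases h : conn G ω x y
    · rw [if_pos h, if_pos (pn_conn_symm G ω h), pn_cl_csz_conn ω h]
    · rw [if_neg h, if_neg fun h' => h (pn_conn_symm G ω h'), mul_zero]
  simp only [e]
  rw [pn_cl_sum_conn_const, ← mul_assoc, mul_inv_cancel₀ (pn_cl_csz_pos ω y).ne', one_mul]

theorem pn_cl_vis_conn (ω : G.E → Bool) {x y : G.V} (h : conn G ω x y) : vis G ω {x} = vis G ω {y} := by
  rw [pn_vis_singleton, pn_vis_singleton]
  ext z
  exact pn_cl_conn_iff ω h z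

theorem pn_cl_rhU_conn (h : G.V → ℤ) (ω : G.E → Bool) {x y : G.V} (hxy : conn G ω x y) : rhU G {x} h ω = rhU G {y} h ω := by
  unfold rhU
  rw [pn_cl_vis_conn ω hxy]

theorem pn_cl_gdx_conn (H : HLaw G) (𝒰 : Set (Set G.V)) (T : ℝ) (h : G.V → ℤ) (ω : G.E → Bool) {x y : G.V} (hxy : conn G ω x y) :
    clGdx G H 𝒰 T h ω x ↔ clGdx G H 𝒰 T h ω y := by
  unfold clGdx
  rw [pn_cl_vis_conn ω hxy, pn_cl_rhU_conn h ω hxy]

theorem pn_cl_mem_vis_single (ω : G.E → Bool) (x y : G.V) : y ∈ vis G ω {x} ↔ conn G ω x y := by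
  rw [pn_vis_singleton]
  rfl

theorem pn_cl_lin_rhU (f : G.V → ℝ) (h : G.V → ℤ) (ω : G.E → Bool) (x : G.V) :
    lin f (rhU G {x} h ω) = ∑ y, if conn G ω x y then f y * (h y : ℝ) else 0 := by
  unfold lin rhU resZ
  refine Finset.sum_congr rfl fun y _ => ?_
  by_cases hy : conn G ω x y
  · rw [if_pos ((pn_cl_mem_vis_single ω x y).2 hy), if_pos hy]
  · rw [if_neg fun h' => hy ((pn_cl_mem_vis_single ω x y).1 h'), if_neg hy]
    simp

theorem pn_cl_lin_resZ (f : G.V → ℝ) (S : Set G.V) (h : G.V → ℤ) : lin f (resZ G S h) = ∑ y, if y ∈ S then f y * (h y : ℝ) else 0 := by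
  unfold lin resZ
  refine Finset.sum_congr rfl fun y _ => ?_
  by_cases hy : y ∈ S
  · rw [if_pos hy, if_pos hy]
  · rw [if_neg hy, if_neg hy]
    simp

/-- the weighted sum of the exposed parts of the good clusters -/
theorem pn_cl_lin_sum (H : HLaw G) (𝒰 : Set (Set G.V)) (T : ℝ) (h : G.V → ℤ) (ω : G.E → Bool) (f : G.V → ℝ) :
    ∑ x, (if clGdx G H 𝒰 T h ω x then (csz G ω x)⁻¹ * lin f (rhU G {x} h ω) else 0) = lin f (resZ G (clGs G H 𝒰 T h ω) h) := by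
  rw [pn_cl_lin_resZ, pn_cl_site_cluster ω fun y => if y ∈ clGs G H 𝒰 T h ω then f y * (h y : ℝ) else 0]
  refine Finset.sum_congr rfl fun x _ => ?_
  by_cases hx : clGdx G H 𝒰 T h ω x
  · rw [if_pos hx, pn_cl_lin_rhU]
    congr 1
    refine Finset.sum_congr rfl fun y _ => ?_
    by_cases hy : conn G ω x y
    · rw [if_pos hy, if_pos hy, if_pos]
      exact (pn_cl_gdx_conn H 𝒰 T h ω hy).1 hx
    · rw [if_neg hy, if_neg hy]
  · rw [if_neg hx]
    symm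
    apply mul_eq_zero_of_right
    refine Finset.sum_eq_zero fun y _ => ?_
    by_cases hy : conn G ω x y
    · rw [if_pos hy, if_neg]
      exact fun h' => hx ((pn_cl_gdx_conn H 𝒰 T h ω hy).2 h')
    · rw [if_neg hy]

/-! ## 2. identities -/

/-- `|y(u)|² = ⟨y(u), y(u+k)⟩ + L_u(k)` -/
theorem pn_cl_Y_site (H : HLaw G) (u k : G.V → ℤ) : clY H u = ∑ o, rhRow H u o * rhRow H (u + k) o + clL H u k := by
  rw [pn_cl_L_eq]
  unfold clY
  simp only [pn_cl_row_add]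
  rw [← sub_eq_add_neg, ← Finset.sum_sub_distrib]
  exact Finset.sum_congr rfl fun o _ => by ring

theorem pn_cl_UK (A : Set G.V) (h : G.V → ℤ) (ω : G.E → Bool) : rhU G A h ω + rhK G A h ω = h := pn_rch_res_add G _ h

/-- **the cluster identity of (C2)** -/
theorem pn_cl_S2_eq (H : HLaw G) (𝒰 : Set (Set G.V)) (T : ℝ) (h : G.V → ℤ) (ω : G.E → Bool) :
    clS2 G H 𝒰 T h ω = ∑ o, rhRow H (resZ G (clGs G H 𝒰 T h ω) h) o * rhRow H h o
      + ∑ x, if clGdx G H 𝒰 T h ω x then (csz G ω x)⁻¹ * clL H (rhU G {x} h ω) (rhK G {x} h ω) else 0 := by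
  have e1 : ∀ o, rhRow H (resZ G (clGs G H 𝒰 T h ω) h) o * rhRow H h o
      = ∑ x, if clGdx G H 𝒰 T h ω x then (csz G ω x)⁻¹ * (rhRow H (rhU G {x} h ω) o * rhRow H h o) else 0 := by
    intro o
    rw [pn_cl_row H (resZ G (clGs G H 𝒰 T h ω) h), ← pn_cl_lin_sum, Finset.sum_mul]
    refine Finset.sum_congr rfl fun x _ => ?_
    split_ifs
    · rw [pn_cl_row H (rhU G {x} h ω)]
      ring
    · rw [zero_mul]
  simp only [e1]
  rw [Finset.sum_comm, ← Finset.sum_add_distrib]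
  unfold clS2
  refine Finset.sum_congr rfl fun x _ => ?_
  by_cases hx : clGdx G H 𝒰 T h ω x
  · simp only [if_pos hx]
    rw [← Finset.mul_sum, ← mul_add]
    congr 1
    have := pn_cl_Y_site H (rhU G {x} h ω) (rhK G {x} h ω)
    rwa [pn_cl_UK] at this
  · simp only [if_neg hx]
    simp

/-- `cq f g = ∑_x f_x h_x ⟨g, e_x⟩` -/
theorem pn_cl_cq_site (ω : G.E → Bool) (f g : G.V → ℝ) (h : G.V → ℤ) :
    cq G ω f g h = ∑ x, f x * (h x : ℝ) * lin g (rhU G {x} h ω) := by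
  unfold cq
  refine Finset.sum_congr rfl fun x _ => ?_
  rw [pn_cl_lin_rhU, Finset.mul_sum]
  refine Finset.sum_congr rfl fun y _ => ?_
  split_ifs <;> simp

/-- `h_f h_g = cq f g + ∑_x f_x h_x ⟨g, k_x⟩` -/
theorem pn_cl_prod_site (ω : G.E → Bool) (f g : G.V → ℝ) (h : G.V → ℤ) :
    lin f h * lin g h = cq G ω f g h + ∑ x, f x * (h x : ℝ) * lin g (rhK G {x} h ω) := by
  rw [pn_cl_cq_site, ← Finset.sum_add_distrib]
  unfold lin
  rw [Finset.sum_mul]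
  refine Finset.sum_congr rfl fun x _ => ?_
  rw [← mul_add]
  congr 1
  have := pn_cl_lin_add g (rhU G {x} h ω) (rhK G {x} h ω)
  rw [pn_cl_UK] at this
  exact this

/-! ## 3. bounds by `|h|` -/

theorem pn_cl_abs_lin_resZ (g : G.V → ℝ) (hg : ∀ x, 0 ≤ g x) (S : Set G.V) (h : G.V → ℤ) : |lin g (resZ G S h)| ≤ linA g h := by
  rw [pn_cl_lin_resZ]
  refine (Finset.abs_sum_le_sum_abs _ _).trans (Finset.sum_le_sum fun y _ => ?_)
  split_ifs
  · rw [abs_mul, abs_of_nonneg (hg y)]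
  · rw [abs_zero]
    exact mul_nonneg (hg y) (abs_nonneg _)

theorem pn_cl_linA_nonneg (g : G.V → ℝ) (hg : ∀ x, 0 ≤ g x) (h : G.V → ℤ) : 0 ≤ linA g h :=
  Finset.sum_nonneg fun y _ => mul_nonneg (hg y) (abs_nonneg _)

theorem pn_cl_rhT_nonneg (f : G.V → ℝ) (hf : ∀ x, 0 ≤ f x) (x : G.V) : 0 ≤ rhT f x := by
  unfold rhT
  have := hf x
  positivity

theorem pn_cl_abs_row_resZ (H : HLaw G) (hB : ∀ o x, 0 ≤ H.B o x) (S : Set G.V) (h : G.V → ℤ) (o : H.O) :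
    |rhRow H (resZ G S h) o| ≤ clRowA H h o := by
  rw [pn_cl_row]
  exact pn_cl_abs_lin_resZ _ (pn_cl_rhT_nonneg _ (hB o)) S h

theorem pn_cl_rowA_nonneg (H : HLaw G) (hB : ∀ o x, 0 ≤ H.B o x) (h : G.V → ℤ) (o : H.O) : 0 ≤ clRowA H h o :=
  pn_cl_linA_nonneg _ (pn_cl_rhT_nonneg _ (hB o)) h

theorem pn_cl_Y_resZ_le (H : HLaw G) (hB : ∀ o x, 0 ≤ H.B o x) (S : Set G.V) (h : G.V → ℤ) : clY H (resZ G S h) ≤ clYA H h := by
  unfold clY clYA
  refine Finset.sum_le_sum fun o _ => ?_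
  rw [← sq_abs]
  exact pow_le_pow_left₀ (abs_nonneg _) (pn_cl_abs_row_resZ H hB S h o) 2

theorem pn_cl_YA_nonneg (H : HLaw G) (h : G.V → ℤ) : 0 ≤ clYA H h := Finset.sum_nonneg fun _ _ => sq_nonneg _

theorem pn_cl_abs_L_resZ (H : HLaw G) (hB : ∀ o x, 0 ≤ H.B o x) (S S' : Set G.V) (h : G.V → ℤ) :
    |clL H (resZ G S h) (resZ G S' h)| ≤ clYA H h := by
  rw [pn_cl_L_eq, abs_neg]
  refine (Finset.abs_sum_le_sum_abs _ _).trans (Finset.sum_le_sum fun o _ => ?_)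
  rw [abs_mul, sq]
  exact mul_le_mul (pn_cl_abs_row_resZ H hB S h o) (pn_cl_abs_row_resZ H hB S' h o) (abs_nonneg _) (pn_cl_rowA_nonneg H hB h o)

end

end Claimed.Agent.R285.Pins
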