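import Claimed.Agent.R285.Pins.TiltRef

/-!
# ROW 285, PINS-TILT 5: the tilt lemmas (T2)-(T7) of blueprint v2 for FLOW tilts, with explicit constants, at `LSys` level (architect + proofs helper64).   Paper-free, NO sorry.

`S` proper, `S.b e ≤ b`, tilt `L = pnSt S t 0` (a flow), `|t_e| ≤ 1/2`, `b ∑ t_e² ≤ ε2` (`ε2 = ε²`).
* `pn_fl_T2`  : `E0 e^{2L} ≤ exp(4 ε2)`;      `pn_fl_T2'` : `E0 e^L ≤ exp(ε2)`;
* `pn_fl_T3`  : `|F| ≤ M` ⟹ `|Ev 0 L F - E0 F| ≤ M √(exp(4 ε2) - 1)`;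
* `pn_fl_T4`  : `Ev 0 L L ≤ 4 ε2`   (NO smallness of `ε2`);
* `pn_tl_T5'` : `θ Ev 0 L Y ≤ log E0 e^{L + θ Y}` (any tests);
* `pn_fl_T5`  : `Y = pnSt S t' s`, `b ∑ t'² + |s|²/2 ≤ c²`, `|t_e + θ t'_e| ≤ 1`:  `θ Ev 0 L Y ≤ (ε + θ c)²`;      `pn_fl_T5_abs` : `|Ev 0 L Y| ≤ 4 ε c`;
* `pn_fl_T6`  : `Ev 0 L X² ≤ E0 X² + √(E0 X⁴) √(exp(4 ε2) - 1)`;
* `pn_fl_T7`  : even `F ≥ 0`: `E0 F ≤ exp(ε2) Ev 0 L F`;
* reference moments of `X = pnSt S t s` (no sup bound for the variance): `pn_ref_var : V0 X ≤ 2 b ∑ t² + |s|²`, `pn_ref_moment_st : E0 X^{2p} ≤ 2 (2p)! θ^{-2p} exp(θ² (b ∑ t² + |s|²/2))` if `θ |t_e| ≤ 1`.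
-/

set_option autoImplicit false

namespace Claimed.Agent.R285.Pins

noncomputable section

variable {S : LSys}

theorem pn_Ev_smul (hS : S.Ok) (L : S.L →+ ℝ) (c : ℝ) (F : S.L → ℝ) : S.Ev 0 L (fun z => c * F z) = c * S.Ev 0 L F := by
  rw [pn_Ev_eq hS, pn_Ev_eq hS, ← mul_div_assoc, ← rd_E0_smul]
  congr 2
  funext z
  ring

/-- **(T5')** -/
theorem pn_tl_T5' (hS : S.Ok) (L Y : S.L →+ ℝ) (θ : ℝ) :
    θ * S.Ev 0 L (fun z => Y z) ≤ Real.log (S.E0 fun z => Real.exp ((L + θ • Y) z)) := by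
  have h := pn_tl_jensen hS L (θ • Y)
  have e : S.Ev 0 L (fun z => (θ • Y) z) = θ * S.Ev 0 L fun z => Y z := by
    rw [← pn_Ev_smul hS]
    rfl
  rwa [e] at h

theorem pn_E0_exp_pos (hS : S.Ok) (L : S.L →+ ℝ) : 0 < S.E0 fun z => Real.exp (L z) :=
  lt_of_lt_of_le zero_lt_one (pn_tl_one_le hS L)

section Flow

variable (hS : S.Ok) (b : ℝ) (hb0 : 0 ≤ b) (hb : ∀ e, S.b e ≤ b) (t : S.E → ℝ) (ε2 : ℝ) (hε : b * ∑ e, t e ^ 2 ≤ ε2)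

include hS hb hε

theorem pn_fl_T2' (ht : ∀ e, |t e| ≤ 1) : S.E0 (fun z => Real.exp (pnSt S t 0 z)) ≤ Real.exp ε2 := by
  refine (pn_ref_quad S hS b hb t ht 0).trans (Real.exp_le_exp.2 ?_)
  simpa using hε

theorem pn_fl_T2 (ht : ∀ e, |t e| ≤ 1 / 2) : S.E0 (fun z => Real.exp (2 * pnSt S t 0 z)) ≤ Real.exp (4 * ε2) := by
  have e : (fun z : S.L => Real.exp (2 * pnSt S t 0 z)) = fun z => Real.exp (pnSt S ((2 : ℝ) • t) 0 z) := by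
    funext z
    have := congrArg (fun X : S.L →+ ℝ => X z) (pnSt_smul S 2 t 0)
    simp only [AddMonoidHom.smul_apply, smul_eq_mul, smul_zero] at this
    rw [this]
  rw [e]
  refine (pn_ref_quad S hS b hb _ (fun e => ?_) 0).trans (Real.exp_le_exp.2 ?_)
  · simp only [Pi.smul_apply, smul_eq_mul, abs_mul, abs_two]
    linarith [ht e]
  · have e2 : ∑ e, ((2 : ℝ) • t) e ^ 2 = 4 * ∑ e, t e ^ 2 := by
      rw [Finset.mul_sum]
      exact Finset.sum_congr rfl fun e _ => by simp only [Pi.smul_apply, smul_eq_mul]; ring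
    rw [e2]
    simp only [Pi.zero_apply, ne_eq, OfNat.ofNat_ne_zero, not_false_eq_true, zero_pow, Finset.sum_const_zero, zero_div,
      add_zero]
    linarith

theorem pn_fl_T3 (ht : ∀ e, |t e| ≤ 1 / 2) {F : S.L → ℝ} (M : ℝ) (hM : ∀ z, |F z| ≤ M) :
    |S.Ev 0 (pnSt S t 0) F - S.E0 F| ≤ M * Real.sqrt (Real.exp (4 * ε2) - 1) := by
  have hM0 : 0 ≤ M := (abs_nonneg _).trans (hM 0)
  refine (pn_tl_tv hS _ M hM).trans (mul_le_mul_of_nonneg_left (Real.sqrt_le_sqrt ?_) hM0)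
  linarith [pn_fl_T2 hS b hb t ε2 hε ht]

theorem pn_fl_T4 (ht : ∀ e, |t e| ≤ 1 / 2) : S.Ev 0 (pnSt S t 0) (fun z => pnSt S t 0 z) ≤ 4 * ε2 := by
  refine (pn_tl_absorb hS _).trans ?_
  rw [Real.log_le_iff_le_exp (lt_of_lt_of_le zero_lt_one (pn_tl_one_le_two hS _))]
  exact pn_fl_T2 hS b hb t ε2 hε ht

theorem pn_fl_T6 (ht : ∀ e, |t e| ≤ 1 / 2) (X : S.L →+ ℝ) :
    S.Ev 0 (pnSt S t 0) (fun z => X z ^ 2)
      ≤ S.E0 (fun z => X z ^ 2) + Real.sqrt (S.E0 fun z => X z ^ 4) * Real.sqrt (Real.exp (4 * ε2) - 1) := by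
  have h := pn_tl_change hS (pnSt S t 0) (rd_dom_pow (rd_dom_test X) 2)
  have e : (fun z : S.L => (X z ^ 2) ^ 2) = fun z => X z ^ 4 := by
    funext z
    ring
  rw [e] at h
  have h2 : Real.sqrt (S.E0 (fun z => Real.exp (2 * pnSt S t 0 z)) - 1) ≤ Real.sqrt (Real.exp (4 * ε2) - 1) :=
    Real.sqrt_le_sqrt (by linarith [pn_fl_T2 hS b hb t ε2 hε ht])
  have h3 := (abs_le.1 h).2
  have h4 := mul_le_mul_of_nonneg_left h2 (Real.sqrt_nonneg (S.E0 fun z => X z ^ 4))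
  linarith

theorem pn_fl_T7 (ht : ∀ e, |t e| ≤ 1) {F : S.L → ℝ} (hF : S.Dom F) (h0 : ∀ z, 0 ≤ F z) (hev : ∀ z, F (-z) = F z) :
    S.E0 F ≤ Real.exp ε2 * S.Ev 0 (pnSt S t 0) F := by
  have h1 := pn_tl_even hS (pnSt S t 0) hF h0 hev
  have h2 := pn_fl_T2' hS b hb t ε2 hε ht
  have hm := pn_E0_exp_pos hS (pnSt S t 0)
  have h3 : 0 ≤ S.Ev 0 (pnSt S t 0) F := by
    rw [pn_Ev_eq hS]
    exact div_nonneg (pn_E0_nonneg hS fun z => mul_nonneg (h0 z) (Real.exp_pos _).le) hm.le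
  have e : S.E0 (fun z => F z * Real.exp (pnSt S t 0 z)) = S.E0 (fun z => Real.exp (pnSt S t 0 z)) * S.Ev 0 (pnSt S t 0) F := by
    rw [pn_Ev_eq hS]
    field_simp
  rw [e] at h1
  exact h1.trans (mul_le_mul_of_nonneg_right h2 h3)

end Flow

/-- the quadratic cost of `L + θ Y` -/
theorem pn_fl_cost {ι κ : Type} [Fintype ι] [Fintype κ] (b : ℝ) (hb0 : 0 ≤ b) (t t' : ι → ℝ) (s : κ → ℝ) (ε c θ : ℝ)
    (hε0 : 0 ≤ ε) (hc0 : 0 ≤ c) (hθ : 0 ≤ θ) (hε : b * ∑ e, t e ^ 2 ≤ ε ^ 2) (hc : b * ∑ e, t' e ^ 2 + (∑ o, s o ^ 2) / 2 ≤ c ^ 2) :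
    b * ∑ e, (t e + θ * t' e) ^ 2 + (∑ o, (θ * s o) ^ 2) / 2 ≤ (ε + θ * c) ^ 2 := by
  have hs0 : 0 ≤ ∑ o, s o ^ 2 := Finset.sum_nonneg fun _ _ => sq_nonneg _
  have ht0 : 0 ≤ ∑ e, t e ^ 2 := Finset.sum_nonneg fun _ _ => sq_nonneg _
  have ht0' : 0 ≤ ∑ e, t' e ^ 2 := Finset.sum_nonneg fun _ _ => sq_nonneg _
  have e1 : ∑ e, (t e + θ * t' e) ^ 2 = ∑ e, t e ^ 2 + 2 * θ * ∑ e, t e * t' e + θ ^ 2 * ∑ e, t' e ^ 2 := by
    rw [Finset.mul_sum, Finset.mul_sum, ← Finset.sum_add_distrib, ← Finset.sum_add_distrib]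
    exact Finset.sum_congr rfl fun e _ => by ring
  have e2 : ∑ o, (θ * s o) ^ 2 = θ ^ 2 * ∑ o, s o ^ 2 := by
    rw [Finset.mul_sum]
    exact Finset.sum_congr rfl fun o _ => by ring
  have hcs : (∑ e, t e * t' e) ^ 2 ≤ (∑ e, t e ^ 2) * ∑ e, t' e ^ 2 := Finset.sum_mul_sq_le_sq_mul_sq _ _ _
  have h3 : b * ∑ e, t e * t' e ≤ ε * c := by
    have h4 : (b * ∑ e, t e * t' e) ^ 2 ≤ (ε * c) ^ 2 := by
      have h5 : b * ∑ e, t' e ^ 2 ≤ c ^ 2 := by linarith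
      calc (b * ∑ e, t e * t' e) ^ 2 = b ^ 2 * (∑ e, t e * t' e) ^ 2 := by ring
        _ ≤ b ^ 2 * ((∑ e, t e ^ 2) * ∑ e, t' e ^ 2) := mul_le_mul_of_nonneg_left hcs (sq_nonneg b)
        _ = (b * ∑ e, t e ^ 2) * (b * ∑ e, t' e ^ 2) := by ring
        _ ≤ ε ^ 2 * c ^ 2 := mul_le_mul hε h5 (mul_nonneg hb0 ht0') (sq_nonneg _)
        _ = _ := by ring
    exact (abs_le_of_sq_le_sq' h4 (mul_nonneg hε0 hc0)).2
  rw [e1, e2]
  have h6 : 0 ≤ θ ^ 2 := sq_nonneg θ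
  nlinarith [mul_le_mul_of_nonneg_left h3 hθ, mul_le_mul_of_nonneg_left hc h6]

/-- **(T5)** with a free parameter -/
theorem pn_fl_T5 (hS : S.Ok) (b : ℝ) (hb0 : 0 ≤ b) (hb : ∀ e, S.b e ≤ b) (t t' : S.E → ℝ) (s : S.O → ℝ) (ε c θ : ℝ)
    (hε0 : 0 ≤ ε) (hc0 : 0 ≤ c) (hθ : 0 ≤ θ) (hε : b * ∑ e, t e ^ 2 ≤ ε ^ 2) (hc : b * ∑ e, t' e ^ 2 + (∑ o, s o ^ 2) / 2 ≤ c ^ 2)
    (hsup : ∀ e, |t e + θ * t' e| ≤ 1) :
    θ * S.Ev 0 (pnSt S t 0) (fun z => pnSt S t' s z) ≤ (ε + θ * c) ^ 2 := by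
  refine (pn_tl_T5' hS _ _ θ).trans ?_
  have e : pnSt S t 0 + θ • pnSt S t' s = pnSt S (fun e => t e + θ * t' e) (fun o => θ * s o) := by
    rw [pnSt_smul, pnSt_add]
    congr 1
    funext o
    simp
  rw [e, Real.log_le_iff_le_exp (pn_E0_exp_pos hS _)]
  refine (pn_ref_quad S hS b hb _ hsup _).trans (Real.exp_le_exp.2 ?_)
  exact pn_fl_cost b hb0 t t' s ε c θ hε0 hc0 hθ hε hc

/-- (T5), one side, optimised -/
theorem pn_fl_T5_le (hS : S.Ok) (b : ℝ) (hb0 : 0 ≤ b) (hb : ∀ e, S.b e ≤ b) (t t' : S.E → ℝ) (s : S.O → ℝ) (ε c t₀ t₀' : ℝ)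
    (hε0 : 0 ≤ ε) (hc0 : 0 < c) (hε : b * ∑ e, t e ^ 2 ≤ ε ^ 2) (hc : b * ∑ e, t' e ^ 2 + (∑ o, s o ^ 2) / 2 ≤ c ^ 2)
    (ht : ∀ e, |t e| ≤ t₀) (ht' : ∀ e, |t' e| ≤ t₀') (h1 : t₀ < 1) (hsup : t₀ + ε / c * t₀' ≤ 1) :
    S.Ev 0 (pnSt S t 0) (fun z => pnSt S t' s z) ≤ 4 * ε * c := by
  have hsupθ : ∀ θ : ℝ, 0 ≤ θ → t₀ + θ * t₀' ≤ 1 → ∀ e, |t e + θ * t' e| ≤ 1 := by
    intro θ hθ h e
    calc |t e + θ * t' e| ≤ |t e| + |θ * t' e| := abs_add_le _ _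
      _ = |t e| + θ * |t' e| := by rw [abs_mul, abs_of_nonneg hθ]
      _ ≤ t₀ + θ * t₀' := add_le_add (ht e) (mul_le_mul_of_nonneg_left (ht' e) hθ)
      _ ≤ 1 := h
  set A := S.Ev 0 (pnSt S t 0) fun z => pnSt S t' s z with hA
  rcases hε0.eq_or_lt with h0 | hpos
  · -- `ε = 0`
    subst h0
    simp only [mul_zero, zero_mul]
    by_contra hcon
    rw [not_le] at hcon
    -- choose a small `θ`
    set θ := min ((1 - t₀) / (|t₀'| + 1)) (A / (2 * c ^ 2)) with hθdef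
    have hθpos : 0 < θ := by
      refine lt_min (div_pos (by linarith) (by positivity)) (div_pos hcon (by positivity))
    have hθ1 : t₀ + θ * t₀' ≤ 1 := by
      have h2 : θ * t₀' ≤ θ * (|t₀'| + 1) := mul_le_mul_of_nonneg_left (by linarith [le_abs_self t₀']) hθpos.le
      have h3 : θ * (|t₀'| + 1) ≤ 1 - t₀ := by
        rw [← le_div_iff₀ (by positivity)]
        exact min_le_left _ _
      linarith
    have h4 := pn_fl_T5 hS b hb0 hb t t' s 0 c θ le_rfl hc0.le hθpos.le hε hc (hsupθ θ hθpos.le hθ1)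
    rw [zero_add, ← hA] at h4
    have h5 : θ ≤ A / (2 * c ^ 2) := min_le_right _ _
    rw [le_div_iff₀ (by positivity)] at h5
    have h6 : θ * A ≤ θ * (θ * c ^ 2) := by
      calc θ * A ≤ (θ * c) ^ 2 := h4
        _ = _ := by ring
    have h7 : A ≤ θ * c ^ 2 := le_of_mul_le_mul_left h6 hθpos
    nlinarith
  · have hθpos : 0 < ε / c := div_pos hpos hc0
    have h4 := pn_fl_T5 hS b hb0 hb t t' s ε c (ε / c) hε0 hc0.le hθpos.le hε hc (hsupθ _ hθpos.le hsup)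
    rw [← hA] at h4
    have e : ε + ε / c * c = 2 * ε := by
      field_simp
      ring
    rw [e, div_mul_eq_mul_div, div_le_iff₀ hc0] at h4
    have h5 : ε * A ≤ ε * (4 * ε * c) := by nlinarith
    exact le_of_mul_le_mul_left h5 hpos

/-- **(T5)**: `|E_L Y| ≤ 4 ε c` -/
theorem pn_fl_T5_abs (hS : S.Ok) (b : ℝ) (hb0 : 0 ≤ b) (hb : ∀ e, S.b e ≤ b) (t t' : S.E → ℝ) (s : S.O → ℝ) (ε c t₀ t₀' : ℝ)
    (hε0 : 0 ≤ ε) (hc0 : 0 < c) (hε : b * ∑ e, t e ^ 2 ≤ ε ^ 2) (hc : b * ∑ e, t' e ^ 2 + (∑ o, s o ^ 2) / 2 ≤ c ^ 2)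
    (ht : ∀ e, |t e| ≤ t₀) (ht' : ∀ e, |t' e| ≤ t₀') (h1 : t₀ < 1) (hsup : t₀ + ε / c * t₀' ≤ 1) :
    |S.Ev 0 (pnSt S t 0) fun z => pnSt S t' s z| ≤ 4 * ε * c := by
  rw [abs_le]
  constructor
  · have h := pn_fl_T5_le hS b hb0 hb t (-t') (-s) ε c t₀ t₀' hε0 hc0 hε (by simpa using hc) ht
      (fun e => by simpa using ht' e) h1 hsup
    have e : S.Ev 0 (pnSt S t 0) (fun z => pnSt S (-t') (-s) z) = -S.Ev 0 (pnSt S t 0) fun z => pnSt S t' s z := by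
      have e1 : (fun z : S.L => pnSt S (-t') (-s) z) = fun z => (-1 : ℝ) * pnSt S t' s z := by
        funext z
        have := congrArg (fun X : S.L →+ ℝ => X z) (pnSt_smul S (-1) t' s)
        simp only [neg_smul, one_smul] at this
        rw [← this, AddMonoidHom.neg_apply]
        ring
      rw [e1, pn_Ev_smul hS]
      ring
    rw [e] at h
    linarith
  · exact pn_fl_T5_le hS b hb0 hb t t' s ε c t₀ t₀' hε0 hc0 hε hc ht ht' h1 hsup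

/-! ## reference moments -/

/-- `V0 X ≤ 2 b ∑ t² + |s|²` (no sup bound) -/
theorem pn_ref_var (hS : S.Ok) (b : ℝ) (hb : ∀ e, S.b e ≤ b) (t : S.E → ℝ) (s : S.O → ℝ) :
    S.V0 (pnSt S t s) ≤ 2 * b * ∑ e, t e ^ 2 + ∑ o, s o ^ 2 := by
  -- scale so that the flow is bounded by one
  set M := ∑ e, |t e| + 1 with hM
  have hM0 : 0 < M := by
    have : 0 ≤ ∑ e, |t e| := Finset.sum_nonneg fun _ _ => abs_nonneg _
    linarith
  set θ := M⁻¹ with hθ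
  have hθ0 : 0 < θ := inv_pos.2 hM0
  have hsup : ∀ e, |(θ • t) e| ≤ 1 := by
    intro e
    simp only [Pi.smul_apply, smul_eq_mul, abs_mul, abs_of_pos hθ0]
    have h1 : |t e| ≤ M := by
      have := Finset.single_le_sum (f := fun e => |t e|) (fun _ _ => abs_nonneg _) (Finset.mem_univ e)
      linarith
    rw [hθ, inv_mul_le_iff₀ hM0]
    linarith
  have h1 := rd_laplace_lower hS (θ • pnSt S t s)
  have h2 : Real.log (S.E0 fun z => Real.exp ((θ • pnSt S t s) z)) ≤ b * ∑ e, (θ • t) e ^ 2 + (∑ o, (θ • s) o ^ 2) / 2 := by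
    rw [Real.log_le_iff_le_exp (pn_E0_exp_pos hS _), pnSt_smul]
    exact pn_ref_quad S hS b hb _ hsup _
  rw [rd_V0_smul] at h1
  have e1 : ∑ e, (θ • t) e ^ 2 = θ ^ 2 * ∑ e, t e ^ 2 := by
    rw [Finset.mul_sum]
    exact Finset.sum_congr rfl fun e _ => by simp only [Pi.smul_apply, smul_eq_mul]; ring
  have e2 : ∑ o, (θ • s) o ^ 2 = θ ^ 2 * ∑ o, s o ^ 2 := by
    rw [Finset.mul_sum]
    exact Finset.sum_congr rfl fun e _ => by simp only [Pi.smul_apply, smul_eq_mul]; ring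
  rw [e1, e2] at h2
  have h3 : θ ^ 2 * S.V0 (pnSt S t s) ≤ θ ^ 2 * (2 * b * ∑ e, t e ^ 2 + ∑ o, s o ^ 2) := by nlinarith
  exact le_of_mul_le_mul_left h3 (by positivity)

/-- `x^{2p} ≤ (2p)! (e^x + e^{-x})` -/
theorem pn_pow_le_exp (x : ℝ) (p : ℕ) : x ^ (2 * p) ≤ ((2 * p).factorial : ℝ) * (Real.exp x + Real.exp (-x)) := by
  have h1 : |x| ^ (2 * p) / ((2 * p).factorial : ℝ) ≤ Real.exp |x| := Real.pow_div_factorial_le_exp _ (abs_nonneg _) _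
  have h2 : Real.exp |x| ≤ Real.exp x + Real.exp (-x) := rd_exp_abs_le x
  have h3 : |x| ^ (2 * p) = x ^ (2 * p) := by
    rw [pow_mul, pow_mul, sq_abs]
  rw [h3, div_le_iff₀ (by positivity)] at h1
  calc x ^ (2 * p) ≤ Real.exp |x| * ((2 * p).factorial : ℝ) := h1
    _ ≤ (Real.exp x + Real.exp (-x)) * ((2 * p).factorial : ℝ) := mul_le_mul_of_nonneg_right h2 (by positivity)
    _ = _ := mul_comm _ _

/-- **reference moments**: `E0 X^{2p} ≤ 2 (2p)! θ^{-2p} exp(θ² (b ∑ t² + |s|²/2))` if `θ |t_e| ≤ 1` -/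
theorem pn_ref_moment_st (hS : S.Ok) (b : ℝ) (hb : ∀ e, S.b e ≤ b) (t : S.E → ℝ) (s : S.O → ℝ) (θ : ℝ) (hθ : 0 < θ)
    (hsup : ∀ e, θ * |t e| ≤ 1) (p : ℕ) :
    S.E0 (fun z => pnSt S t s z ^ (2 * p))
      ≤ 2 * ((2 * p).factorial : ℝ) * θ⁻¹ ^ (2 * p) * Real.exp (θ ^ 2 * (b * ∑ e, t e ^ 2 + (∑ o, s o ^ 2) / 2)) := by
  set X := pnSt S t s with hX
  have key : ∀ c : ℝ, |c| = θ → S.E0 (fun z => Real.exp ((c • X) z)) ≤ Real.exp (θ ^ 2 * (b * ∑ e, t e ^ 2 + (∑ o, s o ^ 2) / 2)) := by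
    intro c hc
    rw [hX, pnSt_smul]
    refine (pn_ref_quad S hS b hb _ (fun e => ?_) _).trans (Real.exp_le_exp.2 (le_of_eq ?_))
    · simp only [Pi.smul_apply, smul_eq_mul, abs_mul, hc]
      exact hsup e
    · have e1 : ∑ e, (c • t) e ^ 2 = θ ^ 2 * ∑ e, t e ^ 2 := by
        rw [Finset.mul_sum, ← hc, sq_abs]
        exact Finset.sum_congr rfl fun e _ => by simp only [Pi.smul_apply, smul_eq_mul]; ring
      have e2 : ∑ o, (c • s) o ^ 2 = θ ^ 2 * ∑ o, s o ^ 2 := by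
        rw [Finset.mul_sum, ← hc, sq_abs]
        exact Finset.sum_congr rfl fun e _ => by simp only [Pi.smul_apply, smul_eq_mul]; ring
      rw [e1, e2]
      ring
  have k1 := key θ (abs_of_pos hθ)
  have k2 := key (-θ) (by rw [abs_neg, abs_of_pos hθ])
  have d1 : S.Dom fun z => Real.exp ((θ • X) z) := rd_dom_exp _
  have d2 : S.Dom fun z => Real.exp (((-θ) • X) z) := rd_dom_exp _
  have hmono : S.E0 (fun z => X z ^ (2 * p))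
      ≤ S.E0 fun z => (θ⁻¹ ^ (2 * p) * ((2 * p).factorial : ℝ)) * (Real.exp ((θ • X) z) + Real.exp (((-θ) • X) z)) :=
    rd_E0_mono hS (rd_dom_pow (rd_dom_test X) _) (rd_dom_smul _ (rd_dom_add d1 d2)) fun z => by
      have h1 := pn_pow_le_exp (θ * X z) p
      have e3 : X z ^ (2 * p) = θ⁻¹ ^ (2 * p) * (θ * X z) ^ (2 * p) := by
        rw [← mul_pow, ← mul_assoc, inv_mul_cancel₀ hθ.ne', one_mul]
      have e4 : (θ • X) z = θ * X z := rfl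
      have e5 : ((-θ) • X) z = -(θ * X z) := by
        show (-θ) * X z = _
        ring
      rw [e3, e4, e5, mul_assoc]
      exact mul_le_mul_of_nonneg_left h1 (by positivity)
  rw [rd_E0_smul, rd_E0_add hS d1 d2] at hmono
  refine hmono.trans ?_
  have hpos : 0 ≤ θ⁻¹ ^ (2 * p) * ((2 * p).factorial : ℝ) := by positivity
  calc θ⁻¹ ^ (2 * p) * ((2 * p).factorial : ℝ) * (S.E0 (fun z => Real.exp ((θ • X) z)) + S.E0 fun z => Real.exp (((-θ) • X) z))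
      ≤ θ⁻¹ ^ (2 * p) * ((2 * p).factorial : ℝ) * (Real.exp (θ ^ 2 * (b * ∑ e, t e ^ 2 + (∑ o, s o ^ 2) / 2))
          + Real.exp (θ ^ 2 * (b * ∑ e, t e ^ 2 + (∑ o, s o ^ 2) / 2))) :=
        mul_le_mul_of_nonneg_left (add_le_add k1 k2) hpos
    _ = _ := by ring

end

end Claimed.Agent.R285.Pins
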