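import Claimed.Agent.R285.Pins.BandDefs
import Claimed.Agent.R285.Pins.FkBond
import Claimed.Agent.R285.Rsd.Calc

/-!
# ROW 285, PINS-TILT 3: the band laws are proper centred `LSys` laws: BRIDGE (architect + proofs helper64).   Paper-free, NO sorry.

`bSys G β Q a d` : bonds `G.E` at the temperatures `β`, Gaussian coordinates `√a_i ⟨d_i,h⟩`, lattice = image of `pinned Q`.   Under `BOk G Q a d`, `a ≥ 0`, `β > 0`:
* `pn_bs_ok`   : the system is proper;      * `bEq` : `pinned Q ≃+ L`;      * `bT f` : the test `h ↦ lin f h` on the image lattice;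
* `pn_bs_nu`   : `nu G β Q a d Φ = Zf 0 (Φ ∘ bEq.symm)`, where `nu G β Q a d Φ = bIr G β Q a d (fun k _ => Φ k)` is the REAL band integral of a function of the height only.
-/

set_option autoImplicit false

namespace Claimed.Agent.R285.Pins

open scoped Classical

noncomputable section

variable (G : HGraph) {ι : Type} [Fintype ι]

/-- `lin f` as an additive map -/
def linHom (f : G.V → ℝ) : (G.V → ℤ) →+ ℝ where
  toFun h := lin f h
  map_zero' := by simp [lin]
  map_add' h h' := by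
    simp only [lin, Pi.add_apply, Int.cast_add, mul_add, Finset.sum_add_distrib]

/-- the coordinates of the band system -/
def bCoord (a : ι → ℝ) (d : ι → G.V → ℝ) : (G.V → ℤ) →+ (G.E → ℤ) × (ι → ℝ) where
  toFun h := (fun e => h (G.tgt e) - h (G.src e), fun i => Real.sqrt (a i) * lin (d i) h)
  map_zero' := by
    ext <;> simp [lin]
  map_add' h h' := by
    refine Prod.ext (funext fun e => ?_) (funext fun i => ?_)
    · simp only [Pi.add_apply, Prod.fst_add]
      ring
    · have h1 : lin (d i) (h + h') = lin (d i) h + lin (d i) h' := (linHom G (d i)).map_add h h'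
      simp only [Prod.snd_add, Pi.add_apply, h1]
      ring

/-- the band system -/
def bSys (β : G.E → ℝ) (Q : Set G.V) (a : ι → ℝ) (d : ι → G.V → ℝ) : LSys :=
  { E := G.E, O := ι, b := β, L := (HLaw.pinned Q).map (bCoord G a d) }

/-- the real band integral of a function of the height -/
def nu (β : G.E → ℝ) (Q : Set G.V) (a : ι → ℝ) (d : ι → G.V → ℝ) (Φ : (G.V → ℤ) → ℝ) : ℝ :=
  bIr G β Q a d fun k _ => Φ k

variable (β : G.E → ℝ) (Q : Set G.V) (a : ι → ℝ) (d : ι → G.V → ℝ)

/-- `bCoord` onto the image lattice -/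
def bL : HLaw.pinned Q →+ (bSys G β Q a d).L where
  toFun h := ⟨bCoord G a d (h : G.V → ℤ), ⟨h, h.2, rfl⟩⟩
  map_zero' := Subtype.ext (map_zero (bCoord G a d))
  map_add' _ _ := Subtype.ext (map_add (bCoord G a d) _ _)

theorem pn_bL_surj : Function.Surjective (bL G β Q a d) := by
  rintro ⟨z, h, hh, rfl⟩
  exact ⟨⟨h, hh⟩, rfl⟩

variable {a}

theorem pn_bL_inj (ha : ∀ i, 0 ≤ a i) (hOk : BOk G Q a d) : Function.Injective (bL G β Q a d) := by
  rw [injective_iff_map_eq_zero]
  intro h hh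
  have h0 : bCoord G a d (h : G.V → ℤ) = 0 := congrArg Subtype.val hh
  have h1 : ∀ e, (h : G.V → ℤ) (G.tgt e) - (h : G.V → ℤ) (G.src e) = 0 := fun e => congrFun (congrArg Prod.fst h0) e
  have h2 : ∀ i, Real.sqrt (a i) * lin (d i) (h : G.V → ℤ) = 0 := fun i => congrFun (congrArg Prod.snd h0) i
  have hv := hOk (fun x => (((h : G.V → ℤ) x : ℤ) : ℝ)) (fun x hx => by
      have : (h : G.V → ℤ) x = 0 := h.2 x hx
      simp [this]) (fun e => by
      have := h1 e
      have h3 : (h : G.V → ℤ) (G.tgt e) = (h : G.V → ℤ) (G.src e) := by omega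
      simp [h3]) (fun i => by
      have h3 := h2 i
      have h4 : a i * lin (d i) (h : G.V → ℤ) ^ 2 = (Real.sqrt (a i) * lin (d i) (h : G.V → ℤ)) ^ 2 := by
        rw [mul_pow, Real.sq_sqrt (ha i)]
      have h5 : a i * lin (d i) (h : G.V → ℤ) ^ 2 = 0 := by rw [h4, h3]; norm_num
      exact h5)
  refine Subtype.ext (funext fun x => ?_)
  have := congrFun hv x
  simpa using this

/-- the equivalence with the image lattice -/
def bEq (ha : ∀ i, 0 ≤ a i) (hOk : BOk G Q a d) : HLaw.pinned Q ≃+ (bSys G β Q a d).L :=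
  AddEquiv.ofBijective (bL G β Q a d) ⟨pn_bL_inj G β Q d ha hOk, pn_bL_surj G β Q a d⟩

/-- the height of a point of the image lattice -/
def bInv (ha : ∀ i, 0 ≤ a i) (hOk : BOk G Q a d) (z : (bSys G β Q a d).L) : G.V → ℤ := ((bEq G β Q d ha hOk).symm z : G.V → ℤ)

/-- the test `h ↦ lin f h` -/
def bT (ha : ∀ i, 0 ≤ a i) (hOk : BOk G Q a d) (f : G.V → ℝ) : (bSys G β Q a d).L →+ ℝ :=
  (linHom G f).comp ((AddSubgroup.subtype (HLaw.pinned Q)).comp (bEq G β Q d ha hOk).symm.toAddMonoidHom)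

theorem pn_bT_apply (ha : ∀ i, 0 ≤ a i) (hOk : BOk G Q a d) (f : G.V → ℝ) (z : (bSys G β Q a d).L) :
    bT G β Q d ha hOk f z = lin f (bInv G β Q d ha hOk z) := rfl

theorem pn_bInv_mem (ha : ∀ i, 0 ≤ a i) (hOk : BOk G Q a d) (z : (bSys G β Q a d).L) : bInv G β Q d ha hOk z ∈ HLaw.pinned Q :=
  ((bEq G β Q d ha hOk).symm z).2

theorem pn_bInv_coord (ha : ∀ i, 0 ≤ a i) (hOk : BOk G Q a d) (z : (bSys G β Q a d).L) :
    bCoord G a d (bInv G β Q d ha hOk z) = (z : (bSys G β Q a d).Amb) := by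
  have := (bEq G β Q d ha hOk).apply_symm_apply z
  exact congrArg Subtype.val this

theorem pn_bInv_neg (ha : ∀ i, 0 ≤ a i) (hOk : BOk G Q a d) (z : (bSys G β Q a d).L) :
    bInv G β Q d ha hOk (-z) = - bInv G β Q d ha hOk z := by
  unfold bInv
  rw [map_neg]
  rfl

/-- the real linear extension of `bCoord` -/
def bCoordR (a : ι → ℝ) (d : ι → G.V → ℝ) : (G.V → ℝ) →ₗ[ℝ] (G.E → ℝ) × (ι → ℝ) where
  toFun x := (fun e => x (G.tgt e) - x (G.src e), fun i => Real.sqrt (a i) * ∑ v, d i v * x v)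
  map_add' x y := by
    refine Prod.ext (funext fun e => ?_) (funext fun i => ?_)
    · simp only [Pi.add_apply, Prod.fst_add]
      ring
    · simp only [Pi.add_apply, Prod.snd_add, mul_add, Finset.sum_add_distrib]
  map_smul' t x := by
    refine Prod.ext (funext fun e => ?_) (funext fun i => ?_)
    · simp only [Pi.smul_apply, smul_eq_mul, RingHom.id_apply, Prod.smul_fst]
      ring
    · simp only [Pi.smul_apply, smul_eq_mul, RingHom.id_apply, Prod.smul_snd, Finset.mul_sum]
      exact Finset.sum_congr rfl fun v _ => by ring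

/-- **the band system is proper** -/
theorem pn_bs_ok (hβ : ∀ e, 0 < β e) (ha : ∀ i, 0 ≤ a i) (hOk : BOk G Q a d) : (bSys G β Q a d).Ok := by
  refine Rsd.kit_ok_of_map (bSys G β Q a d) hβ (HLaw.pinned Q) (bCoord G a d) (bCoordR G a d) ?_ ?_ rfl
  · intro c
    refine Prod.ext (funext fun e => ?_) rfl
    show (((c (G.tgt e) - c (G.src e) : ℤ)) : ℝ) = (c (G.tgt e) : ℝ) - (c (G.src e) : ℝ)
    push_cast
    rfl
  · intro x hx h0
    have hxQ : ∀ v ∈ Q, x v = 0 := by
      intro v hv
      refine Submodule.span_induction (p := fun y _ => y v = 0) ?_ rfl ?_ ?_ hx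
      · rintro _ ⟨c, hc, rfl⟩
        have : c v = 0 := hc v hv
        simp [Rsd.kcast, this]
      · intro y y' _ _ h1 h2
        simp [h1, h2]
      · intro t y _ h1
        simp [h1]
    refine hOk x hxQ (fun e => ?_) fun i => ?_
    · have := congrFun (congrArg Prod.fst h0) e
      exact sub_eq_zero.1 this
    · have h1 : Real.sqrt (a i) * ∑ v, d i v * x v = 0 := congrFun (congrArg Prod.snd h0) i
      have h4 : a i * (∑ v, d i v * x v) ^ 2 = (Real.sqrt (a i) * ∑ v, d i v * x v) ^ 2 := by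
        rw [mul_pow, Real.sq_sqrt (ha i)]
      rw [h4, h1]
      norm_num

/-- the weight -/
theorem pn_bs_W (ha : ∀ i, 0 ≤ a i) (h : G.V → ℤ) :
    (bSys G β Q a d).W (bCoord G a d h) = bareW G β h * bW G a d h := by
  unfold LSys.W bareW bW bq
  congr 2
  congr 1
  congr 1
  refine Finset.sum_congr rfl fun i _ => ?_
  show (Real.sqrt (a i) * lin (d i) h) ^ 2 = _
  rw [mul_pow, Real.sq_sqrt (ha i)]

/-- the band integral of a function of the height as a sum over the heights -/
theorem pn_nu_eq (Φ : (G.V → ℤ) → ℝ) :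
    nu G β Q a d Φ = ∑' h : HLaw.pinned Q, Φ h * (bareW G β h * bW G a d h) := by
  unfold nu bIr
  refine tsum_congr fun h => ?_
  rw [← pn_fk_sum G β h, Finset.sum_mul, Finset.mul_sum]
  exact Finset.sum_congr rfl fun ω _ => by ring

/-- **bridge** -/
theorem pn_bs_nu (ha : ∀ i, 0 ≤ a i) (hOk : BOk G Q a d) (Φ : (G.V → ℤ) → ℝ) :
    nu G β Q a d Φ = (bSys G β Q a d).Zf 0 fun z => Φ (bInv G β Q d ha hOk z) := by
  rw [pn_nu_eq]
  unfold LSys.Zf
  rw [← (bEq G β Q d ha hOk).toEquiv.tsum_eq]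
  refine tsum_congr fun h => ?_
  have e1 : bInv G β Q d ha hOk ((bEq G β Q d ha hOk).toEquiv h) = (h : G.V → ℤ) := by
    unfold bInv
    simp
  have e2 : (((bEq G β Q d ha hOk).toEquiv h : (bSys G β Q a d).L) : (bSys G β Q a d).Amb) + 0 = bCoord G a d (h : G.V → ℤ) := by
    rw [add_zero]
    rfl
  show _ = Φ (bInv G β Q d ha hOk ((bEq G β Q d ha hOk).toEquiv h)) * _
  rw [e1, e2, pn_bs_W G β Q d ha]

/-- Stores the on-demand equation lemmas of the definitions above in THIS module (rule 6 hygiene). -/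
theorem pn_tiltSys_forced : True := by
  have := @linHom.eq_1
  have := @bCoord.eq_1
  have := @bSys.eq_1
  have := @nu.eq_1
  have := @bL.eq_1
  have := @bEq.eq_1
  have := @bInv.eq_1
  have := @bT.eq_1
  have := @bCoordR.eq_1
  trivial

end

end Claimed.Agent.R285.Pins
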