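import Claimed.Agent.R285.Pins.ClusDefs
import Claimed.Agent.R285.Pins.TiltSys
import Claimed.Agent.R285.Pins.TiltFlow

/-!
# ROW 285, PINS-CLUS2 + CR, FILE 1: the posterior and prior laws of a law with rows as proper `LSys` laws (helper74).   Paper-free, NO sorry.

Bridge to helper64's `TiltSys` (`bSys G β Q a d`, `a := 1`, `d o := rhT (H.B o)`), then the tilt lemmas (T4), (T5), (REF) of `TiltFlow` in the form of inequalities between the `ℝ≥0∞`-valued posterior integrals `clJ`.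
-/

set_option autoImplicit false

namespace Claimed.Agent.R285.Pins

open scoped Classical ENNReal

noncomputable section

variable {G : HGraph} (H : HLaw G)

/-! ## 1. algebra of the rows -/

/-- the rows on the integer height -/
def clD (o : H.O) : G.V → ℝ := rhT (H.B o)

/-- unit weights -/
def clOne : H.O → ℝ := fun _ => 1

theorem pn_cl_one_nonneg : ∀ i, 0 ≤ clOne H i := fun _ => zero_le_one

theorem pn_cl_lin_add (f : G.V → ℝ) (u k : G.V → ℤ) : lin f (u + k) = lin f u + lin f k := (linHom G f).map_add u k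

theorem pn_cl_lin_zero (f : G.V → ℝ) : lin f (0 : G.V → ℤ) = 0 := (linHom G f).map_zero

theorem pn_cl_row (h : G.V → ℤ) (o : H.O) : rhRow H h o = lin (clD H o) h := by
  unfold rhRow HLaw.obs rhPhy lin clD rhT
  exact Finset.sum_congr rfl fun x _ => by ring

theorem pn_cl_row_add (u k : G.V → ℤ) (o : H.O) : rhRow H (u + k) o = rhRow H u o + rhRow H k o := by
  rw [pn_cl_row, pn_cl_row, pn_cl_row, pn_cl_lin_add]

theorem pn_cl_row_zero (o : H.O) : rhRow H 0 o = 0 := by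
  rw [pn_cl_row, pn_cl_lin_zero]

theorem pn_cl_bq (h : G.V → ℤ) : bq G (clOne H) (clD H) h = clY H h := by
  unfold bq clY clOne
  exact Finset.sum_congr rfl fun o _ => by rw [pn_cl_row, one_mul]

theorem pn_cl_W (h : G.V → ℤ) : rhW H h = bW G (clOne H) (clD H) h := by
  unfold bW
  rw [pn_cl_bq]
  rfl

theorem pn_cl_W_pos (h : G.V → ℤ) : 0 < rhW H h := Real.exp_pos _

theorem pn_cl_Y_nonneg (h : G.V → ℤ) : 0 ≤ clY H h := Finset.sum_nonneg fun _ _ => sq_nonneg _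

/-- `L_u(k) = - ∑_o y_o(u) y_o(k)` -/
theorem pn_cl_L_eq (u k : G.V → ℤ) : clL H u k = - ∑ o, rhRow H u o * rhRow H k o := by
  unfold clL lin rhT rhTilt
  have e1 : ∀ o, rhRow H u o * rhRow H k o = ∑ v, rhRow H u o * (H.B o v * (2 * Real.pi * (k v : ℝ))) := by
    intro o
    rw [← Finset.mul_sum]
    rfl
  simp only [e1]
  rw [Finset.sum_comm, ← Finset.sum_neg_distrib]
  refine Finset.sum_congr rfl fun v _ => ?_
  rw [mul_neg, neg_mul, Finset.mul_sum, Finset.sum_mul]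
  congr 1
  exact Finset.sum_congr rfl fun o _ => by ring

theorem pn_cl_Y_add (u k : G.V → ℤ) : clY H (u + k) = clY H u - 2 * clL H u k + clY H k := by
  rw [pn_cl_L_eq]
  unfold clY
  simp only [pn_cl_row_add]
  rw [mul_neg, sub_neg_eq_add, Finset.mul_sum, ← Finset.sum_add_distrib, ← Finset.sum_add_distrib]
  exact Finset.sum_congr rfl fun o _ => by ring

/-- splitting of the penalty weight -/
theorem pn_cl_W_split (u k : G.V → ℤ) : rhW H (u + k) = rhW H u * Real.exp (clL H u k) * rhW H k := by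
  have e : ∀ h, rhW H h = Real.exp (-(clY H h) / 2) := fun _ => rfl
  rw [e, e, e, ← Real.exp_add, ← Real.exp_add, pn_cl_Y_add]
  congr 1
  ring

theorem pn_cl_tilt_zero : rhT (rhTilt H (0 : G.V → ℤ)) = 0 := by
  funext x
  simp [rhT, rhTilt, pn_cl_row_zero]

theorem pn_cl_W_zero : rhW H 0 = 1 := by
  unfold rhW
  simp [pn_cl_row_zero]

variable {H}

theorem pn_cl_bok {P Q : Set G.V} {b : ℝ} (hc : ClCtx H P b) (hPQ : P ⊆ Q) : BOk G Q (clOne H) (clD H) := by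
  intro v hv hgrad hrow
  refine hc.hInj v (fun x hx => hv x (hPQ hx)) hgrad fun o => ?_
  have h1 := hrow o
  have h2 : ∑ x, clD H o x * v x = 2 * Real.pi * H.obs v o := by
    unfold clD rhT HLaw.obs
    rw [Finset.mul_sum]
    exact Finset.sum_congr rfl fun x _ => by ring
  rw [h2] at h1
  have h3 : (2 * Real.pi * H.obs v o) ^ 2 = 0 := by simpa [clOne] using h1
  have h4 : 2 * Real.pi * H.obs v o = 0 := by simpa using h3
  have h5 : (2 * Real.pi) ≠ 0 := by positivity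
  exact (mul_eq_zero.1 h4).resolve_left h5

variable (H)

/-! ## 2. the system -/

/-- the law with the rows of `H`, pins `Q`, temperatures `β'` -/
abbrev clS (β' : G.E → ℝ) (Q : Set G.V) : LSys := bSys G β' Q (clOne H) (clD H)

variable {H}
variable {β' : G.E → ℝ} {Q : Set G.V}

/-- the height of a point of the image lattice -/
def clV (hO : BOk G Q (clOne H) (clD H)) (z : (clS H β' Q).L) : G.V → ℤ := bInv G β' Q (clD H) (pn_cl_one_nonneg H) hO z

/-- the test `k ↦ lin f k` -/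
def clT (hO : BOk G Q (clOne H) (clD H)) (f : G.V → ℝ) : (clS H β' Q).L →+ ℝ := bT G β' Q (clD H) (pn_cl_one_nonneg H) hO f

theorem pn_cl_T_apply (hO : BOk G Q (clOne H) (clD H)) (f : G.V → ℝ) (z : (clS H β' Q).L) : clT hO f z = lin f (clV hO z) := rfl

theorem pn_cl_ok (hβ : ∀ e, 0 < β' e) (hO : BOk G Q (clOne H) (clD H)) : (clS H β' Q).Ok :=
  pn_bs_ok G β' Q (clD H) hβ (pn_cl_one_nonneg H) hO

theorem pn_cl_V_mem (hO : BOk G Q (clOne H) (clD H)) (z : (clS H β' Q).L) : ∀ x ∈ Q, clV hO z x = 0 :=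
  pn_bInv_mem G β' Q (clD H) (pn_cl_one_nonneg H) hO z

theorem pn_cl_V_neg (hO : BOk G Q (clOne H) (clD H)) (z : (clS H β' Q).L) : clV hO (-z) = - clV hO z :=
  pn_bInv_neg G β' Q (clD H) (pn_cl_one_nonneg H) hO z

theorem pn_cl_V_fst (hO : BOk G Q (clOne H) (clD H)) (z : (clS H β' Q).L) (e : G.E) :
    (z : (clS H β' Q).Amb).1 e = clV hO z (G.tgt e) - clV hO z (G.src e) := by
  have h := pn_bInv_coord G β' Q (clD H) (pn_cl_one_nonneg H) hO z
  exact (congrFun (congrArg Prod.fst h) e).symm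

theorem pn_cl_V_snd (hO : BOk G Q (clOne H) (clD H)) (z : (clS H β' Q).L) (o : H.O) :
    (z : (clS H β' Q).Amb).2 o = rhRow H (clV hO z) o := by
  have h := pn_bInv_coord G β' Q (clD H) (pn_cl_one_nonneg H) hO z
  have h2 := (congrFun (congrArg Prod.snd h) o).symm
  rw [h2, pn_cl_row]
  show Real.sqrt (clOne H o) * lin (clD H o) (clV hO z) = _
  simp [clOne]

/-- a test with a representation (flow + rows) is the statistic `pnSt` -/
theorem pn_cl_rep_test (hO : BOk G Q (clOne H) (clD H)) {Q' : Set G.V} (hQ : Q' ⊆ Q) (f : G.V → ℝ) (t : G.E → ℝ) (s : H.O → ℝ)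
    (hfl : IsFlow G Q' (fun x => f x - ∑ o, s o * rhT (H.B o) x) t) : clT hO f = pnSt (clS H β' Q) t s := by
  ext z
  rw [pn_cl_T_apply]
  refine Eq.trans ?_ (pnSt_apply (clS H β' Q) t s z).symm
  have h1 := hfl (fun x => (clV hO z x : ℝ)) (fun x hx => by
    have := pn_cl_V_mem hO z x (hQ hx)
    simp [this])
  have h2 : ∑ x, (f x - ∑ o, s o * rhT (H.B o) x) * (clV hO z x : ℝ) = lin f (clV hO z) - ∑ o, s o * rhRow H (clV hO z) o := by
    unfold lin
    simp only [pn_cl_row, lin, clD, sub_mul, Finset.sum_sub_distrib, Finset.sum_mul, Finset.mul_sum]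
    rw [Finset.sum_comm]
    congr 1
    exact Finset.sum_congr rfl fun o _ => Finset.sum_congr rfl fun x _ => by ring
  rw [h2] at h1
  have h3 : ∑ e : (clS H β' Q).E, t e * (((z : (clS H β' Q).Amb).1 e : ℤ) : ℝ)
      = ∑ e : G.E, t e * ((clV hO z (G.tgt e) : ℝ) - (clV hO z (G.src e) : ℝ)) := by
    refine Finset.sum_congr rfl fun e _ => ?_
    rw [pn_cl_V_fst hO z e]
    push_cast
    rfl
  have h4 : ∑ o : (clS H β' Q).O, s o * (z : (clS H β' Q).Amb).2 o = ∑ o : H.O, s o * rhRow H (clV hO z) o :=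
    Finset.sum_congr rfl fun o _ => by rw [pn_cl_V_snd hO z o]
  rw [h3, h4, ← h1]
  ring

/-- a flow test -/
theorem pn_cl_flow_test (hO : BOk G Q (clOne H) (clD H)) {Q' : Set G.V} (hQ : Q' ⊆ Q) (f : G.V → ℝ) (t : G.E → ℝ)
    (hfl : IsFlow G Q' f t) : clT hO f = pnSt (clS H β' Q) t 0 := by
  refine pn_cl_rep_test hO hQ f t 0 ?_
  simpa using hfl

/-- the representation, typed in the system -/
theorem pn_cl_rep_exists (hO : BOk G Q (clOne H) (clD H)) {Q' : Set G.V} (hQ : Q' ⊆ Q) (f : G.V → ℝ) (R t₀ σ : ℝ)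
    (hrep : clRep H Q' f R t₀ σ) : ∃ (t : (clS H β' Q).E → ℝ) (s : (clS H β' Q).O → ℝ),
      clT hO f = pnSt (clS H β' Q) t s ∧ ∑ e, t e ^ 2 ≤ R ∧ (∀ e, |t e| ≤ t₀) ∧ ∑ o, s o ^ 2 ≤ σ := by
  obtain ⟨s, hs, t, hfl, hR, hsup⟩ := hrep
  exact ⟨t, s, pn_cl_rep_test hO hQ f t s hfl, hR, hsup, hs⟩

/-! ## 3. the bridge between `clJ` and `Zf` -/

theorem pn_cl_ofReal_max (x : ℝ) : ENNReal.ofReal x = ENNReal.ofReal (max x 0) := by
  rcases le_total 0 x with h | h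
  · rw [max_eq_left h]
  · rw [max_eq_right h, ENNReal.ofReal_of_nonpos h, ENNReal.ofReal_zero]

/-- transport of summability to the heights -/
theorem pn_cl_summable (hO : BOk G Q (clOne H) (clD H)) (Φ : (G.V → ℤ) → ℝ)
    (hs : Summable fun z : (clS H β' Q).L => Φ (clV hO z) * (clS H β' Q).W ((z : (clS H β' Q).Amb) + 0)) :
    Summable fun k : HLaw.pinned Q => Φ k * (bareW G β' k * bW G (clOne H) (clD H) k) := by
  have h1 := (bEq G β' Q (clD H) (pn_cl_one_nonneg H) hO).toEquiv.summable_iff.2 hs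
  refine h1.congr fun k => ?_
  have e1 : clV hO ((bEq G β' Q (clD H) (pn_cl_one_nonneg H) hO).toEquiv k) = (k : G.V → ℤ) := by
    unfold clV bInv
    simp
  have e2 : (((bEq G β' Q (clD H) (pn_cl_one_nonneg H) hO).toEquiv k : (clS H β' Q).L) : (clS H β' Q).Amb) + 0
      = bCoord G (clOne H) (clD H) (k : G.V → ℤ) := by
    rw [add_zero]
    rfl
  show Φ (clV hO ((bEq G β' Q (clD H) (pn_cl_one_nonneg H) hO).toEquiv k)) * _ = _
  rw [e1, e2]
  congr 1
  exact pn_bs_W G β' Q (clD H) (pn_cl_one_nonneg H) (k : G.V → ℤ)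

/-- the tilt of the exposed part `u` as a test -/
def clTl (hO : BOk G Q (clOne H) (clD H)) (u : G.V → ℤ) : (clS H β' Q).L →+ ℝ := clT hO (rhT (rhTilt H u))

theorem pn_cl_Tl_apply (hO : BOk G Q (clOne H) (clD H)) (u : G.V → ℤ) (z : (clS H β' Q).L) : clTl hO u z = clL H u (clV hO z) := rfl

/-- **bridge**: the posterior integral of a nonnegative dominated function -/
theorem pn_cl_J_real (hβ : ∀ e, 0 < β' e) (hO : BOk G Q (clOne H) (clD H)) (u : G.V → ℤ) (φ : (G.V → ℤ) → ℝ) (hφ : ∀ k, 0 ≤ φ k)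
    (hd : (clS H β' Q).Dom fun z => φ (clV hO z)) :
    clJ H β' Q u (fun k => ENNReal.ofReal (φ k))
      = ENNReal.ofReal (rhW H u * (clS H β' Q).Zf 0 fun z => φ (clV hO z) * Real.exp (clTl hO u z)) := by
  have hS := pn_cl_ok (H := H) (Q := Q) hβ hO
  set Φ : (G.V → ℤ) → ℝ := fun k => φ k * Real.exp (clL H u k) with hΦ
  have hsum : Summable fun k : HLaw.pinned Q => Φ k * (bareW G β' k * bW G (clOne H) (clD H) k) :=
    pn_cl_summable hO Φ (rd_dom_summable hS (rd_dom_mul hd (rd_dom_exp (clTl hO u))) 0)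
  have hbare : ∀ k : G.V → ℤ, 0 ≤ bareW G β' k := fun k => Finset.prod_nonneg fun e _ => bes_nonneg _ (hβ e).le _
  have e1 : (clS H β' Q).Zf 0 (fun z => φ (clV hO z) * Real.exp (clTl hO u z))
      = ∑' k : HLaw.pinned Q, Φ k * (bareW G β' k * bW G (clOne H) (clD H) k) := by
    rw [← pn_nu_eq]
    exact (pn_bs_nu G β' Q (clD H) (pn_cl_one_nonneg H) hO Φ).symm
  rw [e1, ← tsum_mul_left, ENNReal.ofReal_tsum_of_nonneg _ (hsum.mul_left _)]
  · unfold clJ bare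
    refine tsum_congr fun k => ?_
    beta_reduce
    rw [← ENNReal.ofReal_mul (hφ _), ← ENNReal.ofReal_mul (mul_nonneg (hφ _) (pn_cl_W_pos H _).le), pn_cl_W_split, ← pn_cl_W]
    congr 1
    simp only [hΦ]
    ring
  · intro k
    exact mul_nonneg (pn_cl_W_pos H u).le (mul_nonneg (mul_nonneg (hφ _) (Real.exp_pos _).le)
      (mul_nonneg (hbare _) (Real.exp_pos _).le))

/-- the posterior mass -/
theorem pn_cl_J_one (hβ : ∀ e, 0 < β' e) (hO : BOk G Q (clOne H) (clD H)) (u : G.V → ℤ) :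
    clJ H β' Q u (fun _ => 1) = ENNReal.ofReal (rhW H u * (clS H β' Q).Zf 0 fun z => Real.exp (clTl hO u z)) := by
  have h := pn_cl_J_real hβ hO u (fun _ => 1) (fun _ => zero_le_one) (rd_dom_const 1)
  simpa using h

theorem pn_cl_Z_pos (hβ : ∀ e, 0 < β' e) (hO : BOk G Q (clOne H) (clD H)) (L : (clS H β' Q).L →+ ℝ) :
    0 < (clS H β' Q).Zf 0 fun z => Real.exp (L z) := Rsd.lsys_pos _ (pn_cl_ok hβ hO) 0 L

/-- **signed integrands**: a real inequality `ν(e^L ψ) ≤ c ν(e^L)` in `ℝ≥0∞` form -/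
theorem pn_cl_J_signed (hβ : ∀ e, 0 < β' e) (hO : BOk G Q (clOne H) (clD H)) (u : G.V → ℤ) (ψ : (G.V → ℤ) → ℝ)
    (hd : (clS H β' Q).Dom fun z => ψ (clV hO z)) (c : ℝ) (hc : 0 ≤ c)
    (h : (clS H β' Q).Zf 0 (fun z => ψ (clV hO z) * Real.exp (clTl hO u z)) ≤ c * (clS H β' Q).Zf 0 fun z => Real.exp (clTl hO u z)) :
    clJ H β' Q u (fun k => ENNReal.ofReal (ψ k))
      ≤ ENNReal.ofReal c * clJ H β' Q u (fun _ => 1) + clJ H β' Q u (fun k => ENNReal.ofReal (-(ψ k))) := by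
  have hS := pn_cl_ok (H := H) (Q := Q) hβ hO
  have hdp : (clS H β' Q).Dom fun z => max (ψ (clV hO z)) 0 :=
    rd_dom_of_le hd fun z => by
      rw [abs_of_nonneg (le_max_right _ _)]
      exact max_le (le_abs_self _) (abs_nonneg _)
  have hdn : (clS H β' Q).Dom fun z => max (-(ψ (clV hO z))) 0 :=
    rd_dom_of_le hd fun z => by
      rw [abs_of_nonneg (le_max_right _ _)]
      exact max_le (neg_le_abs _) (abs_nonneg _)
  have e1 : clJ H β' Q u (fun k => ENNReal.ofReal (ψ k)) = clJ H β' Q u (fun k => ENNReal.ofReal (max (ψ k) 0)) := by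
    congr 1
    funext k
    exact pn_cl_ofReal_max _
  have e2 : clJ H β' Q u (fun k => ENNReal.ofReal (-(ψ k))) = clJ H β' Q u (fun k => ENNReal.ofReal (max (-(ψ k)) 0)) := by
    congr 1
    funext k
    exact pn_cl_ofReal_max _
  rw [e1, e2, pn_cl_J_real hβ hO u (fun k => max (ψ k) 0) (fun _ => le_max_right _ _) hdp,
    pn_cl_J_real hβ hO u (fun k => max (-(ψ k)) 0) (fun _ => le_max_right _ _) hdn, pn_cl_J_one hβ hO u]
  have hZ1 := (pn_cl_Z_pos hβ hO (clTl hO u)).le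
  have hZn : 0 ≤ (clS H β' Q).Zf 0 fun z => max (-(ψ (clV hO z))) 0 * Real.exp (clTl hO u z) :=
    rd_Zf_nonneg hS 0 fun z => mul_nonneg (le_max_right _ _) (Real.exp_pos _).le
  have hW := (pn_cl_W_pos H u).le
  rw [← ENNReal.ofReal_mul hc, ← ENNReal.ofReal_add (mul_nonneg hc (mul_nonneg hW hZ1)) (mul_nonneg hW hZn)]
  refine ENNReal.ofReal_le_ofReal ?_
  have e3 : (clS H β' Q).Zf 0 (fun z => max (ψ (clV hO z)) 0 * Real.exp (clTl hO u z))
      = (clS H β' Q).Zf 0 (fun z => ψ (clV hO z) * Real.exp (clTl hO u z))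
        + (clS H β' Q).Zf 0 (fun z => max (-(ψ (clV hO z))) 0 * Real.exp (clTl hO u z)) := by
    rw [← rd_Zf_add hS (rd_dom_mul hd (rd_dom_exp _)) (rd_dom_mul hdn (rd_dom_exp _))]
    refine rd_Zf_congr 0 fun z => ?_
    rw [← add_mul]
    congr 1
    rcases le_total 0 (ψ (clV hO z)) with h0 | h0
    · rw [max_eq_left h0, max_eq_right (by linarith), add_zero]
    · rw [max_eq_right h0, max_eq_left (by linarith)]
      ring
  rw [e3]
  nlinarith [mul_le_mul_of_nonneg_left h hW]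

/-! ## 4. domination -/

theorem pn_cl_dom_sum {S : LSys} {ι : Type} (s : Finset ι) (F : ι → S.L → ℝ) (h : ∀ i ∈ s, S.Dom (F i)) :
    S.Dom fun z => ∑ i ∈ s, F i z := by
  induction s using Finset.induction_on with
  | empty => simpa using rd_dom_const (S := S) 0
  | insert i s hi ih =>
    simp only [Finset.sum_insert hi]
    exact rd_dom_add (h i (Finset.mem_insert_self i s)) (ih fun j hj => h j (Finset.mem_insert_of_mem hj))

theorem pn_cl_dom_lin (hO : BOk G Q (clOne H) (clD H)) (f : G.V → ℝ) : (clS H β' Q).Dom fun z => lin f (clV hO z) :=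
  rd_dom_test (clT hO f)

theorem pn_cl_dom_row (hO : BOk G Q (clOne H) (clD H)) (o : H.O) : (clS H β' Q).Dom fun z => rhRow H (clV hO z) o := by
  simp only [pn_cl_row]
  exact pn_cl_dom_lin hO _

theorem pn_cl_dom_Y (hO : BOk G Q (clOne H) (clD H)) : (clS H β' Q).Dom fun z => clY H (clV hO z) :=
  pn_cl_dom_sum _ _ fun o _ => rd_dom_pow (pn_cl_dom_row hO o) 2

theorem pn_cl_dom_Y_add (hO : BOk G Q (clOne H) (clD H)) (u : G.V → ℤ) : (clS H β' Q).Dom fun z => clY H (u + clV hO z) := by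
  simp only [pn_cl_Y_add]
  exact rd_dom_add (rd_dom_sub (rd_dom_const _) (rd_dom_smul 2 (rd_dom_test (clTl hO u)))) (pn_cl_dom_Y hO)

/-- heights at a site -/
theorem pn_cl_dom_site (hO : BOk G Q (clOne H) (clD H)) (x : G.V) : (clS H β' Q).Dom fun z => (clV hO z x : ℝ) := by
  have h := pn_cl_dom_lin (β' := β') hO (fun y => if y = x then 1 else 0)
  have e : ∀ k : G.V → ℤ, lin (fun y => if y = x then (1 : ℝ) else 0) k = (k x : ℝ) := by
    intro k
    simp [lin]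
  simpa only [e] using h

theorem pn_cl_dom_linA (hO : BOk G Q (clOne H) (clD H)) (c : G.V → ℝ) : (clS H β' Q).Dom fun z => linA c (clV hO z) :=
  pn_cl_dom_sum _ _ fun x _ => rd_dom_smul (c x) (rd_dom_abs (pn_cl_dom_site hO x))

/-! ## 5. the posterior: (T4), (C1), (T5) -/

/-- (T4), real form -/
theorem pn_cl_Z_T4 (hβ : ∀ e, 0 < β' e) (hO : BOk G Q (clOne H) (clD H)) (b : ℝ) (hb0 : 0 ≤ b) (hbβ : ∀ e, β' e ≤ b) (u : G.V → ℤ)
    {Q' : Set G.V} (hQ : Q' ⊆ Q) (R t₀ : ℝ) (hfl : FlowLe G Q' (rhT (rhTilt H u)) R t₀) (ht : 2 * t₀ ≤ 1) :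
    (clS H β' Q).Zf 0 (fun z => clTl hO u z * Real.exp (clTl hO u z)) ≤ 4 * (b * R) * (clS H β' Q).Zf 0 fun z => Real.exp (clTl hO u z) := by
  have hS := pn_cl_ok (H := H) (Q := Q) hβ hO
  obtain ⟨t, hfl, hR, hsup⟩ := hfl
  have e : clTl hO u = pnSt (clS H β' Q) t 0 := pn_cl_flow_test hO hQ _ t hfl
  have h4 := pn_fl_T4 hS b hbβ t (b * R) (mul_le_mul_of_nonneg_left hR hb0) (fun e => (hsup e).trans (by linarith))
  rw [← e] at h4
  unfold LSys.Ev LSys.wT at h4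
  rwa [div_le_iff₀ (pn_cl_Z_pos hβ hO _)] at h4

/-- **(T4)** in `ℝ≥0∞` form -/
theorem pn_cl_post_absorb (hβ : ∀ e, 0 < β' e) (hO : BOk G Q (clOne H) (clD H)) (b : ℝ) (hb0 : 0 ≤ b) (hbβ : ∀ e, β' e ≤ b) (u : G.V → ℤ)
    {Q' : Set G.V} (hQ : Q' ⊆ Q) (R t₀ : ℝ) (hR : 0 ≤ R) (hfl : FlowLe G Q' (rhT (rhTilt H u)) R t₀) (ht : 2 * t₀ ≤ 1) :
    clJ H β' Q u (fun k => ENNReal.ofReal (clL H u k))
      ≤ ENNReal.ofReal (4 * (b * R)) * clJ H β' Q u (fun _ => 1) + clJ H β' Q u (fun k => ENNReal.ofReal (-(clL H u k))) :=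
  pn_cl_J_signed hβ hO u (clL H u) (rd_dom_test (clTl hO u)) _ (by positivity) (pn_cl_Z_T4 hβ hO b hb0 hbβ u hQ R t₀ hfl ht)

/-- **(C1)** at the posterior level -/
theorem pn_cl_post_c1 (hβ : ∀ e, 0 < β' e) (hO : BOk G Q (clOne H) (clD H)) (b : ℝ) (hb0 : 0 ≤ b) (hbβ : ∀ e, β' e ≤ b) (u : G.V → ℤ)
    {Q' : Set G.V} (hQ : Q' ⊆ Q) (w t₀ : ℝ) (hfl : FlowLe G Q' (rhT (rhTilt H u)) (w * clY H u) t₀) (ht : 2 * t₀ ≤ 1)
    (hbw : 16 * b * w ≤ 1) :
    clJ H β' Q u (fun _ => ENNReal.ofReal (clY H u)) ≤ 2 * clJ H β' Q u (fun k => ENNReal.ofReal (clY H (u + k))) := by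
  have hS := pn_cl_ok (H := H) (Q := Q) hβ hO
  rw [pn_cl_J_real hβ hO u (fun _ => clY H u) (fun _ => pn_cl_Y_nonneg H u) (rd_dom_const _),
    pn_cl_J_real hβ hO u (fun k => clY H (u + k)) (fun _ => pn_cl_Y_nonneg H _) (pn_cl_dom_Y_add hO u)]
  have e2 : (2 : ℝ≥0∞) = ENNReal.ofReal 2 := by simp
  rw [e2, ← ENNReal.ofReal_mul zero_le_two]
  refine ENNReal.ofReal_le_ofReal ?_
  have h4 := pn_cl_Z_T4 hβ hO b hb0 hbβ u hQ _ t₀ hfl ht
  set Z1 := (clS H β' Q).Zf 0 fun z => Real.exp (clTl hO u z) with hZ1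
  have hZ1p : 0 < Z1 := pn_cl_Z_pos hβ hO _
  have hdL : (clS H β' Q).Dom fun z => clTl hO u z * Real.exp (clTl hO u z) := rd_dom_mul (rd_dom_test _) (rd_dom_exp _)
  have e3 : (clS H β' Q).Zf 0 (fun z => clY H u * Real.exp (clTl hO u z)) = clY H u * Z1 := rd_Zf_smul _ _ _
  have h5 : clY H u * Z1 - 2 * (clS H β' Q).Zf 0 (fun z => clTl hO u z * Real.exp (clTl hO u z))
      ≤ (clS H β' Q).Zf 0 fun z => clY H (u + clV hO z) * Real.exp (clTl hO u z) := by
    rw [← e3, ← rd_Zf_smul, ← rd_Zf_sub hS (rd_dom_smul _ (rd_dom_exp _)) (rd_dom_smul _ hdL)]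
    refine rd_Zf_mono hS (rd_dom_sub (rd_dom_smul _ (rd_dom_exp _)) (rd_dom_smul _ hdL))
      (rd_dom_mul (pn_cl_dom_Y_add hO u) (rd_dom_exp _)) 0 fun z => ?_
    rw [pn_cl_Y_add, pn_cl_Tl_apply]
    have h6 := pn_cl_Y_nonneg H (clV hO z)
    have h7 := Real.exp_pos (clL H u (clV hO z))
    nlinarith
  rw [e3]
  have hW := (pn_cl_W_pos H u).le
  have hY := pn_cl_Y_nonneg H u
  have h8 : clY H u * Z1 ≤ 2 * (clS H β' Q).Zf 0 fun z => clY H (u + clV hO z) * Real.exp (clTl hO u z) := by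
    have h9 : 16 * b * w * (clY H u * Z1) ≤ 1 * (clY H u * Z1) := mul_le_mul_of_nonneg_right hbw (mul_nonneg hY hZ1p.le)
    nlinarith
  calc rhW H u * (clY H u * Z1) ≤ rhW H u * (2 * (clS H β' Q).Zf 0 fun z => clY H (u + clV hO z) * Real.exp (clTl hO u z)) :=
        mul_le_mul_of_nonneg_left h8 hW
    _ = _ := by ring

/-- **(T5)** in `ℝ≥0∞` form, with a real coefficient `c₀` -/
theorem pn_cl_post_mean (hβ : ∀ e, 0 < β' e) (hO : BOk G Q (clOne H) (clD H)) (b : ℝ) (hb0 : 0 ≤ b) (hbβ : ∀ e, β' e ≤ b) (u : G.V → ℤ)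
    {Q' Q'' : Set G.V} (hQ : Q' ⊆ Q) (hQ'' : Q'' ⊆ Q) (R t₀ : ℝ) (hfl : FlowLe G Q' (rhT (rhTilt H u)) R t₀)
    (g : G.V → ℝ) (Rg tg σ : ℝ) (hrep : clRep H Q'' g Rg tg σ) (ε c : ℝ) (hε0 : 0 ≤ ε) (hc0 : 0 < c) (hε : b * R ≤ ε ^ 2)
    (hcost : b * Rg + σ / 2 ≤ c ^ 2) (h1 : t₀ < 1) (hsup : t₀ + ε / c * tg ≤ 1) (c₀ : ℝ) :
    clJ H β' Q u (fun k => ENNReal.ofReal (c₀ * lin g k))
      ≤ ENNReal.ofReal (|c₀| * (4 * ε * c)) * clJ H β' Q u (fun _ => 1) + clJ H β' Q u (fun k => ENNReal.ofReal (-(c₀ * lin g k))) := by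
  have hS := pn_cl_ok (H := H) (Q := Q) hβ hO
  refine pn_cl_J_signed hβ hO u (fun k => c₀ * lin g k) (rd_dom_smul _ (pn_cl_dom_lin hO g)) _ (by positivity) ?_
  obtain ⟨t, hfl, hR, hsupt⟩ := hfl
  obtain ⟨s, hs, t', hfl', hR', hsupt'⟩ := hrep
  have e : clTl hO u = pnSt (clS H β' Q) t 0 := pn_cl_flow_test hO hQ _ t hfl
  have e' : clT hO g = pnSt (clS H β' Q) t' s := pn_cl_rep_test hO hQ'' g t' s hfl'
  have h5 := pn_fl_T5_abs hS b hb0 hbβ t t' s ε c t₀ tg hε0 hc0 ((mul_le_mul_of_nonneg_left hR hb0).trans hε)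
    (by
      have h1' : b * ∑ e : (clS H β' Q).E, t' e ^ 2 ≤ b * Rg := mul_le_mul_of_nonneg_left hR' hb0
      have h2 : ∑ o : (clS H β' Q).O, s o ^ 2 ≤ σ := hs
      exact (add_le_add h1' (div_le_div_of_nonneg_right h2 zero_le_two)).trans hcost) hsupt hsupt' h1 hsup
  rw [← e, ← e'] at h5
  unfold LSys.Ev LSys.wT at h5
  have hZ := pn_cl_Z_pos hβ hO (clTl hO u)
  rw [abs_div, abs_of_pos hZ, div_le_iff₀ hZ] at h5
  have e3 : (clS H β' Q).Zf 0 (fun z => c₀ * lin g (clV hO z) * Real.exp (clTl hO u z))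
      = c₀ * (clS H β' Q).Zf 0 (fun z => clT hO g z * Real.exp (clTl hO u z)) := by
    rw [← rd_Zf_smul]
    exact rd_Zf_congr 0 fun z => by rw [pn_cl_T_apply]; ring
  rw [e3]
  calc c₀ * (clS H β' Q).Zf 0 (fun z => clT hO g z * Real.exp (clTl hO u z))
      ≤ |c₀ * (clS H β' Q).Zf 0 (fun z => clT hO g z * Real.exp (clTl hO u z))| := le_abs_self _
    _ = |c₀| * |(clS H β' Q).Zf 0 (fun z => clT hO g z * Real.exp (clTl hO u z))| := abs_mul _ _
    _ ≤ |c₀| * (4 * ε * c * (clS H β' Q).Zf 0 fun z => Real.exp (clTl hO u z)) := mul_le_mul_of_nonneg_left h5 (abs_nonneg _)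
    _ = _ := by ring

/-! ## 6. the prior -/

theorem pn_cl_prior_J (H : HLaw G) (b : ℝ) (hb : 0 ≤ b) (P : Set G.V) (Φ : (G.V → ℤ) → ℝ≥0∞) :
    rhI H b P (fun h _ => Φ h) = clJ H (fun _ => b) P 0 Φ := by
  unfold rhI clJ
  rw [pn_fk_marginal G (fun _ => b) (fun _ => hb) P (fun h => Φ h * ENNReal.ofReal (rhW H h))]
  simp only [zero_add]

theorem pn_cl_Tl_zero (hO : BOk G Q (clOne H) (clD H)) (z : (clS H β' Q).L) : clTl hO 0 z = 0 := by
  rw [pn_cl_Tl_apply]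
  unfold clL
  rw [pn_cl_tilt_zero]
  simp [lin]

variable {P : Set G.V} {b : ℝ}

/-- **bridge for the prior** -/
theorem pn_cl_prior_real (hc : ClCtx H P b) (φ : (G.V → ℤ) → ℝ) (hφ : ∀ k, 0 ≤ φ k)
    (hd : (clS H (fun _ => b) P).Dom fun z => φ (clV (pn_cl_bok hc subset_rfl) z)) :
    rhI H b P (fun h _ => ENNReal.ofReal (φ h))
      = ENNReal.ofReal ((clS H (fun _ => b) P).Zf 0 fun z => φ (clV (pn_cl_bok hc subset_rfl) z)) := by
  rw [pn_cl_prior_J H b hc.hb.le P, pn_cl_J_real (fun _ => hc.hb) (pn_cl_bok hc subset_rfl) 0 φ hφ hd, pn_cl_W_zero, one_mul]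
  congr 1
  exact rd_Zf_congr 0 fun z => by rw [pn_cl_Tl_zero, Real.exp_zero, mul_one]

theorem pn_cl_prior_one (hc : ClCtx H P b) : rhI H b P (fun _ _ => 1) = ENNReal.ofReal ((clS H (fun _ => b) P).w 0) := by
  have h := pn_cl_prior_real hc (fun _ => 1) (fun _ => zero_le_one) (rd_dom_const 1)
  simpa [LSys.w] using h

theorem pn_cl_prior_ok (hc : ClCtx H P b) : (clS H (fun _ => b) P).Ok := pn_cl_ok (fun _ => hc.hb) (pn_cl_bok hc subset_rfl)

/-- every dominated function of the height is integrable -/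
theorem pn_cl_prior_fin (hc : ClCtx H P b) (ψ : (G.V → ℤ) → ℝ)
    (hd : (clS H (fun _ => b) P).Dom fun z => ψ (clV (pn_cl_bok hc subset_rfl) z)) :
    rhI H b P (fun h _ => ENNReal.ofReal (ψ h)) ≠ ∞ := by
  have e1 : rhI H b P (fun h _ => ENNReal.ofReal (ψ h)) = rhI H b P (fun h _ => ENNReal.ofReal (max (ψ h) 0)) := by
    congr 1
    funext h _
    exact pn_cl_ofReal_max _
  rw [e1, pn_cl_prior_real hc (fun h => max (ψ h) 0) (fun _ => le_max_right _ _) (rd_dom_of_le hd fun z => by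
      rw [abs_of_nonneg (le_max_right _ _)]
      exact max_le (le_abs_self _) (abs_nonneg _))]
  exact ENNReal.ofReal_ne_top

/-- a bound of a centred expectation, in `ℝ≥0∞` form -/
theorem pn_cl_prior_le (hc : ClCtx H P b) (φ : (G.V → ℤ) → ℝ) (hφ : ∀ k, 0 ≤ φ k)
    (hd : (clS H (fun _ => b) P).Dom fun z => φ (clV (pn_cl_bok hc subset_rfl) z)) (c : ℝ) (hc0 : 0 ≤ c)
    (h : (clS H (fun _ => b) P).E0 (fun z => φ (clV (pn_cl_bok hc subset_rfl) z)) ≤ c) :
    rhI H b P (fun h _ => ENNReal.ofReal (φ h)) ≤ ENNReal.ofReal c * rhI H b P (fun _ _ => 1) := by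
  rw [pn_cl_prior_real hc φ hφ hd, pn_cl_prior_one hc, ← ENNReal.ofReal_mul hc0]
  refine ENNReal.ofReal_le_ofReal ?_
  rw [rd_E0_eq, div_le_iff₀ (rd_w_pos (pn_cl_prior_ok hc) 0)] at h
  exact h

/-- Stores the on-demand equation lemmas of the definitions above in THIS module (rule 6 hygiene). -/
theorem pn_clusSys_forced : True := by
  have := @clD.eq_1
  have := @clOne.eq_1
  have := @clS.eq_1
  have := @clV.eq_1
  have := @clT.eq_1
  have := @clTl.eq_1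
  trivial

end

end Claimed.Agent.R285.Pins
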