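import Claimed.Agent.R285.Pins.T31Geo
import Claimed.Agent.R285.Pins.Fp
import Claimed.Agent.R285.Pot.RoGeo
import Claimed.Agent.R285.Tor.Defs

/-!
# ROW 285, PINS: EXIT of the exploration core towards [E] (author helper235).   No sorry.

`pn_ce_tor`: `CoreLow a b ν` (interface of `Pins/T31Geo.lean`; producer CORE-LIM, helper249) + free polygons (`Pins/Fp.lean`, helper279) give VERBATIM the statement `Tor.pin_shift_lower` (`Tor/Need.lean`):
full array of cells, no cut, pinned cells `Γ.pin`, ambient shift with bounded discrete `C²` norm which vanishes on the pinned cells and on the cells touching them.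
* `pn_ce_poly_univ`: the full array is a polygon;   * `pn_ce_near`: a site of the array within `ν/2` of a pinned cell lies in a cell which is pinned or touches a pinned cell;   * `pn_ce_shiftOK`: the class of shifts.
-/

set_option autoImplicit false

namespace Claimed.Agent.R285.Pins

open Filter Topology Pot
open scoped Classical

noncomputable section

variable {m₁ m₂ : ℕ}

/-! ## 1. The full array is a polygon -/

theorem pn_ce_row (j : Fin m₂) : ∀ (n : ℕ) (i i' : Fin m₁), i.1 + n = i'.1 →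
    Relation.ReflTransGen (fun a b : Fin m₁ × Fin m₂ =>
      a ∈ (Finset.univ : Finset (Fin m₁ × Fin m₂)) ∧ b ∈ (Finset.univ : Finset (Fin m₁ × Fin m₂)) ∧ roAdj a b) (i, j) (i', j) := by
  intro n
  induction n with
  | zero =>
    intro i i' h
    have : i = i' := Fin.ext (by omega)
    rw [this]
  | succ n ih =>
    intro i i' h
    have hlt : i.1 + n < m₁ := by have := i'.2; omega
    refine (ih i ⟨i.1 + n, hlt⟩ rfl).tail ⟨Finset.mem_univ _, Finset.mem_univ _, Or.inl ⟨?_, rfl⟩⟩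
    show i.1 + n + 1 = i'.1
    omega

theorem pn_ce_col (i : Fin m₁) : ∀ (n : ℕ) (j j' : Fin m₂), j.1 + n = j'.1 →
    Relation.ReflTransGen (fun a b : Fin m₁ × Fin m₂ =>
      a ∈ (Finset.univ : Finset (Fin m₁ × Fin m₂)) ∧ b ∈ (Finset.univ : Finset (Fin m₁ × Fin m₂)) ∧ roAdj a b) (i, j) (i, j') := by
  intro n
  induction n with
  | zero =>
    intro j j' h
    have : j = j' := Fin.ext (by omega)
    rw [this]
  | succ n ih =>
    intro j j' h
    have hlt : j.1 + n < m₂ := by have := j'.2; omega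
    refine (ih j ⟨j.1 + n, hlt⟩ rfl).tail ⟨Finset.mem_univ _, Finset.mem_univ _, Or.inr (Or.inr (Or.inl ⟨rfl, ?_⟩))⟩
    show j.1 + n + 1 = j'.1
    omega

theorem pn_ce_row_rev (j : Fin m₂) : ∀ (n : ℕ) (i i' : Fin m₁), i.1 + n = i'.1 →
    Relation.ReflTransGen (fun a b : Fin m₁ × Fin m₂ =>
      a ∈ (Finset.univ : Finset (Fin m₁ × Fin m₂)) ∧ b ∈ (Finset.univ : Finset (Fin m₁ × Fin m₂)) ∧ roAdj a b) (i', j) (i, j) := by
  intro n
  induction n with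
  | zero =>
    intro i i' h
    have : i = i' := Fin.ext (by omega)
    rw [this]
  | succ n ih =>
    intro i i' h
    have hlt : i.1 + n < m₁ := by have := i'.2; omega
    refine Relation.ReflTransGen.head (b := ((⟨i.1 + n, hlt⟩ : Fin m₁), j))
      ⟨Finset.mem_univ _, Finset.mem_univ _, Or.inr (Or.inl ⟨?_, rfl⟩)⟩ (ih i ⟨i.1 + n, hlt⟩ rfl)
    show i.1 + n + 1 = i'.1
    omega

theorem pn_ce_col_rev (i : Fin m₁) : ∀ (n : ℕ) (j j' : Fin m₂), j.1 + n = j'.1 →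
    Relation.ReflTransGen (fun a b : Fin m₁ × Fin m₂ =>
      a ∈ (Finset.univ : Finset (Fin m₁ × Fin m₂)) ∧ b ∈ (Finset.univ : Finset (Fin m₁ × Fin m₂)) ∧ roAdj a b) (i, j') (i, j) := by
  intro n
  induction n with
  | zero =>
    intro j j' h
    have : j = j' := Fin.ext (by omega)
    rw [this]
  | succ n ih =>
    intro j j' h
    have hlt : j.1 + n < m₂ := by have := j'.2; omega
    refine Relation.ReflTransGen.head (b := (i, (⟨j.1 + n, hlt⟩ : Fin m₂)))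
      ⟨Finset.mem_univ _, Finset.mem_univ _, Or.inr (Or.inr (Or.inr ⟨rfl, ?_⟩))⟩ (ih j ⟨j.1 + n, hlt⟩ rfl)
    show j.1 + n + 1 = j'.1
    omega

theorem pn_ce_poly_univ : Pot.Poly (Finset.univ : Finset (Fin m₁ × Fin m₂)) where
  conn := by
    rintro ⟨i, j⟩ _ ⟨i', j'⟩ _
    have h1 : Relation.ReflTransGen (fun a b : Fin m₁ × Fin m₂ =>
        a ∈ (Finset.univ : Finset (Fin m₁ × Fin m₂)) ∧ b ∈ (Finset.univ : Finset (Fin m₁ × Fin m₂)) ∧ roAdj a b) (i, j) (i', j) := by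
      rcases le_total i.1 i'.1 with h | h
      · exact pn_ce_row j (i'.1 - i.1) i i' (by omega)
      · exact pn_ce_row_rev j (i.1 - i'.1) i' i (by omega)
    have h2 : Relation.ReflTransGen (fun a b : Fin m₁ × Fin m₂ =>
        a ∈ (Finset.univ : Finset (Fin m₁ × Fin m₂)) ∧ b ∈ (Finset.univ : Finset (Fin m₁ × Fin m₂)) ∧ roAdj a b) (i', j) (i', j') := by
      rcases le_total j.1 j'.1 with h | h
      · exact pn_ce_col i' (j'.1 - j.1) j j' (by omega)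
      · exact pn_ce_col_rev i' (j.1 - j'.1) j' j (by omega)
    exact h1.trans h2
  loc := fun _ _ _ _ _ _ => ⟨fun _ _ => Or.inl (Finset.mem_univ _), fun _ _ => Or.inl (Finset.mem_univ _)⟩

/-! ## 2. The collar -/

/-- one coordinate: two points in the cells `i`, `i'` of a line grid with sides `≥ ν`, at distance `< ν`: the indices differ by at most one -/
theorem pn_ce_idx {m : ℕ} {f : Fin (m + 1) → ℤ} (hf : StrictMono f) {ν : ℕ} (h : ∀ i : Fin m, (ν : ℤ) ≤ f i.succ - f i.castSucc)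
    {i i' : Fin m} {s t : ℤ} (h1 : f i.castSucc ≤ s) (h2' : t < f i'.succ) (hst : s - t < ν ∨ s ≤ t) : i.1 ≤ i'.1 + 1 := by
  by_contra hcon
  push Not at hcon
  have hlt : i'.succ < i.castSucc := by
    rw [Fin.lt_def]
    simp only [Fin.val_succ, Fin.val_castSucc]
    omega
  have hgap := ro_g1_gap hf h hlt
  rcases hst with hst | hst <;> omega

/-- a site of a cell `κ` within distance `ν/2` of a site of a cell `κ'`: the cells touch -/
theorem pn_ce_near (g : DGrid m₁ m₂) {ν : ℕ} (h : g.SideGe ν) {κ κ' : Fin m₁ × Fin m₂} {x y : ℤ × ℤ}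
    (hx : x ∈ g.cell κ) (hy : y ∈ g.cell κ')
    (h1 : |((x.1 - y.1 : ℤ) : ℝ)| ≤ 1 / 2 * ν) (h2 : |((x.2 - y.2 : ℤ) : ℝ)| ≤ 1 / 2 * ν) :
    κ.1.1 ≤ κ'.1.1 + 1 ∧ κ'.1.1 ≤ κ.1.1 + 1 ∧ κ.2.1 ≤ κ'.2.1 + 1 ∧ κ'.2.1 ≤ κ.2.1 + 1 := by
  rw [ro_mem_cell] at hx hy
  have key : ∀ s t : ℤ, |((s - t : ℤ) : ℝ)| ≤ 1 / 2 * ν → (s - t < ν ∨ s ≤ t) ∧ (t - s < ν ∨ t ≤ s) := by
    intro s t hst
    have a1 := (abs_le.1 hst).1
    have a2 := (abs_le.1 hst).2
    have hν : (0 : ℝ) ≤ ν := Nat.cast_nonneg ν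
    rcases Nat.eq_zero_or_pos ν with h0 | h0
    · subst h0
      simp only [Nat.cast_zero, mul_zero, neg_zero] at a1 a2
      have e : ((s - t : ℤ) : ℝ) = 0 := le_antisymm a2 a1
      have e' : s - t = 0 := by exact_mod_cast e
      exact ⟨Or.inr (by omega), Or.inr (by omega)⟩
    · have hν' : (0 : ℝ) < ν := by exact_mod_cast h0
      constructor
      · left
        have : ((s - t : ℤ) : ℝ) < ((ν : ℤ) : ℝ) := by
          push_cast
          push_cast at a2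
          linarith
        exact_mod_cast this
      · left
        have : ((t - s : ℤ) : ℝ) < ((ν : ℤ) : ℝ) := by
          push_cast
          push_cast at a1
          linarith
        exact_mod_cast this
  obtain ⟨k1, k1'⟩ := key _ _ h1
  obtain ⟨k2, k2'⟩ := key _ _ h2
  exact ⟨pn_ce_idx g.mono₁ h.1 hx.1 hy.2.1 k1, pn_ce_idx g.mono₁ h.1 hy.1 hx.2.1 k1',
    pn_ce_idx g.mono₂ h.2 hx.2.2.1 hy.2.2.2 k2, pn_ce_idx g.mono₂ h.2 hy.2.2.1 hx.2.2.2 k2'⟩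

/-- the shifts of `Tor.pin_shift_lower` belong to the class of `CoreLow` -/
theorem pn_ce_shiftOK {ν : ℕ → ℕ} (Pn : Finset (C3.Cell m₁ m₂)) {K : ℕ} {g : ℕ → DGrid m₁ m₂} (hg : Admissible K g ν)
    (u : ℕ → ℤ × ℤ → ℝ) (M : ℝ) (h1 : ∀ k (e : Bond), |C2.gd (u k) e| ≤ M / ν k)
    (h2 : ∀ k (e : Bond) (d : ℤ × ℤ), (d = (1, 0) ∨ d = (0, 1)) → |C2.gd (u k) (e.1 + d, e.2) - C2.gd (u k) e| ≤ M / (ν k : ℝ) ^ 2)
    (hvan : ∀ k (κ : C3.Cell m₁ m₂), (∃ κ' ∈ Pn, κ.1.1 ≤ κ'.1.1 + 1 ∧ κ'.1.1 ≤ κ.1.1 + 1 ∧ κ.2.1 ≤ κ'.2.1 + 1 ∧ κ'.2.1 ≤ κ.2.1 + 1) →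
      ∀ v ∈ (g k).cell κ, u k v = 0) :
    ShiftOK ν Finset.univ Pn g u := by
  refine ⟨C2.reg_c2 u M fun k => ⟨fun e _ => h1 k e, fun e _ d hd _ => h2 k e d hd⟩, 1 / 2, by norm_num, ?_⟩
  intro k x hx hnear
  obtain ⟨κ, _, hκ⟩ := (ro_mem_region (g k) _ x).1 hx
  obtain ⟨y, hy, d1, d2⟩ := hnear
  obtain ⟨κ', hκ', hy'⟩ := (ro_mem_region (g k) _ y).1 hy
  exact hvan k κ ⟨κ', (Finset.mem_inter.1 hκ').2, pn_ce_near (g k) (hg.2 k).1 hκ hy' d1 d2⟩ x hκ

/-! ## 3. The exit -/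

/-- **`Tor.pin_shift_lower` from `CoreLow`** (statement verbatim, `hC` added). -/
theorem pn_ce_tor {a : ℝ} {b : ℕ → ℝ} {ν : ℕ → ℕ} (hS : C3.Scen a b ν) (hC : CoreLow a b ν) (Γ : CGeom m₁ m₂)
    (hT : Γ.T = Finset.univ) (hcut : Γ.cutF = ∅) (K : ℕ) (g : ℕ → DGrid m₁ m₂) (hg : Admissible K g ν)
    (u : ℕ → ℤ × ℤ → ℝ) (M : ℝ) (h1 : ∀ k (e : Bond), |C2.gd (u k) e| ≤ M / ν k)
    (h2 : ∀ k (e : Bond) (d : ℤ × ℤ), (d = (1, 0) ∨ d = (0, 1)) → |C2.gd (u k) (e.1 + d, e.2) - C2.gd (u k) e| ≤ M / (ν k : ℝ) ^ 2)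
    (hvan : ∀ k κ, Tor.NearPin Γ κ → ∀ v ∈ (g k).cell κ, u k v = 0) (ε : ℝ) (hε : 0 < ε) :
    ∀ᶠ k in atTop, a * Tor.dirG Γ (g k) (u k) - ε ≤ ((C3.lawR Γ (g k) C3.noRow).sys (b k)).V0 (Tor.gradG Γ (g k) (b k) (u k)) := by
  obtain ⟨T, cutF, pin, nObs, box, wgt⟩ := Γ
  simp only at hT hcut
  subst hT hcut
  have hsh : ShiftOK ν Finset.univ pin g u := pn_ce_shiftOK pin hg u M h1 h2 hvan
  by_cases hp : ((Finset.univ : Finset (C3.Cell m₁ m₂)) ∩ pin).Nonempty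
  · exact hC m₁ m₂ Finset.univ pin pn_ce_poly_univ hp K g hg u hsh ε hε
  · rw [Finset.not_nonempty_iff_eq_empty] at hp
    exact pn_fp_var_lower hS.coef (polyG Finset.univ pin) hp hg hsh.1 ε hε

end

end Claimed.Agent.R285.Pins
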