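import Claimed.Agent.R285.Pins.FkDefs

/-!
# ROW 285, PINS-EXPLORE: auxiliary definitions (owner helper85)
-/

set_option autoImplicit false

namespace Claimed.Agent.R285.Pins

open scoped Classical ENNReal

noncomputable section

variable (G : HGraph)

/-- gluing: `ω₁` on the bonds touching `U`, `ω₂` elsewhere -/
def glue (U : Set G.V) (ω₁ ω₂ : G.E → Bool) : G.E → Bool := fun e => if touch G U e then ω₁ e else ω₂ e

/-- the data revealed by the exploration from `A`: visited set, visited heights, states of the bonds touching the visited set -/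
def expl (A : Set G.V) (h : G.V → ℤ) (ω : G.E → Bool) : Set G.V × (G.V → ℤ) × (G.E → Bool) :=
  (vis G ω A, resZ G (vis G ω A) h, glue G (vis G ω A) ω fun _ => false)

/-- one factor of `fkW` -/
def fkE (β : G.E → ℝ) (h : G.V → ℤ) (ω : G.E → Bool) (e : G.E) : ℝ :=
  if ω e = true then fkOp (β e) (h (G.src e)) (h (G.tgt e)) else fkCl (β e) (h (G.src e)) (h (G.tgt e))

/-- the factors of the bonds inside `U` -/
def wIn (β : G.E → ℝ) (U : Set G.V) (h : G.V → ℤ) (ω : G.E → Bool) : ℝ :=
  ∏ e, if G.src e ∈ U ∧ G.tgt e ∈ U then fkE G β h ω e else 1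

/-- the factors of the bonds which do not touch `U` -/
def wOut (β : G.E → ℝ) (U : Set G.V) (k : G.V → ℤ) (ω : G.E → Bool) : ℝ :=
  ∏ e, if touch G U e then 1 else fkE G β k ω e

/-- general weights `ρ_e` of the outer height on the boundary bonds (`k` vanishes on `U`, so `k src + k tgt` is the outer height) -/
def wBd (U : Set G.V) (ρ : G.E → ℤ → ℝ≥0∞) (k : G.V → ℤ) : ℝ≥0∞ :=
  ∏ e, if bdry G U e then ρ e (k (G.src e) + k (G.tgt e)) else 1

/-- the outer sum with general boundary weights -/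
def exB (β : G.E → ℝ) (Q U : Set G.V) (ρ : G.E → ℤ → ℝ≥0∞) (Ψ : (G.V → ℤ) → (G.E → Bool) → ℝ≥0∞) : ℝ≥0∞ :=
  ∑' k : HLaw.pinned Q, ∑ ω₂ : G.E → Bool,
    if maskOut G U ω₂ = ω₂ then Ψ k ω₂ * wBd G U ρ k * ENNReal.ofReal (wOut G β U k ω₂) else 0

end

end Claimed.Agent.R285.Pins
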