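import Claimed.Agent.R285.Pins.ExDefs
import Claimed.Agent.R285.Pins.FkBond

/-!
# ROW 285, PINS-EXPLORE 2b: factorisation of the weight at a visited set (leaf L-PIN-EX3; architect helper85; PROVED by helper5, no own `sorry`).   Paper-free.

Split `∏ e` into the three classes of bonds (inside `U`, boundary, not touching `U`), factor by factor (`Finset.prod_mul_distrib`, `ENNReal.ofReal_mul`, `ENNReal.ofReal_prod_of_nonneg`).
-/

set_option autoImplicit false

namespace Claimed.Agent.R285.Pins

open scoped Classical ENNReal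

noncomputable section

variable (G : HGraph)

theorem pn_exf_fkE_nonneg (β : G.E → ℝ) (hβ : ∀ e, 0 ≤ β e) (h : G.V → ℤ) (ω : G.E → Bool) (e : G.E) : 0 ≤ fkE G β h ω e := by
  unfold fkE
  split_ifs
  · exact pn_fk_op_nonneg _ (hβ e) _ _
  · exact pn_fk_cl_nonneg _ (hβ e) _ _

theorem pn_exf_fkW (β : G.E → ℝ) (h : G.V → ℤ) (ω : G.E → Bool) : fkW G β h ω = ∏ e, fkE G β h ω e := rfl

/-- the weight of a glued configuration -/
theorem pn_ex_weight_glue (β : G.E → ℝ) (hβ : ∀ e, 0 ≤ β e) (U : Set G.V) (u k : G.V → ℤ) (hu : ∀ v, v ∉ U → u v = 0) (hk : ∀ v ∈ U, k v = 0)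
    (ω₀ ω₂ : G.E → Bool) (hcl : ∀ e, bdry G U e → ω₀ e = false) :
    ENNReal.ofReal (fkW G β (u + k) (glue G U ω₀ ω₂))
      = ENNReal.ofReal (wIn G β U u ω₀)
        * wBd G U (fun e n => ENNReal.ofReal (bes (β e) (|u (G.src e) + u (G.tgt e)| + |n|))) k
        * ENNReal.ofReal (wOut G β U k ω₂) := by
  rw [pn_exf_fkW, wIn, wOut, wBd, ENNReal.ofReal_prod_of_nonneg fun e _ => pn_exf_fkE_nonneg G β hβ _ _ e,
    ENNReal.ofReal_prod_of_nonneg, ENNReal.ofReal_prod_of_nonneg, ← Finset.prod_mul_distrib, ← Finset.prod_mul_distrib]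
  · refine Finset.prod_congr rfl fun e _ => ?_
    by_cases hs : G.src e ∈ U <;> by_cases ht : G.tgt e ∈ U
    · have hb : ¬ bdry G U e := by simp [bdry, hs, ht]
      have htc : touch G U e := Or.inl hs
      simp only [hs, ht, and_self, if_true, hb, if_false, htc, ENNReal.ofReal_one, mul_one]
      congr 1
      simp only [fkE, glue, htc, if_true, Pi.add_apply, hk _ hs, hk _ ht, add_zero]
    · have hb : bdry G U e := by simp [bdry, hs, ht]
      have htc : touch G U e := Or.inl hs
      simp only [hs, ht, and_false, if_false, hb, if_true, htc, ENNReal.ofReal_one, mul_one, one_mul]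
      congr 1
      simp only [fkE, glue, htc, if_true, hcl e hb, Pi.add_apply, hk _ hs, hu _ ht, add_zero, zero_add, fkCl, Bool.false_eq_true, if_false]
    · have hb : bdry G U e := by simp [bdry, hs, ht]
      have htc : touch G U e := Or.inr ht
      simp only [hs, ht, false_and, if_false, hb, if_true, htc, ENNReal.ofReal_one, mul_one, one_mul]
      congr 1
      simp only [fkE, glue, htc, if_true, hcl e hb, Pi.add_apply, hk _ ht, hu _ hs, add_zero, zero_add, fkCl, Bool.false_eq_true, if_false]
      rw [add_comm]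
    · have hb : ¬ bdry G U e := by simp [bdry, hs, ht]
      have htc : ¬ touch G U e := by simp [touch, hs, ht]
      simp only [hs, ht, and_self, if_false, hb, htc, ENNReal.ofReal_one, one_mul]
      congr 1
      simp only [fkE, glue, htc, if_false, Pi.add_apply, hu _ hs, hu _ ht, zero_add]
  · intro e _
    split_ifs
    · exact zero_le_one
    · exact pn_exf_fkE_nonneg G β hβ _ _ e
  · intro e _
    split_ifs
    · exact pn_exf_fkE_nonneg G β hβ _ _ e
    · exact zero_le_one

/-- `wOut` does not see the temperatures of the bonds touching `U` -/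
theorem pn_ex_wOut_congr (β β' : G.E → ℝ) (U : Set G.V) (hb : ∀ e, ¬ bdry G U e → β' e = β e) (k : G.V → ℤ) (ω₂ : G.E → Bool) :
    wOut G β' U k ω₂ = wOut G β U k ω₂ := by
  unfold wOut
  refine Finset.prod_congr rfl fun e _ => ?_
  by_cases htc : touch G U e
  · simp only [htc, if_true]
  · simp only [htc, if_false]
    have h1 : G.src e ∉ U := fun h => htc (Or.inl h)
    have h2 : G.tgt e ∉ U := fun h => htc (Or.inr h)
    have : ¬ bdry G U e := by simp [bdry, h1, h2]
    simp only [fkE, hb e this]

theorem pn_exf_bes_abs (b : ℝ) (n : ℤ) : bes b |n| = bes b n := by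
  rcases abs_choice n with h | h
  · rw [h]
  · rw [h, bes_neg]

/-- the weight of the law pinned on `U` -/
theorem pn_ex_weight_post (β : G.E → ℝ) (hβ : ∀ e, 0 ≤ β e) (U : Set G.V) (k : G.V → ℤ) (hk : ∀ v ∈ U, k v = 0) (ω₂ : G.E → Bool) :
    ENNReal.ofReal (fkW G β k ω₂)
      = if maskOut G U ω₂ = ω₂ then
          ENNReal.ofReal (∏ e, if G.src e ∈ U ∧ G.tgt e ∈ U then bes (β e) 0 else 1)
            * wBd G U (fun e n => ENNReal.ofReal (bes (β e) n)) k * ENNReal.ofReal (wOut G β U k ω₂)
        else 0 := by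
  by_cases hm : maskOut G U ω₂ = ω₂
  · rw [if_pos hm]
    have h1 := pn_ex_weight_glue G β hβ U 0 k (fun _ _ => rfl) hk (fun _ => false) ω₂ (fun _ _ => rfl)
    have h2 : glue G U (fun _ => false) ω₂ = ω₂ := hm
    rw [h2, zero_add] at h1
    rw [h1]
    have e1 : wIn G β U 0 (fun _ => false) = ∏ e, if G.src e ∈ U ∧ G.tgt e ∈ U then bes (β e) 0 else 1 := by
      unfold wIn
      refine Finset.prod_congr rfl fun e _ => ?_
      simp [fkE, fkCl]
    have e2 : wBd G U (fun e n => ENNReal.ofReal (bes (β e) (|(0 : G.V → ℤ) (G.src e) + (0 : G.V → ℤ) (G.tgt e)| + |n|))) k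
        = wBd G U (fun e n => ENNReal.ofReal (bes (β e) n)) k := by
      unfold wBd
      refine Finset.prod_congr rfl fun e _ => ?_
      simp [pn_exf_bes_abs]
    rw [e1, e2]
  · rw [if_neg hm]
    have : ∃ e, touch G U e ∧ ω₂ e = true := by
      by_contra hcon
      push Not at hcon
      apply hm
      funext e
      unfold maskOut
      by_cases htc : touch G U e
      · rw [if_pos htc]
        have := hcon e htc
        simpa using this.symm
      · rw [if_neg htc]
    obtain ⟨e, htc, he⟩ := this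
    have h0 : fkE G β k ω₂ e = 0 := by
      unfold fkE fkOp
      rw [if_pos he]
      rcases htc with h | h
      · simp [hk _ h]
      · simp [hk _ h]
    rw [pn_exf_fkW, Finset.prod_eq_zero (Finset.mem_univ e) h0, ENNReal.ofReal_zero]

end

end Claimed.Agent.R285.Pins
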