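import Claimed.Agent.R285.Pins.ExVis
import Claimed.Agent.R285.Pins.FkBond
import Claimed.Agent.R285.Pins.ExW

/-!
# ROW 285, PINS-EXPLORE 2: the fibres of the exploration map and the factorisation of the weight (leaf L-PIN-EX2; weights: `ExW.lean`; architect helper85; PROVED by helper5, no own `sorry`).   Paper-free.

`pn_ex_fiber`: build the equivalence  fibre ≃ `{(k, ω₂) : k ∈ pinned (P ∪ U), maskOut U ω₂ = ω₂}`,  `(h,ω) ↦ (resZ Uᶜ h, maskOut U ω)`, inverse `(k,ω₂) ↦ (resZ U h₀ + k, glue U ω₀ ω₂)` (`pn_vis_glue`), then `Equiv.tsum_eq`, `ENNReal.tsum_prod`, `tsum_fintype`.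
`pn_ex_weight_glue`, `pn_ex_weight_post`: split `∏ e` into the three classes of bonds (inside `U`, boundary, not touching `U`), factor by factor.
-/

set_option autoImplicit false

namespace Claimed.Agent.R285.Pins

open scoped Classical ENNReal

noncomputable section

variable (G : HGraph)

theorem pn_exf_resZ_add (U : Set G.V) (h : G.V → ℤ) : resZ G U h + resZ G Uᶜ h = h := by
  funext v
  by_cases hv : v ∈ U <;> simp [resZ, hv]

/-- the fibre of the exploration map through `(h₀, ω₀)` -/
theorem pn_ex_fiber (P A : Set G.V) (h₀ : G.V → ℤ) (hh₀ : h₀ ∈ HLaw.pinned P) (ω₀ : G.E → Bool)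
    (g : (G.V → ℤ) → (G.E → Bool) → ℝ≥0∞) :
    ∑' x : {x : HLaw.pinned P × (G.E → Bool) // expl G A x.1 x.2 = expl G A h₀ ω₀}, g x.1.1 x.1.2
      = ∑' k : HLaw.pinned (P ∪ vis G ω₀ A), ∑ ω₂ : G.E → Bool,
          if maskOut G (vis G ω₀ A) ω₂ = ω₂ then
            g (resZ G (vis G ω₀ A) h₀ + k) (glue G (vis G ω₀ A) ω₀ ω₂) else 0 := by
  set U := vis G ω₀ A with hU
  -- the three components of the fibre condition
  have hfib : ∀ (h : G.V → ℤ) (ω : G.E → Bool), expl G A h ω = expl G A h₀ ω₀ ↔
      vis G ω A = U ∧ resZ G U h = resZ G U h₀ ∧ glue G U ω (fun _ => false) = glue G U ω₀ fun _ => false := by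
    intro h ω
    unfold expl
    rw [Prod.ext_iff, Prod.ext_iff]
    simp only
    constructor
    · rintro ⟨h1, h2, h3⟩
      rw [h1] at h2 h3
      exact ⟨h1, h2, h3⟩
    · rintro ⟨h1, h2, h3⟩
      rw [h1]
      exact ⟨rfl, h2, h3⟩
  let eqv : {x : HLaw.pinned P × (G.E → Bool) // expl G A x.1 x.2 = expl G A h₀ ω₀}
      ≃ HLaw.pinned (P ∪ U) × {ω₂ : G.E → Bool // maskOut G U ω₂ = ω₂} :=
    { toFun := fun x => (⟨resZ G Uᶜ x.1.1, by
          intro v hv
          by_cases hvU : v ∈ U
          · simp [resZ, hvU]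
          · have : v ∈ P := hv.resolve_right hvU
            simp [resZ, hvU, x.1.1.2 v this]⟩,
        ⟨maskOut G U x.1.2, by
          funext e
          by_cases htc : touch G U e <;> simp [maskOut, htc]⟩)
      invFun := fun y => ⟨(⟨resZ G U h₀ + y.1, by
          intro v hv
          have h1 : (y.1 : G.V → ℤ) v = 0 := y.1.2 v (Or.inl hv)
          have h2 : h₀ v = 0 := hh₀ v hv
          simp [resZ, h1, h2]⟩, glue G U ω₀ y.2), by
          rw [hfib]
          refine ⟨pn_vis_glue G ω₀ _ A, ?_, ?_⟩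
          · funext v
            by_cases hvU : v ∈ U
            · have h1 : (y.1 : G.V → ℤ) v = 0 := y.1.2 v (Or.inr hvU)
              simp [resZ, hvU, h1]
            · simp [resZ, hvU]
          · funext e
            by_cases htc : touch G U e <;> simp [glue, htc]⟩
      left_inv := by
        rintro ⟨⟨h, ω⟩, hx⟩
        obtain ⟨h1, h2, h3⟩ := (hfib _ _).1 hx
        apply Subtype.ext
        apply Prod.ext
        · apply Subtype.ext
          show resZ G U h₀ + resZ G Uᶜ (h : G.V → ℤ) = h
          rw [← h2]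
          exact pn_exf_resZ_add G U _
        · show glue G U ω₀ (maskOut G U ω) = ω
          funext e
          have := congrFun h3 e
          by_cases htc : touch G U e
          · simp only [glue, htc, if_true] at this ⊢
            exact this.symm
          · simp [glue, maskOut, htc]
      right_inv := by
        rintro ⟨k, ω₂, hω⟩
        apply Prod.ext
        · apply Subtype.ext
          show resZ G Uᶜ (resZ G U h₀ + (k : G.V → ℤ)) = k
          funext v
          by_cases hvU : v ∈ U
          · have h1 : (k : G.V → ℤ) v = 0 := k.2 v (Or.inr hvU)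
            simp [resZ, hvU, h1]
          · simp [resZ, hvU]
        · apply Subtype.ext
          show maskOut G U (glue G U ω₀ ω₂) = ω₂
          rw [← hω]
          funext e
          by_cases htc : touch G U e <;> simp [glue, maskOut, htc] }
  rw [← eqv.symm.tsum_eq, ENNReal.tsum_prod']
  refine tsum_congr fun k => ?_
  rw [← tsum_fintype (L := SummationFilter.unconditional _), ← tsum_subtype_eq_of_support_subset (s := {ω₂ : G.E → Bool | maskOut G U ω₂ = ω₂})]
  · refine tsum_congr fun ω₂ => ?_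
    have : maskOut G U (ω₂ : G.E → Bool) = ω₂ := ω₂.2
    rw [if_pos this]
    rfl
  · intro ω₂ hω
    by_contra hcon
    exact hω (if_neg hcon)

/-- summation over the fibres -/
theorem pn_ex_fiberwise (β : G.E → ℝ) (P A : Set G.V) (Φ : (G.V → ℤ) → (G.E → Bool) → ℝ≥0∞) :
    ext G β P Φ = ∑' y : Set G.V × (G.V → ℤ) × (G.E → Bool),
      ∑' x : {x : HLaw.pinned P × (G.E → Bool) // expl G A x.1 x.2 = y},
        Φ x.1.1 x.1.2 * ENNReal.ofReal (fkW G β x.1.1 x.1.2) := by
  unfold ext
  rw [← ENNReal.tsum_sigma' (f := fun z : (Σ y : Set G.V × (G.V → ℤ) × (G.E → Bool), {x : HLaw.pinned P × (G.E → Bool) // expl G A x.1 x.2 = y}) =>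
      Φ z.2.1.1 z.2.1.2 * ENNReal.ofReal (fkW G β z.2.1.1 z.2.1.2)),
    ← (Equiv.sigmaFiberEquiv (fun x : HLaw.pinned P × (G.E → Bool) => expl G A x.1 x.2)).symm.tsum_eq, ENNReal.tsum_prod']
  refine tsum_congr fun h => ?_
  rw [tsum_fintype]
  rfl

end

end Claimed.Agent.R285.Pins
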