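import Claimed.Agent.R285.Free.Rect
import Claimed.Agent.R285.Read.C3Defs

/-!
# ROW 285, PINS / FREE POLYGONS (post BP-PINS-FP; [C] 30-pins l.150-170, [B] an:forms last part).   Author: helper279.   Prefix `pn_fp_`, definitions `fp*`, `FpG`.   FILE 1: the FINITE comparisons.   No sorry.

`FpG S b B` : "`S` is the free gradient system at temperature `b` on the bond set `B ⊂ Bond`" (coordinates labelled by the bonds of `B`, no Gaussian coordinate, lattice = restrictions to `B` of the gradients of ALL integer functions on `ℤ²`).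
Instances: free rectangles (`fpGRc`), pin-free geometries without rows (`fpGGeo`; any cuts; pin-free = no cell of `Γ.T` is pinned, `Γ.T ∩ Γ.pin = ∅`).
* `fpCutRef` : bond-disjoint pieces `Q i ⊆ B` give `LSys.Ref (pi S') S` (generalises `Free.frCutRef`; pieces and whole may be rectangles or geometries);  `fpSubRef` : one piece.
* `pn_fp_cut_var`, `pn_fp_cut_lmgf`, `pn_fp_seam_var`, `pn_fp_seam_lmgf` : cutting increases variances and Laplace transforms; the bonds in no piece are paid by their reference cost.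
-/

set_option autoImplicit false

namespace Claimed.Agent.R285.Pins

open Filter Topology C2 Free
open scoped Classical

noncomputable section

/-! ## 1. Free gradient systems -/

/-- `S` is the free gradient system at temperature `b` on the bond set `B` -/
structure FpG (S : LSys) (b : ℝ) (B : Finset Bond) where
  lab : S.E ≃ {e : Bond // e ∈ B}
  emp : IsEmpty S.O
  hb : ∀ e, S.b e = b
  ok : S.Ok
  mem : ∀ z : S.Amb, z ∈ S.L ↔ ∃ h : ℤ × ℤ → ℤ, ∀ e, z.1 e = h (lab e).1.snd - h (lab e).1.1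

/-- the flow test `∑_e w_e ∇_e (2π h)` -/
def FpG.flow {S : LSys} {b : ℝ} {B : Finset Bond} (G : FpG S b B) (w : Bond → ℝ) : S.L →+ ℝ :=
  flowS S fun e => 2 * Real.pi * w (G.lab e).1

section Basic

variable {S : LSys} {b : ℝ} {B : Finset Bond} (G : FpG S b B)

theorem pn_fp_flow_apply (w : Bond → ℝ) (z : S.L) :
    G.flow w z = ∑ e, 2 * Real.pi * w (G.lab e).1 * (((z : S.Amb).1 e : ℤ) : ℝ) := rfl

theorem pn_fp_flow_add (w w' : Bond → ℝ) : G.flow (fun e => w e + w' e) = G.flow w + G.flow w' := by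
  ext z
  rw [AddMonoidHom.add_apply, pn_fp_flow_apply, pn_fp_flow_apply, pn_fp_flow_apply, ← Finset.sum_add_distrib]
  exact Finset.sum_congr rfl fun e _ => by ring

theorem pn_fp_flow_smul (c : ℝ) (w : Bond → ℝ) : G.flow (fun e => c * w e) = c • G.flow w := by
  ext z
  rw [AddMonoidHom.smul_apply, pn_fp_flow_apply, pn_fp_flow_apply, smul_eq_mul, Finset.mul_sum]
  exact Finset.sum_congr rfl fun e _ => by ring

theorem pn_fp_flow_congr {w w' : Bond → ℝ} (h : ∀ e ∈ B, w e = w' e) : G.flow w = G.flow w' := by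
  ext z
  rw [pn_fp_flow_apply, pn_fp_flow_apply]
  refine Finset.sum_congr rfl fun e _ => ?_
  rw [h _ (G.lab e).2]

theorem pn_fp_sum_E (f : Bond → ℝ) : ∑ e : S.E, f (G.lab e).1 = ∑ e ∈ B, f e := by
  rw [← Finset.sum_coe_sort B f]
  exact Fintype.sum_equiv G.lab _ _ fun _ => rfl

theorem pn_fp_sum_sq (w : Bond → ℝ) :
    ∑ e : S.E, (2 * Real.pi * w (G.lab e).1) ^ 2 = 4 * Real.pi ^ 2 * ∑ e ∈ B, w e ^ 2 := by
  rw [pn_fp_sum_E G fun e => (2 * Real.pi * w e) ^ 2, Finset.mul_sum]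
  exact Finset.sum_congr rfl fun e _ => by ring

/-- reference bound for the variance -/
theorem pn_fp_ref_var (w : Bond → ℝ) : S.V0 (G.flow w) ≤ 4 * Real.pi ^ 2 * b * ∑ e ∈ B, w e ^ 2 := by
  have h := fr_ref_var S G.ok b (fun e => (G.hb e).le) (fun e => 2 * Real.pi * w (G.lab e).1)
  rw [pn_fp_sum_sq] at h
  calc S.V0 (G.flow w) ≤ b * (4 * Real.pi ^ 2 * ∑ e ∈ B, w e ^ 2) := h
    _ = _ := by ring

/-- reference bound for the Laplace transform -/
theorem pn_fp_ref_lmgf (w : Bond → ℝ) :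
    Real.log (S.E0 fun z => Real.exp (G.flow w z)) ≤ b * (Real.cosh (Real.sqrt (4 * Real.pi ^ 2 * ∑ e ∈ B, w e ^ 2)) - 1) := by
  have h := fr_ref_mgf S G.ok b (fun e => (G.hb e).le) (fun e => 2 * Real.pi * w (G.lab e).1)
  rw [pn_fp_sum_sq] at h
  rw [Real.log_le_iff_le_exp (frs_E0_exp_pos S G.ok _)]
  exact h

end Basic

/-! ## 2. Cutting -/

section Cut

variable {S : LSys} {b : ℝ} {B : Finset Bond} (G : FpG S b B) {ι : Type} {S' : ι → LSys} {Q : ι → Finset Bond}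
  (G' : ∀ i, FpG (S' i) b (Q i)) (hsub : ∀ i, Q i ⊆ B) (hdis : ∀ i j, i ≠ j → Disjoint (Q i) (Q j))

/-- the embedding of the bonds of the pieces -/
def fpCutE : (Σ i, (S' i).E) ↪ S.E where
  toFun x := G.lab.symm ⟨((G' x.1).lab x.2).1, hsub x.1 ((G' x.1).lab x.2).2⟩
  inj' := by
    rintro ⟨i, e⟩ ⟨j, e'⟩ h
    have h0 := G.lab.symm.injective h
    have h1 : ((G' i).lab e).1 = ((G' j).lab e').1 := congrArg Subtype.val h0
    have hij : i = j := by
      by_contra hne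
      exact Finset.disjoint_left.1 (hdis i j hne) ((G' i).lab e).2 (h1 ▸ ((G' j).lab e').2)
    subst hij
    have : e = e' := (G' i).lab.injective (Subtype.ext h1)
    rw [this]

theorem pn_fp_cutE_lab (i : ι) (e : (S' i).E) : (G.lab (fpCutE G G' hsub hdis ⟨i, e⟩)).1 = ((G' i).lab e).1 := by
  show (G.lab (G.lab.symm ⟨((G' i).lab e).1, hsub i ((G' i).lab e).2⟩)).1 = _
  rw [Equiv.apply_symm_apply]

variable [Fintype ι]

/-- the refinement "pieces → whole" -/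
def fpCutRef : LSys.Ref (pi S') S where
  iE := fpCutE G G' hsub hdis
  iO := ⟨fun x => ((G' x.1).emp.false x.2).elim, fun x => ((G' x.1).emp.false x.2).elim⟩
  hb := fun e => by
    rw [G.hb]
    exact ((G' e.1).hb e.2).symm
  map_mem := by
    intro z hz i
    obtain ⟨h, hh⟩ := (G.mem z).1 hz
    refine ((G' i).mem _).2 ⟨h, fun e => ?_⟩
    have := hh (fpCutE G G' hsub hdis ⟨i, e⟩)
    rw [pn_fp_cutE_lab] at this
    exact this

theorem pn_fp_cut_flow (w : Bond → ℝ) (hw : ∀ e ∈ B, (∀ i, e ∉ Q i) → w e = 0) :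
    (∑ i, ((G' i).flow w).comp (piPr S' i)).comp (fpCutRef G G' hsub hdis).psi = G.flow w := by
  ext z
  rw [pn_fp_flow_apply]
  simp only [AddMonoidHom.comp_apply, AddMonoidHom.finsetSum_apply]
  have h1 : ∀ i, (G' i).flow w (piPr S' i ((fpCutRef G G' hsub hdis).psi z))
      = ∑ e : (S' i).E, 2 * Real.pi * w (G.lab (fpCutE G G' hsub hdis ⟨i, e⟩)).1 *
        (((z : S.Amb).1 (fpCutE G G' hsub hdis ⟨i, e⟩) : ℤ) : ℝ) := by
    intro i
    rw [pn_fp_flow_apply]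
    refine Finset.sum_congr rfl fun e _ => ?_
    rw [pn_fp_cutE_lab]
    rfl
  simp only [h1]
  rw [← Fintype.sum_sigma' (fun i (e : (S' i).E) => 2 * Real.pi * w (G.lab (fpCutE G G' hsub hdis ⟨i, e⟩)).1 *
        (((z : S.Amb).1 (fpCutE G G' hsub hdis ⟨i, e⟩) : ℤ) : ℝ))]
  refine Fintype.sum_of_injective (fpCutE G G' hsub hdis) (fpCutE G G' hsub hdis).injective _ _ ?_ fun _ => rfl
  intro e he
  have : w (G.lab e).1 = 0 := by
    refine hw _ (G.lab e).2 fun i hi => he ⟨⟨i, (G' i).lab.symm ⟨_, hi⟩⟩, ?_⟩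
    apply G.lab.injective
    apply Subtype.ext
    rw [pn_fp_cutE_lab]
    simp
  rw [this]
  ring

include hsub hdis

/-- cutting increases variances -/
theorem pn_fp_cut_var (w : Bond → ℝ) (hw : ∀ e ∈ B, (∀ i, e ∉ Q i) → w e = 0) :
    S.V0 (G.flow w) ≤ ∑ i, (S' i).V0 ((G' i).flow w) := by
  have hok : ∀ i, (S' i).Ok := fun i => (G' i).ok
  have h := lsys_var_mono (fpCutRef G G' hsub hdis) (pi_ok _ hok) G.ok (∑ i, ((G' i).flow w).comp (piPr S' i))
  rw [pn_fp_cut_flow G G' hsub hdis w hw, pi_var _ hok] at h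
  exact h

/-- cutting increases Laplace transforms -/
theorem pn_fp_cut_lmgf (w : Bond → ℝ) (hw : ∀ e ∈ B, (∀ i, e ∉ Q i) → w e = 0) :
    Real.log (S.E0 fun z => Real.exp (G.flow w z)) ≤ ∑ i, Real.log ((S' i).E0 fun z => Real.exp ((G' i).flow w z)) := by
  have hok : ∀ i, (S' i).Ok := fun i => (G' i).ok
  have h := lsys_mgf_mono (fpCutRef G G' hsub hdis) (pi_ok _ hok) G.ok (∑ i, ((G' i).flow w).comp (piPr S' i))
  have e1 : (fun z : S.L => Real.exp ((∑ i, ((G' i).flow w).comp (piPr S' i)) ((fpCutRef G G' hsub hdis).psi z)))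
      = fun z => Real.exp (G.flow w z) := by
    funext z
    rw [← pn_fp_cut_flow G G' hsub hdis w hw]
    rfl
  have e2 : (fun z : (pi S').L => Real.exp ((∑ i, ((G' i).flow w).comp (piPr S' i)) z))
      = fun z => Real.exp (∑ i, (G' i).flow w (piPr S' i z)) := by
    funext z
    simp only [AddMonoidHom.finsetSum_apply, AddMonoidHom.comp_apply]
  rw [e1, e2, pi_mgf _ hok] at h
  rw [← Real.log_prod (fun i _ => (frs_E0_exp_pos _ (hok i) _).ne')]
  exact Real.log_le_log (frs_E0_exp_pos _ G.ok _) h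

/-- **cut + seam, variances** -/
theorem pn_fp_seam_var (w : Bond → ℝ) :
    Real.sqrt (S.V0 (G.flow w)) ≤ Real.sqrt (∑ i, (S' i).V0 ((G' i).flow w))
      + Real.sqrt (4 * Real.pi ^ 2 * b * ∑ e ∈ B.filter (fun e => ∀ i, e ∉ Q i), w e ^ 2) := by
  obtain ⟨w1, hw1⟩ : ∃ w1 : Bond → ℝ, w1 = fun e => if ∀ i, e ∉ Q i then 0 else w e := ⟨_, rfl⟩
  obtain ⟨w2, hw2⟩ : ∃ w2 : Bond → ℝ, w2 = fun e => if ∀ i, e ∉ Q i then w e else 0 := ⟨_, rfl⟩
  have hsum : w = fun e => w1 e + w2 e := by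
    funext e
    rw [hw1, hw2]
    by_cases h : ∀ i, e ∉ Q i <;> simp [h]
  have h1 : S.V0 (G.flow w1) ≤ ∑ i, (S' i).V0 ((G' i).flow w) := by
    refine (pn_fp_cut_var G G' hsub hdis w1 fun e _ he => by rw [hw1]; simp [he]).trans (le_of_eq ?_)
    refine Finset.sum_congr rfl fun i _ => ?_
    rw [pn_fp_flow_congr (G' i) (w := w1) (w' := w)]
    intro e he
    rw [hw1]
    have : ¬ ∀ i, e ∉ Q i := fun h => h i he
    simp [this]
  have h2 : S.V0 (G.flow w2) ≤ 4 * Real.pi ^ 2 * b * ∑ e ∈ B.filter (fun e => ∀ i, e ∉ Q i), w e ^ 2 := by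
    refine (pn_fp_ref_var G w2).trans (le_of_eq ?_)
    congr 1
    rw [Finset.sum_filter]
    refine Finset.sum_congr rfl fun e _ => ?_
    rw [hw2]
    by_cases h : ∀ i, e ∉ Q i <;> simp [h]
  calc Real.sqrt (S.V0 (G.flow w)) = Real.sqrt (S.V0 (G.flow w1 + G.flow w2)) := by rw [← pn_fp_flow_add, ← hsum]
    _ ≤ Real.sqrt (S.V0 (G.flow w1)) + Real.sqrt (S.V0 (G.flow w2)) := sqrt_var_add_le S G.ok _ _
    _ ≤ _ := add_le_add (Real.sqrt_le_sqrt h1) (Real.sqrt_le_sqrt h2)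

/-- **cut + seam, Laplace transforms** (Hölder) -/
theorem pn_fp_seam_lmgf (w : Bond → ℝ) (p q : ℝ) (hpq : p.HolderConjugate q) :
    Real.log (S.E0 fun z => Real.exp (G.flow w z)) ≤
      p⁻¹ * ∑ i, Real.log ((S' i).E0 fun z => Real.exp ((G' i).flow (fun e => p * w e) z))
      + q⁻¹ * (b * (Real.cosh (Real.sqrt (4 * Real.pi ^ 2 * (q ^ 2 * ∑ e ∈ B.filter (fun e => ∀ i, e ∉ Q i), w e ^ 2))) - 1)) := by
  obtain ⟨w1, hw1⟩ : ∃ w1 : Bond → ℝ, w1 = fun e => if ∀ i, e ∉ Q i then 0 else w e := ⟨_, rfl⟩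
  obtain ⟨w2, hw2⟩ : ∃ w2 : Bond → ℝ, w2 = fun e => if ∀ i, e ∉ Q i then w e else 0 := ⟨_, rfl⟩
  have hsum : w = fun e => w1 e + w2 e := by
    funext e
    rw [hw1, hw2]
    by_cases h : ∀ i, e ∉ Q i <;> simp [h]
  have hp : 0 < p := hpq.pos
  have hq : 0 < q := hpq.symm.pos
  have h1 : Real.log (S.E0 fun z => Real.exp (G.flow (fun e => p * w1 e) z))
      ≤ ∑ i, Real.log ((S' i).E0 fun z => Real.exp ((G' i).flow (fun e => p * w e) z)) := by
    refine (pn_fp_cut_lmgf G G' hsub hdis (fun e => p * w1 e) fun e _ he => by rw [hw1]; simp [he]).trans (le_of_eq ?_)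
    refine Finset.sum_congr rfl fun i _ => ?_
    rw [pn_fp_flow_congr (G' i) (w := fun e => p * w1 e) (w' := fun e => p * w e)]
    intro e he
    rw [hw1]
    have : ¬ ∀ i, e ∉ Q i := fun h => h i he
    simp [this]
  have h2 : Real.log (S.E0 fun z => Real.exp (G.flow (fun e => q * w2 e) z))
      ≤ b * (Real.cosh (Real.sqrt (4 * Real.pi ^ 2 * (q ^ 2 * ∑ e ∈ B.filter (fun e => ∀ i, e ∉ Q i), w e ^ 2))) - 1) := by
    refine (pn_fp_ref_lmgf G fun e => q * w2 e).trans (le_of_eq ?_)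
    congr 5
    rw [Finset.sum_filter, Finset.mul_sum]
    refine Finset.sum_congr rfl fun e _ => ?_
    rw [hw2]
    by_cases h : ∀ i, e ∉ Q i <;> simp [h, mul_pow]
  have h3 := mgf_holder S G.ok (G.flow w1) (G.flow w2) p q hpq
  have e0 : (fun z : S.L => Real.exp (G.flow w z)) = fun z => Real.exp (G.flow w1 z + G.flow w2 z) := by
    funext z
    rw [hsum, pn_fp_flow_add]
    rfl
  have e1 : (fun z : S.L => Real.exp (p * G.flow w1 z)) = fun z => Real.exp (G.flow (fun e => p * w1 e) z) := by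
    funext z
    rw [pn_fp_flow_smul]
    rfl
  have e2 : (fun z : S.L => Real.exp (q * G.flow w2 z)) = fun z => Real.exp (G.flow (fun e => q * w2 e) z) := by
    funext z
    rw [pn_fp_flow_smul]
    rfl
  rw [e0]
  rw [e1, e2] at h3
  refine h3.trans (add_le_add ?_ ?_)
  · exact mul_le_mul_of_nonneg_left h1 (inv_nonneg.2 hp.le)
  · exact mul_le_mul_of_nonneg_left h2 (inv_nonneg.2 hq.le)

end Cut

/-- the refinement "one piece → whole" -/
def fpSubRef {S S' : LSys} {b : ℝ} {B Q : Finset Bond} (G' : FpG S' b Q) (G : FpG S b B) (hsub : Q ⊆ B) : LSys.Ref S' S where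
  iE := ⟨fun e => G.lab.symm ⟨(G'.lab e).1, hsub (G'.lab e).2⟩, fun e e' h => by
    have h0 := G.lab.symm.injective h
    have h1 : (G'.lab e).1 = (G'.lab e').1 := by
      simpa using h0
    exact G'.lab.injective (Subtype.ext h1)⟩
  iO := ⟨fun o => (G'.emp.false o).elim, fun o => (G'.emp.false o).elim⟩
  hb := fun e => by rw [G.hb, G'.hb]
  map_mem := by
    intro z hz
    obtain ⟨h, hh⟩ := (G.mem z).1 hz
    refine (G'.mem _).2 ⟨h, fun e => ?_⟩
    have := hh (G.lab.symm ⟨(G'.lab e).1, hsub (G'.lab e).2⟩)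
    rw [Equiv.apply_symm_apply] at this
    exact this

/-! ## 3. Instances -/

/-- free rectangles -/
def fpGRc (R : Rc) (b : ℝ) (hb : 0 < b) : FpG (R.sys b) b R.bd where
  lab := Equiv.refl _
  emp := (inferInstance : IsEmpty Empty)
  hb := fun _ => rfl
  ok := fr_ok R b hb
  mem := fun z => fr_mem_L R b z

theorem pn_fp_rc_flow (R : Rc) (b : ℝ) (hb : 0 < b) (w : Bond → ℝ) : (fpGRc R b hb).flow w = R.flowX b w := rfl

variable {m₁ m₂ : ℕ}

theorem pn_fp_1d_unique {m : ℕ} (X : Fin (m + 1) → ℤ) (hX : StrictMono X) {i i' : Fin m} {x : ℤ}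
    (h1 : X i.castSucc ≤ x) (h2 : x < X i.succ) (h1' : X i'.castSucc ≤ x) (h2' : x < X i'.succ) : i = i' := by
  by_contra hne
  rcases lt_or_gt_of_ne hne with h | h
  · have h3 : i.succ ≤ i'.castSucc := by
      rw [Fin.le_def]
      simpa using h
    have := hX.monotone h3
    omega
  · have h3 : i'.succ ≤ i.castSucc := by
      rw [Fin.le_def]
      simpa using h
    have := hX.monotone h3
    omega

theorem pn_fp_mem_cell (g : DGrid m₁ m₂) (κ : Fin m₁ × Fin m₂) (x : ℤ × ℤ) :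
    x ∈ g.cell κ ↔ (g.x₁ κ.1.castSucc ≤ x.1 ∧ x.1 < g.x₁ κ.1.succ) ∧ (g.x₂ κ.2.castSucc ≤ x.2 ∧ x.2 < g.x₂ κ.2.succ) := by
  simp [DGrid.cell, Finset.mem_product]

theorem pn_fp_cell_unique (g : DGrid m₁ m₂) {κ κ' : Fin m₁ × Fin m₂} {x : ℤ × ℤ} (h : x ∈ g.cell κ) (h' : x ∈ g.cell κ') :
    κ = κ' := by
  rw [pn_fp_mem_cell] at h h'
  exact Prod.ext (pn_fp_1d_unique g.x₁ g.mono₁ h.1.1 h.1.2 h'.1.1 h'.1.2)
    (pn_fp_1d_unique g.x₂ g.mono₂ h.2.1 h.2.2 h'.2.1 h'.2.2)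

theorem pn_fp_mem_region (g : DGrid m₁ m₂) (U : Finset (Fin m₁ × Fin m₂)) (x : ℤ × ℤ) :
    x ∈ g.region U ↔ ∃ κ ∈ U, x ∈ g.cell κ := by
  simp [DGrid.region]

/-- the bonds of a geometry -/
def fpBd (Γ : CGeom m₁ m₂) (g : DGrid m₁ m₂) : Finset Bond := domBonds (g.region Γ.T) (Γ.cutB g)

theorem pn_fp_mem_top (Γ : CGeom m₁ m₂) (hpin : Γ.T ∩ Γ.pin = ∅) (g : DGrid m₁ m₂) (h : (Γ.graph g).V → ℤ) :
    h ∈ (C3.lawR Γ g C3.noRow).Λ := by
  intro v hv
  have h1 : v.1 ∈ g.region Γ.pin := hv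
  obtain ⟨κ, hκ, h2⟩ := (pn_fp_mem_region g _ _).1 h1
  obtain ⟨κ', hκ', h3⟩ := (pn_fp_mem_region g _ _).1 v.2
  have h4 : κ ∈ Γ.T ∩ Γ.pin := Finset.mem_inter.2 ⟨(pn_fp_cell_unique g h2 h3) ▸ hκ', hκ⟩
  rw [hpin] at h4
  exact absurd h4 (Finset.notMem_empty _)

theorem pn_fp_geo_ok (Γ : CGeom m₁ m₂) (g : DGrid m₁ m₂) (b : ℝ) (hb : 0 < b) : ((C3.lawR Γ g C3.noRow).sys b).Ok := by
  have : IsEmpty (C3.lawR Γ g C3.noRow).O := (inferInstance : IsEmpty (Fin 0))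
  exact HLaw.ok_of_isEmpty _ b hb

theorem pn_fp_geo_mem_L (Γ : CGeom m₁ m₂) (hpin : Γ.T ∩ Γ.pin = ∅) (g : DGrid m₁ m₂) (b : ℝ) (z : ((C3.lawR Γ g C3.noRow).sys b).Amb) :
    z ∈ ((C3.lawR Γ g C3.noRow).sys b).L ↔ ∃ h : ℤ × ℤ → ℤ, ∀ e : (Γ.graph g).E,
      z.1 e = h (domBond (D := g.region Γ.T) (cut := Γ.cutB g) e).snd - h (domBond (D := g.region Γ.T) (cut := Γ.cutB g) e).1 := by
  constructor
  · intro hz
    obtain ⟨h', _, rfl⟩ := AddSubgroup.mem_map.1 hz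
    refine ⟨fun v => if hv : v ∈ g.region Γ.T then h' ⟨v, hv⟩ else 0, fun e => ?_⟩
    have h1 : (domBond (D := g.region Γ.T) (cut := Γ.cutB g) e).snd ∈ g.region Γ.T := domBonds_snd e.2
    have h2 : (domBond (D := g.region Γ.T) (cut := Γ.cutB g) e).1 ∈ g.region Γ.T := domBonds_fst e.2
    simp only [dif_pos h1, dif_pos h2]
    rfl
  · rintro ⟨h, hh⟩
    refine AddSubgroup.mem_map.2 ⟨fun v => h v.1, pn_fp_mem_top Γ hpin g _, ?_⟩
    refine Prod.ext (funext fun e => ?_) (funext fun o => o.elim0)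
    rw [hh e]
    rfl

/-- pin-free geometries without rows -/
def fpGGeo (Γ : CGeom m₁ m₂) (hpin : Γ.T ∩ Γ.pin = ∅) (g : DGrid m₁ m₂) (b : ℝ) (hb : 0 < b) :
    FpG ((C3.lawR Γ g C3.noRow).sys b) b (fpBd Γ g) where
  lab := Equiv.refl _
  emp := (inferInstance : IsEmpty (Fin 0))
  hb := fun _ => rfl
  ok := pn_fp_geo_ok Γ g b hb
  mem := fun z => pn_fp_geo_mem_L Γ hpin g b z

theorem pn_fp_geo_flow (Γ : CGeom m₁ m₂) (hpin : Γ.T ∩ Γ.pin = ∅) (g : DGrid m₁ m₂) (b : ℝ) (hb : 0 < b) (u : ℤ × ℤ → ℝ) :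
    (fpGGeo Γ hpin g b hb).flow (gd u) = C3.gradT Γ C3.noRow g b u := rfl

theorem pn_fp_dirT (Γ : CGeom m₁ m₂) (g : DGrid m₁ m₂) (u : ℤ × ℤ → ℝ) : C3.dirT Γ g u = ∑ e ∈ fpBd Γ g, gd u e ^ 2 :=
  Finset.sum_coe_sort (fpBd Γ g) fun e => gd u e ^ 2

theorem pn_fp_fin_eqns_cite : True := by
  have := @FpG.flow.eq_1; have := @fpCutE.eq_1; have := @fpCutRef.eq_1; have := @fpSubRef.eq_1; have := @fpGRc.eq_1
  have := @fpBd.eq_1; have := @fpGGeo.eq_1
  trivial

end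

end Claimed.Agent.R285.Pins
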