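import Claimed.Agent.R285.Pins.FpFin
import Claimed.Agent.R285.Pot.RoDefs

/-!
# ROW 285, PINS / FREE POLYGONS, FILE 2: grids, cells, seams; the two finite comparisons of a pin-free geometry (cells → geometry; geometry + complementary cells → enclosing rectangle).   Author: helper279.   No sorry.
-/

set_option autoImplicit false

namespace Claimed.Agent.R285.Pins

open Filter Topology C2 Free Pot
open scoped Classical

noncomputable section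

/-! ## 1. One-dimensional grids -/

theorem pn_fp_1d_cover {m : ℕ} (X : Fin (m + 1) → ℤ) {x : ℤ} (h0 : X 0 ≤ x) (h1 : x < X (Fin.last m)) :
    ∃ i : Fin m, X i.castSucc ≤ x ∧ x < X i.succ := by
  have key : ∀ n (hn : n < m + 1), x < X ⟨n, hn⟩ → ∃ i : Fin m, X i.castSucc ≤ x ∧ x < X i.succ := by
    intro n
    induction n with
    | zero =>
      intro hn h
      exact absurd h (not_lt.2 h0)
    | succ n ih =>
      intro hn h
      by_cases hx : x < X ⟨n, by omega⟩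
      · exact ih _ hx
      · exact ⟨⟨n, by omega⟩, not_lt.1 hx, h⟩
  exact key m (by omega) h1

theorem pn_fp_1d_len {m : ℕ} (X : Fin (m + 1) → ℤ) (c : ℤ) (h : ∀ i : Fin m, X i.succ - X i.castSucc ≤ c) :
    X (Fin.last m) - X 0 ≤ m * c := by
  have key : ∀ n (hn : n < m + 1), X ⟨n, hn⟩ - X 0 ≤ n * c := by
    intro n
    induction n with
    | zero =>
      intro hn
      simp
    | succ n ih =>
      intro hn
      have h1 := ih (by omega)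
      have h2 := h ⟨n, by omega⟩
      have e1 : (⟨n, by omega⟩ : Fin m).succ = ⟨n + 1, hn⟩ := rfl
      have e2 : (⟨n, by omega⟩ : Fin m).castSucc = ⟨n, by omega⟩ := rfl
      rw [e1, e2] at h2
      push_cast
      linarith
  exact key m (by omega)

/-! ## 2. Cells and the enclosing rectangle -/

variable {m₁ m₂ : ℕ}

/-- the rectangle of a cell -/
def fpCell (g : DGrid m₁ m₂) (κ : Fin m₁ × Fin m₂) : Rc :=
  ⟨(g.x₁ κ.1.castSucc, g.x₂ κ.2.castSucc), (g.x₁ κ.1.succ - g.x₁ κ.1.castSucc).toNat,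
    (g.x₂ κ.2.succ - g.x₂ κ.2.castSucc).toNat⟩

theorem pn_fp_cell_set (g : DGrid m₁ m₂) (κ : Fin m₁ × Fin m₂) : (fpCell g κ).set = g.cell κ := by
  ext x
  rw [fr_mem_set, pn_fp_mem_cell]
  have h1 : g.x₁ κ.1.castSucc < g.x₁ κ.1.succ := g.mono₁ Fin.castSucc_lt_succ
  have h2 : g.x₂ κ.2.castSucc < g.x₂ κ.2.succ := g.mono₂ Fin.castSucc_lt_succ
  simp only [fpCell]
  rw [Int.toNat_of_nonneg (by omega), Int.toNat_of_nonneg (by omega)]
  constructor <;> intro h <;> refine ⟨⟨?_, ?_⟩, ?_, ?_⟩ <;> omega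

theorem pn_fp_mem_rc (g : DGrid m₁ m₂) (x : ℤ × ℤ) :
    x ∈ (roRc g).set ↔ (g.x₁ 0 ≤ x.1 ∧ x.1 < g.x₁ (Fin.last m₁)) ∧ (g.x₂ 0 ≤ x.2 ∧ x.2 < g.x₂ (Fin.last m₂)) := by
  rw [fr_mem_set]
  have h1 : g.x₁ 0 ≤ g.x₁ (Fin.last m₁) := g.mono₁.monotone (Fin.zero_le _)
  have h2 : g.x₂ 0 ≤ g.x₂ (Fin.last m₂) := g.mono₂.monotone (Fin.zero_le _)
  simp only [roRc]
  rw [Int.toNat_of_nonneg (by omega), Int.toNat_of_nonneg (by omega)]
  constructor <;> intro h <;> refine ⟨⟨?_, ?_⟩, ?_, ?_⟩ <;> omega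

theorem pn_fp_cell_sub_rc (g : DGrid m₁ m₂) (κ : Fin m₁ × Fin m₂) : g.cell κ ⊆ (roRc g).set := by
  intro x hx
  rw [pn_fp_mem_cell] at hx
  rw [pn_fp_mem_rc]
  have h1 : g.x₁ 0 ≤ g.x₁ κ.1.castSucc := g.mono₁.monotone (Fin.zero_le _)
  have h2 : g.x₂ 0 ≤ g.x₂ κ.2.castSucc := g.mono₂.monotone (Fin.zero_le _)
  have h3 : g.x₁ κ.1.succ ≤ g.x₁ (Fin.last m₁) := g.mono₁.monotone (Fin.le_last _)
  have h4 : g.x₂ κ.2.succ ≤ g.x₂ (Fin.last m₂) := g.mono₂.monotone (Fin.le_last _)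
  refine ⟨⟨?_, ?_⟩, ?_, ?_⟩ <;> omega

theorem pn_fp_rc_cover (g : DGrid m₁ m₂) {x : ℤ × ℤ} (hx : x ∈ (roRc g).set) : ∃ κ, x ∈ g.cell κ := by
  rw [pn_fp_mem_rc] at hx
  obtain ⟨i, hi⟩ := pn_fp_1d_cover g.x₁ hx.1.1 hx.1.2
  obtain ⟨j, hj⟩ := pn_fp_1d_cover g.x₂ hx.2.1 hx.2.2
  exact ⟨(i, j), (pn_fp_mem_cell g (i, j) x).2 ⟨hi, hj⟩⟩

theorem pn_fp_region_sub_rc (g : DGrid m₁ m₂) (U : Finset (Fin m₁ × Fin m₂)) : g.region U ⊆ (roRc g).set := by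
  intro x hx
  obtain ⟨κ, _, h⟩ := (pn_fp_mem_region g U x).1 hx
  exact pn_fp_cell_sub_rc g κ h

/-- sizes -/
theorem pn_fp_cell_size (g : DGrid m₁ m₂) {n : ℕ} (h : g.SideLe n) (κ : Fin m₁ × Fin m₂) :
    ((fpCell g κ).p : ℝ) ≤ n ∧ ((fpCell g κ).q : ℝ) ≤ n := by
  have h1 := h.1 κ.1
  have h2 := h.2 κ.2
  constructor
  · have : (fpCell g κ).p ≤ n := by
      simp only [fpCell]
      omega
    exact_mod_cast this
  · have : (fpCell g κ).q ≤ n := by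
      simp only [fpCell]
      omega
    exact_mod_cast this

theorem pn_fp_rc_size (g : DGrid m₁ m₂) {n : ℕ} (h : g.SideLe n) :
    ((roRc g).p : ℝ) ≤ m₁ * n ∧ ((roRc g).q : ℝ) ≤ m₂ * n := by
  have h1 := pn_fp_1d_len g.x₁ n h.1
  have h2 := pn_fp_1d_len g.x₂ n h.2
  constructor
  · have : ((roRc g).p : ℤ) ≤ m₁ * n := by
      simp only [roRc]
      have h3 : (0 : ℤ) ≤ m₁ * n := by positivity
      omega
    exact_mod_cast this
  · have : ((roRc g).q : ℤ) ≤ m₂ * n := by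
      simp only [roRc]
      have h3 : (0 : ℤ) ≤ m₂ * n := by positivity
      omega
    exact_mod_cast this

/-! ## 3. Bond sets -/

theorem pn_fp_cell_bd (g : DGrid m₁ m₂) (κ : Fin m₁ × Fin m₂) (e : Bond) :
    e ∈ (fpCell g κ).bd ↔ e.1 ∈ g.cell κ ∧ e.snd ∈ g.cell κ := by
  rw [mem_bd, pn_fp_cell_set]

theorem pn_fp_mem_bd (Γ : CGeom m₁ m₂) (g : DGrid m₁ m₂) (e : Bond) :
    e ∈ fpBd Γ g ↔ e.1 ∈ g.region Γ.T ∧ e.snd ∈ g.region Γ.T ∧ e ∉ Γ.cutB g := by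
  simp [fpBd, domBonds, Finset.mem_filter, Finset.mem_product]

theorem pn_fp_cell_bd_sub (Γ : CGeom m₁ m₂) (g : DGrid m₁ m₂) {κ : Fin m₁ × Fin m₂} (hκ : κ ∈ Γ.T) :
    (fpCell g κ).bd ⊆ fpBd Γ g := by
  intro e he
  rw [pn_fp_cell_bd] at he
  rw [pn_fp_mem_bd]
  refine ⟨(pn_fp_mem_region g _ _).2 ⟨κ, hκ, he.1⟩, (pn_fp_mem_region g _ _).2 ⟨κ, hκ, he.2⟩, ?_⟩
  rintro ⟨f, _, _, h1, h2⟩
  have : f.1 = κ := pn_fp_cell_unique g h1 he.1
  rw [this] at h2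
  exact h2 he.2

theorem pn_fp_cell_bd_disj (g : DGrid m₁ m₂) {κ κ' : Fin m₁ × Fin m₂} (h : κ ≠ κ') :
    Disjoint (fpCell g κ).bd (fpCell g κ').bd :=
  Finset.disjoint_left.2 fun e h1 h2 =>
    h (pn_fp_cell_unique g ((pn_fp_cell_bd g κ e).1 h1).1 ((pn_fp_cell_bd g κ' e).1 h2).1)

theorem pn_fp_bd_sub_rc (Γ : CGeom m₁ m₂) (g : DGrid m₁ m₂) : fpBd Γ g ⊆ (roRc g).bd := by
  intro e he
  rw [pn_fp_mem_bd] at he
  exact mem_bd.2 ⟨pn_fp_region_sub_rc g _ he.1, pn_fp_region_sub_rc g _ he.2.1⟩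

theorem pn_fp_cell_bd_sub_rc (g : DGrid m₁ m₂) (κ : Fin m₁ × Fin m₂) : (fpCell g κ).bd ⊆ (roRc g).bd := by
  intro e he
  rw [pn_fp_cell_bd] at he
  exact mem_bd.2 ⟨pn_fp_cell_sub_rc g κ he.1, pn_fp_cell_sub_rc g κ he.2⟩

theorem pn_fp_bd_disj_cell (Γ : CGeom m₁ m₂) (g : DGrid m₁ m₂) {κ : Fin m₁ × Fin m₂} (hκ : κ ∉ Γ.T) :
    Disjoint (fpBd Γ g) (fpCell g κ).bd := by
  refine Finset.disjoint_left.2 fun e h1 h2 => ?_
  obtain ⟨κ', hκ', h3⟩ := (pn_fp_mem_region g _ _).1 ((pn_fp_mem_bd Γ g e).1 h1).1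
  have := pn_fp_cell_unique g h3 ((pn_fp_cell_bd g κ e).1 h2).1
  exact hκ (this ▸ hκ')

/-- the bonds of the enclosing rectangle which lie in no cell -/
def fpSeamB (g : DGrid m₁ m₂) : Finset Bond := (roRc g).bd.filter fun e => ∀ κ, e ∉ (fpCell g κ).bd

theorem pn_fp_seam_card (g : DGrid m₁ m₂) :
    ((fpSeamB g).card : ℝ) ≤ ((m₁ : ℝ) + 1) * (roRc g).q + ((m₂ : ℝ) + 1) * (roRc g).p := by
  set A : Finset Bond := ((Finset.univ : Finset (Fin (m₁ + 1))) ×ˢ Finset.Ico (roRc g).o.2 ((roRc g).o.2 + (roRc g).q)).image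
    fun x => ((g.x₁ x.1 - 1, x.2), true) with hA
  set A' : Finset Bond := ((Finset.univ : Finset (Fin (m₂ + 1))) ×ˢ Finset.Ico (roRc g).o.1 ((roRc g).o.1 + (roRc g).p)).image
    fun x => ((x.2, g.x₂ x.1 - 1), false) with hA'
  have hsub : fpSeamB g ⊆ A ∪ A' := by
    intro e he
    obtain ⟨h1, h2⟩ := Finset.mem_filter.1 he
    obtain ⟨h3, h4⟩ := mem_bd.1 h1
    obtain ⟨κ, hκ⟩ := pn_fp_rc_cover g h3
    have h5 : e.snd ∉ g.cell κ := fun h => h2 κ ((pn_fp_cell_bd g κ e).2 ⟨hκ, h⟩)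
    have h6 := (fr_mem_set).1 h3
    rw [pn_fp_mem_cell] at hκ h5
    obtain ⟨⟨x, y⟩, d⟩ := e
    cases d with
    | true =>
      refine Finset.mem_union_left _ (Finset.mem_image.2 ⟨(κ.1.succ, y), ?_, ?_⟩)
      · exact Finset.mem_product.2 ⟨Finset.mem_univ _, Finset.mem_Ico.2 h6.2⟩
      · simp only [Bond.snd, if_true] at h5
        simp only at hκ
        have : g.x₁ κ.1.succ - 1 = x := by
          by_contra hne
          exact h5 ⟨⟨by omega, by omega⟩, hκ.2⟩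
        simp [this]
    | false =>
      refine Finset.mem_union_right _ (Finset.mem_image.2 ⟨(κ.2.succ, x), ?_, ?_⟩)
      · exact Finset.mem_product.2 ⟨Finset.mem_univ _, Finset.mem_Ico.2 h6.1⟩
      · simp only [Bond.snd] at h5
        simp only at hκ
        have : g.x₂ κ.2.succ - 1 = y := by
          by_contra hne
          exact h5 ⟨hκ.1, ⟨by simp; omega, by simp; omega⟩⟩
        simp [this]
  have h1 : (fpSeamB g).card ≤ A.card + A'.card := (Finset.card_le_card hsub).trans (Finset.card_union_le _ _)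
  have h2 : A.card ≤ (m₁ + 1) * (roRc g).q := by
    refine Finset.card_image_le.trans ?_
    rw [Finset.card_product]
    simp
  have h3 : A'.card ≤ (m₂ + 1) * (roRc g).p := by
    refine Finset.card_image_le.trans ?_
    rw [Finset.card_product]
    simp
  have h4 : (fpSeamB g).card ≤ (m₁ + 1) * (roRc g).q + (m₂ + 1) * (roRc g).p := by omega
  exact_mod_cast h4

/-! ## 4. Energies -/

theorem pn_fp_dir_cells (Γ : CGeom m₁ m₂) (g : DGrid m₁ m₂) (u : ℤ × ℤ → ℝ) :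
    ∑ κ ∈ Γ.T, (fpCell g κ).dir u ≤ C3.dirT Γ g u := by
  rw [pn_fp_dirT]
  unfold Rc.dir Rc.cost
  rw [← Finset.sum_biUnion]
  · refine Finset.sum_le_sum_of_subset_of_nonneg ?_ fun _ _ _ => sq_nonneg _
    intro e he
    obtain ⟨κ, hκ, h⟩ := Finset.mem_biUnion.1 he
    exact pn_fp_cell_bd_sub Γ g hκ h
  · intro κ _ κ' _ hne
    exact pn_fp_cell_bd_disj g hne

theorem pn_fp_dir_encl (Γ : CGeom m₁ m₂) (g : DGrid m₁ m₂) (u : ℤ × ℤ → ℝ) :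
    C3.dirT Γ g u + ∑ κ ∈ Γ.Tᶜ, (fpCell g κ).dir u ≤ (roRc g).dir u := by
  rw [pn_fp_dirT]
  unfold Rc.dir Rc.cost
  rw [← Finset.sum_biUnion, ← Finset.sum_union]
  · refine Finset.sum_le_sum_of_subset_of_nonneg ?_ fun _ _ _ => sq_nonneg _
    intro e he
    rcases Finset.mem_union.1 he with h | h
    · exact pn_fp_bd_sub_rc Γ g h
    · obtain ⟨κ, _, h⟩ := Finset.mem_biUnion.1 h
      exact pn_fp_cell_bd_sub_rc g κ h
  · refine Finset.disjoint_left.2 fun e h1 h2 => ?_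
    obtain ⟨κ, hκ, h⟩ := Finset.mem_biUnion.1 h2
    exact Finset.disjoint_left.1 (pn_fp_bd_disj_cell Γ g (Finset.mem_compl.1 hκ)) h1 h
  · intro κ _ κ' _ hne
    exact pn_fp_cell_bd_disj g hne

theorem pn_fp_dirT_nonneg (Γ : CGeom m₁ m₂) (g : DGrid m₁ m₂) (u : ℤ × ℤ → ℝ) : 0 ≤ C3.dirT Γ g u := by
  rw [pn_fp_dirT]
  exact Finset.sum_nonneg fun _ _ => sq_nonneg _

theorem pn_fp_dir_nonneg (R : Rc) (u : ℤ × ℤ → ℝ) : 0 ≤ R.dir u := Finset.sum_nonneg fun _ _ => sq_nonneg _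

theorem pn_fp_dirT_le (Γ : CGeom m₁ m₂) (g : DGrid m₁ m₂) (u : ℤ × ℤ → ℝ) : C3.dirT Γ g u ≤ (roRc g).dir u :=
  le_trans (le_add_of_nonneg_right (Finset.sum_nonneg fun _ _ => pn_fp_dir_nonneg _ _)) (pn_fp_dir_encl Γ g u)

/-! ## 5. The two comparisons -/

theorem pn_fp_cosh_mono {x y : ℝ} (hxy : x ≤ y) : Real.cosh (Real.sqrt x) ≤ Real.cosh (Real.sqrt y) := by
  rw [Real.cosh_le_cosh, abs_of_nonneg (Real.sqrt_nonneg _), abs_of_nonneg (Real.sqrt_nonneg _)]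
  exact Real.sqrt_le_sqrt hxy

/-- **cells → geometry** (Laplace transforms; Hölder against the seams) -/
theorem pn_fp_geo_upper (Γ : CGeom m₁ m₂) (hpin : Γ.T ∩ Γ.pin = ∅) (g : DGrid m₁ m₂) (b : ℝ) (hb : 0 < b) (u : ℤ × ℤ → ℝ)
    (p q : ℝ) (hpq : p.HolderConjugate q) :
    Real.log (((C3.lawR Γ g C3.noRow).sys b).E0 fun z => Real.exp (C3.gradT Γ C3.noRow g b u z)) ≤
      p⁻¹ * ∑ κ ∈ Γ.T, (fpCell g κ).lmgf b (fun e => p * gd u e)
      + q⁻¹ * (b * (Real.cosh (Real.sqrt (4 * Real.pi ^ 2 * (q ^ 2 * ∑ e ∈ fpSeamB g, gd u e ^ 2))) - 1)) := by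
  have h := pn_fp_seam_lmgf (fpGGeo Γ hpin g b hb) (ι := {κ // κ ∈ Γ.T}) (S' := fun κ => (fpCell g κ.1).sys b)
    (Q := fun κ => (fpCell g κ.1).bd) (fun κ => fpGRc (fpCell g κ.1) b hb) (fun κ => pn_fp_cell_bd_sub Γ g κ.2)
    (fun κ κ' hne => pn_fp_cell_bd_disj g fun h => hne (Subtype.ext h)) (gd u) p q hpq
  have e1 : (∑ i : {κ // κ ∈ Γ.T}, Real.log (((fpCell g i.1).sys b).E0 fun z =>
      Real.exp ((fpGRc (fpCell g i.1) b hb).flow (fun e => p * gd u e) z)))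
      = ∑ κ ∈ Γ.T, (fpCell g κ).lmgf b (fun e => p * gd u e) :=
    Finset.sum_coe_sort Γ.T fun κ => (fpCell g κ).lmgf b (fun e => p * gd u e)
  rw [e1] at h
  refine h.trans (add_le_add le_rfl ?_)
  have hq : 0 < q := hpq.symm.pos
  refine mul_le_mul_of_nonneg_left (mul_le_mul_of_nonneg_left (sub_le_sub_right (pn_fp_cosh_mono ?_) _) hb.le)
    (inv_nonneg.2 hq.le)
  refine mul_le_mul_of_nonneg_left (mul_le_mul_of_nonneg_left ?_ (sq_nonneg q)) (by positivity)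
  refine Finset.sum_le_sum_of_subset_of_nonneg ?_ fun _ _ _ => sq_nonneg _
  intro e he
  obtain ⟨h1, h2⟩ := Finset.mem_filter.1 he
  refine Finset.mem_filter.2 ⟨pn_fp_bd_sub_rc Γ g h1, fun κ hκ => ?_⟩
  by_cases hT : κ ∈ Γ.T
  · exact h2 ⟨κ, hT⟩ hκ
  · exact Finset.disjoint_left.1 (pn_fp_bd_disj_cell Γ g hT) h1 hκ

/-- the pieces of the enclosing rectangle: the geometry and the complementary cells -/
def fpEnS (Γ : CGeom m₁ m₂) (g : DGrid m₁ m₂) (b : ℝ) : Option {κ // κ ∈ Γ.Tᶜ} → LSys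
  | none => (C3.lawR Γ g C3.noRow).sys b
  | some κ => (fpCell g κ.1).sys b

/-- their bonds -/
def fpEnQ (Γ : CGeom m₁ m₂) (g : DGrid m₁ m₂) : Option {κ // κ ∈ Γ.Tᶜ} → Finset Bond
  | none => fpBd Γ g
  | some κ => (fpCell g κ.1).bd

/-- they are free gradient systems -/
def fpEnG (Γ : CGeom m₁ m₂) (hpin : Γ.T ∩ Γ.pin = ∅) (g : DGrid m₁ m₂) (b : ℝ) (hb : 0 < b) :
    ∀ o, FpG (fpEnS Γ g b o) b (fpEnQ Γ g o)
  | none => fpGGeo Γ hpin g b hb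
  | some κ => fpGRc (fpCell g κ.1) b hb

theorem pn_fp_en_sub (Γ : CGeom m₁ m₂) (g : DGrid m₁ m₂) : ∀ o, fpEnQ Γ g o ⊆ (roRc g).bd
  | none => pn_fp_bd_sub_rc Γ g
  | some κ => pn_fp_cell_bd_sub_rc g κ.1

theorem pn_fp_en_disj (Γ : CGeom m₁ m₂) (g : DGrid m₁ m₂) : ∀ o o', o ≠ o' → Disjoint (fpEnQ Γ g o) (fpEnQ Γ g o')
  | none, none => fun h => absurd rfl h
  | none, some κ => fun _ => pn_fp_bd_disj_cell Γ g (Finset.mem_compl.1 κ.2)
  | some κ, none => fun _ => (pn_fp_bd_disj_cell Γ g (Finset.mem_compl.1 κ.2)).symm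
  | some _, some _ => fun h => pn_fp_cell_bd_disj g fun h' => h (congrArg some (Subtype.ext h'))

/-- **geometry + complementary cells → enclosing rectangle** (variances) -/
theorem pn_fp_geo_lower (Γ : CGeom m₁ m₂) (hpin : Γ.T ∩ Γ.pin = ∅) (g : DGrid m₁ m₂) (b : ℝ) (hb : 0 < b) (u : ℤ × ℤ → ℝ) :
    Real.sqrt ((roRc g).var b (gd u)) ≤
      Real.sqrt (((C3.lawR Γ g C3.noRow).sys b).V0 (C3.gradT Γ C3.noRow g b u) + ∑ κ ∈ Γ.Tᶜ, (fpCell g κ).var b (gd u))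
      + Real.sqrt (4 * Real.pi ^ 2 * b * ∑ e ∈ fpSeamB g, gd u e ^ 2) := by
  have h := pn_fp_seam_var (fpGRc (roRc g) b hb) (fpEnG Γ hpin g b hb) (pn_fp_en_sub Γ g) (pn_fp_en_disj Γ g) (gd u)
  rw [Fintype.sum_option] at h
  have e1 : (∑ i : {κ // κ ∈ Γ.Tᶜ}, (fpEnS Γ g b (some i)).V0 ((fpEnG Γ hpin g b hb (some i)).flow (gd u)))
      = ∑ κ ∈ Γ.Tᶜ, (fpCell g κ).var b (gd u) :=
    Finset.sum_coe_sort Γ.Tᶜ fun κ => (fpCell g κ).var b (gd u)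
  rw [e1] at h
  refine h.trans (add_le_add le_rfl (Real.sqrt_le_sqrt ?_))
  refine mul_le_mul_of_nonneg_left ?_ (by positivity)
  refine Finset.sum_le_sum_of_subset_of_nonneg ?_ fun _ _ _ => sq_nonneg _
  intro e he
  obtain ⟨h1, h2⟩ := Finset.mem_filter.1 he
  refine Finset.mem_filter.2 ⟨h1, fun κ hκ => ?_⟩
  by_cases hT : κ ∈ Γ.T
  · exact h2 none (pn_fp_cell_bd_sub Γ g hT hκ)
  · exact h2 (some ⟨κ, Finset.mem_compl.2 hT⟩) hκ

theorem pn_fp_geo_eqns_cite : True := by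
  have := @fpCell.eq_1; have := @fpSeamB.eq_1; have := @fpEnS.eq_1; have := @fpEnQ.eq_1; have := @fpEnG.eq_1
  trivial

end

end Claimed.Agent.R285.Pins
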