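import Claimed.Agent.R285.Pins.FpGeo

/-!
# ROW 285, PINS / FREE POLYGONS, FILE 5: THE PHASE (`C3.mixed_phase` for `noRow`, `U = Γ.T`, pin-free `Γ`).   Author: helper279.   No sorry.

`Γ → rect` is a `Ref` (`fpSubRef`: the bonds of `Γ` are bonds of the full rectangle, the restriction of a gradient is a gradient), characteristic coefficients increase with precision (`lsys_phi_mono`), and the pulled-back test is the lift
of the SAME vertex test extended by zero: cell test with the coefficients `t κ 1_{κ ∈ T}`, point charges extended by zero, same total charge `∑_{κ ∈ T} t κ ≠ 0`.   Input: part (2) of `C3.FreeIn` on the same grids.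
-/

set_option autoImplicit false

namespace Claimed.Agent.R285.Pins

open Filter Topology C2 Free Pot
open scoped Classical

noncomputable section

variable {m₁ m₂ : ℕ}

/-! ## 1. Cell tests as ambient functions -/

/-- the cell test as an ambient function -/
def fpCt (g : DGrid m₁ m₂) (t : Fin m₁ × Fin m₂ → ℝ) (x : ℤ × ℤ) : ℝ :=
  ∑ κ, t κ * (if x ∈ g.cell κ then ((g.cell κ).card : ℝ)⁻¹ else 0)

/-- the coefficients restricted to the cells of the geometry -/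
def fpRes (Γ : CGeom m₁ m₂) (t : Fin m₁ × Fin m₂ → ℝ) (κ : Fin m₁ × Fin m₂) : ℝ := if κ ∈ Γ.T then t κ else 0

theorem pn_fp_region_single (g : DGrid m₁ m₂) (κ : Fin m₁ × Fin m₂) : g.region {κ} = g.cell κ := by
  simp [DGrid.region]

theorem pn_fp_avgRow_mem (Γ : CGeom m₁ m₂) (g : DGrid m₁ m₂) {κ : Fin m₁ × Fin m₂} (hκ : κ ∈ Γ.T) (v : (Γ.graph g).V) :
    Γ.avgRow g {κ} v = if v.1 ∈ g.cell κ then ((g.cell κ).card : ℝ)⁻¹ else 0 := by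
  have e1 : (v ∈ Γ.sites g {κ}) ↔ v.1 ∈ g.cell κ := by
    rw [← pn_fp_region_single g κ]
    exact Iff.rfl
  unfold CGeom.avgRow
  rw [Finset.singleton_inter_of_mem hκ, pn_fp_region_single]
  simp only [e1]

theorem pn_fp_avgRow_not (Γ : CGeom m₁ m₂) (g : DGrid m₁ m₂) {κ : Fin m₁ × Fin m₂} (hκ : κ ∉ Γ.T) (v : (Γ.graph g).V) :
    Γ.avgRow g {κ} v = 0 := by
  have e1 : ¬ (v ∈ Γ.sites g {κ}) := by
    intro h
    have h1 : v.1 ∈ g.region {κ} := h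
    rw [pn_fp_region_single] at h1
    obtain ⟨κ', hκ', h2⟩ := (pn_fp_mem_region g _ _).1 v.2
    exact hκ ((pn_fp_cell_unique g h1 h2) ▸ hκ')
  unfold CGeom.avgRow
  rw [if_neg e1]

theorem pn_fp_cellTest (Γ : CGeom m₁ m₂) (g : DGrid m₁ m₂) (t : Fin m₁ × Fin m₂ → ℝ) (v : (Γ.graph g).V) :
    Γ.cellTest g t v = fpCt g (fpRes Γ t) v.1 := by
  unfold CGeom.cellTest fpCt fpRes
  refine Finset.sum_congr rfl fun κ _ => ?_
  by_cases hκ : κ ∈ Γ.T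
  · rw [pn_fp_avgRow_mem Γ g hκ, if_pos hκ]
  · rw [pn_fp_avgRow_not Γ g hκ, if_neg hκ]
    simp

theorem pn_fp_res_rect (t : Fin m₁ × Fin m₂ → ℝ) : fpRes (C3.rect m₁ m₂) t = t := by
  funext κ
  have : κ ∈ (C3.rect m₁ m₂).T := Finset.mem_univ κ
  unfold fpRes
  rw [if_pos this]

theorem pn_fp_ct_off (Γ : CGeom m₁ m₂) (g : DGrid m₁ m₂) (t : Fin m₁ × Fin m₂ → ℝ) {x : ℤ × ℤ} (hx : x ∉ g.region Γ.T) :
    fpCt g (fpRes Γ t) x = 0 := by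
  unfold fpCt fpRes
  refine Finset.sum_eq_zero fun κ _ => ?_
  by_cases hκ : κ ∈ Γ.T
  · have : x ∉ g.cell κ := fun h => hx ((pn_fp_mem_region g _ _).2 ⟨κ, hκ, h⟩)
    rw [if_neg this, mul_zero]
  · rw [if_neg hκ, zero_mul]

theorem pn_fp_cell_nonempty (g : DGrid m₁ m₂) (κ : Fin m₁ × Fin m₂) : (g.cell κ).Nonempty := by
  refine ⟨(g.x₁ κ.1.castSucc, g.x₂ κ.2.castSucc), (pn_fp_mem_cell g κ _).2 ⟨⟨le_rfl, ?_⟩, le_rfl, ?_⟩⟩
  · exact g.mono₁ Fin.castSucc_lt_succ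
  · exact g.mono₂ Fin.castSucc_lt_succ

/-- the total of a cell test -/
theorem pn_fp_ct_sum (Γ : CGeom m₁ m₂) (g : DGrid m₁ m₂) (t : Fin m₁ × Fin m₂ → ℝ) :
    ∑ x ∈ g.region Γ.T, fpCt g (fpRes Γ t) x = ∑ κ ∈ Γ.T, t κ := by
  unfold fpCt
  rw [Finset.sum_comm]
  have h1 : ∀ κ, ∑ x ∈ g.region Γ.T, fpRes Γ t κ * (if x ∈ g.cell κ then ((g.cell κ).card : ℝ)⁻¹ else 0) = fpRes Γ t κ := by
    intro κ
    by_cases hκ : κ ∈ Γ.T
    · rw [← Finset.mul_sum, ← Finset.sum_filter]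
      have e1 : (g.region Γ.T).filter (fun x => x ∈ g.cell κ) = g.cell κ := by
        ext x
        rw [Finset.mem_filter]
        exact ⟨fun h => h.2, fun h => ⟨(pn_fp_mem_region g _ _).2 ⟨κ, hκ, h⟩, h⟩⟩
      rw [e1, Finset.sum_const, nsmul_eq_mul]
      have : ((g.cell κ).card : ℝ) ≠ 0 := by
        have := (pn_fp_cell_nonempty g κ).card_pos
        positivity
      rw [mul_inv_cancel₀ this, mul_one]
    · unfold fpRes
      rw [if_neg hκ]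
      simp
  rw [Finset.sum_congr rfl fun κ _ => h1 κ]
  unfold fpRes
  rw [← Finset.sum_filter]
  congr 1
  ext κ
  simp

/-! ## 2. The refinement `Γ → rect` -/

theorem pn_fp_region_rect (Γ : CGeom m₁ m₂) (g : DGrid m₁ m₂) {x : ℤ × ℤ} (hx : x ∈ g.region Γ.T) :
    x ∈ g.region (C3.rect m₁ m₂).T := by
  obtain ⟨κ, _, h⟩ := (pn_fp_mem_region g _ _).1 hx
  exact (pn_fp_mem_region g _ _).2 ⟨κ, Finset.mem_univ κ, h⟩

theorem pn_fp_bd_sub_rect (Γ : CGeom m₁ m₂) (g : DGrid m₁ m₂) : fpBd Γ g ⊆ fpBd (C3.rect m₁ m₂) g := by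
  intro e he
  rw [pn_fp_mem_bd] at he ⊢
  refine ⟨pn_fp_region_rect Γ g he.1, pn_fp_region_rect Γ g he.2.1, ?_⟩
  rintro ⟨f, hf, _⟩
  simp [C3.rect] at hf

/-- the inclusion of the vertices -/
def fpIncl (Γ : CGeom m₁ m₂) (g : DGrid m₁ m₂) (x : (Γ.graph g).V) : ((C3.rect m₁ m₂).graph g).V :=
  ⟨x.1, pn_fp_region_rect Γ g x.2⟩

theorem pn_fp_incl_inj (Γ : CGeom m₁ m₂) (g : DGrid m₁ m₂) : Function.Injective (fpIncl Γ g) := by
  intro x y h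
  have h1 : (fpIncl Γ g x).1 = (fpIncl Γ g y).1 := by rw [h]
  exact Subtype.ext h1

/-- point charges extended by zero -/
def fpExtQ (Γ : CGeom m₁ m₂) (g : DGrid m₁ m₂) (q : (Γ.graph g).V → ℤ) (v : ((C3.rect m₁ m₂).graph g).V) : ℤ :=
  if h : v.1 ∈ g.region Γ.T then q ⟨v.1, h⟩ else 0

theorem pn_fp_extQ_incl (Γ : CGeom m₁ m₂) (g : DGrid m₁ m₂) (q : (Γ.graph g).V → ℤ) (x : (Γ.graph g).V) :
    fpExtQ Γ g q (fpIncl Γ g x) = q x := by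
  unfold fpExtQ
  have : (fpIncl Γ g x).1 ∈ g.region Γ.T := x.2
  rw [dif_pos this]
  rfl

theorem pn_fp_extQ_off (Γ : CGeom m₁ m₂) (g : DGrid m₁ m₂) (q : (Γ.graph g).V → ℤ) (v : ((C3.rect m₁ m₂).graph g).V)
    (hv : v ∉ Set.range (fpIncl Γ g)) : v.1 ∉ g.region Γ.T ∧ fpExtQ Γ g q v = 0 := by
  have h1 : v.1 ∉ g.region Γ.T := fun h => hv ⟨⟨v.1, h⟩, rfl⟩
  refine ⟨h1, ?_⟩
  unfold fpExtQ
  rw [dif_neg h1]

/-- the refinement -/
def fpRectRef (Γ : CGeom m₁ m₂) (hpin : Γ.T ∩ Γ.pin = ∅) (g : DGrid m₁ m₂) (b : ℝ) (hb : 0 < b) :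
    LSys.Ref ((C3.lawR Γ g C3.noRow).sys b) ((C3.lawR (C3.rect m₁ m₂) g C3.noRow).sys b) :=
  fpSubRef (fpGGeo Γ hpin g b hb) (fpGGeo (C3.rect m₁ m₂) (Finset.inter_empty _) g b hb) (pn_fp_bd_sub_rect Γ g)

theorem pn_fp_psi_coord (Γ : CGeom m₁ m₂) (hpin : Γ.T ∩ Γ.pin = ∅) (g : DGrid m₁ m₂) (b : ℝ) (hb : 0 < b)
    (h : ((C3.rect m₁ m₂).graph g).V → ℤ) (hh : h ∈ (C3.lawR (C3.rect m₁ m₂) g C3.noRow).Λ) :
    (fpRectRef Γ hpin g b hb).psi ⟨(C3.lawR (C3.rect m₁ m₂) g C3.noRow).coordA b h, HLaw.coordA_mem _ b hh⟩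
      = ⟨(C3.lawR Γ g C3.noRow).coordA b fun x => h (fpIncl Γ g x),
          HLaw.coordA_mem _ b (pn_fp_mem_top Γ hpin g _)⟩ := by
  apply Subtype.ext
  refine Prod.ext (funext fun e => ?_) (funext fun o => o.elim0)
  rfl

/-- the pulled-back test is the lift of the test extended by zero -/
theorem pn_fp_lift_rect (Γ : CGeom m₁ m₂) (hpin : Γ.T ∩ Γ.pin = ∅) (g : DGrid m₁ m₂) (b : ℝ) (hb : 0 < b)
    (t : Fin m₁ × Fin m₂ → ℝ) (q : (Γ.graph g).V → ℤ) (X : ((C3.lawR Γ g C3.noRow).sys b).L →+ ℝ)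
    (hX : (C3.lawR Γ g C3.noRow).Lift b (Γ.cellTest g t - C3.ptRow q) X) :
    (C3.lawR (C3.rect m₁ m₂) g C3.noRow).Lift b
      ((C3.rect m₁ m₂).cellTest g (fpRes Γ t) - C3.ptRow (fpExtQ Γ g q)) (X.comp (fpRectRef Γ hpin g b hb).psi) := by
  intro h hh
  rw [AddMonoidHom.comp_apply, pn_fp_psi_coord Γ hpin g b hb h hh, hX _ (pn_fp_mem_top Γ hpin g _)]
  refine Fintype.sum_of_injective (fpIncl Γ g) (pn_fp_incl_inj Γ g) _ _ ?_ ?_
  · intro v hv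
    obtain ⟨h1, h2⟩ := pn_fp_extQ_off Γ g q v hv
    rw [Pi.sub_apply, pn_fp_cellTest, pn_fp_res_rect, pn_fp_ct_off Γ g t h1]
    unfold C3.ptRow
    rw [h2]
    simp
  · intro x
    rw [Pi.sub_apply, Pi.sub_apply, pn_fp_cellTest, pn_fp_cellTest, pn_fp_res_rect]
    unfold C3.ptRow
    rw [pn_fp_extQ_incl]
    rfl

/-- the total charge -/
theorem pn_fp_charge (Γ : CGeom m₁ m₂) (hpin : Γ.T ∩ Γ.pin = ∅) (g : DGrid m₁ m₂) (b : ℝ)
    (t : Fin m₁ × Fin m₂ → ℝ) (q : (Γ.graph g).V → ℤ) (X : ((C3.lawR Γ g C3.noRow).sys b).L →+ ℝ)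
    (hX : (C3.lawR Γ g C3.noRow).Lift b (Γ.cellTest g t - C3.ptRow q) X) :
    ((∑ v, fpExtQ Γ g q v : ℤ) : ℝ) = ∑ κ ∈ Γ.T, t κ := by
  have h1 : ∑ v, fpExtQ Γ g q v = ∑ x, q x :=
    (Fintype.sum_of_injective (fpIncl Γ g) (pn_fp_incl_inj Γ g) _ _ (fun v hv => (pn_fp_extQ_off Γ g q v hv).2)
      fun x => (pn_fp_extQ_incl Γ g q x).symm).symm
  rw [h1]
  have h2 := hX (fun _ => 1) (pn_fp_mem_top Γ hpin g _)
  have h3 : (⟨(C3.lawR Γ g C3.noRow).coordA b fun _ => 1, HLaw.coordA_mem _ b (pn_fp_mem_top Γ hpin g _)⟩ :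
      ((C3.lawR Γ g C3.noRow).sys b).L) = 0 := by
    apply Subtype.ext
    refine Prod.ext (funext fun e => ?_) (funext fun o => o.elim0)
    show (1 : ℤ) - 1 = 0
    ring
  rw [h3, map_zero] at h2
  have h4 : ∑ x : (Γ.graph g).V, Γ.cellTest g t x = ∑ κ ∈ Γ.T, t κ := by
    rw [← pn_fp_ct_sum Γ g t, ← Finset.sum_coe_sort (g.region Γ.T)]
    exact Finset.sum_congr rfl fun x _ => pn_fp_cellTest Γ g t x
  have h5 : ∑ x : (Γ.graph g).V, (Γ.cellTest g t - C3.ptRow q) x * (2 * Real.pi * (((fun _ => 1 : (Γ.graph g).V → ℤ) x : ℤ) : ℝ))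
      = 2 * Real.pi * (∑ x : (Γ.graph g).V, Γ.cellTest g t x - ∑ x : (Γ.graph g).V, (q x : ℝ)) := by
    rw [← Finset.sum_sub_distrib, Finset.mul_sum]
    refine Finset.sum_congr rfl fun x _ => ?_
    rw [Pi.sub_apply]
    unfold C3.ptRow
    push_cast
    ring
  rw [h5] at h2
  have h6 : ∑ x : (Γ.graph g).V, Γ.cellTest g t x - ∑ x : (Γ.graph g).V, (q x : ℝ) = 0 := by
    have hπ : 2 * Real.pi ≠ 0 := by positivity
    exact (mul_eq_zero.1 h2.symm).resolve_left hπ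
  push_cast
  linarith

/-! ## 3. The phase -/

/-- **FP, phase**: `C3.mixed_phase` for `noRow`, `U = Γ.T`, on every pin-free geometry. -/
theorem pn_fp_phase {a : ℝ} {b : ℕ → ℝ} {ν : ℕ → ℕ} (hF : C3.FreeIn a b ν) (hb : ∀ k, 0 < b k) (Γ : CGeom m₁ m₂)
    (hpin : Γ.T ∩ Γ.pin = ∅) (K : ℕ) (g : ℕ → DGrid m₁ m₂) (hg : Admissible K g ν)
    (t : ℕ → C3.Cell m₁ m₂ → ℝ) (Tb : ℝ) (ht : ∀ k κ, |t k κ| ≤ Tb) (hq : ∀ k, ∑ κ ∈ Γ.T, t k κ ≠ 0)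
    (q : ∀ k, (Γ.graph (g k)).V → ℤ) (X : ∀ k, ((C3.lawR Γ (g k) C3.noRow).sys (b k)).L →+ ℝ)
    (hX : ∀ k, (C3.lawR Γ (g k) C3.noRow).Lift (b k) (Γ.cellTest (g k) (t k) - C3.ptRow (q k)) (X k)) :
    Tendsto (fun k => ((C3.lawR Γ (g k) C3.noRow).sys (b k)).phi (X k)) atTop (𝓝 0) := by
  have hTb : 0 ≤ Tb ∨ IsEmpty (C3.Cell m₁ m₂) := by
    by_cases hE : IsEmpty (C3.Cell m₁ m₂)
    · exact Or.inr hE
    · rw [not_isEmpty_iff] at hE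
      obtain ⟨κ⟩ := hE
      exact Or.inl ((abs_nonneg _).trans (ht 0 κ))
  have h1 := (hF m₁ m₂ K g ν hg ⟨1, fun k => ⟨by simp, by simp⟩⟩ (fun k => fpRes Γ (t k)) Tb (fun k κ => by
      unfold fpRes
      by_cases hκ : κ ∈ Γ.T
      · rw [if_pos hκ]
        exact ht k κ
      · rw [if_neg hκ, abs_zero]
        rcases hTb with h | h
        · exact h
        · exact (h.false κ).elim)
    (fun k => fpExtQ Γ (g k) (q k)) (fun k => (X k).comp (fpRectRef Γ hpin (g k) (b k) (hb k)).psi)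
    (fun k => pn_fp_lift_rect Γ hpin (g k) (b k) (hb k) (t k) (q k) (X k) (hX k))).2 (fun k h0 => by
      have := pn_fp_charge Γ hpin (g k) (b k) (t k) (q k) (X k) (hX k)
      rw [h0] at this
      exact hq k (by simpa using this.symm))
  refine squeeze_zero (fun k => rd_phi_nonneg (pn_fp_geo_ok Γ (g k) (b k) (hb k)) _) (fun k => ?_) h1
  exact lsys_phi_mono (fpRectRef Γ hpin (g k) (b k) (hb k)) (pn_fp_geo_ok Γ (g k) (b k) (hb k))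
    (pn_fp_geo_ok (C3.rect m₁ m₂) (g k) (b k) (hb k)) (X k)

/-- the same from a scenario -/
theorem pn_fp_phase_scen {a : ℝ} {b : ℕ → ℝ} {ν : ℕ → ℕ} (hS : C3.Scen a b ν) (Γ : CGeom m₁ m₂)
    (hpin : Γ.T ∩ Γ.pin = ∅) (K : ℕ) (g : ℕ → DGrid m₁ m₂) (hg : Admissible K g ν)
    (t : ℕ → C3.Cell m₁ m₂ → ℝ) (Tb : ℝ) (ht : ∀ k κ, |t k κ| ≤ Tb) (hq : ∀ k, ∑ κ ∈ Γ.T, t k κ ≠ 0)
    (q : ∀ k, (Γ.graph (g k)).V → ℤ) (X : ∀ k, ((C3.lawR Γ (g k) C3.noRow).sys (b k)).L →+ ℝ)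
    (hX : ∀ k, (C3.lawR Γ (g k) C3.noRow).Lift (b k) (Γ.cellTest (g k) (t k) - C3.ptRow (q k)) (X k)) :
    Tendsto (fun k => ((C3.lawR Γ (g k) C3.noRow).sys (b k)).phi (X k)) atTop (𝓝 0) := by
  obtain ⟨b₀, b₁, h0, hb⟩ := hS.b_cpt
  exact pn_fp_phase hS.free (fun k => lt_of_lt_of_le h0 (hb k).1) Γ hpin K g hg t Tb ht hq q X hX

theorem pn_fp_phase_eqns_cite : True := by
  have := @fpCt.eq_1; have := @fpRes.eq_1; have := @fpIncl.eq_1; have := @fpExtQ.eq_1; have := @fpRectRef.eq_1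
  trivial

end

end Claimed.Agent.R285.Pins
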