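import Claimed.Agent.R285.Pins.Sub
import Claimed.Agent.R285.Pins.ShiftDefs
import Claimed.Agent.R285.Pot.StripChart

/-!
# ROW 285, PINS / POT: GEOMETRY OF THE INSTANTIATION OF POT-STRIP (architect helper53).   PAPER-FREE, combinatorial.   Prefix `pn_pg_`, defs `pg*`.

The exports of `Pot/StripChart.lean` speak about ONE graph `domG D cut`, a CHART `(Γ, g)` of it (`PsChart`), three layers of cells of the chart (`PsLay`) and a partition of a union of cells of the chart into small boxes (`psIsPart`).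
This file produces these data in the two situations of PINS:
* helper178 (T3.2): the graph of the coarse geometry `(Γ, g)`, chart = level `c` subdivision `(S23.refine c Γ, sbG c g)`, boxes = the cells of the level `r` subdivision, `c ∣ r`;
* helper249 (CORE-LIM): the graph of the fine chart `(S23.refine s Γ, g')`, chart = the medium geometry `(Γ, shMed s g')`, boxes = the fine cells.
Contents: 1. cells as boxes `pgBox`, `pgBoxes`;  2. charts;  3. layers from index balls (`shBall` of `ShiftDefs`);  4. partitions;  5. soft rows = cell tests;  6. norms of the rows of `C3.lawR`.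
Every `sorry` is a leaf `L-PG-*`.  Statements frozen; helper lemmas: prefix `pn_pg_`.
-/

set_option autoImplicit false

namespace Claimed.Agent.R285.Pins

open Claimed.Agent.R285.C3 (Cell lawR)
open Claimed.Agent.R285.Pot
open scoped Classical

noncomputable section

variable {m₁ m₂ n₁ n₂ : ℕ}

/-! ## 1. Cells as boxes -/

/-- a cell of a grid as a box -/
def pgBox (g : DGrid n₁ n₂) (κ : Cell n₁ n₂) : PsBox :=
  ⟨(g.x₁ κ.1.castSucc, g.x₂ κ.2.castSucc), (g.x₁ κ.1.succ - g.x₁ κ.1.castSucc).toNat, (g.x₂ κ.2.succ - g.x₂ κ.2.castSucc).toNat⟩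

/-- the cells of `B` as a family of boxes indexed by `Fin B.card` -/
def pgBoxes (g : DGrid n₁ n₂) (B : Finset (Cell n₁ n₂)) : Fin B.card → PsBox := fun d => pgBox g (B.equivFin.symm d).1

/-- the band between the index balls of radius `j` and `j + 1` around `X` -/
def pgKb (Γ : CGeom n₁ n₂) (X : Finset (Cell n₁ n₂)) (j : ℕ) : Finset (Cell n₁ n₂) :=
  Γ.T.filter fun κ => κ ∈ shBall X (j + 1) ∧ κ ∉ shBall X j

/-- the complement of the index ball of radius `j + 1` -/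
def pgOut (X : Finset (Cell n₁ n₂)) (j : ℕ) : Finset (Cell n₁ n₂) := Finset.univ.filter fun κ => κ ∉ shBall X (j + 1)

theorem pn_pg_eqns_cite : True := by
  have := @pgBox.eq_1; have := @pgBoxes.eq_1; have := @pgKb.eq_1; have := @pgOut.eq_1; trivial

theorem pn_pg_side_pos₁ (g : DGrid n₁ n₂) (i : Fin n₁) : 0 < g.x₁ i.succ - g.x₁ i.castSucc :=
  sub_pos.2 (g.mono₁ Fin.castSucc_lt_succ)

theorem pn_pg_side_pos₂ (g : DGrid n₁ n₂) (j : Fin n₂) : 0 < g.x₂ j.succ - g.x₂ j.castSucc :=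
  sub_pos.2 (g.mono₂ Fin.castSucc_lt_succ)

theorem pn_pg_cell_card (g : DGrid n₁ n₂) (κ : Cell n₁ n₂) :
    (g.cell κ).card = (g.x₁ κ.1.succ - g.x₁ κ.1.castSucc).toNat * (g.x₂ κ.2.succ - g.x₂ κ.2.castSucc).toNat := by
  unfold DGrid.cell
  rw [Finset.card_product, Int.card_Ico, Int.card_Ico]

/-- **L-PG-1** (~120 l. for the block `pn_pg_box_set` .. `pn_pg_region_card_le`; `Int.toNat_of_nonneg`, `g.mono₁ (Fin.castSucc_lt_succ)`, `Finset.card_product`, `Int.card_Ico`). -/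
theorem pn_pg_box_set (g : DGrid n₁ n₂) (κ : Cell n₁ n₂) : (pgBox g κ).set = g.cell κ := by
  have h1 := pn_pg_side_pos₁ g κ.1
  have h2 := pn_pg_side_pos₂ g κ.2
  unfold PsBox.set pgBox DGrid.cell
  simp only
  rw [Int.toNat_of_nonneg h1.le, Int.toNat_of_nonneg h2.le, add_sub_cancel, add_sub_cancel]

theorem pn_pg_box_side (g : DGrid n₁ n₂) (κ : Cell n₁ n₂) {s : ℕ} (h : g.SideLe s) :
    0 < (pgBox g κ).p ∧ (pgBox g κ).p ≤ s ∧ 0 < (pgBox g κ).q ∧ (pgBox g κ).q ≤ s := by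
  have h1 := pn_pg_side_pos₁ g κ.1
  have h2 := pn_pg_side_pos₂ g κ.2
  have h3 := h.1 κ.1
  have h4 := h.2 κ.2
  unfold pgBox
  simp only
  omega

theorem pn_pg_card_ge (g : DGrid n₁ n₂) (κ : Cell n₁ n₂) {ν : ℕ} (h : g.SideGe ν) : (ν : ℝ) ^ 2 ≤ ((g.cell κ).card : ℝ) := by
  have h3 := h.1 κ.1
  have h4 := h.2 κ.2
  have a1 : ν ≤ (g.x₁ κ.1.succ - g.x₁ κ.1.castSucc).toNat := by omega
  have a2 : ν ≤ (g.x₂ κ.2.succ - g.x₂ κ.2.castSucc).toNat := by omega
  have : ν ^ 2 ≤ (g.cell κ).card := by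
    rw [pn_pg_cell_card, sq]
    exact Nat.mul_le_mul a1 a2
  exact_mod_cast this

theorem pn_pg_card_le (g : DGrid n₁ n₂) (κ : Cell n₁ n₂) {s : ℕ} (h : g.SideLe s) : ((g.cell κ).card : ℝ) ≤ (s : ℝ) ^ 2 := by
  have h3 := h.1 κ.1
  have h4 := h.2 κ.2
  have a1 : (g.x₁ κ.1.succ - g.x₁ κ.1.castSucc).toNat ≤ s := by omega
  have a2 : (g.x₂ κ.2.succ - g.x₂ κ.2.castSucc).toNat ≤ s := by omega
  have : (g.cell κ).card ≤ s ^ 2 := by
    rw [pn_pg_cell_card, sq]
    exact Nat.mul_le_mul a1 a2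
  exact_mod_cast this

/-- (`pn_sb_region_card`) -/
theorem pn_pg_region_card_le (g : DGrid n₁ n₂) (A : Finset (Cell n₁ n₂)) {s : ℕ} (h : g.SideLe s) :
    ((g.region A).card : ℝ) ≤ (n₁ * n₂ : ℕ) * (s : ℝ) ^ 2 := by
  have h1 : (g.region A).card ≤ ∑ κ ∈ A, (g.cell κ).card := by
    unfold DGrid.region
    exact Finset.card_biUnion_le
  have h2 : ((g.region A).card : ℝ) ≤ ∑ κ ∈ A, ((g.cell κ).card : ℝ) := by exact_mod_cast h1
  have h3 : ∑ κ ∈ A, ((g.cell κ).card : ℝ) ≤ ∑ _κ ∈ A, (s : ℝ) ^ 2 :=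
    Finset.sum_le_sum fun κ _ => pn_pg_card_le g κ h
  have h4 : A.card ≤ n₁ * n₂ := by
    have := Finset.card_le_univ A
    simpa [Fintype.card_prod] using this
  have h5 : (A.card : ℝ) ≤ ((n₁ * n₂ : ℕ) : ℝ) := by exact_mod_cast h4
  calc ((g.region A).card : ℝ) ≤ ∑ _κ ∈ A, (s : ℝ) ^ 2 := h2.trans h3
    _ = (A.card : ℝ) * (s : ℝ) ^ 2 := by rw [Finset.sum_const, nsmul_eq_mul]
    _ ≤ (n₁ * n₂ : ℕ) * (s : ℝ) ^ 2 := mul_le_mul_of_nonneg_right h5 (by positivity)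

/-! ## 2. Charts -/

/-- the refined chart of the coarse graph -/
theorem pn_pg_chart {r : ℕ} {g' : DGrid (r * m₁) (r * m₂)} {g : DGrid m₁ m₂} (h : S23.Refines r g' g) (Γ : CGeom m₁ m₂) :
    PsChart (g.region Γ.T) (Γ.cutB g) (S23.refine r Γ) g' := ⟨(pn_sb_region h Γ.T).symm, (pn_sb_cut h Γ).symm⟩

/-- the coarse chart of the refined graph -/
theorem pn_pg_chart' {r : ℕ} {g' : DGrid (r * m₁) (r * m₂)} {g : DGrid m₁ m₂} (h : S23.Refines r g' g) (Γ : CGeom m₁ m₂) :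
    PsChart (g'.region (S23.refine r Γ).T) ((S23.refine r Γ).cutB g') Γ g := ⟨pn_sb_region h Γ.T, pn_sb_cut h Γ⟩

theorem pn_pg_sites {r : ℕ} {g' : DGrid (r * m₁) (r * m₂)} {g : DGrid m₁ m₂} (h : S23.Refines r g' g) (Γ : CGeom m₁ m₂)
    (A : Finset (Cell m₁ m₂)) : psSitesD (D := g.region Γ.T) (cut := Γ.cutB g) g' (S23.fine r A) = Γ.sites g A := by
  unfold psSitesD CGeom.sites
  rw [pn_sb_region h A]

theorem pn_pg_sites' {r : ℕ} {g' : DGrid (r * m₁) (r * m₂)} {g : DGrid m₁ m₂} (h : S23.Refines r g' g) (Γ : CGeom m₁ m₂)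
    (A : Finset (Cell m₁ m₂)) :
    psSitesD (D := g'.region (S23.refine r Γ).T) (cut := (S23.refine r Γ).cutB g') g A = (S23.refine r Γ).sites g' (S23.fine r A) := by
  unfold psSitesD CGeom.sites
  rw [pn_sb_region h A]

/-- disjoint sets of cells have disjoint regions, pointwise -/
theorem pn_pg_region_notMem (g : DGrid n₁ n₂) {A B : Finset (Cell n₁ n₂)} (h : Disjoint A B) {z : ℤ × ℤ} (hz : z ∈ g.region A) :
    z ∉ g.region B := by
  intro hz'
  obtain ⟨κ, hκ, h1⟩ := Finset.mem_biUnion.1 hz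
  obtain ⟨κ', hκ', h2⟩ := Finset.mem_biUnion.1 hz'
  have e : κ = κ' := Sec.sec_cell_unique g h1 h2
  subst e
  exact Finset.disjoint_left.1 h hκ hκ'

theorem pn_pg_region_mono (g : DGrid n₁ n₂) {A B : Finset (Cell n₁ n₂)} (h : A ⊆ B) : g.region A ⊆ g.region B :=
  Finset.biUnion_subset_biUnion_of_subset_left _ h

/-- **L-PG-2** (~150 l. for the block `pn_pg_sites_inter` .. `pn_pg_med_side`).   A vertex lies in a cell of `Γ.T`; the cells are disjoint (`Sec.sec_cell_unique`). -/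
theorem pn_pg_sites_inter (Γ : CGeom m₁ m₂) (g : DGrid m₁ m₂) (A : Finset (Cell m₁ m₂)) : Γ.sites g (A ∩ Γ.T) = Γ.sites g A := by
  ext v
  constructor
  · intro hv
    exact Finset.mem_coe.2 (pn_pg_region_mono g Finset.inter_subset_left (Finset.mem_coe.1 hv))
  · intro hv
    have hD : domPos v ∈ g.region Γ.T := Subtype.property (p := fun v => v ∈ g.region Γ.T) v
    obtain ⟨κ, hκ, h1⟩ := Finset.mem_biUnion.1 (Finset.mem_coe.1 hv)
    obtain ⟨κ', hκ', h2⟩ := Finset.mem_biUnion.1 hD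
    have e : κ = κ' := Sec.sec_cell_unique g h1 h2
    subst e
    exact Finset.mem_coe.2 (Finset.mem_biUnion.2 ⟨κ, Finset.mem_inter.2 ⟨hκ, hκ'⟩, h1⟩)

theorem pn_pg_sites_empty (Γ : CGeom m₁ m₂) (g : DGrid m₁ m₂) : Γ.sites g ∅ = ∅ := by
  ext v
  constructor
  · intro hv
    have hv' : domPos v ∈ g.region (∅ : Finset (Cell m₁ m₂)) := Finset.mem_coe.1 hv
    obtain ⟨κ, hκ, _⟩ := Finset.mem_biUnion.1 hv'
    exact absurd hκ (Finset.notMem_empty κ)
  · intro hv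
    exact absurd hv (Set.notMem_empty v)

theorem pn_pg_sites_mono (Γ : CGeom m₁ m₂) (g : DGrid m₁ m₂) {A B : Finset (Cell m₁ m₂)} (h : A ⊆ B) : Γ.sites g A ⊆ Γ.sites g B := by
  intro v hv
  exact Finset.mem_coe.2 (pn_pg_region_mono g h (Finset.mem_coe.1 hv))

/-- disjoint sets of cells have disjoint sites -/
theorem pn_pg_sites_disj (Γ : CGeom m₁ m₂) (g : DGrid m₁ m₂) {A B : Finset (Cell m₁ m₂)} (h : Disjoint A B) :
    Γ.sites g A ∩ Γ.sites g B = ∅ := by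
  ext v
  constructor
  · rintro ⟨h1, h2⟩
    exact absurd (Finset.mem_coe.1 h2) (pn_pg_region_notMem g h (Finset.mem_coe.1 h1))
  · intro hv
    exact absurd hv (Set.notMem_empty v)

/-- the same for `psSitesD` (any graph) -/
theorem pn_pg_sitesD_notMem {D : Finset (ℤ × ℤ)} {cut : Set Bond} (g : DGrid n₁ n₂) {A B : Finset (Cell n₁ n₂)} (h : Disjoint A B)
    {x : (domG D cut).V} (hx : x ∈ psSitesD g A) : x ∉ psSitesD g B := by
  intro hx'
  exact pn_pg_region_notMem g h (Finset.mem_coe.1 hx) (Finset.mem_coe.1 hx')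

theorem pn_pg_sitesD_mono {D : Finset (ℤ × ℤ)} {cut : Set Bond} (g : DGrid n₁ n₂) {A B : Finset (Cell n₁ n₂)} (h : A ⊆ B) :
    psSitesD (D := D) (cut := cut) g A ⊆ psSitesD g B := by
  intro v hv
  exact Finset.mem_coe.2 (pn_pg_region_mono g h (Finset.mem_coe.1 hv))

/-- the medium grid of helper249 -/
theorem pn_pg_med_refines {s : ℕ} (hs : 0 < s) (g' : DGrid (s * n₁) (s * n₂)) : S23.Refines s g' (shMed s g') := by
  unfold shMed
  rw [dif_pos hs]
  exact ⟨fun i i' h => congrArg g'.x₁ (Fin.ext h), fun j j' h => congrArg g'.x₂ (Fin.ext h)⟩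

/-- one axis: a medium side is the sum of `s` fine sides -/
theorem pn_pg_med_1d {m s : ℕ} (xf : Fin (s * m + 1) → ℤ) (xm : Fin (m + 1) → ℤ)
    (href : ∀ (i : Fin (m + 1)) (i' : Fin (s * m + 1)), i'.1 = s * i.1 → xf i' = xm i) (a b : ℤ)
    (hge : ∀ i : Fin (s * m), a ≤ xf i.succ - xf i.castSucc) (hle : ∀ i : Fin (s * m), xf i.succ - xf i.castSucc ≤ b) (i : Fin m) :
    (s : ℤ) * a ≤ xm i.succ - xm i.castSucc ∧ xm i.succ - xm i.castSucc ≤ (s : ℤ) * b := by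
  have hi : s * (i.1 + 1) ≤ s * m := Nat.mul_le_mul_left s i.2
  have hb : ∀ j, j ≤ s → s * i.1 + j < s * m + 1 := by
    intro j hj
    have : s * (i.1 + 1) = s * i.1 + s := by ring
    omega
  have key : ∀ j (hj : j ≤ s), (j : ℤ) * a ≤ xf ⟨s * i.1 + j, hb j hj⟩ - xf ⟨s * i.1, hb 0 (Nat.zero_le s)⟩ ∧
      xf ⟨s * i.1 + j, hb j hj⟩ - xf ⟨s * i.1, hb 0 (Nat.zero_le s)⟩ ≤ (j : ℤ) * b := by
    intro j
    induction j with
    | zero =>
      intro hj
      simp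
    | succ j ih =>
      intro hj
      obtain ⟨h1, h2⟩ := ih (by omega)
      have hlt : s * i.1 + j < s * m := by
        have : s * (i.1 + 1) = s * i.1 + s := by ring
        omega
      have g1 := hge ⟨s * i.1 + j, hlt⟩
      have g2 := hle ⟨s * i.1 + j, hlt⟩
      have e1 : (⟨s * i.1 + j, hlt⟩ : Fin (s * m)).succ = ⟨s * i.1 + (j + 1), hb (j + 1) hj⟩ := rfl
      have e2 : (⟨s * i.1 + j, hlt⟩ : Fin (s * m)).castSucc = ⟨s * i.1 + j, hb j (by omega)⟩ := rfl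
      rw [e1, e2] at g1 g2
      push_cast
      constructor <;> linarith
  obtain ⟨h1, h2⟩ := key s le_rfl
  have e1 : xf ⟨s * i.1 + s, hb s le_rfl⟩ = xm i.succ := href i.succ _ (by
    show s * i.1 + s = s * (i.1 + 1)
    ring)
  have e2 : xf ⟨s * i.1, hb 0 (Nat.zero_le s)⟩ = xm i.castSucc := href i.castSucc _ rfl
  rw [e1, e2] at h1 h2
  exact ⟨h1, h2⟩

/-- telescoping over the `s` fine intervals of a medium interval -/
theorem pn_pg_med_side {s : ℕ} (hs : 0 < s) (g' : DGrid (s * n₁) (s * n₂)) {ν K : ℕ} (h1 : g'.SideGe ν) (h2 : g'.SideLe (K * ν)) :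
    (shMed s g').SideGe (s * ν) ∧ (shMed s g').SideLe (K * (s * ν)) := by
  have href := pn_pg_med_refines hs g'
  have a1 := pn_pg_med_1d g'.x₁ (shMed s g').x₁ href.1 (ν : ℤ) ((K * ν : ℕ) : ℤ) h1.1 h2.1
  have a2 := pn_pg_med_1d g'.x₂ (shMed s g').x₂ href.2 (ν : ℤ) ((K * ν : ℕ) : ℤ) h1.2 h2.2
  refine ⟨⟨fun i => ?_, fun j => ?_⟩, ⟨fun i => ?_, fun j => ?_⟩⟩
  · have := (a1 i).1
    push_cast
    exact this
  · have := (a2 j).1
    push_cast
    exact this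
  · have := (a1 i).2
    push_cast at this ⊢
    linarith
  · have := (a2 j).2
    push_cast at this ⊢
    linarith

/-! ## 3. Layers from index balls -/

theorem pn_pg_mem_ball (X : Finset (Cell n₁ n₂)) (j : ℕ) (κ : Cell n₁ n₂) : κ ∈ shBall X j ↔ ∃ κ' ∈ X, shLe j κ κ' := by
  unfold shBall
  simp only [Finset.mem_filter, Finset.mem_univ, true_and]

/-- **L-PG-3** (~200 l. for the block `pn_pg_ball_mono` .. `pn_pg_sep_ball`; `Finset.mem_filter`, `omega` after unfolding `shLe`, `geoAdj`, `psShell`, `S23.coarse`, `S23.fine`). -/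
theorem pn_pg_ball_mono (X : Finset (Cell n₁ n₂)) {j j' : ℕ} (h : j ≤ j') : shBall X j ⊆ shBall X j' := by
  intro κ hκ
  rw [pn_pg_mem_ball] at hκ ⊢
  obtain ⟨κ', h1, h2⟩ := hκ
  refine ⟨κ', h1, ?_⟩
  unfold shLe at h2 ⊢
  omega

theorem pn_pg_sub_ball (X : Finset (Cell n₁ n₂)) (j : ℕ) : X ⊆ shBall X j := by
  intro κ hκ
  rw [pn_pg_mem_ball]
  refine ⟨κ, hκ, ?_⟩
  unfold shLe
  omega

/-- a cell adjacent to a cell of the ball of radius `j` lies in the ball of radius `j + 1` -/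
theorem pn_pg_ball_adj (X : Finset (Cell n₁ n₂)) (j : ℕ) {κ κ' : Cell n₁ n₂} (h : κ' ∈ shBall X j) (ha : geoAdj κ κ') : κ ∈ shBall X (j + 1) := by
  rw [pn_pg_mem_ball] at h ⊢
  obtain ⟨κ'', h1, h2⟩ := h
  refine ⟨κ'', h1, ?_⟩
  unfold shLe at h2 ⊢
  unfold geoAdj at ha
  omega

/-- the three layers -/
theorem pn_pg_lay (Γ : CGeom n₁ n₂) (X : Finset (Cell n₁ n₂)) (j : ℕ) : PsLay Γ (shBall X j) (pgKb Γ X j) (pgOut X j) := by
  refine ⟨?_, ?_, ?_⟩
  · intro κ hκ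
    unfold pgKb pgOut
    simp only [Finset.mem_union, Finset.mem_filter, Finset.mem_univ, true_and]
    by_cases h1 : κ ∈ shBall X j
    · exact Or.inl (Or.inl h1)
    · by_cases h2 : κ ∈ shBall X (j + 1)
      · exact Or.inl (Or.inr ⟨hκ, h2, h1⟩)
      · exact Or.inr h2
  · unfold pgKb
    exact Finset.filter_subset _ _
  · intro κ hκ κ' hκ' ha
    unfold pgOut at hκ'
    simp only [Finset.mem_filter, Finset.mem_univ, true_and] at hκ'
    apply hκ'
    refine pn_pg_ball_adj X j hκ ?_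
    unfold geoAdj at ha ⊢
    omega

/-- cells outside the ball of radius `j + 2` are far from the band -/
theorem pn_pg_far (Γ : CGeom n₁ n₂) (X : Finset (Cell n₁ n₂)) (j : ℕ) {A : Finset (Cell n₁ n₂)} (h : Disjoint A (shBall X (j + 2))) :
    A ⊆ pgOut X j ∧ Disjoint A (pgKb Γ X j ∪ psShell Γ (pgKb Γ X j)) := by
  rw [Finset.disjoint_left] at h
  refine ⟨?_, ?_⟩
  · intro κ hκ
    unfold pgOut
    simp only [Finset.mem_filter, Finset.mem_univ, true_and]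
    intro h1
    exact h hκ (pn_pg_ball_mono X (by omega) h1)
  · rw [Finset.disjoint_left]
    intro κ hκ h1
    apply h hκ
    rw [Finset.mem_union] at h1
    rcases h1 with h1 | h1
    · unfold pgKb at h1
      simp only [Finset.mem_filter] at h1
      exact pn_pg_ball_mono X (by omega) h1.2.1
    · unfold psShell at h1
      simp only [Finset.mem_filter] at h1
      obtain ⟨-, -, κ', h2, h3⟩ := h1
      unfold pgKb at h2
      simp only [Finset.mem_filter] at h2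
      exact pn_pg_ball_adj X (j + 1) h2.2.1 h3

/-- the layers of helper249 -/
theorem pn_pg_lay_sh (Γ : CGeom n₁ n₂) (J : ℕ) : PsLay (shFree Γ) (shIn Γ J) (shKb Γ J) (shOut Γ J) := pn_pg_lay (shFree Γ) Γ.pin (J + 1)

theorem pn_pg_far_sh (Γ : CGeom n₁ n₂) (J : ℕ) {A : Finset (Cell n₁ n₂)} (h : Disjoint A (shBall Γ.pin (J + 3))) :
    A ⊆ shOut Γ J ∧ Disjoint A (shKb Γ J ∪ psShell (shFree Γ) (shKb Γ J)) := pn_pg_far (shFree Γ) Γ.pin (J + 1) h

theorem pn_pg_div_gap {r a b : ℕ} (hr : 0 < r) (h : a / r + 1 < b / r) : a + r < b := by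
  have h1 : a < r * (a / r + 1) := Nat.lt_mul_div_succ a hr
  have h2 : r * (b / r) ≤ b := Nat.mul_div_le b r
  have h3 : r * (a / r + 2) ≤ r * (b / r) := Nat.mul_le_mul_left r (by omega)
  have h4 : r * (a / r + 2) = r * (a / r + 1) + r := by ring
  omega

/-- separated sets of coarse cells: at level `r` the index distance is at least `r + 1` -/
theorem pn_pg_sep_ball {A p : Finset (Cell m₁ m₂)} (h : C3.Sep A p) {r j : ℕ} (hj : j ≤ r) :
    Disjoint (S23.fine r A) (shBall (S23.fine r p) j) := by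
  rw [Finset.disjoint_left]
  intro κ hκ h1
  rw [pn_pg_mem_ball] at h1
  obtain ⟨κ', h2, h3⟩ := h1
  have hr : 0 < r := by
    rcases Nat.eq_zero_or_pos r with rfl | hr
    · have := κ.1.2
      omega
    · exact hr
  unfold S23.fine at hκ h2
  simp only [Finset.mem_filter, Finset.mem_univ, true_and] at hκ h2
  have h4 := h _ hκ _ h2
  unfold S23.coarse at h4
  simp only at h4
  unfold shLe at h3
  rcases h4 with h4 | h4 | h4 | h4
  · have := pn_pg_div_gap hr h4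
    omega
  · have := pn_pg_div_gap hr h4
    omega
  · have := pn_pg_div_gap hr h4
    omega
  · have := pn_pg_div_gap hr h4
    omega

theorem pn_pg_sep_symm {A p : Finset (Cell m₁ m₂)} (h : C3.Sep A p) : C3.Sep p A := by
  intro κ hκ κ' hκ'
  have := h κ' hκ' κ hκ
  tauto

theorem pn_pg_sep_mono {A p A' p' : Finset (Cell m₁ m₂)} (h : C3.Sep A p) (hA : A' ⊆ A) (hp : p' ⊆ p) : C3.Sep A' p' :=
  fun κ hκ κ' hκ' => h κ (hA hκ) κ' (hp hκ')

/-! ## 4. Partitions into small cells -/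

/-- **L-PG-4** (~150 l.).  The cells of a refinement inside the cells of the coarse grid (`Sec.sec_gr_cell_sub`, `Sec.sec_gr_cell_find`, `Sec.sec_cell_unique`, `pn_pg_box_set`, `pn_pg_box_side`, `Finset.equivFin`). -/
theorem pn_pg_part {r : ℕ} {g' : DGrid (r * m₁) (r * m₂)} {g : DGrid m₁ m₂} (h : S23.Refines r g' g) (A : Finset (Cell m₁ m₂)) {s : ℕ}
    (hs : g'.SideLe s) : psIsPart g A s (pgBoxes g' (S23.fine r A)) := by
  refine ⟨?_, ?_, ?_, ?_⟩
  · intro i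
    have hm := ((S23.fine r A).equivFin.symm i).2
    refine ⟨S23.coarse r ((S23.fine r A).equivFin.symm i).1, ?_, ?_⟩
    · unfold S23.fine at hm
      simp only [Finset.mem_filter, Finset.mem_univ, true_and] at hm
      exact hm
    · intro x hx
      unfold pgBoxes at hx
      rw [pn_pg_box_set] at hx
      exact Sec.sec_gr_cell_sub h _ hx
  · intro i
    unfold pgBoxes
    exact pn_pg_box_side g' _ hs
  · intro i j hij
    rw [Finset.disjoint_left]
    intro x hx hx'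
    unfold pgBoxes at hx hx'
    rw [pn_pg_box_set] at hx hx'
    have := Sec.sec_cell_unique g' hx hx'
    exact hij ((S23.fine r A).equivFin.symm.injective (Subtype.ext this))
  · intro z hz
    unfold DGrid.region at hz
    rw [Finset.mem_biUnion] at hz
    obtain ⟨κ, hκ, hz⟩ := hz
    obtain ⟨κ', h1, h2⟩ := Sec.sec_gr_cell_find h κ hz
    have hm : κ' ∈ S23.fine r A := by
      unfold S23.fine
      simp only [Finset.mem_filter, Finset.mem_univ, true_and]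
      rw [h1]; exact hκ
    refine ⟨(S23.fine r A).equivFin ⟨κ', hm⟩, ?_⟩
    unfold pgBoxes
    rw [pn_pg_box_set, Equiv.symm_apply_apply]
    exact h2

/-- **L-PG-5** (~300 l.).  NESTED LEVELS `c ∣ r` of the explicit subdivision.  `r = c q`: `sbX r x (q i) = sbX c x i` (`Int.mul_ediv_mul_of_pos`; see `L-SB-3` in `Pins/Sub.lean`, whose helper lemmas may be cited),
so the level-`r` cell `(i', j')` lies in the level-`c` cell `(i'/q, j'/q)`, which has the same coarse cell.   Work with the `ℕ`-indexed lines `sbX`. -/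
theorem pn_pg_nest {c r : ℕ} (hc : 0 < c) (hd : c ∣ r) (hr : 0 < r) {g : DGrid m₁ m₂} (h : sbOK r g) (κ' : Cell (r * m₁) (r * m₂)) :
    ∃ κ'' : Cell (c * m₁) (c * m₂), S23.coarse c κ'' = S23.coarse r κ' ∧ (sbG r g).cell κ' ⊆ (sbG c g).cell κ'' := by
  have hok₁ := pn_sb_ok_of_dvd hc hd hr h
  obtain ⟨q, rfl⟩ := hd
  have hq : 0 < q := Nat.pos_of_mul_pos_left hr
  have e₁ : q * (c * m₁) = c * q * m₁ := by ring
  have e₂ : q * (c * m₂) = c * q * m₂ := by ring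
  refine ⟨(⟨κ'.1.1 / q, Nat.div_lt_of_lt_mul (by rw [e₁]; exact κ'.1.2)⟩, ⟨κ'.2.1 / q, Nat.div_lt_of_lt_mul (by rw [e₂]; exact κ'.2.2)⟩), ?_, ?_⟩
  · unfold S23.coarse
    refine Prod.ext (Fin.ext ?_) (Fin.ext ?_)
    · show κ'.1.1 / q / c = κ'.1.1 / (c * q)
      rw [Nat.div_div_eq_div_mul, Nat.mul_comm q c]
    · show κ'.2.1 / q / c = κ'.2.1 / (c * q)
      rw [Nat.div_div_eq_div_mul, Nat.mul_comm q c]
  · intro z hz
    rw [Sec.sec_mem_cell] at hz ⊢
    simp only [pn_sb_x₁ h, pn_sb_x₂ h, pn_sb_x₁ hok₁, pn_sb_x₂ hok₁, Fin.val_castSucc, Fin.val_succ] at hz ⊢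
    have a := pn_sb_n3_sub hq g.x₁ h.1 κ'.1.1 κ'.1.2
    have b := pn_sb_n3_sub hq g.x₂ h.2 κ'.2.1 κ'.2.2
    exact ⟨⟨a.1.trans hz.1.1, hz.1.2.trans_le a.2⟩, ⟨b.1.trans hz.2.1, hz.2.2.trans_le b.2⟩⟩

/-- (from `pn_pg_nest`; covering: `pn_sb_region` at both levels, `pn_sb_ok_of_dvd`, `pn_sb_refines`) -/
theorem pn_pg_part_nest {c r : ℕ} (hc : 0 < c) (hd : c ∣ r) (hr : 0 < r) {g : DGrid m₁ m₂} (h : sbOK r g) (A : Finset (Cell m₁ m₂)) {s : ℕ}
    (hs : (sbG r g).SideLe s) : psIsPart (sbG c g) (S23.fine c A) s (pgBoxes (sbG r g) (S23.fine r A)) := by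
  have hok₁ := pn_sb_ok_of_dvd hc hd hr h
  have hmemf : ∀ (k : ℕ) (κ : Cell (k * m₁) (k * m₂)), κ ∈ S23.fine k A ↔ S23.coarse k κ ∈ A := by
    intro k κ
    unfold S23.fine
    simp only [Finset.mem_filter, Finset.mem_univ, true_and]
  refine ⟨fun d => ?_, fun d => ?_, fun d d' hdd => ?_, fun z hz => ?_⟩
  · obtain ⟨κ'', h1, h2⟩ := pn_pg_nest hc hd hr h ((S23.fine r A).equivFin.symm d).1
    refine ⟨κ'', ?_, ?_⟩
    · rw [hmemf, h1, ← hmemf]
      exact ((S23.fine r A).equivFin.symm d).2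
    · unfold pgBoxes
      rw [pn_pg_box_set]
      exact h2
  · exact pn_pg_box_side (sbG r g) _ hs
  · unfold pgBoxes
    rw [pn_pg_box_set, pn_pg_box_set, Finset.disjoint_left]
    intro z h1 h2
    apply hdd
    have h3 := Sec.sec_cell_unique _ h1 h2
    exact (S23.fine r A).equivFin.symm.injective (Subtype.ext h3)
  · rw [pn_sb_region (pn_sb_refines hc hok₁) A, ← pn_sb_region (pn_sb_refines hr h) A] at hz
    unfold DGrid.region at hz
    obtain ⟨κ', h1, h2⟩ := Finset.mem_biUnion.1 hz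
    refine ⟨(S23.fine r A).equivFin ⟨κ', h1⟩, ?_⟩
    unfold pgBoxes
    rw [pn_pg_box_set, Equiv.symm_apply_apply]
    exact h2

/-! ## 5. Soft rows are cell tests -/

/-- the number of sites in the denominator of a cell test, for a cell of `T` -/
theorem pn_pg_inter_card (T : Finset (Cell n₁ n₂)) (g : DGrid n₁ n₂) {κ : Cell n₁ n₂} (hκ : κ ∈ T) :
    (g.region ({κ} ∩ T)).card = (g.cell κ).card := by
  rw [Finset.inter_eq_left.2 (Finset.singleton_subset_iff.2 hκ), pn_sb_region_single]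

/-- the cell test of one cell of `T` is a multiple of the average over the cell -/
theorem pn_pg_CT_single (T : Finset (Cell n₁ n₂)) (g : DGrid n₁ n₂) {κ₀ : Cell n₁ n₂} (hκ : κ₀ ∈ T) (w : ℝ) (z : ℤ × ℤ) :
    sbCT T g (Pi.single κ₀ w) z = w * psAvg (g.cell κ₀) z := by
  unfold psAvg
  by_cases hz : z ∈ g.cell κ₀
  · rw [pn_sb_CT_eval T g _ hz, Pi.single_eq_same, if_pos hz, pn_pg_inter_card T g hκ]
  · rw [if_neg hz, mul_zero]
    by_cases hz' : ∃ κ, z ∈ g.cell κ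
    · obtain ⟨κ, h⟩ := hz'
      have hne : κ ≠ κ₀ := fun e => hz (e ▸ h)
      rw [pn_sb_CT_eval T g _ h, Pi.single_eq_of_ne hne, zero_mul]
    · exact pn_sb_CT_zero T g _ fun κ h => hz' ⟨κ, h⟩

/-- the value of a soft row of the family of cells -/
theorem pn_pg_soft_val {D : Finset (ℤ × ℤ)} {cut : Set Bond} (g : DGrid n₁ n₂) (B : Finset (Cell n₁ n₂)) (w : ℝ) (d : Fin B.card)
    (x : (domG D cut).V) :
    psSoftD (D := D) (cut := cut) (pgBoxes g B) (fun _ => w) d x = w * psAvg (g.cell (B.equivFin.symm d).1) (domPos x) := by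
  unfold psSoftD pgBoxes
  rw [pn_pg_box_set]

/-- **L-PG-6** (~200 l. for the two).  `pn_sb_CT_eval`, `pn_sb_CT_zero`, `pn_pg_box_set`, `pn_sb_region_single`;  `{κ} ∩ T = {κ}` for `κ ∈ T`. -/
theorem pn_pg_soft_CT {D : Finset (ℤ × ℤ)} {cut : Set Bond} (T : Finset (Cell n₁ n₂)) (g : DGrid n₁ n₂) {B : Finset (Cell n₁ n₂)} (hB : B ⊆ T) (w : ℝ)
    (d : Fin B.card) :
    psSoftD (D := D) (cut := cut) (pgBoxes g B) (fun _ => w) d = domFn (sbCT T g (Pi.single (B.equivFin.symm d).1 w)) := by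
  funext x
  rw [pn_pg_soft_val]
  unfold domFn
  rw [pn_pg_CT_single T g (hB (B.equivFin.symm d).2) w]

/-- linear combinations of the soft rows (`Finset.sum_coe_sort`, `Equiv.sum_comp`) -/
theorem pn_pg_soft_comb {D : Finset (ℤ × ℤ)} {cut : Set Bond} (T : Finset (Cell n₁ n₂)) (g : DGrid n₁ n₂) {B : Finset (Cell n₁ n₂)} (hB : B ⊆ T) (w : ℝ)
    (c : Fin B.card → ℝ) :
    (fun x => ∑ d, c d * psSoftD (D := D) (cut := cut) (pgBoxes g B) (fun _ => w) d x)
      = domFn (sbCT T g fun κ => if h : κ ∈ B then c (B.equivFin ⟨κ, h⟩) * w else 0) := by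
  funext x
  simp only [pn_pg_soft_val]
  unfold domFn psAvg
  by_cases hz : ∃ κ, domPos x ∈ g.cell κ
  · obtain ⟨κ, hκ⟩ := hz
    rw [pn_sb_CT_eval T g _ hκ]
    have hoff : ∀ d : Fin B.card, (B.equivFin.symm d).1 ≠ κ →
        c d * (w * if domPos x ∈ g.cell (B.equivFin.symm d).1 then ((g.cell (B.equivFin.symm d).1).card : ℝ)⁻¹ else 0) = 0 := by
      intro d hd
      rw [if_neg fun h => hd (Sec.sec_cell_unique g h hκ), mul_zero, mul_zero]
    by_cases hB' : κ ∈ B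
    · rw [dif_pos hB', Finset.sum_eq_single (B.equivFin ⟨κ, hB'⟩)]
      · rw [Equiv.symm_apply_apply, if_pos hκ, pn_pg_inter_card T g (hB hB'), mul_assoc]
      · intro d _ hd
        refine hoff d fun e => hd ?_
        rw [← B.equivFin.apply_symm_apply d]
        exact congrArg B.equivFin (Subtype.ext e)
      · intro h
        exact absurd (Finset.mem_univ _) h
    · rw [dif_neg hB', zero_mul]
      exact Finset.sum_eq_zero fun d _ => hoff d fun e => hB' (e ▸ (B.equivFin.symm d).2)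
  · rw [pn_sb_CT_zero T g _ fun κ h => hz ⟨κ, h⟩]
    refine Finset.sum_eq_zero fun d _ => ?_
    rw [if_neg fun h => hz ⟨_, h⟩, mul_zero, mul_zero]

/-! ## 6. The rows of `C3.lawR` -/

/-- the weight of a cell in a cell test -/
theorem pn_pg_inv_le (T : Finset (Cell n₁ n₂)) (g : DGrid n₁ n₂) (κ : Cell n₁ n₂) {ν : ℕ} (h1 : 1 ≤ ν) (hg : g.SideGe ν) :
    0 ≤ ((g.region ({κ} ∩ T)).card : ℝ)⁻¹ ∧ ((g.region ({κ} ∩ T)).card : ℝ)⁻¹ ≤ 1 / (ν : ℝ) ^ 2 := by
  have hν : (0 : ℝ) < (ν : ℝ) ^ 2 := by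
    have : (0 : ℝ) < (ν : ℝ) := by exact_mod_cast h1
    positivity
  refine ⟨inv_nonneg.2 (Nat.cast_nonneg _), ?_⟩
  by_cases hκ : κ ∈ T
  · rw [pn_pg_inter_card T g hκ, one_div]
    exact inv_anti₀ hν (pn_pg_card_ge g κ hg)
  · have : ({κ} : Finset (Cell n₁ n₂)) ∩ T = ∅ := Finset.singleton_inter_of_notMem hκ
    rw [this]
    have h0 : (g.region ∅).card = 0 := by
      unfold DGrid.region
      rw [Finset.biUnion_empty, Finset.card_empty]
    rw [h0, Nat.cast_zero, inv_zero]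
    positivity

/-- pointwise bound of a cell test -/
theorem pn_pg_CT_sq (T : Finset (Cell n₁ n₂)) (g : DGrid n₁ n₂) (t : Cell n₁ n₂ → ℝ) {ν : ℕ} (h1 : 1 ≤ ν) (hg : g.SideGe ν) (z : ℤ × ℤ) :
    sbCT T g t z ^ 2 ≤ (∑ κ, t κ ^ 2) / (ν : ℝ) ^ 4 := by
  have hS : 0 ≤ ∑ κ, t κ ^ 2 := Finset.sum_nonneg fun _ _ => sq_nonneg _
  by_cases hz : ∃ κ, z ∈ g.cell κ
  · obtain ⟨κ, hκ⟩ := hz
    obtain ⟨i0, i1⟩ := pn_pg_inv_le T g κ h1 hg
    rw [pn_sb_CT_eval T g _ hκ, mul_pow, div_eq_mul_inv]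
    have e1 : t κ ^ 2 ≤ ∑ κ, t κ ^ 2 := Finset.single_le_sum (f := fun κ => t κ ^ 2) (fun _ _ => sq_nonneg _) (Finset.mem_univ κ)
    have e2 : (((g.region ({κ} ∩ T)).card : ℝ)⁻¹) ^ 2 ≤ ((ν : ℝ) ^ 4)⁻¹ := by
      have := pow_le_pow_left₀ i0 i1 2
      have e : (1 / (ν : ℝ) ^ 2) ^ 2 = ((ν : ℝ) ^ 4)⁻¹ := by
        rw [one_div, inv_pow, ← pow_mul]
      rwa [e] at this
    exact mul_le_mul e1 e2 (sq_nonneg _) hS
  · rw [pn_sb_CT_zero T g _ fun κ h => hz ⟨κ, h⟩]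
    have : (0 : ℝ) ^ 2 = 0 := by norm_num
    rw [this]
    positivity

/-- the `ℓ²` norm of a cell test on the region of `T` -/
theorem pn_pg_CT_l2 (T : Finset (Cell n₁ n₂)) (g : DGrid n₁ n₂) (t : Cell n₁ n₂ → ℝ) {ν : ℕ} (h1 : 1 ≤ ν) (hg : g.SideGe ν) :
    ∑ z ∈ g.region T, sbCT T g t z ^ 2 ≤ (∑ κ, t κ ^ 2) / (ν : ℝ) ^ 2 := by
  have hν : (0 : ℝ) < (ν : ℝ) ^ 2 := by
    have : (0 : ℝ) < (ν : ℝ) := by exact_mod_cast h1
    positivity
  have hdisj : ∀ κ ∈ T, ∀ κ' ∈ T, κ ≠ κ' → Disjoint (g.cell κ) (g.cell κ') := by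
    intro κ _ κ' _ hne
    rw [Finset.disjoint_left]
    intro z a b
    exact hne (Sec.sec_cell_unique g a b)
  unfold DGrid.region
  rw [Finset.sum_biUnion hdisj, Finset.sum_div]
  have step : ∀ κ ∈ T, ∑ z ∈ g.cell κ, sbCT T g t z ^ 2 ≤ t κ ^ 2 / (ν : ℝ) ^ 2 := by
    intro κ hκ
    have hc : (0 : ℝ) < ((g.cell κ).card : ℝ) := by exact_mod_cast pn_sb_cell_card_pos g κ
    have e : ∀ z ∈ g.cell κ, sbCT T g t z ^ 2 = t κ ^ 2 * (((g.cell κ).card : ℝ)⁻¹) ^ 2 := by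
      intro z hz
      rw [pn_sb_CT_eval T g _ hz, pn_pg_inter_card T g hκ, mul_pow]
    rw [Finset.sum_congr rfl e, Finset.sum_const, nsmul_eq_mul]
    have e' : ((g.cell κ).card : ℝ) * (t κ ^ 2 * (((g.cell κ).card : ℝ)⁻¹) ^ 2) = t κ ^ 2 * ((g.cell κ).card : ℝ)⁻¹ := by
      field_simp
    rw [e', div_eq_mul_inv]
    exact mul_le_mul_of_nonneg_left (inv_anti₀ hν (pn_pg_card_ge g κ hg)) (sq_nonneg _)
  refine (Finset.sum_le_sum step).trans ?_
  exact Finset.sum_le_sum_of_subset_of_nonneg (Finset.subset_univ _) fun κ _ _ => div_nonneg (sq_nonneg _) hν.le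

/-- **L-PG-7** (~200 l. for the three).   `x` in the cell `κ ∈ Γ.T`: `B o x = row o κ / |κ|` (`pn_sb_CT_eval` through `pn_sb_lawR`), `|κ| ≥ ν²` (`pn_pg_card_ge`). -/
theorem pn_pg_row_dens (Γ : CGeom m₁ m₂) (g : DGrid m₁ m₂) {N : ℕ} (row : Fin N → Cell m₁ m₂ → ℝ) {ν : ℕ} (h1 : 1 ≤ ν) (hg : g.SideGe ν)
    (x : (Γ.graph g).V) : ∑ o, (lawR Γ g row).B o x ^ 2 ≤ (∑ o, ∑ κ, row o κ ^ 2) / (ν : ℝ) ^ 4 := by
  rw [Finset.sum_div]
  exact Finset.sum_le_sum fun (o : Fin N) _ =>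
    pn_pg_CT_sq Γ.T g (row o) h1 hg (domPos (D := g.region Γ.T) (cut := Γ.cutB g) x)

theorem pn_pg_row_l2 (Γ : CGeom m₁ m₂) (g : DGrid m₁ m₂) {N : ℕ} (row : Fin N → Cell m₁ m₂ → ℝ) {ν : ℕ} (h1 : 1 ≤ ν) (hg : g.SideGe ν) :
    ∑ o, ∑ x, (lawR Γ g row).B o x ^ 2 ≤ (∑ o, ∑ κ, row o κ ^ 2) / (ν : ℝ) ^ 2 := by
  rw [Finset.sum_div]
  refine Finset.sum_le_sum fun (o : Fin N) _ => ?_
  refine le_trans (le_of_eq ?_) (pn_pg_CT_l2 Γ.T g (row o) h1 hg)
  exact Finset.sum_coe_sort (g.region Γ.T) fun z => sbCT Γ.T g (row o) z ^ 2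

/-- cell tests have bounded densities -/
theorem pn_pg_CT_dens {D : Finset (ℤ × ℤ)} {cut : Set Bond} (T : Finset (Cell n₁ n₂)) (g : DGrid n₁ n₂) (t : Cell n₁ n₂ → ℝ) {C : ℝ} (hC : 0 ≤ C) (ht : ∀ κ, |t κ| ≤ C)
    {ν : ℕ} (h1 : 1 ≤ ν) (hg : g.SideGe ν) (x : (domG D cut).V) : |domFn (D := D) (cut := cut) (sbCT T g t) x| ≤ C / (ν : ℝ) ^ 2 := by
  unfold domFn
  by_cases hz : ∃ κ, domPos x ∈ g.cell κ
  · obtain ⟨κ, hκ⟩ := hz
    obtain ⟨i0, i1⟩ := pn_pg_inv_le T g κ h1 hg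
    rw [pn_sb_CT_eval T g _ hκ, abs_mul, abs_of_nonneg i0, div_eq_mul_one_div]
    exact mul_le_mul (ht κ) i1 i0 hC
  · rw [pn_sb_CT_zero T g _ fun κ h => hz ⟨κ, h⟩, abs_zero]
    positivity

theorem pn_pg_8_avg (Γ' : CGeom m₁ m₂) (g : DGrid m₁ m₂) (κ : Cell m₁ m₂) (hκ : κ ∈ Γ'.T) (v : (Γ'.graph g).V) :
    Γ'.avgRow g {κ} v = psAvg (g.cell κ) (domPos (D := g.region Γ'.T) (cut := Γ'.cutB g) v) := by
  unfold CGeom.avgRow psAvg
  have e1 : ({κ} : Finset (Cell m₁ m₂)) ∩ Γ'.T = {κ} := Finset.singleton_inter_of_mem hκ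
  have e2 : g.region {κ} = g.cell κ := by
    unfold DGrid.region
    exact Finset.singleton_biUnion
  have e3 : (v ∈ Γ'.sites g {κ}) ↔ domPos (D := g.region Γ'.T) (cut := Γ'.cutB g) v ∈ g.cell κ := by
    unfold CGeom.sites domSet
    rw [e2]
    exact Iff.rfl
  rw [e1, e2]
  by_cases h : domPos (D := g.region Γ'.T) (cut := Γ'.cutB g) v ∈ g.cell κ
  · rw [if_pos (e3.2 h), if_pos h]
  · rw [if_neg (fun h' => h (e3.1 h')), if_neg h]

/-- **L-PG-8** (~200 l.).  The band law of helper249 is the law without rows plus the soft rows of the fine cells of the band.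
`∑_o B o x B o y`: `Equiv.sum_comp finProdFinEquiv`, only the cells of `S23.fine s Kb` contribute, `B = (√lam / s) avg`;   right side: `Fintype.sum_sum_type`, no row of the first kind, `Equiv.sum_comp (Finset.equivFin _)`, `Finset.sum_coe_sort`. -/
theorem pn_pg_band_eqv (s : ℕ) (Γ : CGeom n₁ n₂) (g' : DGrid (s * n₁) (s * n₂)) {Kb : Finset (Cell n₁ n₂)} (hK : Kb ⊆ Γ.T) (lam : ℝ) :
    psEqv (lawR (S23.refine s Γ) g' (shRow s Kb lam))
      (psAdd (lawR (S23.refine s Γ) g' C3.noRow)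
        (psSoftD (D := g'.region (S23.refine s Γ).T) (cut := (S23.refine s Γ).cutB g') (pgBoxes g' (S23.fine s Kb)) fun _ => Real.sqrt lam / s)) := by
  intro x y
  obtain ⟨r, hr⟩ : ∃ r : ℝ, r = Real.sqrt lam / s := ⟨_, rfl⟩
  obtain ⟨P, hP⟩ : ∃ P : ((S23.refine s Γ).graph g').V → ℤ × ℤ,
      P = domPos (D := g'.region (S23.refine s Γ).T) (cut := (S23.refine s Γ).cutB g') := ⟨_, rfl⟩
  have hL : ∀ (o : Fin ((s * n₁) * (s * n₂))) (v : ((S23.refine s Γ).graph g').V),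
      (lawR (S23.refine s Γ) g' (shRow s Kb lam)).B o v
        = if S23.coarse s (finProdFinEquiv.symm o) ∈ Kb then r * psAvg (g'.cell (finProdFinEquiv.symm o)) (P v) else 0 := by
    intro o v
    show ∑ κ, shRow s Kb lam o κ * (S23.refine s Γ).avgRow g' {κ} v = _
    rw [Finset.sum_eq_single (finProdFinEquiv.symm o)]
    · unfold shRow
      by_cases h : S23.coarse s (finProdFinEquiv.symm o) ∈ Kb
      · have hT : finProdFinEquiv.symm o ∈ (S23.refine s Γ).T := by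
          show _ ∈ S23.fine s Γ.T
          unfold S23.fine
          exact Finset.mem_filter.2 ⟨Finset.mem_univ _, hK h⟩
        rw [if_pos ⟨rfl, h⟩, if_pos h, pn_pg_8_avg _ _ _ hT, hr, hP]
      · rw [if_neg (fun h' => h h'.2), if_neg h, zero_mul]
    · intro κ _ hne
      unfold shRow
      rw [if_neg (fun h' => hne h'.1), zero_mul]
    · intro h
      exact absurd (Finset.mem_univ _) h
  have hLs : ∑ o, (lawR (S23.refine s Γ) g' (shRow s Kb lam)).B o x * (lawR (S23.refine s Γ) g' (shRow s Kb lam)).B o y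
      = ∑ κ ∈ S23.fine s Kb, (r * psAvg (g'.cell κ) (P x)) * (r * psAvg (g'.cell κ) (P y)) := by
    show ∑ o : Fin ((s * n₁) * (s * n₂)), _ = _
    simp only [hL]
    rw [Equiv.sum_comp finProdFinEquiv.symm (fun κ : Fin (s * n₁) × Fin (s * n₂) =>
      (if S23.coarse s κ ∈ Kb then r * psAvg (g'.cell κ) (P x) else 0) * (if S23.coarse s κ ∈ Kb then r * psAvg (g'.cell κ) (P y) else 0))]
    unfold S23.fine
    rw [Finset.sum_filter]
    refine Finset.sum_congr rfl fun κ _ => ?_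
    by_cases h : S23.coarse s κ ∈ Kb
    · rw [if_pos h, if_pos h, if_pos h]
    · rw [if_neg h, if_neg h, if_neg h, zero_mul]
  rw [hLs]
  show _ = ∑ o : Fin 0 ⊕ Fin (S23.fine s Kb).card,
    Sum.elim (lawR (S23.refine s Γ) g' C3.noRow).B
      (psSoftD (D := g'.region (S23.refine s Γ).T) (cut := (S23.refine s Γ).cutB g') (pgBoxes g' (S23.fine s Kb)) fun _ => Real.sqrt lam / s) o x
    * Sum.elim (lawR (S23.refine s Γ) g' C3.noRow).B
      (psSoftD (D := g'.region (S23.refine s Γ).T) (cut := (S23.refine s Γ).cutB g') (pgBoxes g' (S23.fine s Kb)) fun _ => Real.sqrt lam / s) o y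
  rw [Fintype.sum_sum_type, Finset.univ_eq_empty, Finset.sum_empty, zero_add]
  have hR : ∀ (d : Fin (S23.fine s Kb).card) (v : ((S23.refine s Γ).graph g').V),
      psSoftD (D := g'.region (S23.refine s Γ).T) (cut := (S23.refine s Γ).cutB g') (pgBoxes g' (S23.fine s Kb)) (fun _ => Real.sqrt lam / s) d v
        = r * psAvg (g'.cell ((S23.fine s Kb).equivFin.symm d).1) (P v) := by
    intro d v
    unfold psSoftD pgBoxes
    rw [pn_pg_box_set, hr, hP]
  show _ = ∑ d : Fin (S23.fine s Kb).card,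
    psSoftD (D := g'.region (S23.refine s Γ).T) (cut := (S23.refine s Γ).cutB g') (pgBoxes g' (S23.fine s Kb)) (fun _ => Real.sqrt lam / s) d x
    * psSoftD (D := g'.region (S23.refine s Γ).T) (cut := (S23.refine s Γ).cutB g') (pgBoxes g' (S23.fine s Kb)) (fun _ => Real.sqrt lam / s) d y
  simp only [hR]
  rw [Equiv.sum_comp (S23.fine s Kb).equivFin.symm (fun κ : {κ // κ ∈ S23.fine s Kb} =>
    (r * psAvg (g'.cell κ.1) (P x)) * (r * psAvg (g'.cell κ.1) (P y))),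
    Finset.sum_coe_sort (S23.fine s Kb) (fun κ => (r * psAvg (g'.cell κ) (P x)) * (r * psAvg (g'.cell κ) (P y)))]

end

end Claimed.Agent.R285.Pins
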