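import Claimed.Agent.R285.Pins.ReachDefs
import Claimed.Agent.R285.Pins.TiltSys
import Claimed.Agent.R285.Pins.TiltFlow
import Claimed.Agent.R285.Rsd.KitGraph

/-!
# ROW 285, PINS: THE BRIDGE  height sums of `FkDefs` with rows  ↔  `LSys`   (architect helper121; for ALL of `Pins/Plan.lean` s3-s7: REACH, CLUS2, CR, K1, K2)

One finite graph `G`, a law with rows `H : HLaw G`, `H.Λ = pinned Q`, `H.Proper`, `(H.sys b).Ok`.
* `rhHt H hP b z`  : the height of a lattice point;      `rhLf H hP b f` : THE lift of `h ↦ lin f h` (`RLift`; unique);    `H.Lift b f₀ X ↔ X = rhLf H hP b (rhT f₀)`;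
* `pn_br_lf_st`    : a test which is a flow (on functions vanishing on a subset of the pins) plus a combination of the rows is `pnSt _ t s` (helper64's statistic: all lemmas of `TiltRef/TiltFlow` apply);
* `pn_br_bare`     : `bare G β' Q (φ · rhW H) = Zf 0 (φ ∘ rhHt)` in `(H.sys b).atb β'`;       `pn_br_prior(_N)`: the same for `rhI`, `rhN` (functions of the height only);
* CENTRED POSTERIORS `rhNu H b U β' = ((H.addPin U).sys b).atb β'`, `rhPHt`, `rhPLf`;     `pn_br_W_split`: `W(u+k) = W(u) e^{L_u(k)} W(k)`;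
* **`pn_br_post`** : THE exit for posterior inequalities: `Ev 0 L_u F₁ ≤ Ev 0 L_u F₂` in `rhNu` ⟹ the hypothesis `hpost` of `pn_rch_transfer`;
* comparison with the prior and between posteriors: `rhRef`, `pn_br_phi_mono`, `pn_br_var_mono`, `pn_br_mgf_mono`.
Every `sorry` is a leaf (L-BR-*); statements frozen: if one is wrong tell helper121.
-/

set_option autoImplicit false

namespace Claimed.Agent.R285.Pins

open scoped Classical ENNReal

noncomputable section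

variable {G : HGraph}

/-! ## 1. heights and lattice points -/

section Lat

variable (H : HLaw G) (hP : H.Proper) (b : ℝ)

/-- the constraint lattice and its image -/
def rhEqv : H.Λ ≃+ (H.sys b).L := AddEquiv.ofBijective (Rsd.coordL H b) (Rsd.coordL_bijective H hP b)

/-- the height of a lattice point -/
def rhHt (z : (H.sys b).L) : G.V → ℤ := ((rhEqv H hP b).symm z : G.V → ℤ)

/-- THE lift of the statistic `h ↦ lin f h` -/
def rhLf (f : G.V → ℝ) : (H.sys b).L →+ ℝ :=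
  (linHom G f).comp (H.Λ.subtype.comp (rhEqv H hP b).symm.toAddMonoidHom)

theorem pn_br_ht_mem (z : (H.sys b).L) : rhHt H hP b z ∈ H.Λ := ((rhEqv H hP b).symm z).2

theorem pn_br_ht_coord (z : (H.sys b).L) : H.coordA b (rhHt H hP b z) = (z : (H.sys b).Amb) :=
  congrArg Subtype.val ((rhEqv H hP b).apply_symm_apply z)

theorem pn_br_ht_of (h : G.V → ℤ) (hh : h ∈ H.Λ) : rhHt H hP b ⟨H.coordA b h, H.coordA_mem b hh⟩ = h :=
  congrArg Subtype.val ((rhEqv H hP b).symm_apply_apply ⟨h, hh⟩)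

theorem pn_br_ht_neg (z : (H.sys b).L) : rhHt H hP b (-z) = - rhHt H hP b z := by
  unfold rhHt
  rw [map_neg]
  rfl

theorem pn_br_ht_add (z z' : (H.sys b).L) : rhHt H hP b (z + z') = rhHt H hP b z + rhHt H hP b z' := by
  unfold rhHt
  rw [map_add]
  rfl

theorem pn_br_lf_apply (f : G.V → ℝ) (z : (H.sys b).L) : rhLf H hP b f z = lin f (rhHt H hP b z) := rfl

theorem pn_br_lf_rlift (f : G.V → ℝ) : RLift H b f (rhLf H hP b f) := by
  intro h hh
  rw [pn_br_lf_apply, pn_br_ht_of H hP b h hh]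

theorem pn_br_rlift_unique (f : G.V → ℝ) (X : (H.sys b).L →+ ℝ) (hX : RLift H b f X) : X = rhLf H hP b f := by
  ext z
  have h1 := hX (rhHt H hP b z) (pn_br_ht_mem H hP b z)
  rw [pn_br_lf_apply, ← h1]
  congr 1
  exact Subtype.ext (pn_br_ht_coord H hP b z).symm

theorem pn_br_lin_rhT (f₀ : G.V → ℝ) (h : G.V → ℤ) : lin (rhT f₀) h = ∑ x, f₀ x * (2 * Real.pi * (h x : ℝ)) := by
  unfold lin rhT
  exact Finset.sum_congr rfl fun x _ => by ring

theorem pn_br_lift_iff (f₀ : G.V → ℝ) (X : (H.sys b).L →+ ℝ) : H.Lift b f₀ X ↔ RLift H b (rhT f₀) X := by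
  unfold HLaw.Lift RLift
  simp only [pn_br_lin_rhT]

/-- a `Lift` of the base vocabulary is the canonical lift -/
theorem pn_br_lift_eq (f₀ : G.V → ℝ) (X : (H.sys b).L →+ ℝ) (hX : H.Lift b f₀ X) : X = rhLf H hP b (rhT f₀) :=
  pn_br_rlift_unique H hP b _ X ((pn_br_lift_iff H b f₀ X).1 hX)

theorem pn_br_lift_lf (f₀ : G.V → ℝ) : H.Lift b f₀ (rhLf H hP b (rhT f₀)) :=
  (pn_br_lift_iff H b f₀ _).2 (pn_br_lf_rlift H hP b _)

theorem pn_br_lf_add (f g : G.V → ℝ) : rhLf H hP b (f + g) = rhLf H hP b f + rhLf H hP b g := by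
  ext z
  simp only [AddMonoidHom.add_apply, pn_br_lf_apply, lin, Pi.add_apply, add_mul, Finset.sum_add_distrib]

theorem pn_br_lf_smul (c : ℝ) (f : G.V → ℝ) : rhLf H hP b (c • f) = c • rhLf H hP b f := by
  ext z
  simp only [AddMonoidHom.smul_apply, pn_br_lf_apply, lin, Pi.smul_apply, smul_eq_mul, Finset.mul_sum, mul_assoc]

/-- the rows are the Gaussian coordinates -/
theorem pn_br_row (h : G.V → ℤ) (o : H.O) : (H.coordA b h).2 o = rhRow H h o := rfl

/-- L-BR-1.  **flows + rows**: `f = (flow t on functions vanishing on U') + ∑_o s_o (2π B_o)`, `U'` contained in the pins.   (`v := ` the real height of `z`; `IsFlow`; `pn_br_ht_coord`.) -/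
theorem pn_br_lf_st (Q : Set G.V) (hΛ : H.Λ = HLaw.pinned Q) (U' : Set G.V) (hU : U' ⊆ Q) (f : G.V → ℝ) (t : G.E → ℝ) (s : H.O → ℝ)
    (hf : IsFlow G U' (fun x => f x - ∑ o, s o * rhT (H.B o) x) t) : rhLf H hP b f = pnSt (H.sys b) t s := by
  ext z
  have hmem : rhHt H hP b z ∈ HLaw.pinned Q := hΛ ▸ pn_br_ht_mem H hP b z
  have hc := pn_br_ht_coord H hP b z
  set h := rhHt H hP b z with hh
  have h1 := hf (fun x => (h x : ℝ)) (fun x hx => by
    have : h x = 0 := hmem x (hU hx)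
    simp [this])
  have hz1 : ∀ e : G.E, (z : (H.sys b).Amb).1 e = h (G.tgt e) - h (G.src e) := fun e => by
    rw [← hc]
    rfl
  have hz2 : ∀ o : H.O, (z : (H.sys b).Amb).2 o = ∑ x, H.B o x * (2 * Real.pi * (h x : ℝ)) := fun o => by
    rw [← hc]
    rfl
  have e0 : pnSt (H.sys b) t s z = ∑ e : G.E, t e * ((((z : (H.sys b).Amb).1 e : ℤ)) : ℝ)
      + ∑ o : H.O, s o * (z : (H.sys b).Amb).2 o := rfl
  have e1 : ∑ e : G.E, t e * ((((z : (H.sys b).Amb).1 e : ℤ)) : ℝ)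
      = ∑ e : G.E, t e * ((h (G.tgt e) : ℝ) - (h (G.src e) : ℝ)) := by
    refine Finset.sum_congr rfl fun e _ => ?_
    rw [hz1 e]
    push_cast
    rfl
  have e2 : ∑ o : H.O, s o * (z : (H.sys b).Amb).2 o
      = ∑ x, (∑ o : H.O, s o * rhT (H.B o) x) * (h x : ℝ) := by
    calc ∑ o : H.O, s o * (z : (H.sys b).Amb).2 o
        = ∑ o : H.O, ∑ x, s o * (H.B o x * (2 * Real.pi * (h x : ℝ))) := by
          refine Finset.sum_congr rfl fun o _ => ?_
          rw [hz2 o, Finset.mul_sum]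
      _ = ∑ x, ∑ o : H.O, s o * (H.B o x * (2 * Real.pi * (h x : ℝ))) := Finset.sum_comm
      _ = _ := by
          refine Finset.sum_congr rfl fun x _ => ?_
          rw [Finset.sum_mul]
          refine Finset.sum_congr rfl fun o _ => ?_
          unfold rhT
          ring
  rw [pn_br_lf_apply, e0, e1, e2, ← h1, ← Finset.sum_add_distrib, ← hh]
  unfold lin
  refine Finset.sum_congr rfl fun x _ => ?_
  ring

end Lat

/-! ## 2. sums -/

section Sums

variable (H : HLaw G) (Q : Set G.V) (hΛ : H.Λ = HLaw.pinned Q) (hP : H.Proper) (b : ℝ)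

theorem pn_br_atb_ok (hOk : (H.sys b).Ok) (β' : G.E → ℝ) (hβ : ∀ e, 0 < β' e) : ((H.sys b).atb β').Ok := ⟨hβ, hOk.2⟩

/-- L-BR-2.  the weight -/
theorem pn_br_W (β' : G.E → ℝ) (k : G.V → ℤ) : ((H.sys b).atb β').W (H.coordA b k) = bareW G β' k * rhW H k := by
  rfl

include hΛ hP in
/-- L-BR-3.  **the bridge for sums**.   (`rhEqv` + `hΛ`: reindex the `tsum`; `pn_br_W`; `ENNReal.ofReal_tsum_of_nonneg` with `rd_dom_summable`.) -/
theorem pn_br_bare (hOk : (H.sys b).Ok) (β' : G.E → ℝ) (hβ : ∀ e, 0 < β' e) (φ : (G.V → ℤ) → ℝ) (hφ : ∀ k, 0 ≤ φ k)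
    (hd : ((H.sys b).atb β').Dom fun z => φ (rhHt H hP b z)) :
    bare G β' Q (fun k => ENNReal.ofReal (φ k) * ENNReal.ofReal (rhW H k))
      = ENNReal.ofReal (((H.sys b).atb β').Zf 0 fun z => φ (rhHt H hP b z)) := by
  have hOk' := pn_br_atb_ok H b hOk β' hβ
  unfold LSys.Zf
  rw [ENNReal.ofReal_tsum_of_nonneg (fun z => mul_nonneg (hφ _) (rd_W_pos hOk' _).le) (rd_dom_summable hOk' hd 0)]
  unfold bare
  rw [← hΛ]
  have e := (rhEqv H hP b).toEquiv.tsum_eq (fun z : ((H.sys b).atb β').L =>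
    ENNReal.ofReal (φ (rhHt H hP b z) * ((H.sys b).atb β').W ((z : ((H.sys b).atb β').Amb) + 0)))
  refine Eq.trans ?_ e
  refine tsum_congr fun h => ?_
  have e1 : rhHt H hP b ((rhEqv H hP b).toEquiv h) = (h : G.V → ℤ) := by
    unfold rhHt
    simp
  have e2 : ((H.sys b).atb β').W ((((show ((H.sys b).atb β').L from (rhEqv H hP b).toEquiv h) : ((H.sys b).atb β').L) : ((H.sys b).atb β').Amb) + 0)
      = bareW G β' (h : G.V → ℤ) * rhW H (h : G.V → ℤ) := by
    rw [add_zero]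
    exact pn_br_W H b β' (h : G.V → ℤ)
  show _ = ENNReal.ofReal (φ (rhHt H hP b ((rhEqv H hP b).toEquiv h)) *
    ((H.sys b).atb β').W ((((show ((H.sys b).atb β').L from (rhEqv H hP b).toEquiv h) : ((H.sys b).atb β').L) : ((H.sys b).atb β').Amb) + 0))
  have hW0 : 0 ≤ rhW H (h : G.V → ℤ) := (Real.exp_pos _).le
  rw [e1, e2, ENNReal.ofReal_mul (hφ _), mul_comm (bareW G β' _), ENNReal.ofReal_mul hW0, mul_assoc]

include hΛ hP in
/-- L-BR-4.  the prior law: unnormalised (`pn_fk_marginal`, `pn_br_bare` with `β' = b`) -/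
theorem pn_br_prior (hb : 0 < b) (hOk : (H.sys b).Ok) (φ : (G.V → ℤ) → ℝ) (hφ : ∀ k, 0 ≤ φ k)
    (hd : (H.sys b).Dom fun z => φ (rhHt H hP b z)) :
    rhI H b Q (fun h _ => ENNReal.ofReal (φ h)) = ENNReal.ofReal ((H.sys b).Zf 0 fun z => φ (rhHt H hP b z)) := by
  unfold rhI
  rw [pn_fk_marginal G (fun _ => b) (fun _ => hb.le) Q (fun h => ENNReal.ofReal (φ h) * ENNReal.ofReal (rhW H h))]
  exact pn_br_bare H Q hΛ hP b hOk (fun _ => b) (fun _ => hb) φ hφ hd

include hΛ hP in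
/-- L-BR-4.  the normalisation is finite and positive -/
theorem pn_br_norm (hb : 0 < b) (hOk : (H.sys b).Ok) :
    rhI H b Q (fun _ _ => 1) = ENNReal.ofReal ((H.sys b).w 0) ∧ rhI H b Q (fun _ _ => 1) ≠ 0 ∧ rhI H b Q (fun _ _ => 1) ≠ ∞ := by
  have h := pn_br_prior H Q hΛ hP b hb hOk (fun _ => 1) (fun _ => zero_le_one) (rd_dom_const 1)
  simp only [ENNReal.ofReal_one] at h
  have h' : rhI H b Q (fun _ _ => 1) = ENNReal.ofReal ((H.sys b).w 0) := h
  refine ⟨h', ?_, ?_⟩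
  · rw [h']
    exact (ENNReal.ofReal_pos.2 (rd_w_pos hOk 0)).ne'
  · rw [h']
    exact ENNReal.ofReal_ne_top

include hΛ hP in
/-- L-BR-4.  the prior law: normalised -/
theorem pn_br_prior_N (hb : 0 < b) (hOk : (H.sys b).Ok) (φ : (G.V → ℤ) → ℝ) (hφ : ∀ k, 0 ≤ φ k)
    (hd : (H.sys b).Dom fun z => φ (rhHt H hP b z)) :
    rhN H b Q (fun h _ => ENNReal.ofReal (φ h)) = ENNReal.ofReal ((H.sys b).E0 fun z => φ (rhHt H hP b z)) := by
  unfold rhN
  rw [pn_br_prior H Q hΛ hP b hb hOk φ hφ hd, (pn_br_norm H Q hΛ hP b hb hOk).1, rd_E0_eq,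
    ENNReal.ofReal_div_of_pos (rd_w_pos hOk 0)]

end Sums

/-! ## 3. the centred posteriors -/

section Post

variable (H : HLaw G)

theorem pn_br_addPin_lam (P U : Set G.V) (hΛ : H.Λ = HLaw.pinned P) : (H.addPin U).Λ = HLaw.pinned (P ∪ U) := by
  show H.Λ ⊓ HLaw.pinned U = _
  rw [hΛ]
  ext h
  constructor
  · rintro ⟨h1, h2⟩ v (hv | hv)
    · exact h1 v hv
    · exact h2 v hv
  · intro h1
    exact ⟨fun v hv => h1 v (Or.inl hv), fun v hv => h1 v (Or.inr hv)⟩

theorem pn_br_addPin_proper (hP : H.Proper) (U : Set G.V) : (H.addPin U).Proper := fun h hh h0 => hP h hh.1 h0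

/-- L-BR-5.  (`lsys_ok_sub` with `M := ((H.addPin U).sys b).L`: `Ok` depends only on the temperatures and on the lattice.) -/
theorem pn_br_addPin_ok (b : ℝ) (hOk : (H.sys b).Ok) (U : Set G.V) : ((H.addPin U).sys b).Ok := by
  have hle : ((H.addPin U).sys b).L ≤ (H.sys b).L := by
    rintro z ⟨h, hh, rfl⟩
    exact ⟨h, hh.1, rfl⟩
  obtain ⟨hb, n, v, hv, hL⟩ := lsys_ok_sub (H.sys b) hOk ((H.addPin U).sys b).L
  refine ⟨hb, n, v, hv, ?_⟩
  have e : ((H.sys b).sub ((H.addPin U).sys b).L).L = ((H.addPin U).sys b).L := inf_eq_right.2 hle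
  rw [← e]
  exact hL

theorem pn_br_W_addPin (U : Set G.V) (k : G.V → ℤ) : rhW (H.addPin U) k = rhW H k := rfl

/-- the centred posterior `ν(β',U)` -/
abbrev rhNu (b : ℝ) (U : Set G.V) (β' : G.E → ℝ) : LSys := ((H.addPin U).sys b).atb β'

theorem pn_br_nu_ok (b : ℝ) (hOk : (H.sys b).Ok) (U : Set G.V) (β' : G.E → ℝ) (hβ : ∀ e, 0 < β' e) : (rhNu H b U β').Ok :=
  pn_br_atb_ok (H.addPin U) b (pn_br_addPin_ok H b hOk U) β' hβ

/-- the height of a point of the posterior lattice -/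
def rhPHt (hP : H.Proper) (b : ℝ) (U : Set G.V) (β' : G.E → ℝ) (z : (rhNu H b U β').L) : G.V → ℤ :=
  rhHt (H.addPin U) (pn_br_addPin_proper H hP U) b z

/-- the lift of `k ↦ lin f k` to the posterior lattice -/
def rhPLf (hP : H.Proper) (b : ℝ) (U : Set G.V) (β' : G.E → ℝ) (f : G.V → ℝ) : (rhNu H b U β').L →+ ℝ :=
  rhLf (H.addPin U) (pn_br_addPin_proper H hP U) b f

theorem pn_br_plf_apply (hP : H.Proper) (b : ℝ) (U : Set G.V) (β' : G.E → ℝ) (f : G.V → ℝ) (z : (rhNu H b U β').L) :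
    rhPLf H hP b U β' f z = lin f (rhPHt H hP b U β' z) := rfl

theorem pn_br_pht_neg (hP : H.Proper) (b : ℝ) (U : Set G.V) (β' : G.E → ℝ) (z : (rhNu H b U β').L) :
    rhPHt H hP b U β' (-z) = - rhPHt H hP b U β' z := pn_br_ht_neg (H.addPin U) _ b z

/-- the heights of the posterior lattice vanish on `U` -/
theorem pn_br_pht_zero (hP : H.Proper) (b : ℝ) (U : Set G.V) (β' : G.E → ℝ) (z : (rhNu H b U β').L) (x : G.V) (hx : x ∈ U) :
    rhPHt H hP b U β' z x = 0 := (pn_br_ht_mem (H.addPin U) _ b z).2 x hx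

/-- flows + rows on the posterior lattice (`pn_br_lf_st`) -/
theorem pn_br_plf_st (P : Set G.V) (hΛ : H.Λ = HLaw.pinned P) (hP : H.Proper) (b : ℝ) (U : Set G.V) (β' : G.E → ℝ) (f : G.V → ℝ)
    (t : G.E → ℝ) (s : H.O → ℝ) (hf : IsFlow G U (fun x => f x - ∑ o, s o * rhT (H.B o) x) t) :
    rhPLf H hP b U β' f = pnSt (rhNu H b U β') t s :=
  pn_br_lf_st (H.addPin U) _ b (P ∪ U) (pn_br_addPin_lam H P U hΛ) U Set.subset_union_right f t s hf

/-- flows on the posterior lattice -/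
theorem pn_br_plf_flow (P : Set G.V) (hΛ : H.Λ = HLaw.pinned P) (hP : H.Proper) (b : ℝ) (U : Set G.V) (β' : G.E → ℝ) (f : G.V → ℝ)
    (t : G.E → ℝ) (hf : IsFlow G U f t) : rhPLf H hP b U β' f = pnSt (rhNu H b U β') t 0 := by
  refine pn_br_plf_st H P hΛ hP b U β' f t 0 ?_
  simpa using hf

theorem pn_br_row_add (u k : G.V → ℤ) (o : H.O) : rhRow H (u + k) o = rhRow H u o + rhRow H k o := by
  unfold rhRow HLaw.obs rhPhy
  rw [← Finset.sum_add_distrib]
  refine Finset.sum_congr rfl fun x _ => ?_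
  simp only [Pi.add_apply]
  push_cast
  ring

/-- L-BR-6.  splitting of the penalty weight: `W(u+k) = W(u) e^{L_u(k)} W(k)` -/
theorem pn_br_W_split (u k : G.V → ℤ) :
    rhW H (u + k) = rhW H u * Real.exp (lin (rhT (rhTilt H u)) k) * rhW H k := by
  unfold rhW
  rw [← Real.exp_add, ← Real.exp_add]
  congr 1
  have e1 : lin (rhT (rhTilt H u)) k = - ∑ o, rhRow H u o * rhRow H k o := by
    unfold lin rhT rhTilt
    have : ∀ o, rhRow H u o * rhRow H k o = ∑ x, rhRow H u o * (H.B o x * (2 * Real.pi * (k x : ℝ))) := fun o => by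
      rw [← Finset.mul_sum]
      rfl
    simp only [this]
    rw [Finset.sum_comm, ← Finset.sum_neg_distrib]
    refine Finset.sum_congr rfl fun x _ => ?_
    rw [mul_neg, neg_mul, Finset.mul_sum, Finset.sum_mul]
    congr 1
    refine Finset.sum_congr rfl fun o _ => ?_
    ring
  have e2 : ∑ o, rhRow H (u + k) o ^ 2 = ∑ o, rhRow H u o ^ 2 + 2 * ∑ o, rhRow H u o * rhRow H k o + ∑ o, rhRow H k o ^ 2 := by
    rw [Finset.mul_sum, ← Finset.sum_add_distrib, ← Finset.sum_add_distrib]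
    refine Finset.sum_congr rfl fun o _ => ?_
    rw [pn_br_row_add]
    ring
  rw [e1, e2]
  ring

/-- L-BR-7.  unnormalised posterior sums with the remaining tilt (`pn_br_W_split`, `pn_br_bare` for `H.addPin U`, `Q = P ∪ U`, `φ := φ · e^{L_u}`; `rd_dom_mul`, `rd_dom_exp`) -/
theorem pn_br_post_eq (P : Set G.V) (hΛ : H.Λ = HLaw.pinned P) (hP : H.Proper) (b : ℝ) (hOk : (H.sys b).Ok) (U : Set G.V) (u : G.V → ℤ)
    (β' : G.E → ℝ) (hβ : ∀ e, 0 < β' e) (φ : (G.V → ℤ) → ℝ) (hφ : ∀ k, 0 ≤ φ k)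
    (hd : (rhNu H b U β').Dom fun z => φ (rhPHt H hP b U β' z)) :
    bare G β' (P ∪ U) (fun k => ENNReal.ofReal (φ k) * ENNReal.ofReal (rhW H (u + k)))
      = ENNReal.ofReal (rhW H u) * ENNReal.ofReal ((rhNu H b U β').wT 0 (rhPLf H hP b U β' (rhT (rhTilt H u))))
        * ENNReal.ofReal ((rhNu H b U β').Ev 0 (rhPLf H hP b U β' (rhT (rhTilt H u))) fun z => φ (rhPHt H hP b U β' z)) := by
  have hOkN := pn_br_nu_ok H b hOk U β' hβ
  set Y := rhPLf H hP b U β' (rhT (rhTilt H u)) with hY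
  have hT : 0 < (rhNu H b U β').wT 0 Y := lsys_pos _ hOkN 0 Y
  have hW0 : ∀ k, 0 ≤ rhW H k := fun k => (Real.exp_pos _).le
  -- the bridge for `φ e^L`
  have hd' : (rhNu H b U β').Dom fun z => φ (rhPHt H hP b U β' z) * Real.exp (lin (rhT (rhTilt H u)) (rhPHt H hP b U β' z)) :=
    rd_dom_mul hd (rd_dom_exp Y)
  have hbr := pn_br_bare (H.addPin U) (P ∪ U) (pn_br_addPin_lam H P U hΛ) (pn_br_addPin_proper H hP U) b
    (pn_br_addPin_ok H b hOk U) β' hβ (fun k => φ k * Real.exp (lin (rhT (rhTilt H u)) k))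
    (fun k => mul_nonneg (hφ k) (Real.exp_pos _).le) hd'
  have e1 : bare G β' (P ∪ U) (fun k => ENNReal.ofReal (φ k) * ENNReal.ofReal (rhW H (u + k)))
      = ENNReal.ofReal (rhW H u) * bare G β' (P ∪ U) (fun k => ENNReal.ofReal (φ k * Real.exp (lin (rhT (rhTilt H u)) k))
          * ENNReal.ofReal (rhW (H.addPin U) k)) := by
    unfold bare
    rw [← ENNReal.tsum_mul_left]
    refine tsum_congr fun k => ?_
    simp only
    rw [pn_br_W_split, pn_br_W_addPin, ENNReal.ofReal_mul (mul_nonneg (hW0 _) (Real.exp_pos _).le),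
      ENNReal.ofReal_mul (hW0 _), ENNReal.ofReal_mul (hφ _)]
    ring
  rw [e1, hbr, mul_assoc, ← ENNReal.ofReal_mul hT.le]
  congr 2
  unfold LSys.Ev
  rw [mul_div_cancel₀ _ hT.ne']
  rfl

/-- **THE EXIT for posterior inequalities**: an inequality between tilted expectations in the centred posterior is the hypothesis `hpost` of `pn_rch_transfer`. -/
theorem pn_br_post (P : Set G.V) (hΛ : H.Λ = HLaw.pinned P) (hP : H.Proper) (b : ℝ) (hOk : (H.sys b).Ok) (U : Set G.V) (u : G.V → ℤ)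
    (β' : G.E → ℝ) (hβ : ∀ e, 0 < β' e) (φ₁ φ₂ : (G.V → ℤ) → ℝ) (h₁ : ∀ k, 0 ≤ φ₁ k) (h₂ : ∀ k, 0 ≤ φ₂ k)
    (d₁ : (rhNu H b U β').Dom fun z => φ₁ (rhPHt H hP b U β' z)) (d₂ : (rhNu H b U β').Dom fun z => φ₂ (rhPHt H hP b U β' z))
    (hle : (rhNu H b U β').Ev 0 (rhPLf H hP b U β' (rhT (rhTilt H u))) (fun z => φ₁ (rhPHt H hP b U β' z))
      ≤ (rhNu H b U β').Ev 0 (rhPLf H hP b U β' (rhT (rhTilt H u))) fun z => φ₂ (rhPHt H hP b U β' z)) :
    bare G β' (P ∪ U) (fun k => ENNReal.ofReal (φ₁ k) * ENNReal.ofReal (rhW H (u + k)))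
      ≤ bare G β' (P ∪ U) (fun k => ENNReal.ofReal (φ₂ k) * ENNReal.ofReal (rhW H (u + k))) := by
  rw [pn_br_post_eq H P hΛ hP b hOk U u β' hβ φ₁ h₁ d₁, pn_br_post_eq H P hΛ hP b hOk U u β' hβ φ₂ h₂ d₂]
  exact mul_le_mul_right (ENNReal.ofReal_le_ofReal hle) _

/-! ## 4. comparison of the laws -/

/-- more pins are a refinement -/
def rhRef (b : ℝ) (A U : Set G.V) (hAU : A ⊆ U) : LSys.Ref ((H.addPin A).sys b) ((H.addPin U).sys b) where
  iE := Function.Embedding.refl _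
  iO := Function.Embedding.refl _
  hb := fun _ => rfl
  map_mem := by
    rintro z ⟨h, hh, rfl⟩
    exact ⟨h, ⟨hh.1, fun v hv => hh.2 v (hAU hv)⟩, rfl⟩

/-- pins are a refinement of the prior -/
def rhRef0 (b : ℝ) (U : Set G.V) : LSys.Ref (H.sys b) ((H.addPin U).sys b) where
  iE := Function.Embedding.refl _
  iO := Function.Embedding.refl _
  hb := fun _ => rfl
  map_mem := by
    rintro z ⟨h, hh, rfl⟩
    exact ⟨h, hh.1, rfl⟩

/-- L-BR-8.  lifts restrict to lifts -/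
theorem pn_br_ref_lf (hP : H.Proper) (b : ℝ) (A U : Set G.V) (hAU : A ⊆ U) (f : G.V → ℝ) :
    (rhLf (H.addPin A) (pn_br_addPin_proper H hP A) b f).comp (rhRef H b A U hAU).psi = rhLf (H.addPin U) (pn_br_addPin_proper H hP U) b f := by
  refine pn_br_rlift_unique (H.addPin U) (pn_br_addPin_proper H hP U) b f _ fun h hh => ?_
  have hh' : h ∈ (H.addPin A).Λ := ⟨hh.1, fun v hv => hh.2 v (hAU hv)⟩
  exact pn_br_lf_rlift (H.addPin A) (pn_br_addPin_proper H hP A) b f h hh'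

/-- L-BR-8. -/
theorem pn_br_ref0_lf (hP : H.Proper) (b : ℝ) (U : Set G.V) (f : G.V → ℝ) :
    (rhLf H hP b f).comp (rhRef0 H b U).psi = rhLf (H.addPin U) (pn_br_addPin_proper H hP U) b f := by
  refine pn_br_rlift_unique (H.addPin U) (pn_br_addPin_proper H hP U) b f _ fun h hh => ?_
  exact pn_br_lf_rlift H hP b f h hh.1

/-- L-BR-9.  characteristic coefficients: posterior ≥ prior (`lsys_phi_mono` along `rhRef0`, `lsys_phi_mono_b` from `β'` to `b`) -/
theorem pn_br_phi_mono (hP : H.Proper) (b : ℝ) (hOk : (H.sys b).Ok) (U : Set G.V) (β' : G.E → ℝ) (hβ : ∀ e, 0 < β' e ∧ β' e ≤ b) (f : G.V → ℝ) :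
    (H.sys b).phi (rhLf H hP b f) ≤ (rhNu H b U β').phi (rhPLf H hP b U β' f) := by
  have hU := pn_br_addPin_ok H b hOk U
  have h1 := lsys_phi_mono (rhRef0 H b U) hOk hU (rhLf H hP b f)
  rw [pn_br_ref0_lf H hP b U f] at h1
  have h2 := lsys_phi_mono_b (rhNu H b U β') (pn_br_nu_ok H b hOk U β' fun e => (hβ e).1) (fun _ => b) (fun e => (hβ e).2)
    (rhPLf H hP b U β' f)
  exact h1.trans h2

/-- L-BR-9.  variances: posterior ≤ law pinned on a subset, at temperature `b` (`lsys_var_mono` along `rhRef`, `lsys_var_mono_b`) -/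
theorem pn_br_var_mono (hP : H.Proper) (b : ℝ) (hOk : (H.sys b).Ok) (A U : Set G.V) (hAU : A ⊆ U) (β' : G.E → ℝ)
    (hβ : ∀ e, 0 < β' e ∧ β' e ≤ b) (f : G.V → ℝ) :
    (rhNu H b U β').V0 (rhPLf H hP b U β' f) ≤ ((H.addPin A).sys b).V0 (rhLf (H.addPin A) (pn_br_addPin_proper H hP A) b f) := by
  have hU := pn_br_addPin_ok H b hOk U
  have hA := pn_br_addPin_ok H b hOk A
  have h1 := lsys_var_mono (rhRef H b A U hAU) hA hU (rhLf (H.addPin A) (pn_br_addPin_proper H hP A) b f)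
  rw [pn_br_ref_lf H hP b A U hAU f] at h1
  have h2 := lsys_var_mono_b (rhNu H b U β') (pn_br_nu_ok H b hOk U β' fun e => (hβ e).1) (fun _ => b) (fun e => (hβ e).2)
    (rhPLf H hP b U β' f)
  exact h2.trans h1

/-- L-BR-9.  moment generating functions: posterior ≤ prior (`lsys_mgf_mono` along `rhRef0`, `lsys_mgf_mono_b`) -/
theorem pn_br_mgf_mono (hP : H.Proper) (b : ℝ) (hOk : (H.sys b).Ok) (U : Set G.V) (β' : G.E → ℝ) (hβ : ∀ e, 0 < β' e ∧ β' e ≤ b) (f : G.V → ℝ) :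
    (rhNu H b U β').E0 (fun z => Real.exp (rhPLf H hP b U β' f z)) ≤ (H.sys b).E0 fun z => Real.exp (rhLf H hP b f z) := by
  have hU := pn_br_addPin_ok H b hOk U
  have h1 := lsys_mgf_mono (rhRef0 H b U) hOk hU (rhLf H hP b f)
  have e : (fun z : ((H.addPin U).sys b).L => Real.exp (rhLf H hP b f ((rhRef0 H b U).psi z)))
      = fun z => Real.exp (rhLf (H.addPin U) (pn_br_addPin_proper H hP U) b f z) := by
    funext z
    rw [← pn_br_ref0_lf H hP b U f]
    rfl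
  rw [e] at h1
  have h2 := lsys_mgf_mono_b (rhNu H b U β') (pn_br_nu_ok H b hOk U β' fun e => (hβ e).1) (fun _ => b) (fun e => (hβ e).2)
    (rhPLf H hP b U β' f)
  exact h2.trans h1

/-- L-BR-10.  fourth moments of all posteriors through the prior transform: `x⁴ ≤ 24 (e^x + e^{-x})/2 · …` (`pn_pow_le_exp` with `p = 2`, `pn_br_mgf_mono` for `± f`; the transform is even) -/
theorem pn_br_m4 (hP : H.Proper) (b : ℝ) (hOk : (H.sys b).Ok) (U : Set G.V) (β' : G.E → ℝ) (hβ : ∀ e, 0 < β' e ∧ β' e ≤ b) (f : G.V → ℝ) :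
    (rhNu H b U β').E0 (fun z => rhPLf H hP b U β' f z ^ 4) ≤ 48 * (H.sys b).E0 fun z => Real.exp (rhLf H hP b f z) := by
  have hN := pn_br_nu_ok H b hOk U β' fun e => (hβ e).1
  set X := rhPLf H hP b U β' f with hX
  have h1 : (rhNu H b U β').E0 (fun z => X z ^ 4)
      ≤ (rhNu H b U β').E0 (fun z => 24 * (Real.exp (X z) + Real.exp ((-X) z))) := by
    refine rd_E0_mono hN (rd_dom_pow (rd_dom_test X) 4) (rd_dom_smul 24 (rd_dom_add (rd_dom_exp X) (rd_dom_exp (-X)))) fun z => ?_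
    have := pn_pow_le_exp (X z) 2
    norm_num [Nat.factorial] at this
    simpa using this
  have h2 : (rhNu H b U β').E0 (fun z => Real.exp ((-X) z)) = (rhNu H b U β').E0 (fun z => Real.exp (X z)) := by
    have := rd_E0_inv (S := rhNu H b U β') (fun z => Real.exp (X z))
    rw [← this]
    congr 1
    funext z
    simp
  rw [rd_E0_smul, rd_E0_add hN (rd_dom_exp X) (rd_dom_exp (-X)), h2] at h1
  have h3 := pn_br_mgf_mono H hP b hOk U β' hβ f
  rw [← hX] at h3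
  linarith

end Post

end

end Claimed.Agent.R285.Pins
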