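import Claimed.Agent.R285.Base.Geom
import Claimed.Agent.R285.Pins.AnDefs
import Claimed.Agent.R285.Pins.BandDefs

/-!
# ROW 285, PINS: COMMON VOCABULARY of `Pins/Plan.lean` s1-s7 (one finite graph) and definitions of REACH (architect helper121; chief of PINS helper235)

On top of `Pins/FkDefs.lean` (helper85); `gAdj` from `AnDefs` (helper80); `IsFlow, FlowLe, linA` from `BandDefs` (helper235).
* a law with rows `H : HLaw G` (`H.Λ = pinned P`); `rhW H h = exp(-½ |B(2π h)|²)` its penalty weight; `rhI H b P F` = unnormalised integral of `F(h,ω) ≥ 0` under the FK extension of the law (BAND LAW `μ` up to the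
  normalisation `rhI H b P 1`); `rhN` = normalised;
* tests act on the INTEGER height through `lin` (FkDefs); `rhT f` converts a test on the physical height `2π h`: `lin (rhT f) h = ⟨f, 2π h⟩`;
* exploration from `A`: `U = vis ω A`, exposed heights `u = rhU A h ω = resZ U h`, unexposed `k = rhK A h ω = resZ Uᶜ h`, `h = u + k`;
  `rhW H (u + k) = rhW H u · exp(L_u(k)) · rhW H k`, `L_u(k) = lin (rhT (rhTilt H u)) k` = the remaining linear tilt;
  `rhEps θ H u = θ ∑_o (B_o 2π u)²` = `ε²` (`θ = b w`);   `rhGd H T u` = REGIME of the exposed data;   `rhKap θ T H U u` = `κ` = total variation bound of the tilt;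
* `AConn A U`: every site of `U` is joined to `A` inside `U` (true for `U = vis ω A`);   `PostT b U β'`: admissible posterior temperatures;
* CENTRED POSTERIORS `ν(β',U)` = `((H.addPin U).sys b).atb β'` (bridge: `ReachPost.lean`);   `RLift H b f X`: `X` is the statistic `lin f` on the image lattice of `H`;
* `AncFlow H 𝒰 w t₁`: (AN2) for the remaining tilt, in flow form.
-/

set_option autoImplicit false

namespace Claimed.Agent.R285.Pins

open scoped Classical ENNReal

noncomputable section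

variable {G : HGraph}

/-- the physical height `2π h` -/
def rhPhy (h : G.V → ℤ) : G.V → ℝ := fun v => 2 * Real.pi * (h v : ℝ)

/-- a test on the physical height, read on the integer height: `lin (rhT f) h = ⟨f, 2π h⟩` -/
def rhT (f : G.V → ℝ) : G.V → ℝ := fun v => 2 * Real.pi * f v

/-- the value of the row `o` on the height `h` -/
def rhRow (H : HLaw G) (h : G.V → ℤ) (o : H.O) : ℝ := H.obs (rhPhy h) o

/-- the penalty weight `exp(-½ |B(2π h)|²)` -/
def rhW (H : HLaw G) (h : G.V → ℤ) : ℝ := Real.exp (-(∑ o, rhRow H h o ^ 2) / 2)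

/-- unnormalised integral under the FK extension of the law with pins `P` and the rows of `H`, at inverse temperature `b` -/
def rhI (H : HLaw G) (b : ℝ) (P : Set G.V) (F : (G.V → ℤ) → (G.E → Bool) → ℝ≥0∞) : ℝ≥0∞ :=
  ext G (fun _ => b) P fun h ω => F h ω * ENNReal.ofReal (rhW H h)

/-- normalised integral (expectation under the band law) -/
def rhN (H : HLaw G) (b : ℝ) (P : Set G.V) (F : (G.V → ℤ) → (G.E → Bool) → ℝ≥0∞) : ℝ≥0∞ :=
  rhI H b P F / rhI H b P fun _ _ => 1

/-- the remaining linear tilt after exposure of `u`, as a test on the physical height -/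
def rhTilt (H : HLaw G) (u : G.V → ℤ) : G.V → ℝ := fun x => - ∑ o, rhRow H u o * H.B o x

/-- `ε²` of the exposed data `u` -/
def rhEps (θ : ℝ) (H : HLaw G) (u : G.V → ℤ) : ℝ := θ * ∑ o, rhRow H u o ^ 2

/-- the regime of the exposed data -/
def rhGd (H : HLaw G) (T : ℝ) (u : G.V → ℤ) : Prop := ∀ o, |rhRow H u o| ≤ T

/-- `κ(u)`: total variation of the remaining tilt: `min 2 √(e^{4ε²} - 1)` (`≤ 4 ε`) in the regime, the trivial bound `2` outside -/
def rhKap (θ T : ℝ) (H : HLaw G) (_U : Set G.V) (u : G.V → ℤ) : ℝ :=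
  if rhGd H T u then min 2 (Real.sqrt (Real.exp (4 * rhEps θ H u) - 1)) else 2

/-- indicator with values in `ℝ≥0∞` -/
def rhInd (p : Prop) : ℝ≥0∞ := if p then 1 else 0

/-- `X` is the statistic `h ↦ lin f h` read on the image lattice (`H.Lift b f₀ X ↔ RLift H b (rhT f₀) X`) -/
def RLift (H : HLaw G) (b : ℝ) (f : G.V → ℝ) (X : (H.sys b).L →+ ℝ) : Prop :=
  ∀ (h : G.V → ℤ) (hh : h ∈ H.Λ), X ⟨H.coordA b h, H.coordA_mem b hh⟩ = lin f h

variable (G)

/-- `U ⊇ A` and every site of `U` is joined to `A` by a path of `G` inside `U` -/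
def AConn (A U : Set G.V) : Prop :=
  A ⊆ U ∧ ∀ v ∈ U, ∃ a ∈ A, Relation.ReflTransGen (fun x y => gAdj G x y ∧ y ∈ U) a v

/-- admissible boundary temperatures of a posterior -/
def PostT (b : ℝ) (U : Set G.V) (β' : G.E → ℝ) : Prop :=
  (∀ e, 0 < β' e ∧ β' e ≤ b) ∧ ∀ e, ¬ bdry G U e → β' e = b

/-- the exposed heights -/
def rhU (A : Set G.V) (h : G.V → ℤ) (ω : G.E → Bool) : G.V → ℤ := resZ G (vis G ω A) h

/-- the unexposed heights -/
def rhK (A : Set G.V) (h : G.V → ℤ) (ω : G.E → Bool) : G.V → ℤ := resZ G (vis G ω A)ᶜ h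

/-- the first-mass sum `∑_{C ∩ Ci ≠ ∅} M_C(f)`, as a site sum -/
def rhF1 (ω : G.E → Bool) (f : G.V → ℝ) (Ci : Set G.V) (h : G.V → ℤ) : ℝ :=
  ∑ x, if (clu G ω x ∩ Ci).Nonempty then f x * |(h x : ℝ)| else 0

/-- `∑_C M_C(f) κ(C)`, as a site sum; `kap U u` = a functional of an exposed set and of the exposed heights -/
def rhKs (kap : Set G.V → (G.V → ℤ) → ℝ) (f : G.V → ℝ) (h : G.V → ℤ) (ω : G.E → Bool) : ℝ :=
  ∑ x, f x * |(h x : ℝ)| * kap (vis G ω {x}) (rhU G {x} h ω)

/-- **the posterior cosine inequality** ((D1)/(D2) of the blueprint before the transfer; no `β'` on the right): after an exploration from `A` with visited set `U` and exposed heights `u`,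
`ν(e^L (1 - cos(f(u) + f(k)))) + γ 1[U meets B] ν(e^L) ≤ ((1 - q) + (1 - cos f(u)) + κ(U,u)) ν(e^L)`;   `q` = the PRIOR characteristic coefficient of `f`, `γ` = the gap. -/
def PostCos (H : HLaw G) (b : ℝ) (P A : Set G.V) (f : G.V → ℝ) (B : Set G.V) (q γ : ℝ) (kap : Set G.V → (G.V → ℤ) → ℝ) : Prop :=
  ∀ (U : Set G.V) (u : G.V → ℤ) (β' : G.E → ℝ), AConn G A U → (∀ x, x ∉ U → u x = 0) → PostT G b U β' →
    bare G β' (P ∪ U) (fun k => ENNReal.ofReal (1 - Real.cos (lin f u + lin f k) + (if (U ∩ B).Nonempty then γ else 0)) * ENNReal.ofReal (rhW H (u + k)))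
      ≤ bare G β' (P ∪ U) (fun k => ENNReal.ofReal ((1 - q) + (1 - Real.cos (lin f u)) + kap U u) * ENNReal.ofReal (rhW H (u + k)))

/-- **(AN2) for the remaining tilt, flow form**: for every visited set `U` of the class `𝒰` and all exposed data `u` (zero off `U`) with `|row_o u| ≤ M`, the tilt `L_u` is a flow on the functions vanishing on `U`,
of squared norm `≤ w ∑_o (row_o u)²` and sup norm `≤ t₁ M`.   (Producer: ANCHOR + geometry.) -/
def AncFlow (H : HLaw G) (𝒰 : Set (Set G.V)) (w t₁ : ℝ) : Prop :=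
  ∀ U ∈ 𝒰, ∀ u : G.V → ℤ, (∀ x, x ∉ U → u x = 0) → ∀ M : ℝ, (∀ o, |rhRow H u o| ≤ M) →
    FlowLe G U (rhT (rhTilt H u)) (w * ∑ o, rhRow H u o ^ 2) (t₁ * M)

end

end Claimed.Agent.R285.Pins
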