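import Claimed.Agent.R285.Pins.ReachBr
import Claimed.Agent.R285.Pins.ClusDefs
import Claimed.Agent.R285.Pins.Bias
import Claimed.Agent.R285.Rsd.Temp

/-!
# ROW 285, PINS-REACH v2, FILE 2: the posterior inequalities and the prior identities (architect helper121).   Plan: `Pins/Plan.lean` s3, s6, s7; exploration side: `Reach.lean`; bridge: `ReachBr.lean`.

* s1 `LSys` level: `pn_Ev_const_sub`, `pn_ls_cos` ((D1) for a flow tilt: (T3) applied to `cos(c + X)`), events (`pn_ls_event_E0`, `pn_ls_event_mono_b`);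
* s2 the remaining tilt is a flow (`pn_rch_tilt_flow`, from `AncFl` = (AN2), helper74's shape); on `{ε² ≤ η}`, `4 η ≤ b`, the sup bound `1/2` follows from the `ℓ²` bound;
* s3 **`pn_rch_postCos`** : `PostCos` with `q = φ_H(f)`, `κ = rhKap (b w) T H`, gap `γ ≤ exp(-b R) - q`;
* s4 `pn_rch_post2` ((K1): (T6) + `lsys_var_mono(_b)`), `pn_rch_postpin` ((K2): (T7) + event monotonicity);
* s5 prior: `pn_rch_prior_cos`, `pn_rch_prior_bias` ((SB)), `pn_rch_prior_fin`, `pn_rch_prior_var`, `pn_rch_prior_pin`.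
-/

set_option autoImplicit false

namespace Claimed.Agent.R285.Pins

open scoped Classical ENNReal

noncomputable section

/-! ## 1. `LSys` level -/

section LS

variable {S : LSys}

theorem pn_Ev_const_sub (hS : S.Ok) (L : S.L →+ ℝ) {F : S.L → ℝ} (hF : S.Dom F) (a : ℝ) :
    S.Ev 0 L (fun z => a - F z) = a - S.Ev 0 L F := by
  have hm := pn_E0_exp_pos hS L
  rw [pn_Ev_eq hS, pn_Ev_eq hS]
  have e : (fun z : S.L => (a - F z) * Real.exp (L z)) = fun z => a * Real.exp (L z) - F z * Real.exp (L z) := by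
    funext z
    ring
  rw [e, pn_E0_sub hS (rd_dom_smul _ (rd_dom_exp L)) (rd_dom_mul hF (rd_dom_exp L)), rd_E0_smul]
  field_simp

theorem pn_Ev_const (hS : S.Ok) (L : S.L →+ ℝ) (a : ℝ) : S.Ev 0 L (fun _ => a) = a := by
  have hm := pn_E0_exp_pos hS L
  rw [pn_Ev_eq hS, rd_E0_smul]
  field_simp

/-- `E0 cos(c + X) = cos c · φ(X)` -/
theorem pn_ls_cos_shift (hS : S.Ok) (X : S.L →+ ℝ) (c : ℝ) : S.E0 (fun z => Real.cos (c + X z)) = Real.cos c * S.phi X := by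
  have e : (fun z : S.L => Real.cos (c + X z)) = fun z => Real.cos c * Real.cos (X z) - Real.sin c * Real.sin (X z) := by
    funext z
    rw [Real.cos_add]
  have hsin : S.Dom fun z => Real.sin (X z) := rd_dom_bdd 1 fun z => Real.abs_sin_le_one _
  rw [e, pn_E0_sub hS (rd_dom_smul _ (rd_dom_cos _)) (rd_dom_smul _ hsin), rd_E0_smul, rd_E0_smul,
    rd_E0_odd (fun z => Real.sin (X z)) fun z => by rw [map_neg, Real.sin_neg]]
  simp [LSys.phi]

/-- **(D1) at `LSys` level**: flow tilt `L = pnSt S t 0`, `|t_e| ≤ 1/2`, `b ∑ t² ≤ ε2`; `q'` = any lower bound of `φ(X)`. -/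
theorem pn_ls_cos (hS : S.Ok) (b : ℝ) (hb : ∀ e, S.b e ≤ b) (t : S.E → ℝ) (ε2 : ℝ) (hε : b * ∑ e, t e ^ 2 ≤ ε2) (ht : ∀ e, |t e| ≤ 1 / 2)
    (X : S.L →+ ℝ) (c q' a : ℝ) (hq' : q' ≤ S.phi X) :
    S.Ev 0 (pnSt S t 0) (fun z => a - Real.cos (c + X z)) ≤ (a - q') + (1 - Real.cos c) + Real.sqrt (Real.exp (4 * ε2) - 1) := by
  have h3 := pn_fl_T3 hS b hb t ε2 hε ht (F := fun z => Real.cos (c + X z)) 1 fun z => Real.abs_cos_le_one _
  rw [pn_ls_cos_shift hS, one_mul] at h3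
  rw [pn_Ev_const_sub hS _ (rd_dom_cos _)]
  have h4 := (abs_le.1 h3).1
  have h5 : S.phi X ≤ 1 := rd_phi_le_one hS X
  have h6 : Real.cos c ≤ 1 := Real.cos_le_one c
  nlinarith [mul_nonneg (sub_nonneg.2 h5) (sub_nonneg.2 h6)]

/-- L-RP-1.  the probability of a sublattice (`cs_tsum_inf`, `wsub_eq`, `rd_E0_eq`) -/
theorem pn_ls_event_E0 (hS : S.Ok) (M : AddSubgroup S.Amb) :
    S.E0 (fun z => if (z : S.Amb) ∈ M then 1 else 0) = (S.sub M).w 0 / S.w 0 := by
  have e0 : (S.sub M).w 0 = Rsd.wsub S M 0 := Rsd.wsub_eq S M 0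
  rw [rd_E0_eq, e0]
  congr 1
  unfold LSys.Zf Rsd.wsub
  rw [Rsd.cs_tsum_inf S.L M (fun u => S.W (u + 0))]
  refine tsum_congr fun z => ?_
  beta_reduce
  by_cases h : (z : S.Amb) ∈ M
  · rw [if_pos h, if_pos h, one_mul]
  · rw [if_neg h, if_neg h, zero_mul]

/-- L-RP-2.  **the probability of a sublattice decreases with the temperature.**   Route (`Rsd/Temp.lean`, pattern of `lsys_phi_mono_b`): `F = 1_M`;  `(S.atb b').E0 F = (tpSys).E0 (F ∘ tpPL)` (`tp_E0_ser`)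
`= P_{tpSys}(M.comap tpP) ≤ P_{tpSys.sub tpM}(…)` (`lsys_event_mono` along `subRef (tpSys S b') (tpM S b')`, `pn_ls_event_E0`) `= S.E0 F` (`tp_E0_pin`). -/
theorem pn_ls_event_mono_b (hS : S.Ok) (b' : S.E → ℝ) (hbb : ∀ e, S.b e ≤ b' e) (M : AddSubgroup S.Amb) :
    (S.atb b').E0 (fun z : S.L => if (z : S.Amb) ∈ M then 1 else 0) ≤ S.E0 fun z => if (z : S.Amb) ∈ M then 1 else 0 := by
  have hT := Rsd.tpSys_ok S b' hS hbb
  have hT' := Rsd.lsys_ok_sub _ hT (Rsd.tpM S b')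
  have h := lsys_event_mono (Rsd.subRef (Rsd.tpSys S b') (Rsd.tpM S b')) hT hT' (M.comap (Rsd.tpP S b'))
  rw [← pn_ls_event_E0 hT, ← pn_ls_event_E0 hT'] at h
  have e1 := Rsd.tp_E0_pin S b' (fun z : S.L => if (z : S.Amb) ∈ M then (1 : ℝ) else 0)
  have hdom : (Rsd.tpSys S b').Dom fun y => (fun z : S.L => if (z : S.Amb) ∈ M then (1 : ℝ) else 0) (Rsd.tpPL S b' y) :=
    rd_dom_bdd 1 fun y => by
      show |if _ then (1 : ℝ) else 0| ≤ 1
      split_ifs <;> simp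
  have e2 := Rsd.tp_E0_ser S b' hS hbb (fun z : S.L => if (z : S.Amb) ∈ M then (1 : ℝ) else 0)
    (rd_dom_summable hT hdom 0)
  exact e2.symm.le.trans (h.trans e1.le)

end LS

variable {G : HGraph}

/-! ## 2. the remaining tilt is a flow -/

section Tilt

variable (H : HLaw G) (P : Set G.V) (hΛ : H.Λ = HLaw.pinned P) (hP : H.Proper) (b : ℝ)

include hΛ in
/-- the remaining tilt on the posterior lattice, in the regime `|row_o u| ≤ M` -/
theorem pn_rch_tilt_flow (𝒰 : Set (Set G.V)) (w t₁ : ℝ) (hanc : AncFl G H 𝒰 w t₁) (U : Set G.V) (hU : U ∈ 𝒰) (u : G.V → ℤ)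
    (hu : ∀ x, x ∉ U → u x = 0) (β' : G.E → ℝ) (M : ℝ) (hM0 : 0 ≤ M) (hM : ∀ o, |rhRow H u o| ≤ M) :
    ∃ t : G.E → ℝ, rhPLf H hP b U β' (rhT (rhTilt H u)) = pnSt (rhNu H b U β') t 0 ∧ ∑ e, t e ^ 2 ≤ w * clY H u ∧ ∀ e, |t e| ≤ t₁ * M := by
  obtain ⟨t, h1, h2, h3⟩ := hanc U hU u hu M hM0 hM
  exact ⟨t, pn_br_plf_flow H P hΛ hP b U β' _ t h1, h2, h3⟩

theorem pn_rch_eps_eq (w : ℝ) (u : G.V → ℤ) : rhEps (b * w) H u = b * (w * clY H u) := by
  unfold rhEps clY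
  ring

include hΛ in
/-- the remaining tilt on `{ε² ≤ η}`, `4 η ≤ b`: the sup bound follows from the `ℓ²` bound -/
theorem pn_rch_tilt_flow_eps (hb : 0 < b) (𝒰 : Set (Set G.V)) (w t₁ : ℝ) (hanc : AncFl G H 𝒰 w t₁) (U : Set G.V) (hU : U ∈ 𝒰) (u : G.V → ℤ)
    (hu : ∀ x, x ∉ U → u x = 0) (β' : G.E → ℝ) (η : ℝ) (hη : 4 * η ≤ b) (hε : rhEps (b * w) H u ≤ η) :
    ∃ t : G.E → ℝ, rhPLf H hP b U β' (rhT (rhTilt H u)) = pnSt (rhNu H b U β') t 0 ∧ b * ∑ e, t e ^ 2 ≤ η ∧ ∀ e, |t e| ≤ 1 / 2 := by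
  obtain ⟨t, h1, h2, _⟩ := pn_rch_tilt_flow H P hΛ hP b 𝒰 w t₁ hanc U hU u hu β' (∑ o, |rhRow H u o|)
    (Finset.sum_nonneg fun _ _ => abs_nonneg _) fun o => Finset.single_le_sum (f := fun o => |rhRow H u o|) (fun _ _ => abs_nonneg _) (Finset.mem_univ o)
  rw [pn_rch_eps_eq] at hε
  have h3 : b * ∑ e, t e ^ 2 ≤ η := (mul_le_mul_of_nonneg_left h2 hb.le).trans hε
  refine ⟨t, h1, h3, fun e => ?_⟩
  have h4 : t e ^ 2 ≤ ∑ e, t e ^ 2 := Finset.single_le_sum (f := fun e => t e ^ 2) (fun _ _ => sq_nonneg _) (Finset.mem_univ e)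
  have h5 : b * t e ^ 2 ≤ b * (1 / 2) ^ 2 := by nlinarith
  have h6 : t e ^ 2 ≤ (1 / 2 : ℝ) ^ 2 := le_of_mul_le_mul_left h5 hb
  exact abs_le_of_sq_le_sq h6 (by norm_num)

end Tilt

/-! ## 3. the posterior cosine inequality -/

theorem pn_rch_bare_mono (β' : G.E → ℝ) (Q : Set G.V) (F F' : (G.V → ℤ) → ℝ≥0∞) (h : ∀ k, F k ≤ F' k) : bare G β' Q F ≤ bare G β' Q F' :=
  ENNReal.tsum_le_tsum fun k => mul_le_mul_left (h k) _

theorem pn_rch_kap_nonneg (H : HLaw G) (θ T : ℝ) (U : Set G.V) (u : G.V → ℤ) : 0 ≤ rhKap θ T H U u := by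
  unfold rhKap
  split_ifs
  · exact le_min (by norm_num) (Real.sqrt_nonneg _)
  · norm_num

section Post

variable (H : HLaw G) (P : Set G.V) (hΛ : H.Λ = HLaw.pinned P) (hP : H.Proper) (b : ℝ) (hb : 0 < b) (hOk : (H.sys b).Ok)

include hΛ hP hb hOk in
/-- **`PostCos`** ((D1)/(D2) of the blueprint before the transfer).  `A` = starting set of the exploration, `B` = the cell, `f` = its test (with the factor `s 2π`), `R` = its flow cost when the cell is visited ((AN1)),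
`𝒰` = a class of visited sets with (AN2) for the remaining tilt, `T` = the regime, `γ` = the gap. -/
theorem pn_rch_postCos (A B : Set G.V) (f : G.V → ℝ) (𝒰 : Set (Set G.V)) (w t₁ T : ℝ) (hanc : AncFl G H 𝒰 w t₁) (hA : ∀ U, AConn G A U → U ∈ 𝒰)
    (hT0 : 0 ≤ T) (hT : 2 * (t₁ * T) ≤ 1) (R t₀ : ℝ) (hvis : ∀ U, AConn G A U → (U ∩ B).Nonempty → FlowLe G U f R t₀)
    (γ : ℝ) (hγ0 : 0 ≤ γ) (hγ : γ ≤ Real.exp (-(b * R)) - (H.sys b).phi (rhLf H hP b f)) :
    PostCos G H b P A f B ((H.sys b).phi (rhLf H hP b f)) γ (rhKap (b * w) T H) := by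
  intro U u β' hU hu hβ
  set q := (H.sys b).phi (rhLf H hP b f) with hq
  set g : ℝ := if (U ∩ B).Nonempty then γ else 0 with hg
  set c := lin f u with hc
  have hq1 : q ≤ 1 := rd_phi_le_one hOk _
  have hg0 : 0 ≤ g := by
    rw [hg]
    split_ifs
    · exact hγ0
    · exact le_rfl
  have hS : (rhNu H b U β').Ok := pn_br_nu_ok H b hOk U β' fun e => (hβ.1 e).1
  have hSb : ∀ e, (rhNu H b U β').b e ≤ b := fun e => (hβ.1 e).2
  -- the posterior coefficient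
  have hphi : q + g ≤ (rhNu H b U β').phi (rhPLf H hP b U β' f) := by
    by_cases hv : (U ∩ B).Nonempty
    · rw [hg, if_pos hv]
      obtain ⟨t', h1, h2, _⟩ := hvis U hU hv
      have e1 := pn_br_plf_flow H P hΛ hP b U β' f t' h1
      have h3 := pn_ref_var hS b hSb t' 0
      rw [← e1] at h3
      have h4 := rd_phi_lower hS (rhPLf H hP b U β' f)
      have h5 : (rhNu H b U β').V0 (rhPLf H hP b U β' f) ≤ 2 * (b * R) := by
        have h6 : b * ∑ e, t' e ^ 2 ≤ b * R := mul_le_mul_of_nonneg_left h2 hb.le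
        simp only [Pi.zero_apply, ne_eq, OfNat.ofNat_ne_zero, not_false_eq_true, zero_pow, Finset.sum_const_zero, add_zero] at h3
        calc _ ≤ 2 * b * ∑ e, t' e ^ 2 := h3
          _ = 2 * (b * ∑ e, t' e ^ 2) := by ring
          _ ≤ _ := by linarith
      have h7 : Real.exp (-(b * R)) ≤ Real.exp (-(rhNu H b U β').V0 (rhPLf H hP b U β' f) / 2) := Real.exp_le_exp.2 (by linarith)
      linarith
    · rw [hg, if_neg hv, add_zero]
      exact pn_br_phi_mono H hP b hOk U β' hβ.1 f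
  have hg1 : g ≤ 1 - q := by
    have := rd_phi_le_one hS (rhPLf H hP b U β' f)
    linarith
  have hcos : ∀ x : ℝ, 0 ≤ 1 - Real.cos x := fun x => sub_nonneg.2 (Real.cos_le_one x)
  -- the trivial bound
  have triv : bare G β' (P ∪ U) (fun k => ENNReal.ofReal (1 - Real.cos (c + lin f k) + g) * ENNReal.ofReal (rhW H (u + k)))
      ≤ bare G β' (P ∪ U) (fun k => ENNReal.ofReal ((1 - q) + (1 - Real.cos c) + 2) * ENNReal.ofReal (rhW H (u + k))) := by
    refine pn_rch_bare_mono β' _ _ _ fun k => mul_le_mul_left (ENNReal.ofReal_le_ofReal ?_) _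
    have := Real.neg_one_le_cos (c + lin f k)
    linarith [hcos c]
  by_cases hGd : rhGd H T u
  swap
  · have : rhKap (b * w) T H U u = 2 := if_neg hGd
    rw [this]
    exact triv
  have hk : rhKap (b * w) T H U u = min 2 (Real.sqrt (Real.exp (4 * rhEps (b * w) H u) - 1)) := if_pos hGd
  rw [hk]
  rcases le_total 2 (Real.sqrt (Real.exp (4 * rhEps (b * w) H u) - 1)) with h2 | h2
  · rw [min_eq_left h2]
    exact triv
  rw [min_eq_right h2]
  obtain ⟨t, e1, h3, h4⟩ := pn_rch_tilt_flow H P hΛ hP b 𝒰 w t₁ hanc U (hA U hU) u hu β' T hT0 hGd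
  refine pn_br_post H P hΛ hP b hOk U u β' (fun e => (hβ.1 e).1) (fun k => 1 - Real.cos (c + lin f k) + g)
    (fun _ => (1 - q) + (1 - Real.cos c) + Real.sqrt (Real.exp (4 * rhEps (b * w) H u) - 1))
    (fun k => add_nonneg (hcos _) hg0) (fun _ => add_nonneg (add_nonneg (sub_nonneg.2 hq1) (hcos _)) (Real.sqrt_nonneg _))
    (rd_dom_add (rd_dom_sub (rd_dom_const 1) (rd_dom_cos _)) (rd_dom_const g)) (rd_dom_const _) ?_
  rw [pn_Ev_const hS, e1]
  have h5 := pn_ls_cos hS b hSb t (rhEps (b * w) H u) (by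
      rw [pn_rch_eps_eq]
      exact mul_le_mul_of_nonneg_left h3 hb.le) (fun e => (h4 e).trans (by linarith)) (rhPLf H hP b U β' f) c (q + g) (1 + g) hphi
  have e2 : (fun z : (rhNu H b U β').L => 1 - Real.cos (c + lin f (rhPHt H hP b U β' z)) + g)
      = fun z => (1 + g) - Real.cos (c + rhPLf H hP b U β' f z) := by
    funext z
    rw [pn_br_plf_apply]
    ring
  rw [e2]
  linarith

end Post

/-! ## 4. (K1), (K2): the posterior parts -/

section K12

variable (H : HLaw G) (P : Set G.V) (hΛ : H.Λ = HLaw.pinned P) (hP : H.Proper) (b : ℝ) (hb : 0 < b) (hOk : (H.sys b).Ok)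

include hΛ hP hb hOk in
/-- **(K1), posterior part**: (T6) + `lsys_var_mono(_b)`.  `Vp` = a bound of the variance under the law with the additional hard pin `A` (rows kept), `m4` = a bound of the fourth moments of the posteriors. -/
theorem pn_rch_post2 (A : Set G.V) (f : G.V → ℝ) (𝒰 : Set (Set G.V)) (w t₁ : ℝ) (hanc : AncFl G H 𝒰 w t₁) (hA : ∀ U, AConn G A U → U ∈ 𝒰)
    (η : ℝ) (hη : 4 * η ≤ b) (Vp m4 : ℝ)
    (hVp : ((H.addPin A).sys b).V0 (rhLf (H.addPin A) (pn_br_addPin_proper H hP A) b f) ≤ Vp)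
    (hm4 : ∀ U β', AConn G A U → PostT G b U β' → (rhNu H b U β').E0 (fun z => rhPLf H hP b U β' f z ^ 4) ≤ m4)
    (U : Set G.V) (u : G.V → ℤ) (β' : G.E → ℝ) (hU : AConn G A U) (hu : ∀ x, x ∉ U → u x = 0) (hβ : PostT G b U β')
    (hε : rhEps (b * w) H u ≤ η) :
    bare G β' (P ∪ U) (fun k => ENNReal.ofReal (lin f k ^ 2) * ENNReal.ofReal (rhW H (u + k)))
      ≤ bare G β' (P ∪ U) (fun k => ENNReal.ofReal (Vp + Real.sqrt m4 * Real.sqrt (Real.exp (4 * η) - 1)) * ENNReal.ofReal (rhW H (u + k))) := by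
  have hS : (rhNu H b U β').Ok := pn_br_nu_ok H b hOk U β' fun e => (hβ.1 e).1
  have hSb : ∀ e, (rhNu H b U β').b e ≤ b := fun e => (hβ.1 e).2
  have hV0 : 0 ≤ Vp := (rd_V0_nonneg (pn_br_addPin_ok H b hOk A) _).trans hVp
  obtain ⟨t, e1, h3, h4⟩ := pn_rch_tilt_flow_eps H P hΛ hP b hb 𝒰 w t₁ hanc U (hA U hU) u hu β' η hη hε
  refine pn_br_post H P hΛ hP b hOk U u β' (fun e => (hβ.1 e).1) (fun k => lin f k ^ 2)
    (fun _ => Vp + Real.sqrt m4 * Real.sqrt (Real.exp (4 * η) - 1)) (fun k => sq_nonneg _)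
    (fun _ => add_nonneg hV0 (mul_nonneg (Real.sqrt_nonneg _) (Real.sqrt_nonneg _)))
    (rd_dom_pow (rd_dom_test (rhPLf H hP b U β' f)) 2) (rd_dom_const _) ?_
  rw [pn_Ev_const hS, e1]
  have h5 := pn_fl_T6 hS b hSb t η h3 h4 (rhPLf H hP b U β' f)
  have h6 : (rhNu H b U β').E0 (fun z => rhPLf H hP b U β' f z ^ 2) ≤ Vp := by
    rw [← rd_V0_eq]
    exact (pn_br_var_mono H hP b hOk A U hU.1 β' hβ.1 f).trans hVp
  have h7 : Real.sqrt ((rhNu H b U β').E0 fun z => rhPLf H hP b U β' f z ^ 4) ≤ Real.sqrt m4 := Real.sqrt_le_sqrt (hm4 U β' hU hβ)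
  have h8 := mul_le_mul_of_nonneg_right h7 (Real.sqrt_nonneg (Real.exp (4 * η) - 1))
  exact h5.trans (add_le_add h6 h8)

theorem pn_rch_amb_zero (H : HLaw G) (b : ℝ) : (HLaw.Aff.zero H).amb b = 0 := by
  unfold HLaw.Aff.amb HLaw.Aff.zero
  rw [map_zero, zero_add]
  refine Prod.ext rfl ?_
  funext o
  exact neg_zero

theorem pn_rch_Z_zero (H : HLaw G) (hP : H.Proper) (b : ℝ) : H.Z b (HLaw.Aff.zero H) (fun _ => 1) = (H.sys b).w 0 := by
  rw [HLaw.Z_eq_w H hP, pn_rch_amb_zero]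

theorem pn_rch_pPin_eq (H : HLaw G) (hP : H.Proper) (b : ℝ) (A : Set G.V) :
    H.pPin b A = ((H.addPin A).sys b).w 0 / (H.sys b).w 0 := by
  unfold HLaw.pPin
  rw [pn_rch_Z_zero H hP, pn_rch_Z_zero _ (pn_br_addPin_proper H hP A)]

/-- membership of a lattice point in the image of a subgroup of heights, through its height -/
theorem pn_rch_mem_map (H : HLaw G) (hP : H.Proper) (b : ℝ) (N : AddSubgroup (G.V → ℤ))
    (hN : ∀ h ∈ N, ∀ h' ∈ H.Λ, H.coordA b h = H.coordA b h' → h = h') (z : (H.sys b).L) :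
    (z : (H.sys b).Amb) ∈ N.map (H.coordA b) ↔ rhHt H hP b z ∈ N := by
  constructor
  · rintro ⟨h, hh, e⟩
    have : h = rhHt H hP b z := hN h hh _ (pn_br_ht_mem H hP b z) (e.trans (pn_br_ht_coord H hP b z).symm)
    rw [← this]
    exact hh
  · intro h
    exact ⟨_, h, pn_br_ht_coord H hP b z⟩

/-- the event `{the height vanishes on T}` on the lattice of `H.addPin U` -/
theorem pn_rch_mem_pin (H : HLaw G) (hP : H.Proper) (b : ℝ) (U T : Set G.V) (z : ((H.addPin U).sys b).L) :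
    (z : ((H.addPin U).sys b).Amb) ∈ (H.Λ ⊓ HLaw.pinned T).map ((H.addPin U).coordA b)
      ↔ ∀ x ∈ T, rhHt (H.addPin U) (pn_br_addPin_proper H hP U) b z x = 0 := by
  have h1 := pn_rch_mem_map (H.addPin U) (pn_br_addPin_proper H hP U) b (H.Λ ⊓ HLaw.pinned T) (fun h hh h' hh' e => by
    have h0 : h - h' = 0 := hP _ (H.Λ.sub_mem hh.1 hh'.1) (by
      have e' : H.coord h = H.coord h' := e
      rw [map_sub, e', sub_self])
    exact sub_eq_zero.1 h0) z
  exact Iff.trans h1 ⟨fun h => h.2, fun h => ⟨(pn_br_ht_mem (H.addPin U) _ b z).1, h⟩⟩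

theorem pn_rch_mem_pin0 (H : HLaw G) (hP : H.Proper) (b : ℝ) (T : Set G.V) (z : (H.sys b).L) :
    (z : (H.sys b).Amb) ∈ (H.Λ ⊓ HLaw.pinned T).map (H.coordA b) ↔ ∀ x ∈ T, rhHt H hP b z x = 0 := by
  have h1 := pn_rch_mem_map H hP b (H.Λ ⊓ HLaw.pinned T) (fun h hh h' hh' e => by
    have h0 : h - h' = 0 := hP _ (H.Λ.sub_mem hh.1 hh') (by
      have e' : H.coord h = H.coord h' := e
      rw [map_sub, e', sub_self])
    exact sub_eq_zero.1 h0) z
  exact Iff.trans h1 ⟨fun h => h.2, fun h => ⟨pn_br_ht_mem H hP b z, h⟩⟩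

theorem pn_rch_sub_pin (H : HLaw G) (b : ℝ) (T : Set G.V) :
    (H.sys b).sub ((H.Λ ⊓ HLaw.pinned T).map (H.coordA b)) = (H.addPin T).sys b := by
  have hle : (H.Λ ⊓ HLaw.pinned T).map (H.coordA b) ≤ (H.sys b).L := by
    rintro z ⟨h, hh, rfl⟩
    exact ⟨h, hh.1, rfl⟩
  have e : (H.sys b).L ⊓ (H.Λ ⊓ HLaw.pinned T).map (H.coordA b) = (H.Λ ⊓ HLaw.pinned T).map (H.coordA b) := inf_eq_right.2 hle
  unfold LSys.sub
  rw [e]
  rfl

/-- L-RP-3.  the pin probability as a centred expectation (`pn_ls_event_E0` with `M := ((H.addPin T).sys b).L`; `z ∈ M ↔ rhHt z` vanishes on `T` by `hP`; `HLaw.Z_eq_w` for `H` and `H.addPin T`; `(S.sub M).L = M`) -/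
theorem pn_rch_E0_pin (H : HLaw G) (hP : H.Proper) (b : ℝ) (hOk : (H.sys b).Ok) (T : Set G.V) :
    (H.sys b).E0 (fun z => if ∀ x ∈ T, rhHt H hP b z x = 0 then 1 else 0) = H.pPin b T := by
  have e1 : (fun z : (H.sys b).L => (if ∀ x ∈ T, rhHt H hP b z x = 0 then 1 else 0 : ℝ))
      = fun z : (H.sys b).L => if (z : (H.sys b).Amb) ∈ (H.Λ ⊓ HLaw.pinned T).map (H.coordA b) then 1 else 0 := by
    funext z
    simp only [pn_rch_mem_pin0 H hP b T z]
  rw [e1, pn_ls_event_E0 hOk, pn_rch_pPin_eq H hP, pn_rch_sub_pin]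

theorem pn_rch_addPin_addPin (H : HLaw G) (A T : Set G.V) : (H.addPin A).addPin T = H.addPin (A ∪ T) := by
  have e : (H.Λ ⊓ HLaw.pinned A) ⊓ HLaw.pinned T = H.Λ ⊓ HLaw.pinned (A ∪ T) := by
    ext h
    constructor
    · rintro ⟨⟨h1, h2⟩, h3⟩
      refine ⟨h1, ?_⟩
      rintro v (hv | hv)
      · exact h2 v hv
      · exact h3 v hv
    · rintro ⟨h1, h2⟩
      exact ⟨⟨h1, fun v hv => h2 v (Or.inl hv)⟩, fun v hv => h2 v (Or.inr hv)⟩
  unfold HLaw.addPin
  simp only [e]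

/-- L-RP-4.  chain rule (`(H.addPin A).addPin T = H.addPin (A ∪ T)`: equal lattices; `H.Z b 0 1 = w 0 > 0`) -/
theorem pn_rch_pPin_chain (H : HLaw G) (hP : H.Proper) (b : ℝ) (hOk : (H.sys b).Ok) (A T : Set G.V) : (H.addPin A).pPin b T = H.pPin b (A ∪ T) / H.pPin b A := by
  have h0 := rd_w_pos hOk 0
  have hA := rd_w_pos (pn_br_addPin_ok H b hOk A) 0
  rw [pn_rch_pPin_eq _ (pn_br_addPin_proper H hP A), pn_rch_pPin_eq H hP, pn_rch_pPin_eq H hP, pn_rch_addPin_addPin]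
  field_simp

/-- L-RP-5.  **the probability of a hard pin increases along the exploration**: more pins (`lsys_event_mono` along `rhRef H b A U hAU`, `M := ((H.addPin (A ∪ T)).sys b).L`), lower temperatures (`pn_ls_event_mono_b` from `β'` to `b`);
both sides through `pn_ls_event_E0`; membership in the sublattices through `hP` (`pn_br_ht_coord`, injectivity). -/
theorem pn_rch_event_mono (H : HLaw G) (hP : H.Proper) (b : ℝ) (hOk : (H.sys b).Ok) (A U T : Set G.V) (hAU : A ⊆ U) (β' : G.E → ℝ) (hβ : ∀ e, 0 < β' e ∧ β' e ≤ b) :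
    ((H.addPin A).sys b).E0 (fun z => if ∀ x ∈ T, rhHt (H.addPin A) (pn_br_addPin_proper H hP A) b z x = 0 then 1 else 0)
      ≤ (rhNu H b U β').E0 fun z => if ∀ x ∈ T, rhPHt H hP b U β' z x = 0 then 1 else 0 := by
  have hU := pn_br_addPin_ok H b hOk U
  have hA := pn_br_addPin_ok H b hOk A
  obtain ⟨M, hM⟩ : ∃ M : AddSubgroup ((H.addPin A).sys b).Amb, M = (H.Λ ⊓ HLaw.pinned T).map ((H.addPin A).coordA b) := ⟨_, rfl⟩
  have e1 : (fun z : ((H.addPin A).sys b).L => (if ∀ x ∈ T, rhHt (H.addPin A) (pn_br_addPin_proper H hP A) b z x = 0 then 1 else 0 : ℝ))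
      = fun z : ((H.addPin A).sys b).L => if (z : ((H.addPin A).sys b).Amb) ∈ M then 1 else 0 := by
    funext z
    rw [hM]
    simp only [pn_rch_mem_pin H hP b A T z]
  have e2 : (fun z : (rhNu H b U β').L => (if ∀ x ∈ T, rhPHt H hP b U β' z x = 0 then 1 else 0 : ℝ))
      = fun z : (rhNu H b U β').L => if (z : (rhNu H b U β').Amb) ∈ (show AddSubgroup (rhNu H b U β').Amb from M.comap (rhRef H b A U hAU).res) then 1 else 0 := by
    funext z
    have h3 : (z : (rhNu H b U β').Amb) ∈ (show AddSubgroup (rhNu H b U β').Amb from M.comap (rhRef H b A U hAU).res)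
        ↔ ∀ x ∈ T, rhPHt H hP b U β' z x = 0 := by
      rw [hM]
      exact pn_rch_mem_pin H hP b U T z
    simp only [h3]
  rw [e1, e2, pn_ls_event_E0 hA]
  have h1 := lsys_event_mono (rhRef H b A U hAU) hA hU M
  rw [← pn_ls_event_E0 hU] at h1
  have h2 := pn_ls_event_mono_b (S := rhNu H b U β') (pn_br_nu_ok H b hOk U β' fun e => (hβ e).1) (fun _ => b) (fun e => (hβ e).2)
    (M.comap (rhRef H b A U hAU).res)
  exact h1.trans h2

include hΛ hP hb hOk in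
/-- **(K2), posterior part**: (T7) + event monotonicity. -/
theorem pn_rch_postpin (A T : Set G.V) (𝒰 : Set (Set G.V)) (w t₁ : ℝ) (hanc : AncFl G H 𝒰 w t₁) (hA : ∀ U, AConn G A U → U ∈ 𝒰)
    (η : ℝ) (hη : 4 * η ≤ b)
    (U : Set G.V) (u : G.V → ℤ) (β' : G.E → ℝ) (hU : AConn G A U) (hu : ∀ x, x ∉ U → u x = 0) (hβ : PostT G b U β')
    (hε : rhEps (b * w) H u ≤ η) :
    bare G β' (P ∪ U) (fun k => ENNReal.ofReal (Real.exp (-η) * (H.pPin b (A ∪ T) / H.pPin b A)) * ENNReal.ofReal (rhW H (u + k)))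
      ≤ bare G β' (P ∪ U) (fun k => rhInd (∀ x ∈ T, k x = 0) * ENNReal.ofReal (rhW H (u + k))) := by
  have hS : (rhNu H b U β').Ok := pn_br_nu_ok H b hOk U β' fun e => (hβ.1 e).1
  have hSb : ∀ e, (rhNu H b U β').b e ≤ b := fun e => (hβ.1 e).2
  obtain ⟨t, e1, h3, h4⟩ := pn_rch_tilt_flow_eps H P hΛ hP b hb 𝒰 w t₁ hanc U (hA U hU) u hu β' η hη hε
  have hind : ∀ k : G.V → ℤ, rhInd (∀ x ∈ T, k x = 0) = ENNReal.ofReal (if ∀ x ∈ T, k x = 0 then 1 else 0) := by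
    intro k
    unfold rhInd
    split_ifs <;> simp
  simp only [hind]
  have hr : H.pPin b (A ∪ T) / H.pPin b A ≤ (rhNu H b U β').E0 fun z => if ∀ x ∈ T, rhPHt H hP b U β' z x = 0 then 1 else 0 := by
    rw [← pn_rch_pPin_chain H hP b hOk A T, ← pn_rch_E0_pin (H.addPin A) (pn_br_addPin_proper H hP A) b (pn_br_addPin_ok H b hOk A) T]
    exact pn_rch_event_mono H hP b hOk A U T hU.1 β' hβ.1
  have hd : (rhNu H b U β').Dom fun z => (if ∀ x ∈ T, rhPHt H hP b U β' z x = 0 then 1 else 0 : ℝ) :=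
    rd_dom_bdd 1 fun z => by split_ifs <;> simp
  have h0 : ∀ z : (rhNu H b U β').L, (0 : ℝ) ≤ if ∀ x ∈ T, rhPHt H hP b U β' z x = 0 then 1 else 0 := fun z => by split_ifs <;> simp
  have hr0 : 0 ≤ H.pPin b (A ∪ T) / H.pPin b A := by
    rw [← pn_rch_pPin_chain H hP b hOk A T, ← pn_rch_E0_pin (H.addPin A) (pn_br_addPin_proper H hP A) b (pn_br_addPin_ok H b hOk A) T]
    exact pn_E0_nonneg (pn_br_addPin_ok H b hOk A) fun z => by split_ifs <;> simp
  refine pn_br_post H P hΛ hP b hOk U u β' (fun e => (hβ.1 e).1) (fun _ => Real.exp (-η) * (H.pPin b (A ∪ T) / H.pPin b A))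
    (fun k => if ∀ x ∈ T, k x = 0 then 1 else 0) (fun _ => mul_nonneg (Real.exp_pos _).le hr0) (fun k => by split_ifs <;> simp)
    (rd_dom_const _) hd ?_
  rw [pn_Ev_const hS, e1]
  have h7 := pn_fl_T7 hS b hSb t η h3 (fun e => (h4 e).trans (by norm_num)) hd h0 (fun z => by
    simp only [pn_br_pht_neg, Pi.neg_apply, neg_eq_zero])
  have h8 : Real.exp (-η) * Real.exp η = 1 := by rw [← Real.exp_add]; simp
  calc Real.exp (-η) * (H.pPin b (A ∪ T) / H.pPin b A)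
      ≤ Real.exp (-η) * (Real.exp η * (rhNu H b U β').Ev 0 (pnSt (rhNu H b U β') t 0) fun z => if ∀ x ∈ T, rhPHt H hP b U β' z x = 0 then 1 else 0) :=
        mul_le_mul_of_nonneg_left (hr.trans h7) (Real.exp_pos _).le
    _ = _ := by rw [← mul_assoc, h8, one_mul]

end K12

/-! ## 5. the prior law -/

section Prior

variable (H : HLaw G) (P : Set G.V) (hΛ : H.Λ = HLaw.pinned P) (hP : H.Proper) (b : ℝ) (hb : 0 < b) (hOk : (H.sys b).Ok)

include hΛ hP hb hOk in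
/-- integrals of functions of the height: `I(φ) = E0(φ) I(1)` -/
theorem pn_rch_prior_E0 (φ : (G.V → ℤ) → ℝ) (hφ : ∀ k, 0 ≤ φ k) (hd : (H.sys b).Dom fun z => φ (rhHt H hP b z)) :
    rhI H b P (fun h _ => ENNReal.ofReal (φ h))
      = ENNReal.ofReal ((H.sys b).E0 fun z => φ (rhHt H hP b z)) * rhI H b P (fun _ _ => 1) := by
  have hw := rd_w_pos hOk 0
  rw [pn_br_prior H P hΛ hP b hb hOk φ hφ hd, (pn_br_norm H P hΛ hP b hb hOk).1,
    ← ENNReal.ofReal_mul (pn_E0_nonneg hOk fun z => hφ _), rd_E0_eq, div_mul_cancel₀ _ hw.ne']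

include hΛ hP hb hOk in
theorem pn_rch_prior_fin (φ : (G.V → ℤ) → ℝ) (hφ : ∀ k, 0 ≤ φ k) (hd : (H.sys b).Dom fun z => φ (rhHt H hP b z)) :
    rhI H b P (fun h _ => ENNReal.ofReal (φ h)) ≠ ∞ := by
  rw [pn_br_prior H P hΛ hP b hb hOk φ hφ hd]
  exact ENNReal.ofReal_ne_top

/-- the height at a site is a test -/
theorem pn_rch_site (x : G.V) (h : G.V → ℤ) : lin (Pi.single x 1) h = (h x : ℝ) := by
  unfold lin
  rw [Finset.sum_eq_single x]
  · simp
  · intro y _ hy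
    simp [hy]
  · intro hx
    exact absurd (Finset.mem_univ x) hx

include hΛ hP hb hOk in
/-- the prior identity of (D1) -/
theorem pn_rch_prior_cos (f : G.V → ℝ) :
    ENNReal.ofReal (1 - (H.sys b).phi (rhLf H hP b f)) * rhI H b P (fun _ _ => 1)
      = rhI H b P (fun h _ => ENNReal.ofReal (1 - Real.cos (lin f h))) := by
  rw [pn_rch_prior_E0 H P hΛ hP b hb hOk (fun h => 1 - Real.cos (lin f h)) (fun k => sub_nonneg.2 (Real.cos_le_one _))
    (rd_dom_sub (rd_dom_const 1) (rd_dom_cos _))]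
  congr 2
  rw [pn_E0_sub hOk (rd_dom_const 1) (rd_dom_cos _), rd_E0_const hOk]
  rfl

include hΛ hP hb hOk in
theorem pn_rch_prior_fin_site (x : G.V) : rhI H b P (fun h _ => ENNReal.ofReal |(h x : ℝ)|) ≠ ∞ := by
  refine pn_rch_prior_fin H P hΛ hP b hb hOk (fun h => |(h x : ℝ)|) (fun _ => abs_nonneg _) ?_
  have := rd_dom_abs (rd_dom_test (rhLf H hP b (Pi.single x 1)))
  simpa only [pn_br_lf_apply, pn_rch_site] using this

include hΛ hP hb hOk in
/-- **(SB)**: the prior inequality of (D2) (`pn_bias_cos`) -/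
theorem pn_rch_prior_bias (f : G.V → ℝ) (x : G.V) :
    ENNReal.ofReal (1 - (H.sys b).phi (rhLf H hP b f)) * rhI H b P (fun h _ => ENNReal.ofReal |(h x : ℝ)|)
      ≤ rhI H b P (fun h _ => ENNReal.ofReal |(h x : ℝ)| * ENNReal.ofReal (1 - Real.cos (lin f h))) := by
  set X := rhLf H hP b f with hX
  set Y := rhLf H hP b (Pi.single x 1) with hY
  have hYz : ∀ z, Y z = (rhHt H hP b z x : ℝ) := fun z => by rw [hY, pn_br_lf_apply, pn_rch_site]
  have dY : (H.sys b).Dom fun z => |Y z| := rd_dom_abs (rd_dom_test Y)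
  have dYc : (H.sys b).Dom fun z => |Y z| * Real.cos (X z) := rd_dom_mul dY (rd_dom_cos _)
  have e1 : rhI H b P (fun h _ => ENNReal.ofReal |(h x : ℝ)|) = ENNReal.ofReal ((H.sys b).E0 fun z => |Y z|) * rhI H b P (fun _ _ => 1) := by
    rw [pn_rch_prior_E0 H P hΛ hP b hb hOk (fun h => |(h x : ℝ)|) (fun _ => abs_nonneg _) (by simpa only [hYz] using dY)]
    simp only [hYz]
  have e2 : rhI H b P (fun h _ => ENNReal.ofReal |(h x : ℝ)| * ENNReal.ofReal (1 - Real.cos (lin f h)))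
      = ENNReal.ofReal ((H.sys b).E0 fun z => |Y z| - |Y z| * Real.cos (X z)) * rhI H b P (fun _ _ => 1) := by
    have e3 : (fun (h : G.V → ℤ) (_ : G.E → Bool) => ENNReal.ofReal |(h x : ℝ)| * ENNReal.ofReal (1 - Real.cos (lin f h)))
        = fun h _ => ENNReal.ofReal (|(h x : ℝ)| - |(h x : ℝ)| * Real.cos (lin f h)) := by
      funext h _
      rw [← ENNReal.ofReal_mul (abs_nonneg _)]
      congr 1
      ring
    rw [e3, pn_rch_prior_E0 H P hΛ hP b hb hOk (fun h => |(h x : ℝ)| - |(h x : ℝ)| * Real.cos (lin f h)) (fun k => by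
        have := Real.cos_le_one (lin f k)
        nlinarith [abs_nonneg ((k x : ℤ) : ℝ)]) (by
        have := rd_dom_sub dY dYc
        simpa only [hYz, hX, pn_br_lf_apply] using this)]
    simp only [hYz, hX, pn_br_lf_apply]
  rw [e1, e2, ← mul_assoc, ← ENNReal.ofReal_mul (sub_nonneg.2 (rd_phi_le_one hOk X))]
  refine mul_le_mul_left (ENNReal.ofReal_le_ofReal ?_) _
  rw [pn_E0_sub hOk dY dYc]
  have := pn_bias_cos hOk X Y
  nlinarith

include hΛ hP hb hOk in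
/-- the prior second moment is the variance -/
theorem pn_rch_prior_var (f : G.V → ℝ) :
    rhI H b P (fun h _ => ENNReal.ofReal (lin f h ^ 2)) = ENNReal.ofReal ((H.sys b).V0 (rhLf H hP b f)) * rhI H b P (fun _ _ => 1) := by
  rw [pn_rch_prior_E0 H P hΛ hP b hb hOk (fun h => lin f h ^ 2) (fun _ => sq_nonneg _) (rd_dom_pow (rd_dom_test (rhLf H hP b f)) 2), rd_V0_eq]
  rfl

include hΛ hP hb hOk in
/-- the prior fourth moment -/
theorem pn_rch_prior_m4 (f : G.V → ℝ) :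
    rhI H b P (fun h _ => ENNReal.ofReal (lin f h ^ 4))
      = ENNReal.ofReal ((H.sys b).E0 fun z => rhLf H hP b f z ^ 4) * rhI H b P (fun _ _ => 1) := by
  rw [pn_rch_prior_E0 H P hΛ hP b hb hOk (fun h => lin f h ^ 4) (fun _ => by positivity) (rd_dom_pow (rd_dom_test (rhLf H hP b f)) 4)]
  rfl

include hΛ hP hb hOk in
/-- the pin probability as an integral -/
theorem pn_rch_prior_pin (T : Set G.V) :
    rhI H b P (fun h _ => rhInd (∀ x ∈ T, h x = 0)) = ENNReal.ofReal (H.pPin b T) * rhI H b P (fun _ _ => 1) := by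
  have hind : ∀ k : G.V → ℤ, rhInd (∀ x ∈ T, k x = 0) = ENNReal.ofReal (if ∀ x ∈ T, k x = 0 then 1 else 0) := by
    intro k
    unfold rhInd
    split_ifs <;> simp
  simp only [hind]
  rw [pn_rch_prior_E0 H P hΛ hP b hb hOk (fun k => if ∀ x ∈ T, k x = 0 then 1 else 0) (fun k => by split_ifs <;> simp)
    (rd_dom_bdd 1 fun z => by split_ifs <;> simp), pn_rch_E0_pin H hP b hOk T]

end Prior

end

end Claimed.Agent.R285.Pins
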