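import Claimed.Agent.R285.Pins.Reach
import Claimed.Agent.R285.Pins.ReachPost
import Claimed.Agent.R285.Pins.Clus
import Claimed.Agent.R285.Pins.PinLib

/-!
# ROW 285, PINS-REACH v2, FILE 3: THE EXITS on one finite graph (architect helper121).   Consumers: CORE-LIM (helper249: X1, X2), T3.2 (helper178: `pn_rch_dPin`), T3.1 (helper217).

Standing: `H : HLaw G` (band law), `H.Λ = pinned P`, `H.Proper`, `0 < b`, `(H.sys b).Ok`;   tests act on the INTEGER height: `f = rhT f₀` for a test `f₀` on the physical height; `rhLf H hP b f` = THE lift (`pn_br_lift_eq`).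
`ε² = rhEps (b w) H (rhU G A h ω)`;   `AncFl G H 𝒰 w t₁` = (AN2) for the remaining tilt (helper74's shape);   `clFar G A'` = visited sets of explorations from the far set.
* **X1** `pn_rch_X1` (= (K1)), `pn_rch_X1_lift` (the same in `HLaw.Lift` vocabulary, `m4` through the PRIOR Laplace transform);
* **X2** `pn_rch_X2num` (= RESULT of s6, normalised; the three kinds of expectations enter as numbers), `pn_rch_pe`, `pn_rch_kA`, `pn_rch_kS` (these numbers from CLUS2), `pn_rch_X2` (everything assembled);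
* **K2** `pn_rch_dPin` (= [C](3.28) at a fixed graph).
-/

set_option autoImplicit false

namespace Claimed.Agent.R285.Pins

open scoped Classical ENNReal

noncomputable section

variable {G : HGraph}

/-! ## X1 -/

/-- real lemma: `x ≤ c + s p / 2 + m / (2 s)` for all `s > 0` gives `x ≤ c + √m √p` -/
theorem pn_rch_opt_s (x c p m : ℝ) (hp : 0 ≤ p) (hm : 0 ≤ m) (h : ∀ s : ℝ, 0 < s → x ≤ c + s * p / 2 + m / (2 * s)) :
    x ≤ c + Real.sqrt m * Real.sqrt p := by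
  rcases hp.eq_or_lt with rfl | hp'
  · -- `p = 0`
    rw [Real.sqrt_zero, mul_zero, add_zero]
    refine le_of_forall_pos_le_add fun ε hε => ?_
    have := h (m / (2 * ε) + 1) (by positivity)
    have h2 : m / (2 * (m / (2 * ε) + 1)) ≤ ε := by
      rw [div_le_iff₀ (by positivity)]
      have : ε * (2 * (m / (2 * ε) + 1)) = m + 2 * ε := by field_simp
      rw [this]
      linarith
    linarith
  rcases hm.eq_or_lt with rfl | hm'
  · rw [Real.sqrt_zero, zero_mul, add_zero]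
    refine le_of_forall_pos_le_add fun ε hε => ?_
    have := h (2 * ε / p) (by positivity)
    have h2 : 2 * ε / p * p / 2 = ε := by field_simp
    rw [h2] at this
    simpa using this
  · have hsm := Real.sqrt_pos.2 hm'
    have hsp := Real.sqrt_pos.2 hp'
    have := h (Real.sqrt m / Real.sqrt p) (by positivity)
    have e1 : Real.sqrt m / Real.sqrt p * p / 2 = Real.sqrt m * Real.sqrt p / 2 := by
      have := Real.mul_self_sqrt hp
      field_simp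
      nlinarith
    have e2 : m / (2 * (Real.sqrt m / Real.sqrt p)) = Real.sqrt m * Real.sqrt p / 2 := by
      have := Real.mul_self_sqrt hm
      field_simp
      nlinarith
    rw [e1, e2] at this
    linarith

theorem pn_rch_sq_le_s (X s : ℝ) (hs : 0 < s) : X ^ 2 ≤ s / 2 + X ^ 4 / (2 * s) := by
  have h : 0 ≤ (X ^ 2 - s) ^ 2 := sq_nonneg _
  have : s / 2 + X ^ 4 / (2 * s) - X ^ 2 = (X ^ 2 - s) ^ 2 / (2 * s) := by
    field_simp
    ring
  have h2 : 0 ≤ (X ^ 2 - s) ^ 2 / (2 * s) := by positivity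
  linarith

/-- the normalised integral of an indicator is a probability -/
theorem pn_rch_N_ind_le_one (H : HLaw G) (b : ℝ) (P : Set G.V) (p : (G.V → ℤ) → (G.E → Bool) → Prop) :
    rhN H b P (fun h ω => rhInd (p h ω)) ≤ 1 := by
  unfold rhN
  refine ENNReal.div_le_of_le_mul ?_
  rw [one_mul]
  refine pn_rch_I_mono H b P _ _ fun h ω _ _ => ?_
  unfold rhInd
  split_ifs <;> simp

/-- `I(F) = N(F) I(1)` -/
theorem pn_rch_I_eq_N_mul (H : HLaw G) (b : ℝ) (P : Set G.V) (F : (G.V → ℤ) → (G.E → Bool) → ℝ≥0∞)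
    (h0 : rhI H b P (fun _ _ => 1) ≠ 0) (h1 : rhI H b P (fun _ _ => 1) ≠ ∞) :
    rhI H b P F = rhN H b P F * rhI H b P (fun _ _ => 1) := by
  unfold rhN
  rw [ENNReal.div_mul_cancel h0 h1]

/-- **X1 = (K1)**: the variance of a test under the band law is at most `Vp` (= a bound of its variance under the band law with the additional hard pin `A`) plus the tilt error plus the contribution of the bad event
(`ε² > η` or the exploration from `A` reaches the support `Sf` of the test).   `m4` = a bound of the fourth moments under the prior and all posteriors. -/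
theorem pn_rch_X1 (H : HLaw G) (P : Set G.V) (hΛ : H.Λ = HLaw.pinned P) (hP : H.Proper) (b : ℝ) (hb : 0 < b) (hOk : (H.sys b).Ok)
    (A Sf : Set G.V) (f : G.V → ℝ) (hSf : ∀ x, x ∉ Sf → f x = 0)
    (𝒰 : Set (Set G.V)) (w t₁ : ℝ) (hanc : AncFl G H 𝒰 w t₁) (hA : ∀ U, AConn G A U → U ∈ 𝒰)
    (η : ℝ) (hη : 4 * η ≤ b) (Vp m4 : ℝ)
    (hVp : ((H.addPin A).sys b).V0 (rhLf (H.addPin A) (pn_br_addPin_proper H hP A) b f) ≤ Vp)
    (hm4 : ∀ U β', AConn G A U → PostT G b U β' → (rhNu H b U β').E0 (fun z => rhPLf H hP b U β' f z ^ 4) ≤ m4)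
    (hm4' : (H.sys b).E0 (fun z => rhLf H hP b f z ^ 4) ≤ m4) :
    (H.sys b).V0 (rhLf H hP b f) ≤ Vp + Real.sqrt m4 * (Real.sqrt (Real.exp (4 * η) - 1)
      + Real.sqrt (rhN H b P (fun h ω => rhInd (η < rhEps (b * w) H (rhU G A h ω) ∨ (vis G ω A ∩ Sf).Nonempty))).toReal) := by
  obtain ⟨_, hI0, hI1⟩ := pn_br_norm H P hΛ hP b hb hOk
  set I1 := rhI H b P (fun _ _ => 1) with hI1def
  obtain ⟨c, hc⟩ : ∃ c : ℝ, c = Vp + Real.sqrt m4 * Real.sqrt (Real.exp (4 * η) - 1) := ⟨_, rfl⟩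
  set pN := rhN H b P (fun h ω => rhInd (η < rhEps (b * w) H (rhU G A h ω) ∨ (vis G ω A ∩ Sf).Nonempty)) with hpN
  have hpN1 : pN ≤ 1 := pn_rch_N_ind_le_one H b P _
  have hpNfin : pN ≠ ∞ := ne_top_of_le_ne_top ENNReal.one_ne_top hpN1
  have hVp0 : 0 ≤ Vp := (rd_V0_nonneg (pn_br_addPin_ok H b hOk A) _).trans hVp
  have hc0 : 0 ≤ c := hc ▸ add_nonneg hVp0 (mul_nonneg (Real.sqrt_nonneg _) (Real.sqrt_nonneg _))
  have hM0 : 0 ≤ (H.sys b).E0 (fun z => rhLf H hP b f z ^ 4) := by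
    have := rd_E0_mono hOk (rd_dom_const 0) (rd_dom_pow (rd_dom_test (rhLf H hP b f)) 4) fun z => by positivity
    rwa [rd_E0_const hOk] at this
  have hm40 : 0 ≤ m4 := hM0.trans hm4'
  -- the transfer
  have key := pn_rch_second G H b hb P A (b * w) η c f Sf hSf
    (fun U u β' hU hu hβ hε _ => hc ▸ pn_rch_post2 H P hΛ hP b hb hOk A f 𝒰 w t₁ hanc hA η hη Vp m4 hVp hm4 U u β' hU hu hβ hε)
  rw [pn_rch_prior_var H P hΛ hP b hb hOk f] at key
  have main : ∀ s : ℝ, 0 < s → (H.sys b).V0 (rhLf H hP b f) ≤ c + s * pN.toReal / 2 + m4 / (2 * s) := by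
    intro s hs
    -- the bad part
    have hbad : rhI H b P (fun h ω => rhInd (η < rhEps (b * w) H (rhU G A h ω) ∨ (vis G ω A ∩ Sf).Nonempty) * ENNReal.ofReal (lin f h ^ 2))
        ≤ ENNReal.ofReal (s / 2) * (pN * I1) + ENNReal.ofReal (1 / (2 * s)) * (ENNReal.ofReal m4 * I1) := by
      have h1 : rhI H b P (fun h ω => rhInd (η < rhEps (b * w) H (rhU G A h ω) ∨ (vis G ω A ∩ Sf).Nonempty) * ENNReal.ofReal (lin f h ^ 2))
          ≤ rhI H b P (fun h ω => ENNReal.ofReal (s / 2) * rhInd (η < rhEps (b * w) H (rhU G A h ω) ∨ (vis G ω A ∩ Sf).Nonempty)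
            + ENNReal.ofReal (1 / (2 * s)) * ENNReal.ofReal (lin f h ^ 4)) := by
        refine pn_rch_I_mono H b P _ _ fun h ω _ _ => ?_
        unfold rhInd
        split_ifs
        · rw [one_mul, mul_one, ← ENNReal.ofReal_mul (by positivity), ← ENNReal.ofReal_add (by positivity) (by positivity)]
          refine ENNReal.ofReal_le_ofReal ?_
          have := pn_rch_sq_le_s (lin f h) s hs
          have e : 1 / (2 * s) * lin f h ^ 4 = lin f h ^ 4 / (2 * s) := by ring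
          rw [e]
          exact this
        · rw [zero_mul]
          exact zero_le
      refine h1.trans ?_
      rw [pn_rch_I_add, pn_rch_I_const_mul, pn_rch_I_const_mul, pn_rch_prior_m4 H P hΛ hP b hb hOk f,
        pn_rch_I_eq_N_mul H b P (fun h ω => rhInd (η < rhEps (b * w) H (rhU G A h ω) ∨ (vis G ω A ∩ Sf).Nonempty)) hI0 hI1]
      gcongr
    have h2 : ENNReal.ofReal ((H.sys b).V0 (rhLf H hP b f)) * I1
        ≤ ENNReal.ofReal (c + s * pN.toReal / 2 + m4 / (2 * s)) * I1 := by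
      refine (key.trans (add_le_add_right hbad _)).trans (le_of_eq ?_)
      rw [ENNReal.ofReal_add (by positivity) (by positivity), ENNReal.ofReal_add hc0 (by positivity)]
      have e1 : ENNReal.ofReal (s * pN.toReal / 2) = ENNReal.ofReal (s / 2) * pN := by
        rw [show s * pN.toReal / 2 = s / 2 * pN.toReal by ring, ENNReal.ofReal_mul (by positivity), ENNReal.ofReal_toReal hpNfin]
      have e2 : ENNReal.ofReal (m4 / (2 * s)) = ENNReal.ofReal (1 / (2 * s)) * ENNReal.ofReal m4 := by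
        rw [← ENNReal.ofReal_mul (by positivity)]
        congr 1
        ring
      rw [e1, e2]
      ring
    have h3 := (ENNReal.mul_le_mul_iff_left hI0 hI1).1 h2
    exact (ENNReal.ofReal_le_ofReal_iff (by positivity)).1 h3
  have := pn_rch_opt_s _ c pN.toReal m4 ENNReal.toReal_nonneg hm40 main
  rw [hc] at this
  linarith

/-- fourth moment through the Laplace transform (`LSys` level) -/
theorem pn_ls_m4_exp {S : LSys} (hS : S.Ok) (X : S.L →+ ℝ) : S.E0 (fun z => X z ^ 4) ≤ 48 * S.E0 fun z => Real.exp (X z) := by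
  have h1 : S.E0 (fun z => X z ^ 4) ≤ S.E0 (fun z => 24 * (Real.exp (X z) + Real.exp ((-X) z))) := by
    refine rd_E0_mono hS (rd_dom_pow (rd_dom_test X) 4) (rd_dom_smul 24 (rd_dom_add (rd_dom_exp X) (rd_dom_exp (-X)))) fun z => ?_
    have := pn_pow_le_exp (X z) 2
    norm_num [Nat.factorial] at this
    simpa using this
  have h2 : S.E0 (fun z => Real.exp ((-X) z)) = S.E0 (fun z => Real.exp (X z)) := by
    have := rd_E0_inv (S := S) (fun z => Real.exp (X z))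
    rw [← this]
    congr 1
    funext z
    simp
  rw [rd_E0_smul, rd_E0_add hS (rd_dom_exp X) (rd_dom_exp (-X)), h2] at h1
  linarith

/-- scaling: from `ϑ⁴ E ≤ 48 L` to `E ≤ 48 ϑ⁻⁴ L` -/
theorem pn_rch_m4_scale (ϑ E L : ℝ) (hϑ : 0 < ϑ) (h : ϑ ^ 4 * E ≤ 48 * L) : E ≤ 48 * ϑ⁻¹ ^ 4 * L := by
  have h4 : 0 < ϑ ^ 4 := by positivity
  have : E = ϑ⁻¹ ^ 4 * (ϑ ^ 4 * E) := by
    field_simp
  rw [this]
  calc ϑ⁻¹ ^ 4 * (ϑ ^ 4 * E) ≤ ϑ⁻¹ ^ 4 * (48 * L) := mul_le_mul_of_nonneg_left h (by positivity)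
    _ = 48 * ϑ⁻¹ ^ 4 * L := by ring

/-- **X1 in the base vocabulary**: `X`, `XA` = lifts of the SAME test `f₀` (on the physical height) for the band law and for the band law with the additional hard pin `A`; `m4` through the prior Laplace transform at any `ϑ > 0`. -/
theorem pn_rch_X1_lift (H : HLaw G) (P : Set G.V) (hΛ : H.Λ = HLaw.pinned P) (hP : H.Proper) (b : ℝ) (hb : 0 < b) (hOk : (H.sys b).Ok)
    (A Sf : Set G.V) (f₀ : G.V → ℝ) (hSf : ∀ x, x ∉ Sf → f₀ x = 0)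
    (𝒰 : Set (Set G.V)) (w t₁ : ℝ) (hanc : AncFl G H 𝒰 w t₁) (hA : ∀ U, AConn G A U → U ∈ 𝒰)
    (η : ℝ) (hη : 4 * η ≤ b) (Vp m4 ϑ : ℝ) (hϑ : 0 < ϑ)
    (X : (H.sys b).L →+ ℝ) (hX : H.Lift b f₀ X) (XA : ((H.addPin A).sys b).L →+ ℝ) (hXA : (H.addPin A).Lift b f₀ XA)
    (hVp : ((H.addPin A).sys b).V0 XA ≤ Vp) (hm4 : 48 * ϑ⁻¹ ^ 4 * (H.sys b).E0 (fun z => Real.exp (ϑ * X z)) ≤ m4) :
    (H.sys b).V0 X ≤ Vp + Real.sqrt m4 * (Real.sqrt (Real.exp (4 * η) - 1)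
      + Real.sqrt (rhN H b P (fun h ω => rhInd (η < rhEps (b * w) H (rhU G A h ω) ∨ (vis G ω A ∩ Sf).Nonempty))).toReal) := by
  have eX := pn_br_lift_eq H hP b f₀ X hX
  have eXA := pn_br_lift_eq (H.addPin A) (pn_br_addPin_proper H hP A) b f₀ XA hXA
  subst eX
  subst eXA
  have eL : (fun z => Real.exp (rhLf H hP b (ϑ • rhT f₀) z)) = fun z => Real.exp (ϑ * rhLf H hP b (rhT f₀) z) := by
    funext z
    rw [pn_br_lf_smul]
    rfl
  refine pn_rch_X1 H P hΛ hP b hb hOk A Sf (rhT f₀) (fun x hx => by unfold rhT; rw [hSf x hx, mul_zero]) 𝒰 w t₁ hanc hA η hη Vp m4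
    hVp ?_ ?_
  · intro U β' _ hβ
    have h := pn_br_m4 H hP b hOk U β' hβ.1 (ϑ • rhT f₀)
    have e1 : (fun z => rhPLf H hP b U β' (ϑ • rhT f₀) z ^ 4) = fun z => ϑ ^ 4 * rhPLf H hP b U β' (rhT f₀) z ^ 4 := by
      funext z
      have : rhPLf H hP b U β' (ϑ • rhT f₀) z = ϑ * rhPLf H hP b U β' (rhT f₀) z := by
        unfold rhPLf
        rw [pn_br_lf_smul]
        rfl
      rw [this, mul_pow]
    rw [e1, rd_E0_smul, eL] at h
    exact (pn_rch_m4_scale ϑ _ _ hϑ h).trans hm4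
  · have h := pn_ls_m4_exp hOk (rhLf H hP b (ϑ • rhT f₀))
    have e1 : (fun z => rhLf H hP b (ϑ • rhT f₀) z ^ 4) = fun z => ϑ ^ 4 * rhLf H hP b (rhT f₀) z ^ 4 := by
      funext z
      have : rhLf H hP b (ϑ • rhT f₀) z = ϑ * rhLf H hP b (rhT f₀) z := by
        rw [pn_br_lf_smul]
        rfl
      rw [this, mul_pow]
    rw [e1, rd_E0_smul, eL] at h
    exact (pn_rch_m4_scale ϑ _ _ hϑ h).trans hm4

/-! ## X2 -/

/-- **X2, numeric form = RESULT of the blueprint s6, normalised.**   `cB j`, `cI i` = two finite families of cells with nonnegative tests `fB j` (carried by `cB j`), `fI i` (both with the factor `s 2π`);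
`hX1`, `hX2` = crossing; `hvB`, `hvI` = (AN1) for a visited cell, cost `R`; `γ` = the gap;   `kA ≥ E κ_A`, `χ ≥ E cq f_B f_i`, `kS ≥ E ∑_x f_B(x)|h_x| κ(C_x)`. -/
theorem pn_rch_X2num {ιB ιI : Type} [Fintype ιB] [Fintype ιI]
    (H : HLaw G) (P : Set G.V) (hΛ : H.Λ = HLaw.pinned P) (hP : H.Proper) (b : ℝ) (hb : 0 < b) (hOk : (H.sys b).Ok) (A T : Set G.V)
    (cB : ιB → Set G.V) (cI : ιI → Set G.V) (fB : ιB → G.V → ℝ) (fI : ιI → G.V → ℝ)
    (hfB0 : ∀ j x, 0 ≤ fB j x) (hfBs : ∀ j x, x ∉ cB j → fB j x = 0) (hfI0 : ∀ i x, 0 ≤ fI i x)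
    (hX1 : ∀ U, AConn G A U → (U ∩ T).Nonempty → ∃ j, (U ∩ cB j).Nonempty)
    (hX2 : ∀ j, ∀ x ∈ cB j, ∀ U, AConn G {x} U → (U ∩ A).Nonempty → ∃ i, (U ∩ cI i).Nonempty)
    (𝒰 : Set (Set G.V)) (w t₁ Tr : ℝ) (hanc : AncFl G H 𝒰 w t₁) (hTr0 : 0 ≤ Tr) (hTr : 2 * (t₁ * Tr) ≤ 1)
    (hA : ∀ U, AConn G A U → U ∈ 𝒰) (hx : ∀ j, ∀ x ∈ cB j, ∀ U, AConn G {x} U → U ∈ 𝒰)
    (R t₀ : ℝ) (hvB : ∀ j U, AConn G A U → (U ∩ cB j).Nonempty → FlowLe G U (fB j) R t₀)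
    (hvI : ∀ j, ∀ x ∈ cB j, ∀ i U, AConn G {x} U → (U ∩ cI i).Nonempty → FlowLe G U (fI i) R t₀)
    (γ : ℝ) (hγ0 : 0 < γ) (hγB : ∀ j, γ ≤ Real.exp (-(b * R)) - (H.sys b).phi (rhLf H hP b (fB j)))
    (hγI : ∀ i, γ ≤ Real.exp (-(b * R)) - (H.sys b).phi (rhLf H hP b (fI i)))
    (kA χ kS : ℝ) (hkA0 : 0 ≤ kA) (hχ0 : 0 ≤ χ) (hkS0 : 0 ≤ kS)
    (hkA : rhN H b P (fun h ω => ENNReal.ofReal (rhKap (b * w) Tr H (vis G ω A) (rhU G A h ω))) ≤ ENNReal.ofReal kA)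
    (hχ : ∀ j i, rhN H b P (fun h ω => ENNReal.ofReal (cq G ω (fB j) (fI i) h)) ≤ ENNReal.ofReal χ)
    (hkS : ∀ j, rhN H b P (fun h ω => ENNReal.ofReal (rhKs G (rhKap (b * w) Tr H) (fB j) h ω)) ≤ ENNReal.ofReal kS) :
    rhN H b P (fun _ ω => rhInd ((vis G ω A ∩ T).Nonempty))
      ≤ ENNReal.ofReal (γ⁻¹ ^ 2 * (Fintype.card ιB * (γ * kA + Fintype.card ιI * (χ + kS)))) := by
  obtain ⟨-, hN0, hNt⟩ := pn_br_norm H P hΛ hP b hb hOk
  have hres := pn_rch_result G H b hb P A T cB cI fB fI hfB0 hfBs hfI0 hX1 hX2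
    (fun j => (H.sys b).phi (rhLf H hP b (fB j))) (fun i => (H.sys b).phi (rhLf H hP b (fI i))) γ (rhKap (b * w) Tr H)
    (fun j => rd_phi_le_one hOk _) (fun i => rd_phi_le_one hOk _) hγ0.le (pn_rch_kap_nonneg H (b * w) Tr)
    (fun j => pn_rch_postCos H P hΛ hP b hb hOk A (cB j) (fB j) 𝒰 w t₁ Tr hanc hA hTr0 hTr R t₀ (hvB j) γ hγ0.le (hγB j))
    (fun j x hxj i => pn_rch_postCos H P hΛ hP b hb hOk {x} (cI i) (fI i) 𝒰 w t₁ Tr hanc (hx j x hxj) hTr0 hTr R t₀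
      (hvI j x hxj i) γ hγ0.le (hγI i))
    hNt (pn_rch_prior_fin_site H P hΛ hP b hb hOk)
    (fun j => (pn_rch_prior_cos H P hΛ hP b hb hOk (fB j)).le)
    (fun i x => pn_rch_prior_bias H P hΛ hP b hb hOk (fI i) x)
  unfold rhN at hkA hχ hkS ⊢
  set N := rhI H b P (fun _ _ => 1) with hN
  have hkA' := (ENNReal.div_le_iff hN0 hNt).1 hkA
  have hχ' := fun j i => (ENNReal.div_le_iff hN0 hNt).1 (hχ j i)
  have hkS' := fun j => (ENNReal.div_le_iff hN0 hNt).1 (hkS j)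
  rw [ENNReal.div_le_iff hN0 hNt]
  set X := rhI H b P (fun _ ω => rhInd ((vis G ω A ∩ T).Nonempty)) with hX
  have h1 : ENNReal.ofReal γ * (ENNReal.ofReal γ * X)
      ≤ ENNReal.ofReal (Fintype.card ιB * (γ * kA + Fintype.card ιI * (χ + kS))) * N := by
    refine hres.trans ?_
    have h2 : ∀ j : ιB, (ENNReal.ofReal γ * rhI H b P (fun h ω => ENNReal.ofReal (rhKap (b * w) Tr H (vis G ω A) (rhU G A h ω)))
        + ∑ i, (rhI H b P (fun h ω => ENNReal.ofReal (cq G ω (fB j) (fI i) h))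
          + rhI H b P (fun h ω => ENNReal.ofReal (rhKs G (rhKap (b * w) Tr H) (fB j) h ω))))
        ≤ ENNReal.ofReal (γ * kA + Fintype.card ιI * (χ + kS)) * N := by
      intro j
      have h3 : ∑ i : ιI, (rhI H b P (fun h ω => ENNReal.ofReal (cq G ω (fB j) (fI i) h))
          + rhI H b P (fun h ω => ENNReal.ofReal (rhKs G (rhKap (b * w) Tr H) (fB j) h ω)))
          ≤ ∑ _i : ιI, ENNReal.ofReal (χ + kS) * N := by
        refine Finset.sum_le_sum fun i _ => ?_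
        rw [ENNReal.ofReal_add hχ0 hkS0, add_mul]
        exact add_le_add (hχ' j i) (hkS' j)
      rw [Finset.sum_const, Finset.card_univ, nsmul_eq_mul] at h3
      rw [ENNReal.ofReal_add (mul_nonneg hγ0.le hkA0) (mul_nonneg (Nat.cast_nonneg _) (add_nonneg hχ0 hkS0)), add_mul,
        ENNReal.ofReal_mul hγ0.le, ENNReal.ofReal_mul (Nat.cast_nonneg _), ENNReal.ofReal_natCast, mul_assoc, mul_assoc]
      exact add_le_add (mul_le_mul_right hkA' _) h3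
    refine (Finset.sum_le_sum fun j _ => h2 j).trans (le_of_eq ?_)
    rw [Finset.sum_const, Finset.card_univ, nsmul_eq_mul, ENNReal.ofReal_mul (Nat.cast_nonneg _), ENNReal.ofReal_natCast, mul_assoc]
  have h4 : X = ENNReal.ofReal (γ⁻¹ ^ 2) * (ENNReal.ofReal γ * (ENNReal.ofReal γ * X)) := by
    rw [← mul_assoc, ← mul_assoc, ← ENNReal.ofReal_mul (by positivity), ← ENNReal.ofReal_mul (by positivity)]
    have : γ⁻¹ ^ 2 * γ * γ = 1 := by
      field_simp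
    rw [this, ENNReal.ofReal_one, one_mul]
  rw [h4, ENNReal.ofReal_mul (by positivity), mul_assoc]
  exact mul_le_mul_right h1 _

/-- explorations from subsets of the far set -/
theorem pn_rch_far_of_aconn (A' A U : Set G.V) (hA : A ⊆ A') (hU : AConn G A U) : U ∈ clFar G A' := by
  refine ⟨Set.inter_subset_right, fun v hv => ?_⟩
  obtain ⟨a, ha, hav⟩ := hU.2 v hv
  exact ⟨a, ⟨hA ha, hU.1 ha⟩, hav⟩

/-- `P(ε_A² > η) ≤ P(Bad) + (2 b w/η) E|y(h)|²`   (`pn_cl_eps_prob` at `η/(b w)`) -/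
theorem pn_rch_pe (H : HLaw G) (P : Set G.V) (b : ℝ) (hc : ClCtx H P b) (𝒰 : Set (Set G.V)) (w t₁ T : ℝ) (hw : 0 < w) (hT0 : 0 ≤ T)
    (hbw : 16 * b * w ≤ 1) (hT : 2 * (t₁ * T) ≤ 1) (hanc : AncFl G H 𝒰 w t₁) (A : Set G.V) (hA : ∀ U, AConn G A U → U ∈ 𝒰)
    (η : ℝ) (hη : 0 < η) :
    rhI H b P (fun h ω => rhInd (η < rhEps (b * w) H (rhU G A h ω)))
      ≤ rhI H b P (fun h _ => rhInd (clBad H T h)) + ENNReal.ofReal (2 * b * w / η) * rhI H b P (fun h _ => ENNReal.ofReal (clY H h)) := by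
  have hbw0 : 0 < b * w := mul_pos hc.hb hw
  have h1 := pn_cl_eps_prob H P b hc 𝒰 w t₁ T hw.le hT0 hbw hT hanc A (fun ω => hA _ (pn_rch_vis_aconn G ω A)) (η / (b * w)) (div_pos hη hbw0)
  have e1 : (2 : ℝ) / (η / (b * w)) = 2 * b * w / η := by
    field_simp
  rw [e1] at h1
  refine le_trans (le_of_eq ?_) h1
  congr 1
  funext h ω
  congr 1
  unfold rhEps clY
  rw [div_lt_iff₀ hbw0, mul_comm]

/-- `min 2 √(e^{4x} - 1)² ≤ 16 x` -/
theorem pn_rch_kap_sq_aux (x : ℝ) (hx : 0 ≤ x) : min 2 (Real.sqrt (Real.exp (4 * x) - 1)) ^ 2 ≤ 16 * x := by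
  have h0 : 0 ≤ min 2 (Real.sqrt (Real.exp (4 * x) - 1)) := le_min (by norm_num) (Real.sqrt_nonneg _)
  by_cases h : 1 ≤ 4 * x
  · have h1 : min 2 (Real.sqrt (Real.exp (4 * x) - 1)) ≤ 2 := min_le_left _ _
    nlinarith
  · push Not at h
    have h1 : min 2 (Real.sqrt (Real.exp (4 * x) - 1)) ≤ Real.sqrt (Real.exp (4 * x) - 1) := min_le_right _ _
    have h2 : 0 ≤ Real.exp (4 * x) - 1 := by
      have := Real.add_one_le_exp (4 * x)
      linarith
    have h3 : Real.sqrt (Real.exp (4 * x) - 1) ^ 2 = Real.exp (4 * x) - 1 := Real.sq_sqrt h2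
    -- e^y ≤ 1/(1-y) for y<1;  better: e^y - 1 ≤ 2 y... for y ≤ 1:  e^y ≤ 1 + y + y^2
    have h4 : Real.exp (4 * x) ≤ 1 + 4 * x + (4 * x) ^ 2 := by
      have := Real.abs_exp_sub_one_sub_id_le (x := 4 * x) (by rw [abs_of_nonneg (by linarith)]; linarith)
      have h5 := le_abs_self (Real.exp (4 * x) - 1 - 4 * x)
      linarith
    have h6 : min 2 (Real.sqrt (Real.exp (4 * x) - 1)) ^ 2 ≤ Real.sqrt (Real.exp (4 * x) - 1) ^ 2 :=
      pow_le_pow_left₀ h0 h1 2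
    nlinarith

/-- `min 2 √(e^{4x} - 1) ≤ s + 4 x / s`  (`x = ε² ≥ 0`; `min(2, √(e^{4x}-1)) ≤ 4 √x`, AM-GM) -/
theorem pn_rch_kap_le (x s : ℝ) (hx : 0 ≤ x) (hs : 0 < s) : min 2 (Real.sqrt (Real.exp (4 * x) - 1)) ≤ s + 4 * x / s := by
  have h0 : 0 ≤ min 2 (Real.sqrt (Real.exp (4 * x) - 1)) := le_min (by norm_num) (Real.sqrt_nonneg _)
  have h1 := pn_rch_kap_sq_aux x hx
  set m := min 2 (Real.sqrt (Real.exp (4 * x) - 1)) with hm
  -- m ≤ s + m^2/(4 s)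
  have h2 : m ≤ s + m ^ 2 / (4 * s) := by
    rw [← sub_nonneg]
    have : s + m ^ 2 / (4 * s) - m = (2 * s - m) ^ 2 / (4 * s) := by
      field_simp
      ring
    rw [this]
    positivity
  have h3 : m ^ 2 / (4 * s) ≤ 4 * x / s := by
    rw [div_le_div_iff₀ (by positivity) hs]
    nlinarith
  linarith

/-- `min 2 √(e^{4x} - 1)² ≤ 16 x` -/
theorem pn_rch_kap_sq_le (x : ℝ) (hx : 0 ≤ x) : min 2 (Real.sqrt (Real.exp (4 * x) - 1)) ^ 2 ≤ 16 * x :=
  pn_rch_kap_sq_aux x hx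

/-- `E κ_A ≤ s + (8 b w/s) E|y(h)|² + 2 P(Bad)`   (`pn_rch_kap_le`, `pn_cl_absorb` with `F = 1[Gd]`, `pn_cl_bad_of_not_gd`) -/
theorem pn_rch_kA (H : HLaw G) (P : Set G.V) (b : ℝ) (hc : ClCtx H P b) (𝒰 : Set (Set G.V)) (w t₁ T : ℝ) (hw : 0 ≤ w) (hT0 : 0 ≤ T)
    (hbw : 16 * b * w ≤ 1) (hT : 2 * (t₁ * T) ≤ 1) (hanc : AncFl G H 𝒰 w t₁) (A : Set G.V) (hA : ∀ U, AConn G A U → U ∈ 𝒰)
    (s : ℝ) (hs : 0 < s) :
    rhI H b P (fun h ω => ENNReal.ofReal (rhKap (b * w) T H (vis G ω A) (rhU G A h ω)))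
      ≤ ENNReal.ofReal s * rhI H b P (fun _ _ => 1) + ENNReal.ofReal (8 * b * w / s) * rhI H b P (fun h _ => ENNReal.ofReal (clY H h))
        + 2 * rhI H b P (fun h _ => rhInd (clBad H T h)) := by
  have hbw0 : 0 ≤ b * w := mul_nonneg hc.hb.le hw
  set F : (G.V → ℤ) → (G.E → Bool) → ℝ≥0∞ := fun h ω => rhInd (vis G ω A ∈ 𝒰 ∧ clGd H T (rhU G A h ω)) with hFdef
  have hF : ExpMeas G A F := pn_rch_expMeas_of G A fun U u => rhInd (U ∈ 𝒰 ∧ clGd H T u)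
  have h1 := pn_cl_absorb H P b hc 𝒰 w t₁ T hw hT0 hbw hT hanc A F hF (fun h ω hn => by simp [hFdef, rhInd, hn])
  have hvis : ∀ ω, vis G ω A ∈ 𝒰 := fun ω => hA _ (pn_rch_vis_aconn G ω A)
  have h2 : rhI H b P (fun h ω => ENNReal.ofReal (rhKap (b * w) T H (vis G ω A) (rhU G A h ω)))
      ≤ rhI H b P (fun h ω => (ENNReal.ofReal s * 1 + ENNReal.ofReal (4 * b * w / s) * (F h ω * ENNReal.ofReal (clY H (rhU G A h ω))))
          + 2 * rhInd (clBad H T h)) := by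
    refine pn_cl_I_mono H b P _ _ fun h ω _ _ => ?_
    by_cases hg : clGd H T (rhU G A h ω)
    · have hF1 : F h ω = 1 := by simp [hFdef, rhInd, hvis ω, hg]
      have hY0 : 0 ≤ clY H (rhU G A h ω) := Finset.sum_nonneg fun o _ => sq_nonneg _
      have hq0 : 0 ≤ 4 * b * w / s := by
        have : 4 * b * w / s = 4 * (b * w) / s := by ring
        rw [this]
        positivity
      rw [hF1, one_mul, mul_one, ← ENNReal.ofReal_mul hq0, ← ENNReal.ofReal_add hs.le (mul_nonneg hq0 hY0)]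
      refine le_add_right (ENNReal.ofReal_le_ofReal ?_)
      have hg' : rhGd H T (rhU G A h ω) := hg
      unfold rhKap
      rw [if_pos hg']
      have hx0 : 0 ≤ rhEps (b * w) H (rhU G A h ω) := mul_nonneg hbw0 hY0
      refine (pn_rch_kap_le _ s hx0 hs).trans (le_of_eq ?_)
      unfold rhEps clY
      ring
    · have hb : clBad H T h := pn_cl_bad_of_not_gd H hc.hB T _ h hg
      refine le_add_left ?_
      have : rhInd (clBad H T h) = 1 := by simp [rhInd, hb]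
      rw [this, mul_one]
      have hg' : ¬ rhGd H T (rhU G A h ω) := hg
      unfold rhKap
      rw [if_neg hg']
      simp
  refine h2.trans ?_
  rw [pn_cl_I_add, pn_cl_I_add, pn_cl_I_mul, pn_cl_I_mul, pn_cl_I_mul]
  refine add_le_add (add_le_add le_rfl ?_) le_rfl
  have h3 : rhI H b P (fun h ω => F h ω * ENNReal.ofReal (clY H h)) ≤ rhI H b P (fun h _ => ENNReal.ofReal (clY H h)) :=
    pn_cl_I_mono H b P _ _ fun h ω _ _ => by
      calc F h ω * ENNReal.ofReal (clY H h) ≤ 1 * ENNReal.ofReal (clY H h) := mul_le_mul_left (pn_cl_ind_le_one _) _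
        _ = _ := one_mul _
  have e : ENNReal.ofReal (8 * b * w / s) = ENNReal.ofReal (4 * b * w / s) * 2 := by
    have : (2 : ℝ≥0∞) = ENNReal.ofReal 2 := by simp
    have hq0 : 0 ≤ 4 * b * w / s := by
      have : 4 * b * w / s = 4 * (b * w) / s := by ring
      rw [this]
      positivity
    rw [this, ← ENNReal.ofReal_mul hq0]
    congr 1
    ring
  rw [e, mul_assoc (ENNReal.ofReal _)]
  exact mul_le_mul_right (h1.trans (mul_le_mul_right h3 _)) _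

/-- `E ∑_x f(x)|h_x| κ(C_x) ≤ s E cq f f + (4 b w/s) E ∑_{C far, Gd}|y(e_C)|² + P(Bad) + E[Bad; ⟨f,|h|⟩²]`, `f` carried by the far set.
(good clusters: `pn_cl_cs_int` with `J_x = 1[C_x good] κ(C_x)`, `J_x² ≤ 16 b w |y(e_x)|²` (`pn_rch_kap_sq_le`); bad clusters: `κ = 2`, `pn_cl_bad_of_not_gd`, `2 t ≤ 1 + t²`; `x` in the far set: `pn_cl_far_clu`.) -/
theorem pn_rch_kS (H : HLaw G) (P : Set G.V) (b : ℝ) (hc : ClCtx H P b) (A' : Set G.V) (w T : ℝ) (hw : 0 ≤ w)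
    (f : G.V → ℝ) (hf : ∀ x, 0 ≤ f x) (hfA : ∀ x, x ∉ A' → f x = 0) (s : ℝ) (hs : 0 < s) :
    rhI H b P (fun h ω => ENNReal.ofReal (rhKs G (rhKap (b * w) T H) f h ω))
      ≤ ENNReal.ofReal s * rhI H b P (fun h ω => ENNReal.ofReal (cq G ω f f h))
        + ENNReal.ofReal (4 * b * w / s) * rhI H b P (fun h ω => ENNReal.ofReal (clS2 G H (clFar G A') T h ω))
        + rhI H b P (fun h _ => rhInd (clBad H T h))
        + rhI H b P (fun h _ => rhInd (clBad H T h) * ENNReal.ofReal (linA f h ^ 2)) := by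
  have hbw0 : 0 ≤ b * w := mul_nonneg hc.hb.le hw
  set J : (G.V → ℤ) → (G.E → Bool) → G.V → ℝ := fun h ω x =>
    if clGdx G H (clFar G A') T h ω x then min 2 (Real.sqrt (Real.exp (4 * rhEps (b * w) H (rhU G {x} h ω)) - 1)) else 0 with hJdef
  have hJpos : ∀ h ω x, clGdx G H (clFar G A') T h ω x →
      J h ω x = min 2 (Real.sqrt (Real.exp (4 * rhEps (b * w) H (rhU G {x} h ω)) - 1)) := fun h ω x hx => if_pos hx
  have hJneg : ∀ h ω x, ¬ clGdx G H (clFar G A') T h ω x → J h ω x = 0 := fun h ω x hx => if_neg hx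
  have hJ0 : ∀ h ω x, 0 ≤ J h ω x := by
    intro h ω x
    by_cases hx : clGdx G H (clFar G A') T h ω x
    · rw [hJpos h ω x hx]
      exact le_min (by norm_num) (Real.sqrt_nonneg _)
    · rw [hJneg h ω x hx]
  have hJ : ∀ h ω x y, conn G ω x y → J h ω x = J h ω y := by
    intro h ω x y hxy
    have e1 : vis G ω {x} = vis G ω {y} := pn_cl_vis_conn ω hxy
    have e2 : rhU G {x} h ω = rhU G {y} h ω := by
      unfold rhU
      rw [e1]
    have e3 : clGdx G H (clFar G A') T h ω x ↔ clGdx G H (clFar G A') T h ω y := by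
      unfold clGdx
      rw [e1, e2]
    by_cases hy : clGdx G H (clFar G A') T h ω y
    · rw [hJpos h ω y hy, hJpos h ω x (e3.2 hy), e2]
    · rw [hJneg h ω y hy, hJneg h ω x (fun h' => hy (e3.1 h'))]
  have h1 := pn_cl_cs_int H P b f J hJ s hs
  -- pointwise decomposition
  have h2 : rhI H b P (fun h ω => ENNReal.ofReal (rhKs G (rhKap (b * w) T H) f h ω))
      ≤ rhI H b P (fun h ω => ENNReal.ofReal (∑ x, f x * |(h x : ℝ)| * J h ω x)
          + (rhInd (clBad H T h) + rhInd (clBad H T h) * ENNReal.ofReal (linA f h ^ 2))) := by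
    refine pn_cl_I_mono H b P _ _ fun h ω _ _ => ?_
    have hl0 : 0 ≤ linA f h := Finset.sum_nonneg fun x _ => mul_nonneg (hf x) (abs_nonneg _)
    have key : rhKs G (rhKap (b * w) T H) f h ω
        ≤ ∑ x, f x * |(h x : ℝ)| * J h ω x + (if clBad H T h then 2 * linA f h else 0) := by
      have e3 : (if clBad H T h then 2 * linA f h else 0) = ∑ x, f x * |(h x : ℝ)| * (if clBad H T h then 2 else 0) := by
        rw [← Finset.sum_mul]
        unfold linA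
        split_ifs
        · ring
        · ring
      rw [e3, ← Finset.sum_add_distrib]
      unfold rhKs
      refine Finset.sum_le_sum fun x _ => ?_
      rw [← mul_add]
      by_cases hxA : x ∈ A'
      · refine mul_le_mul_of_nonneg_left ?_ (mul_nonneg (hf x) (abs_nonneg _))
        have hfar : vis G ω {x} ∈ clFar G A' := (pn_cl_far_clu A' ω x).2 ⟨x, pn_conn_refl G ω x, hxA⟩
        by_cases hg : clGd H T (rhU G {x} h ω)
        · have hg' : rhGd H T (rhU G {x} h ω) := hg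
          rw [hJpos h ω x ⟨hfar, hg⟩]
          unfold rhKap
          rw [if_pos hg']
          refine le_add_of_nonneg_right ?_
          split_ifs <;> norm_num
        · have hg' : ¬ rhGd H T (rhU G {x} h ω) := hg
          have hb : clBad H T h := pn_cl_bad_of_not_gd H hc.hB T _ h hg
          unfold rhKap
          rw [if_neg hg', if_pos hb]
          exact le_add_of_nonneg_left (hJ0 h ω x)
      · rw [hfA x hxA]
        simp
    refine (ENNReal.ofReal_le_ofReal key).trans ?_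
    refine ENNReal.ofReal_add_le.trans (add_le_add le_rfl ?_)
    by_cases hb : clBad H T h
    · have : rhInd (clBad H T h) = 1 := by simp [rhInd, hb]
      rw [this, if_pos hb, one_mul]
      have e1 : (1 : ℝ≥0∞) = ENNReal.ofReal 1 := by simp
      rw [e1, ← ENNReal.ofReal_add zero_le_one (sq_nonneg _)]
      refine ENNReal.ofReal_le_ofReal ?_
      nlinarith [sq_nonneg (linA f h - 1)]
    · rw [if_neg hb]
      simp
  refine h2.trans ?_
  rw [pn_cl_I_add, pn_cl_I_add, ← add_assoc]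
  refine add_le_add (add_le_add ?_ le_rfl) le_rfl
  refine h1.trans (add_le_add le_rfl ?_)
  have hq0 : 0 ≤ 4 * b * w / s := by
    have : 4 * b * w / s = 4 * (b * w) / s := by ring
    rw [this]
    positivity
  rw [← pn_cl_I_mul, ← pn_cl_I_mul]
  refine pn_cl_I_mono H b P _ _ fun h ω _ _ => ?_
  rw [← ENNReal.ofReal_mul (by positivity), ← ENNReal.ofReal_mul hq0]
  refine ENNReal.ofReal_le_ofReal ?_
  have h3 : ∑ x, (csz G ω x)⁻¹ * J h ω x ^ 2 ≤ 16 * (b * w) * clS2 G H (clFar G A') T h ω := by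
    unfold clS2
    rw [Finset.mul_sum]
    refine Finset.sum_le_sum fun x _ => ?_
    have hc0 : 0 ≤ (csz G ω x)⁻¹ := (inv_pos.2 (pn_cl_csz_pos ω x)).le
    by_cases hx : clGdx G H (clFar G A') T h ω x
    · rw [hJpos h ω x hx, if_pos hx]
      have hY0 : 0 ≤ clY H (rhU G {x} h ω) := Finset.sum_nonneg fun o _ => sq_nonneg _
      have hx0 : 0 ≤ rhEps (b * w) H (rhU G {x} h ω) := mul_nonneg hbw0 hY0
      have h4 := pn_rch_kap_sq_le _ hx0
      have e5 : rhEps (b * w) H (rhU G {x} h ω) = b * w * clY H (rhU G {x} h ω) := rfl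
      rw [e5] at h4 ⊢
      calc (csz G ω x)⁻¹ * min 2 (Real.sqrt (Real.exp (4 * (b * w * clY H (rhU G {x} h ω))) - 1)) ^ 2
          ≤ (csz G ω x)⁻¹ * (16 * (b * w * clY H (rhU G {x} h ω))) := mul_le_mul_of_nonneg_left h4 hc0
        _ = _ := by ring
    · rw [hJneg h ω x hx, if_neg hx]
      simp
  calc (4 * s)⁻¹ * ∑ x, (csz G ω x)⁻¹ * J h ω x ^ 2
      ≤ (4 * s)⁻¹ * (16 * (b * w) * clS2 G H (clFar G A') T h ω) := mul_le_mul_of_nonneg_left h3 (by positivity)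
    _ = _ := by
      field_simp
      ring

/-- the prior covariance, positive and negative parts (`pn_rch_prior_E0` for `(XY)⁺`, `(XY)⁻`; `rd_Cv0_eq`) -/
theorem pn_rch_prior_cov (H : HLaw G) (P : Set G.V) (hΛ : H.Λ = HLaw.pinned P) (hP : H.Proper) (b : ℝ) (hb : 0 < b) (hOk : (H.sys b).Ok)
    (f g : G.V → ℝ) (χ₀ : ℝ) (hχ0 : 0 ≤ χ₀) (hχ : (H.sys b).Cv 0 0 (rhLf H hP b f) (rhLf H hP b g) ≤ χ₀) :
    rhI H b P (fun h _ => ENNReal.ofReal (-(lin f h * lin g h))) ≠ ∞ ∧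
    rhI H b P (fun h _ => ENNReal.ofReal (lin f h * lin g h))
      ≤ rhI H b P (fun h _ => ENNReal.ofReal (-(lin f h * lin g h))) + ENNReal.ofReal χ₀ * rhI H b P (fun _ _ => 1) := by
  obtain ⟨X, hX⟩ : ∃ X, X = rhLf H hP b f := ⟨_, rfl⟩
  obtain ⟨Y, hY⟩ : ∃ Y, Y = rhLf H hP b g := ⟨_, rfl⟩
  have hmax : ∀ x : ℝ, ENNReal.ofReal x = ENNReal.ofReal (max x 0) := by
    intro x
    rcases le_total x 0 with h | h
    · rw [max_eq_right h, ENNReal.ofReal_zero, ENNReal.ofReal_of_nonpos h]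
    · rw [max_eq_left h]
  have dXY : (H.sys b).Dom fun z => X z * Y z := rd_dom_mul (rd_dom_test X) (rd_dom_test Y)
  have dp : (H.sys b).Dom fun z => max (X z * Y z) 0 := rd_dom_of_le dXY fun z => by
    rw [abs_of_nonneg (le_max_right _ _)]
    exact max_le (le_abs_self _) (abs_nonneg _)
  have dn : (H.sys b).Dom fun z => max (-(X z * Y z)) 0 := rd_dom_of_le dXY fun z => by
    rw [abs_of_nonneg (le_max_right _ _)]
    exact max_le (neg_le_abs _) (abs_nonneg _)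
  have ep : rhI H b P (fun h _ => ENNReal.ofReal (lin f h * lin g h))
      = ENNReal.ofReal ((H.sys b).E0 fun z => max (X z * Y z) 0) * rhI H b P (fun _ _ => 1) := by
    simp only [hmax (lin f _ * lin g _)]
    rw [pn_rch_prior_E0 H P hΛ hP b hb hOk (fun h => max (lin f h * lin g h) 0) (fun _ => le_max_right _ _)
      (by simpa only [hX, hY, pn_br_lf_apply] using dp)]
    simp only [hX, hY, pn_br_lf_apply]
  have en : rhI H b P (fun h _ => ENNReal.ofReal (-(lin f h * lin g h)))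
      = ENNReal.ofReal ((H.sys b).E0 fun z => max (-(X z * Y z)) 0) * rhI H b P (fun _ _ => 1) := by
    simp only [hmax (-(lin f _ * lin g _))]
    rw [pn_rch_prior_E0 H P hΛ hP b hb hOk (fun h => max (-(lin f h * lin g h)) 0) (fun _ => le_max_right _ _)
      (by simpa only [hX, hY, pn_br_lf_apply] using dn)]
    simp only [hX, hY, pn_br_lf_apply]
  obtain ⟨-, hN0, hNt⟩ := pn_br_norm H P hΛ hP b hb hOk
  refine ⟨?_, ?_⟩
  · rw [en]
    exact ENNReal.mul_ne_top ENNReal.ofReal_ne_top hNt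
  · rw [ep, en, ← add_mul]
    refine mul_le_mul_left ?_ _
    have h0 : 0 ≤ (H.sys b).E0 fun z => max (-(X z * Y z)) 0 := pn_E0_nonneg hOk fun _ => le_max_right _ _
    rw [← ENNReal.ofReal_add h0 hχ0]
    refine ENNReal.ofReal_le_ofReal ?_
    have h1 := pn_E0_sub hOk dp dn
    have h2 : (fun z => max (X z * Y z) 0 - max (-(X z * Y z)) 0) = fun z => X z * Y z := by
      funext z
      rcases le_total (X z * Y z) 0 with h | h
      · rw [max_eq_right h, max_eq_left (by linarith)]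
        ring
      · rw [max_eq_left h, max_eq_right (by linarith)]
        ring
    rw [h2, ← rd_Cv0_eq, hX, hY] at h1
    rw [hX, hY]
    linarith

/-- `E cq f g ≤ χ₀ + s E cq f f + (4 b w c2/s) E ∑_{C far, Gd}|y(e_C)|² + E[Bad; ⟨f,|h|⟩⟨g,|h|⟩]`, `χ₀ ≥ Cov_H(f,g)`   (`pn_cl_cross` + `pn_rch_prior_cov`, cancel the finite negative part) -/
theorem pn_rch_chi (H : HLaw G) (P : Set G.V) (hΛ : H.Λ = HLaw.pinned P) (hP : H.Proper) (b : ℝ) (hc : ClCtx H P b) (hOk : (H.sys b).Ok)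
    (A' : Set G.V) (w t₁ T : ℝ) (hw : 0 ≤ w) (hT0 : 0 ≤ T) (hT : 2 * (t₁ * T) ≤ 1) (hanc : AncFl G H (clFar G A') w t₁)
    (f g : G.V → ℝ) (hf : ∀ x, 0 ≤ f x) (hg : ∀ x, 0 ≤ g x) (hfA : ∀ x, x ∉ A' → f x = 0)
    (Rg tg σ c2 Θ : ℝ) (hrep : ∀ U ∈ clFar G A', clRep H (P ∪ U) g Rg tg σ) (htg : 0 ≤ tg) (hc2 : 0 < c2) (hcost : b * Rg + σ / 2 ≤ c2)
    (hΘ0 : 0 ≤ Θ) (hΘ : b * w * (Fintype.card H.O * T ^ 2) ≤ Θ ^ 2 * c2) (hsup : t₁ * T + Θ * tg ≤ 1) (s : ℝ) (hs : 0 < s)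
    (χ₀ : ℝ) (hχ0 : 0 ≤ χ₀) (hχ : (H.sys b).Cv 0 0 (rhLf H hP b f) (rhLf H hP b g) ≤ χ₀) :
    rhI H b P (fun h ω => ENNReal.ofReal (cq G ω f g h))
      ≤ ENNReal.ofReal χ₀ * rhI H b P (fun _ _ => 1)
        + ENNReal.ofReal s * rhI H b P (fun h ω => ENNReal.ofReal (cq G ω f f h))
        + ENNReal.ofReal (4 * b * w * c2 / s) * rhI H b P (fun h ω => ENNReal.ofReal (clS2 G H (clFar G A') T h ω))
        + rhI H b P (fun h _ => rhInd (clBad H T h) * ENNReal.ofReal (linA f h * linA g h)) := by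
  have hb := hc.hb
  obtain ⟨hfin, hcov⟩ := pn_rch_prior_cov H P hΛ hP b hb hOk f g χ₀ hχ0 hχ
  have h1 := pn_cl_cross H P b hc A' w t₁ T hw hT0 hT hanc f g hf hg hfA Rg tg σ c2 Θ hrep htg hc2 hcost hΘ0 hΘ hsup s hs
  obtain ⟨Mn, hMn⟩ : ∃ Mn, Mn = rhI H b P (fun h _ => ENNReal.ofReal (-(lin f h * lin g h))) := ⟨_, rfl⟩
  rw [← hMn] at h1 hfin hcov
  refine (ENNReal.add_le_add_iff_right hfin).1 (h1.trans ?_)
  calc _ ≤ (Mn + ENNReal.ofReal χ₀ * rhI H b P (fun _ _ => 1))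
        + ENNReal.ofReal s * rhI H b P (fun h ω => ENNReal.ofReal (cq G ω f f h))
        + ENNReal.ofReal (4 * b * w * c2 / s) * rhI H b P (fun h ω => ENNReal.ofReal (clS2 G H (clFar G A') T h ω))
        + rhI H b P (fun h _ => rhInd (clBad H T h) * ENNReal.ofReal (linA f h * linA g h)) := by gcongr
    _ = _ := by ring

theorem pn_rch_nA {a y : ℝ} (ha : 0 ≤ a) {Y N : ℝ≥0∞} (h : Y ≤ ENNReal.ofReal y * N) :
    ENNReal.ofReal a * Y ≤ ENNReal.ofReal (a * y) * N := by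
  rw [ENNReal.ofReal_mul ha, mul_assoc]
  exact mul_le_mul_right h _

theorem pn_rch_nB {x1 x2 : ℝ} (h1 : 0 ≤ x1) (h2 : 0 ≤ x2) {X1 X2 N : ℝ≥0∞} (a1 : X1 ≤ ENNReal.ofReal x1 * N)
    (a2 : X2 ≤ ENNReal.ofReal x2 * N) : X1 + X2 ≤ ENNReal.ofReal (x1 + x2) * N := by
  rw [ENNReal.ofReal_add h1 h2, add_mul]
  exact add_le_add a1 a2

theorem pn_rch_nC {y : ℝ} {Y N : ℝ≥0∞} (h : Y ≤ ENNReal.ofReal y * N) : 2 * Y ≤ ENNReal.ofReal (2 * y) * N := by
  have := pn_rch_nA (a := 2) (by norm_num) h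
  rwa [ENNReal.ofReal_ofNat] at this

theorem pn_rch_nD (H : HLaw G) (b : ℝ) (P : Set G.V) (h0 : rhI H b P (fun _ _ => 1) ≠ 0) (h1 : rhI H b P (fun _ _ => 1) ≠ ∞)
    (F : (G.V → ℤ) → (G.E → Bool) → ℝ≥0∞) (x : ℝ) :
    rhN H b P F ≤ ENNReal.ofReal x ↔ rhI H b P F ≤ ENNReal.ofReal x * rhI H b P (fun _ _ => 1) := by
  unfold rhN
  exact ENNReal.div_le_iff h0 h1

/-- **X2, assembled** (RESULT of s6 + (C1)-(C4), (CS)).   Far set `A'` (contains `A` and the cells `cB j`); regime `Tr`; free parameters `η, s, s' > 0`.   NUMERIC INPUTS (all normalised expectations under the band law):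
`th ≥ E|y(h)|²`, `v2 ≥ Var(f_B)`, `χ₀ ≥ Cov(f_B, f_i)`, and the contributions of the bad event `PB ≥ P(Bad)`, `BY ≥ E[Bad;|y(|h|)|²]`, `Bff ≥ E[Bad;⟨f_B,|h|⟩²]`, `Bfg ≥ E[Bad;⟨f_B,|h|⟩⟨f_i,|h|⟩]` (helper74: `pn_cl_bad_*`).
With `S2 = 2 th + BY`, `Q = 2 v2 + 16 b w c2 S2 + 2 Bff`:
`pbad ≤ PB + 2 b w th/η + γ⁻² #B [ γ (s' + 8 b w th/s' + 2 PB) + #I ( χ₀ + 2 s Q + 4 b w (c2 + 1) S2/s + Bfg + PB + Bff ) ]`. -/
theorem pn_rch_X2 {ιB ιI : Type} [Fintype ιB] [Fintype ιI]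
    (H : HLaw G) (P : Set G.V) (hΛ : H.Λ = HLaw.pinned P) (hP : H.Proper) (b : ℝ) (hc : ClCtx H P b) (hOk : (H.sys b).Ok) (A T A' : Set G.V)
    (cB : ιB → Set G.V) (cI : ιI → Set G.V) (fB : ιB → G.V → ℝ) (fI : ιI → G.V → ℝ)
    (hfB0 : ∀ j x, 0 ≤ fB j x) (hfBs : ∀ j x, x ∉ cB j → fB j x = 0) (hfI0 : ∀ i x, 0 ≤ fI i x)
    (hAA' : A ⊆ A') (hBA' : ∀ j, cB j ⊆ A')
    (hX1 : ∀ U, AConn G A U → (U ∩ T).Nonempty → ∃ j, (U ∩ cB j).Nonempty)
    (hX2 : ∀ j, ∀ x ∈ cB j, ∀ U, AConn G {x} U → (U ∩ A).Nonempty → ∃ i, (U ∩ cI i).Nonempty)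
    (w t₁ Tr : ℝ) (hw : 0 < w) (hbw : 16 * b * w ≤ 1) (hanc : AncFl G H (clFar G A') w t₁) (hTr0 : 0 ≤ Tr) (hTr : 2 * (t₁ * Tr) ≤ 1)
    (R t₀ : ℝ) (hvB : ∀ j U, AConn G A U → (U ∩ cB j).Nonempty → FlowLe G U (fB j) R t₀)
    (hvI : ∀ j, ∀ x ∈ cB j, ∀ i U, AConn G {x} U → (U ∩ cI i).Nonempty → FlowLe G U (fI i) R t₀)
    (γ : ℝ) (hγ0 : 0 < γ) (hγB : ∀ j, γ ≤ Real.exp (-(b * R)) - (H.sys b).phi (rhLf H hP b (fB j)))
    (hγI : ∀ i, γ ≤ Real.exp (-(b * R)) - (H.sys b).phi (rhLf H hP b (fI i)))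
    (Rg tg σ c2 Θ : ℝ) (hrepB : ∀ j, ∀ U ∈ clFar G A', clRep H (P ∪ U) (fB j) Rg tg σ) (hrepI : ∀ i, ∀ U ∈ clFar G A', clRep H (P ∪ U) (fI i) Rg tg σ)
    (htg : 0 ≤ tg) (hc2 : 0 < c2) (hcost : b * Rg + σ / 2 ≤ c2)
    (hΘ0 : 0 ≤ Θ) (hΘ : b * w * (Fintype.card H.O * Tr ^ 2) ≤ Θ ^ 2 * c2) (hsup : t₁ * Tr + Θ * tg ≤ 1)
    (th v2 χ₀ PB BY Bff Bfg : ℝ) (hth0 : 0 ≤ th) (hv20 : 0 ≤ v2) (hχ00 : 0 ≤ χ₀) (hPB0 : 0 ≤ PB) (hBY0 : 0 ≤ BY) (hBff0 : 0 ≤ Bff) (hBfg0 : 0 ≤ Bfg)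
    (hth : rhN H b P (fun h _ => ENNReal.ofReal (clY H h)) ≤ ENNReal.ofReal th)
    (hv2 : ∀ j, (H.sys b).V0 (rhLf H hP b (fB j)) ≤ v2)
    (hχ : ∀ j i, (H.sys b).Cv 0 0 (rhLf H hP b (fB j)) (rhLf H hP b (fI i)) ≤ χ₀)
    (hPB : rhN H b P (fun h _ => rhInd (clBad H Tr h)) ≤ ENNReal.ofReal PB)
    (hBY : rhN H b P (fun h _ => rhInd (clBad H Tr h) * ENNReal.ofReal (clYA H h)) ≤ ENNReal.ofReal BY)
    (hBff : ∀ j, rhN H b P (fun h _ => rhInd (clBad H Tr h) * ENNReal.ofReal (linA (fB j) h ^ 2)) ≤ ENNReal.ofReal Bff)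
    (hBfg : ∀ j i, rhN H b P (fun h _ => rhInd (clBad H Tr h) * ENNReal.ofReal (linA (fB j) h * linA (fI i) h)) ≤ ENNReal.ofReal Bfg)
    (η s s' : ℝ) (hη : 0 < η) (hs : 0 < s) (hs' : 0 < s') :
    (rhN H b P (fun h ω => rhInd (η < rhEps (b * w) H (rhU G A h ω) ∨ (vis G ω A ∩ T).Nonempty))).toReal
      ≤ PB + 2 * b * w * th / η + γ⁻¹ ^ 2 * (Fintype.card ιB * (γ * (s' + 8 * b * w * th / s' + 2 * PB)
        + Fintype.card ιI * (χ₀ + 2 * s * (2 * v2 + 16 * b * w * c2 * (2 * th + BY) + 2 * Bff)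
          + 4 * b * w * (c2 + 1) * (2 * th + BY) / s + Bfg + PB + Bff))) := by
  have hb := hc.hb
  obtain ⟨-, hN0, hNt⟩ := pn_br_norm H P hΛ hP b hb hOk
  have hD := pn_rch_nD H b P hN0 hNt
  obtain ⟨N, hN⟩ : ∃ N, N = rhI H b P (fun _ _ => 1) := ⟨_, rfl⟩
  rw [← hN] at hD
  have hfA : ∀ j x, x ∉ A' → fB j x = 0 := fun j x hx => hfBs j x (fun h => hx (hBA' j h))
  have hA : ∀ U, AConn G A U → U ∈ clFar G A' := fun U hU => pn_rch_far_of_aconn A' A U hAA' hU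
  have hx : ∀ j, ∀ x ∈ cB j, ∀ U, AConn G {x} U → U ∈ clFar G A' := fun j x hx U hU =>
    pn_rch_far_of_aconn A' {x} U (Set.singleton_subset_iff.2 (hBA' j hx)) hU
  have hbw0 : 0 ≤ b * w := (mul_pos hb hw).le
  rw [hD] at hth hPB hBY
  simp only [hD] at hBff hBfg
  -- S2
  obtain ⟨S2, hS2⟩ : ∃ S2, S2 = 2 * th + BY := ⟨_, rfl⟩
  have hS20 : 0 ≤ S2 := by rw [hS2]; positivity
  have iS2 : rhI H b P (fun h ω => ENNReal.ofReal (clS2 G H (clFar G A') Tr h ω)) ≤ ENNReal.ofReal S2 * N := by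
    rw [hS2]
    exact (pn_cl_clusters H P b hc A' w t₁ Tr hw.le hTr0 hbw hTr hanc).trans (pn_rch_nB (by positivity) hBY0 (pn_rch_nC hth) hBY)
  -- Q
  obtain ⟨Q, hQ⟩ : ∃ Q, Q = 2 * v2 + 16 * b * w * c2 * S2 + 2 * Bff := ⟨_, rfl⟩
  have hQ0 : 0 ≤ Q := by rw [hQ]; positivity
  have iQ : ∀ j, rhI H b P (fun h ω => ENNReal.ofReal (cq G ω (fB j) (fB j) h)) ≤ ENNReal.ofReal Q * N := by
    intro j
    have h1 := pn_cl_diag H P b hc A' w t₁ Tr hw.le hTr0 hTr hanc (fB j) (hfB0 j) (hfA j) Rg tg σ c2 Θ (hrepB j) htg hc2 hcost hΘ0 hΘ hsup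
    have h2 : rhI H b P (fun h _ => ENNReal.ofReal (lin (fB j) h ^ 2)) ≤ ENNReal.ofReal v2 * N := by
      rw [pn_rch_prior_var H P hΛ hP b hb hOk (fB j), ← hN]
      exact mul_le_mul_left (ENNReal.ofReal_le_ofReal (hv2 j)) _
    rw [hQ]
    exact h1.trans (pn_rch_nB (by positivity) (by positivity) (pn_rch_nB (by positivity) (by positivity) (pn_rch_nC h2)
      (pn_rch_nA (by positivity) iS2)) (pn_rch_nC (hBff j)))
  -- pe
  have ipe : rhI H b P (fun h ω => rhInd (η < rhEps (b * w) H (rhU G A h ω))) ≤ ENNReal.ofReal (PB + 2 * b * w / η * th) * N :=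
    (pn_rch_pe H P b hc (clFar G A') w t₁ Tr hw hTr0 hbw hTr hanc A hA η hη).trans
      (pn_rch_nB hPB0 (by positivity) hPB (pn_rch_nA (by positivity) hth))
  -- kA
  obtain ⟨kA, hkA⟩ : ∃ kA, kA = s' + 8 * b * w / s' * th + 2 * PB := ⟨_, rfl⟩
  have hkA0 : 0 ≤ kA := by rw [hkA]; positivity
  have ikA : rhI H b P (fun h ω => ENNReal.ofReal (rhKap (b * w) Tr H (vis G ω A) (rhU G A h ω))) ≤ ENNReal.ofReal kA * N := by
    rw [hkA]
    refine (pn_rch_kA H P b hc (clFar G A') w t₁ Tr hw.le hTr0 hbw hTr hanc A hA s' hs').trans ?_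
    rw [← hN]
    exact pn_rch_nB (by positivity) (by positivity) (pn_rch_nB hs'.le (by positivity) le_rfl (pn_rch_nA (by positivity) hth)) (pn_rch_nC hPB)
  -- chi
  obtain ⟨χ, hχd⟩ : ∃ χ, χ = χ₀ + s * Q + 4 * b * w * c2 / s * S2 + Bfg := ⟨_, rfl⟩
  have hχ0 : 0 ≤ χ := by rw [hχd]; positivity
  have iχ : ∀ j i, rhI H b P (fun h ω => ENNReal.ofReal (cq G ω (fB j) (fI i) h)) ≤ ENNReal.ofReal χ * N := by
    intro j i
    rw [hχd]
    refine (pn_rch_chi H P hΛ hP b hc hOk A' w t₁ Tr hw.le hTr0 hTr hanc (fB j) (fI i) (hfB0 j) (hfI0 i) (hfA j) Rg tg σ c2 Θ (hrepI i) htg hc2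
      hcost hΘ0 hΘ hsup s hs χ₀ hχ00 (hχ j i)).trans ?_
    rw [← hN]
    exact pn_rch_nB (by positivity) hBfg0 (pn_rch_nB (by positivity) (by positivity) (pn_rch_nB hχ00 (by positivity) le_rfl
      (pn_rch_nA hs.le (iQ j))) (pn_rch_nA (by positivity) iS2)) (hBfg j i)
  -- kS
  obtain ⟨kS, hkS⟩ : ∃ kS, kS = s * Q + 4 * b * w / s * S2 + PB + Bff := ⟨_, rfl⟩
  have hkS0 : 0 ≤ kS := by rw [hkS]; positivity
  have ikS : ∀ j, rhI H b P (fun h ω => ENNReal.ofReal (rhKs G (rhKap (b * w) Tr H) (fB j) h ω)) ≤ ENNReal.ofReal kS * N := by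
    intro j
    rw [hkS]
    refine (pn_rch_kS H P b hc A' w Tr hw.le (fB j) (hfB0 j) (hfA j) s hs).trans ?_
    exact pn_rch_nB (by positivity) hBff0 (pn_rch_nB (by positivity) hPB0 (pn_rch_nB (by positivity) (by positivity)
      (pn_rch_nA hs.le (iQ j)) (pn_rch_nA (by positivity) iS2)) hPB) (hBff j)
  -- X2num
  have iX := pn_rch_X2num H P hΛ hP b hb hOk A T cB cI fB fI hfB0 hfBs hfI0 hX1 hX2 (clFar G A') w t₁ Tr hanc hTr0 hTr hA hx R t₀ hvB hvI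
    γ hγ0 hγB hγI kA χ kS hkA0 hχ0 hkS0 ((hD _ _).2 ikA) (fun j i => (hD _ _).2 (iχ j i)) (fun j => (hD _ _).2 (ikS j))
  rw [hD] at iX
  -- union bound
  have iU : rhI H b P (fun h ω => rhInd (η < rhEps (b * w) H (rhU G A h ω) ∨ (vis G ω A ∩ T).Nonempty))
      ≤ rhI H b P (fun h ω => rhInd (η < rhEps (b * w) H (rhU G A h ω))) + rhI H b P (fun _ ω => rhInd ((vis G ω A ∩ T).Nonempty)) := by
    rw [← pn_cl_I_add]
    refine pn_cl_I_mono H b P _ _ fun h ω _ _ => ?_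
    unfold rhInd
    by_cases p1 : η < rhEps (b * w) H (rhU G A h ω)
    · simp [p1]
    · by_cases p2 : (vis G ω A ∩ T).Nonempty
      · simp [p2]
      · simp [p1, p2]
  have hfin0 : 0 ≤ γ⁻¹ ^ 2 * (Fintype.card ιB * (γ * kA + Fintype.card ιI * (χ + kS))) := by positivity
  have iF := iU.trans (pn_rch_nB (by positivity) hfin0 ipe iX)
  rw [← hD] at iF
  refine (ENNReal.toReal_le_of_le_ofReal (by positivity) iF).trans (le_of_eq ?_)
  rw [hkA, hχd, hkS, hQ, hS2]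
  field_simp
  ring

/-! ## K2 -/

/-- **(K2) = [C](3.28) at a fixed graph**: if the exploration from `A` reaches `T` or has `ε² > η` with probability at most `p < 1`, then `D(T,A) ≤ η - log(1-p)`. -/
theorem pn_rch_dPin (H : HLaw G) (P : Set G.V) (hΛ : H.Λ = HLaw.pinned P) (hP : H.Proper) (b : ℝ) (hb : 0 < b) (hOk : (H.sys b).Ok)
    (A T : Set G.V) (𝒰 : Set (Set G.V)) (w t₁ : ℝ) (hanc : AncFl G H 𝒰 w t₁) (hA : ∀ U, AConn G A U → U ∈ 𝒰)
    (η : ℝ) (hη : 4 * η ≤ b) (p : ℝ) (hp0 : 0 ≤ p) (hp : p < 1)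
    (hbad : rhN H b P (fun h ω => rhInd (η < rhEps (b * w) H (rhU G A h ω) ∨ (vis G ω A ∩ T).Nonempty)) ≤ ENNReal.ofReal p) :
    H.dPin b T A ≤ η - Real.log (1 - p) := by
  have q0 := pn_pPin_pos H hP hOk (A ∪ T)
  have q1 := pn_pPin_pos H hP hOk A
  have q2 := pn_pPin_pos H hP hOk T
  obtain ⟨-, hN0, hNt⟩ := pn_br_norm H P hΛ hP b hb hOk
  have hD := pn_rch_nD H b P hN0 hNt
  obtain ⟨c, hc⟩ : ∃ c, c = Real.exp (-η) * (H.pPin b (A ∪ T) / H.pPin b A) := ⟨_, rfl⟩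
  have hc0 : 0 < c := by rw [hc]; positivity
  have h1 := pn_rch_pin G H b hb P A T (b * w) η c (fun U u β' hU hu hβ hε _ => by
    rw [hc]
    exact pn_rch_postpin H P hΛ hP b hb hOk A T 𝒰 w t₁ hanc hA η hη U u β' hU hu hβ hε)
  rw [pn_rch_prior_pin H P hΛ hP b hb hOk T] at h1
  rw [hD] at hbad
  obtain ⟨N, hN⟩ : ∃ N, N = rhI H b P (fun _ _ => 1) := ⟨_, rfl⟩
  rw [← hN] at h1 hbad hN0 hNt
  -- good + bad = 1
  have h2 : N = rhI H b P (fun h ω => rhInd (rhEps (b * w) H (rhU G A h ω) ≤ η ∧ ¬ (vis G ω A ∩ T).Nonempty))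
      + rhI H b P (fun h ω => rhInd (η < rhEps (b * w) H (rhU G A h ω) ∨ (vis G ω A ∩ T).Nonempty)) := by
    rw [hN, ← pn_cl_I_add]
    refine pn_cl_I_congr H b P _ _ fun h ω _ _ => ?_
    unfold rhInd
    by_cases p1 : η < rhEps (b * w) H (rhU G A h ω)
    · simp [p1, not_le.2 p1]
    · by_cases p2 : (vis G ω A ∩ T).Nonempty
      · simp [p2]
      · simp [p1, p2, not_lt.1 p1]
  have h3 : ENNReal.ofReal (1 - p) * N ≤ rhI H b P (fun h ω => rhInd (rhEps (b * w) H (rhU G A h ω) ≤ η ∧ ¬ (vis G ω A ∩ T).Nonempty)) := by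
    have e1 : ENNReal.ofReal (1 - p) * N + ENNReal.ofReal p * N = N := by
      rw [← add_mul, ← ENNReal.ofReal_add (by linarith) hp0]
      simp
    have e2 : ENNReal.ofReal (1 - p) * N + ENNReal.ofReal p * N
        ≤ rhI H b P (fun h ω => rhInd (rhEps (b * w) H (rhU G A h ω) ≤ η ∧ ¬ (vis G ω A ∩ T).Nonempty)) + ENNReal.ofReal p * N := by
      rw [e1]
      nth_rewrite 1 [h2]
      exact add_le_add le_rfl hbad
    exact (ENNReal.add_le_add_iff_right (ENNReal.mul_ne_top ENNReal.ofReal_ne_top hNt)).1 e2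
  have h4 : ENNReal.ofReal (c * (1 - p)) * N ≤ ENNReal.ofReal (H.pPin b T) * N := by
    rw [ENNReal.ofReal_mul hc0.le, mul_assoc]
    exact (mul_le_mul_right h3 _).trans h1
  have h5 : c * (1 - p) ≤ H.pPin b T := by
    have := (ENNReal.mul_le_mul_iff_left hN0 hNt).1 h4
    exact (ENNReal.ofReal_le_ofReal_iff q2.le).1 this
  have h6 : Real.log (c * (1 - p)) ≤ Real.log (H.pPin b T) := Real.log_le_log (mul_pos hc0 (by linarith)) h5
  rw [Real.log_mul hc0.ne' (by linarith), hc, Real.log_mul (Real.exp_pos _).ne' (by positivity), Real.log_exp,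
    Real.log_div q0.ne' q1.ne'] at h6
  unfold HLaw.dPin
  rw [Set.union_comm T A]
  linarith

end

end Claimed.Agent.R285.Pins
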