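import Claimed.Agent.R285.Pins.ReachFix
import Claimed.Agent.R285.Pins.AnBand
import Claimed.Agent.R285.Sec.Grid
import Claimed.Agent.R285.Read.C3Defs

/-!
# ROW 285, PINS, CORE-LIM part (A): the ANCHOR / CR / BAD hypotheses of `pn_rch_X1`, `pn_rch_X2`, `pn_rch_dPin` for band rows = multiples of averages over FINE cells      (architect helper74; chiefs helper249, helper235; assembly `psh_fin`: helper164)

ONE finite graph `G = domG D cut` with TWO charts (`PsTwo`): MEDIUM `(Γm, gm)` (`n₁ × n₂` cells) and FINE `(Γf, gf)` (`s n₁ × s n₂` cells, `S23.Refines s gf gm`, fine sides in `[ν, K ν]`).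
ROWS (`PsRows H gf kp ρ`): `H.B o = ρ o · anRho (gf.cell (kp o))`, `ρ o ≥ 0`, `kp` injective on `{ρ ≠ 0}`.     [band law of helper249: `ρ o ∈ {0, √λ/s}`; `psa_rows_lawR`.]
`N = n₁ n₂`.   All constants explicit; no limit; paper-free (every `sorry` = a leaf `L-PSA-*`, recipe in its docstring; statements frozen: if one is wrong tell helper74).

## Exits
* `psa_rows_lawR` : `C3.lawR Γ g row` has `PsRows` when `row o κ = if κ = c o ∧ κ ∈ Kf then r else 0`, `c` injective, `Kf ⊆ Γ.T`.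
* `psa_two_refine`: `PsTwo` for `D = gf.region (S23.refine s Γm').T`, `cut = (S23.refine s Γm').cutB gf`.
* (1) `psa_ctx`   : `ClCtx H P b` if every medium cell is `Γm.Conn` to the medium cell of a nonzero row.
* (2) `psa_ancFl` : `AncFl G H (clFar G A') (9 anF1 K (2π rmax)²) (378 (2π rmax)/ν)`, if no site of `A'` lies in the `3×3` FINE block of the cell of a nonzero row.
* (3) flows `psa_flow_fine`, `psa_flow_med`, `psa_flow_pt`; `psa_rows_k0` (the average over a FULL band medium cell `k₀` is a combination of the rows, `σ = K²/(s r)²`);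
      `psa_rep_med`, `psa_rep_fine`, `psa_rep_pt` : `clRep H Q` of `rhT (anRho medium cell)`, `rhT (anRho fine cell)`, `δ_x`.
* (4) `psa_th`, `psa_v2`, `psa_m8`, `psa_PB`, `psa_BY`, `psa_Bfg` : the numeric inputs `th, v2, PB, BY, Bff, Bfg` of `pn_rch_X2` (normalised form `rhN`).
* (5) `psa_pack` : ONE statement with the regime `Tr = τ ν`, `Θ = ϑ ν`: `hTr`, `hΘ`, `hsup` and `PB, BY, Bff, Bfg ≤ C/ν`.
-/

set_option autoImplicit false

namespace Claimed.Agent.R285.Pins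

open scoped Classical ENNReal

noncomputable section

variable {D : Finset (ℤ × ℤ)} {cut : Set Bond}

/-! ## 0. The setting -/

/-- the rows are multiples of averages over cells of the grid `g` -/
structure PsRows (H : HLaw (domG D cut)) {m₁ m₂ : ℕ} (g : DGrid m₁ m₂) (kp : H.O → Fin m₁ × Fin m₂) (ρ : H.O → ℝ) : Prop where
  hB : ∀ o x, H.B o x = ρ o * anRho (g.cell (kp o)) x
  nonneg : ∀ o, 0 ≤ ρ o
  inj : ∀ o o', ρ o ≠ 0 → ρ o' ≠ 0 → kp o = kp o' → o = o'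

/-- two charts of one graph: medium `(Γm, gm)`, fine `(Γf, gf)`; fine sides in `[ν, K ν]` -/
structure PsTwo (D : Finset (ℤ × ℤ)) (cut : Set Bond) {n₁ n₂ : ℕ} (s : ℕ) (Γm : CGeom n₁ n₂) (gm : DGrid n₁ n₂)
    (Γf : CGeom (s * n₁) (s * n₂)) (gf : DGrid (s * n₁) (s * n₂)) (K ν : ℕ) : Prop where
  cm : AnChart D cut Γm gm
  cf : AnChart D cut Γf gf
  ref : S23.Refines s gf gm
  hT : ∀ κ, κ ∈ Γf.T ↔ S23.coarse s κ ∈ Γm.T
  hν : 1 ≤ ν
  hs : 1 ≤ s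
  ge : gf.SideGe ν
  le : gf.SideLe (K * ν)

/-- cost of the flow between two medium cells of one component (`pn_an_conn`), `N = n₁ n₂` -/
def psRm (K N : ℕ) : ℝ := (N : ℝ) * ((N : ℝ) * (24 * (K : ℝ)))

/-- cost of the flow from a fine cell to a medium cell of its component -/
def psRf (K N s : ℕ) : ℝ := 2 * (2 * ((K : ℝ) * (s : ℝ)) + 2 * (K : ℝ)) + 2 * psRm K N

/-- cost of the flow from a point to a medium cell of its component -/
def psRp (K N s ν : ℕ) : ℝ := 2 * (2 * ((K : ℝ) * (ν : ℝ)) + 2 * (K : ℝ)) + 2 * psRf K N s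

/-- sup norms of these flows -/
def psTm (N s ν : ℕ) : ℝ := (N : ℝ) * (4 / ((s * ν : ℕ) : ℝ))

def psTf (N s ν : ℕ) : ℝ := 2 / (ν : ℝ) + psTm N s ν

def psTp (N s ν : ℕ) : ℝ := 2 + psTf N s ν

section Concrete

variable {m₁ m₂ : ℕ}

/-- **L-PSA-0a** the average row of one cell of the geometry is `anRho`.   [`CGeom.avgRow`, `CGeom.sites`, `domSet`, `DGrid.region` of a singleton = the cell (`Finset.singleton_biUnion`), `{κ} ∩ Γ.T = {κ}`; both sides are `if domPos v ∈ g.cell κ then |cell|⁻¹ else 0`.] -/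
theorem psa_avgRow (Γ : CGeom m₁ m₂) (g : DGrid m₁ m₂) (κ : Fin m₁ × Fin m₂) (hκ : κ ∈ Γ.T) (v : (Γ.graph g).V) :
    Γ.avgRow g {κ} v = anRho (D := g.region Γ.T) (cut := Γ.cutB g) (g.cell κ) v := by
  have h1 : g.region {κ} = g.cell κ := by
    unfold DGrid.region
    exact Finset.singleton_biUnion
  have h2 : ({κ} : Finset (Fin m₁ × Fin m₂)) ∩ Γ.T = {κ} := Finset.inter_eq_left.2 (Finset.singleton_subset_iff.2 hκ)
  unfold CGeom.avgRow anRho CGeom.sites domSet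
  rw [h2, h1]
  by_cases hv : domPos v ∈ g.cell κ
  · rw [if_pos hv]
    exact if_pos hv
  · rw [if_neg hv]
    exact if_neg hv

/-- **L-PSA-0b** single-cell rows.   [`C3.lawR`: `B o v = ∑ κ, row o κ * avgRow {κ} v`; only `κ = c o` contributes (`Finset.sum_eq_single`); `psa_avgRow`.] -/
theorem psa_rows_lawR (Γ : CGeom m₁ m₂) (g : DGrid m₁ m₂) {N : ℕ} (row : Fin N → C3.Cell m₁ m₂ → ℝ) (c : Fin N → C3.Cell m₁ m₂)
    (hc : Function.Injective c) (Kf : Finset (C3.Cell m₁ m₂)) (hKf : Kf ⊆ Γ.T) (r : ℝ) (hr : 0 ≤ r)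
    (hrow : ∀ o κ, row o κ = if κ = c o ∧ κ ∈ Kf then r else 0) :
    PsRows (D := g.region Γ.T) (cut := Γ.cutB g) (C3.lawR Γ g row) g c (fun o => if c o ∈ Kf then r else 0) := by
  refine ⟨fun (o : Fin N) x => ?_, fun (o : Fin N) => ?_, fun o o' _ _ h => hc h⟩
  · show ∑ κ, row o κ * Γ.avgRow g {κ} x = (if c o ∈ Kf then r else 0) * anRho (g.cell (c o)) x
    rw [Finset.sum_eq_single (c o)]
    · rw [hrow]
      by_cases h : c o ∈ Kf
      · rw [if_pos ⟨rfl, h⟩, if_pos h]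
        exact congrArg (r * ·) (psa_avgRow Γ g _ (hKf h) x)
      · rw [if_neg (fun h' => h h'.2), if_neg h, zero_mul, zero_mul]
    · intro κ _ hne
      rw [hrow, if_neg (fun h' => hne h'.1), zero_mul]
    · intro h
      exact absurd (Finset.mem_univ _) h
  · show 0 ≤ if c o ∈ Kf then r else 0
    split_ifs
    · exact hr
    · exact le_rfl

end Concrete

variable {n₁ n₂ s : ℕ} {Γm : CGeom n₁ n₂} {gm : DGrid n₁ n₂} {Γf : CGeom (s * n₁) (s * n₂)} {gf : DGrid (s * n₁) (s * n₂)} {K ν : ℕ}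

/-- **L-PSA-0c** the refined geometry on a refining grid.   [`anChart_self` for the fine chart; medium chart: `dom` = `Sec.region_fine`, `cut_iff` from `Sec.cutB_eq`, `Sec.crossB_fineF` (as `pn_sb_cut` of `Pins/Sub.lean`, 3 lines; do NOT import `Sub`);
`hT`: `S23.refine`, `S23.fine`, `Finset.mem_filter`.   The pins of `Γm` play no role.] -/
theorem psa_two_refine (Γm : CGeom n₁ n₂) (gm : DGrid n₁ n₂) (gf : DGrid (s * n₁) (s * n₂)) (href : S23.Refines s gf gm) (K ν : ℕ) (hν : 1 ≤ ν) (hs : 1 ≤ s)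
    (h1 : gf.SideGe ν) (h2 : gf.SideLe (K * ν)) :
    PsTwo (gf.region (S23.refine s Γm).T) ((S23.refine s Γm).cutB gf) s Γm gm (S23.refine s Γm) gf K ν := by
  have hcut : (S23.refine s Γm).cutB gf = Γm.cutB gm := by
    rw [Sec.cutB_eq, Sec.cutB_eq]
    exact Sec.crossB_fineF href Γm.cutF
  have hreg : gf.region (S23.refine s Γm).T = gm.region Γm.T := Sec.region_fine href Γm.T
  refine ⟨⟨hreg, fun e _ _ => by rw [hcut]⟩, anChart_self _ _, href, fun κ => ?_, hν, hs, h1, h2⟩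
  show κ ∈ S23.fine s Γm.T ↔ _
  simp only [S23.fine, Finset.mem_filter, Finset.mem_univ, true_and]

/-- one axis: a medium side is the sum of `s` fine sides -/
theorem psa_med_1d {m s : ℕ} (xf : Fin (s * m + 1) → ℤ) (xm : Fin (m + 1) → ℤ)
    (href : ∀ (i : Fin (m + 1)) (i' : Fin (s * m + 1)), i'.1 = s * i.1 → xf i' = xm i) (a b : ℤ)
    (hge : ∀ i : Fin (s * m), a ≤ xf i.succ - xf i.castSucc) (hle : ∀ i : Fin (s * m), xf i.succ - xf i.castSucc ≤ b) (i : Fin m) :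
    (s : ℤ) * a ≤ xm i.succ - xm i.castSucc ∧ xm i.succ - xm i.castSucc ≤ (s : ℤ) * b := by
  have hi : s * (i.1 + 1) ≤ s * m := Nat.mul_le_mul_left s i.2
  have hb : ∀ j, j ≤ s → s * i.1 + j < s * m + 1 := by
    intro j hj
    have : s * (i.1 + 1) = s * i.1 + s := by ring
    omega
  have key : ∀ j (hj : j ≤ s), (j : ℤ) * a ≤ xf ⟨s * i.1 + j, hb j hj⟩ - xf ⟨s * i.1, hb 0 (Nat.zero_le s)⟩ ∧
      xf ⟨s * i.1 + j, hb j hj⟩ - xf ⟨s * i.1, hb 0 (Nat.zero_le s)⟩ ≤ (j : ℤ) * b := by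
    intro j
    induction j with
    | zero =>
      intro hj
      simp
    | succ j ih =>
      intro hj
      obtain ⟨h1, h2⟩ := ih (by omega)
      have hlt : s * i.1 + j < s * m := by
        have : s * (i.1 + 1) = s * i.1 + s := by ring
        omega
      have g1 := hge ⟨s * i.1 + j, hlt⟩
      have g2 := hle ⟨s * i.1 + j, hlt⟩
      have e1 : (⟨s * i.1 + j, hlt⟩ : Fin (s * m)).succ = ⟨s * i.1 + (j + 1), hb (j + 1) hj⟩ := rfl
      have e2 : (⟨s * i.1 + j, hlt⟩ : Fin (s * m)).castSucc = ⟨s * i.1 + j, hb j (by omega)⟩ := rfl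
      rw [e1, e2] at g1 g2
      push_cast
      constructor <;> linarith
  obtain ⟨h1, h2⟩ := key s le_rfl
  have e1 : xf ⟨s * i.1 + s, hb s le_rfl⟩ = xm i.succ := href i.succ _ (by
    show s * i.1 + s = s * (i.1 + 1)
    ring)
  have e2 : xf ⟨s * i.1, hb 0 (Nat.zero_le s)⟩ = xm i.castSucc := href i.castSucc _ rfl
  rw [e1, e2] at h1 h2
  exact ⟨h1, h2⟩

/-- **L-PSA-1** the sides of the medium cells.   [`gm.x₁ i.succ - gm.x₁ i.castSucc = gf.x₁ ⟨s (i+1)⟩ - gf.x₁ ⟨s i⟩` (`h.ref.1`) `= ∑_{j < s}` (fine sides): prove by induction on `j ≤ s`: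
`j ν ≤ gf.x₁ ⟨s i + j⟩ - gf.x₁ ⟨s i⟩ ≤ j K ν` (`h.ge.1`, `h.le.1` at the fine index `s i + j`).   Same for `x₂`.] -/
theorem psa_med_side (h : PsTwo D cut s Γm gm Γf gf K ν) : gm.SideGe (s * ν) ∧ gm.SideLe (K * (s * ν)) := by
  have a1 := psa_med_1d gf.x₁ gm.x₁ h.ref.1 (ν : ℤ) ((K * ν : ℕ) : ℤ) h.ge.1 h.le.1
  have a2 := psa_med_1d gf.x₂ gm.x₂ h.ref.2 (ν : ℤ) ((K * ν : ℕ) : ℤ) h.ge.2 h.le.2
  refine ⟨⟨fun i => ?_, fun j => ?_⟩, ⟨fun i => ?_, fun j => ?_⟩⟩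
  · have := (a1 i).1
    push_cast
    exact this
  · have := (a2 j).1
    push_cast
    exact this
  · have := (a1 i).2
    push_cast at this ⊢
    linarith
  · have := (a2 j).2
    push_cast at this ⊢
    linarith

/-! ## 2. (AN2) for the remaining tilt -/

section Anc

variable {m₁ m₂ : ℕ} {Γ : CGeom m₁ m₂} {g : DGrid m₁ m₂}

/-- **L-PSA-8a** the value of a row.   [`rhRow`, `HLaw.obs`, `rhPhy`, `lin`, `rhT`, `hR.hB`, `Finset.mul_sum`, `ring`.] -/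
theorem psa_row_eq (H : HLaw (domG D cut)) (kp : H.O → Fin m₁ × Fin m₂) (ρ : H.O → ℝ) (hR : PsRows H g kp ρ) (h : (domG D cut).V → ℤ) (o : H.O) :
    rhRow H h o = ρ o * lin (rhT (anRho (g.cell (kp o)))) h := by
  unfold rhRow HLaw.obs rhPhy lin rhT
  rw [Finset.mul_sum]
  refine Finset.sum_congr rfl fun x _ => ?_
  rw [hR.hB]
  ring

/-- monotonicity of the anchoring hypothesis -/
theorem psa_anc_mono {G : HGraph} {H : HLaw G} {𝒰 : Set (Set G.V)} {w t₁ w' t₁' : ℝ} (h : AncFl G H 𝒰 w t₁) (hw : w ≤ w') (ht : t₁ ≤ t₁') : AncFl G H 𝒰 w' t₁' := by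
  intro U hU u hu M hM0 hM
  obtain ⟨t, h1, h2, h3⟩ := h U hU u hu M hM0 hM
  exact ⟨t, h1, h2.trans (mul_le_mul_of_nonneg_right hw (Finset.sum_nonneg fun _ _ => sq_nonneg _)),
    fun e => (h3 e).trans (mul_le_mul_of_nonneg_right ht hM0)⟩

/-- **L-PSA-8 (AN2)**: the anchoring hypothesis of CLUS2 / REACH for explorations from the far set.
[copy the proof of `pn_an_anchF` (`Pins/AnBand.lean`).   `I := {o | ρ o ≠ 0 ∧ rhRow H u o ≠ 0}`; `rhT (rhTilt H u) x = ∑_{o ∈ I} (-(2π ρ_o y_o)) anRho (g.cell (kp o)) x` (`rhTilt`, `rhT`, `hR.hB`).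
Touch: `y_o ≠ 0` gives `p` with `u p ≠ 0` (so `p ∈ U`) in the cell `kp o` (`psa_row_eq`); `U ∈ clFar` is `AConn G (A' ∩ U) U` = `ACon` (defeq): `pn_an_touch_of_acon`.
`AnFlow.sum` over `I` with `pn_an_cell .. |>.smul`, overlap `≤ 9` (`pn_an_overlap` on `I.image kp`, `kp` injective on `I` by `hR.inj`); `(2π ρ_o y_o)² ≤ (2π rmax)² y_o²`, `|2π ρ_o y_o| ≤ 2π rmax M`.] -/
theorem psa_ancFl (hc : AnChart D cut Γ g) (K ν : ℕ) (hν : 1 ≤ ν) (h1 : g.SideGe ν) (h2 : g.SideLe (K * ν))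
    (H : HLaw (domG D cut)) (kp : H.O → Fin m₁ × Fin m₂) (ρ : H.O → ℝ) (hR : PsRows H g kp ρ) (rmax : ℝ) (hr0 : 0 ≤ rmax) (hr : ∀ o, ρ o ≤ rmax)
    (A' : Set (domG D cut).V) (hA' : ∀ x ∈ A', ∀ o, ρ o ≠ 0 → ∀ κ', domPos x ∈ g.cell κ' → κ' ∉ anNb (kp o)) :
    AncFl (domG D cut) H (clFar (domG D cut) A') (9 * anF1 K * (2 * Real.pi * rmax) ^ 2) (378 * (2 * Real.pi * rmax) / (ν : ℝ)) := by
  intro U hU u hu M hM0 hM
  have hU' : ACon (domG D cut) (A' ∩ U) U := hU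
  have hν0 : (0 : ℝ) < ν := by exact_mod_cast hν
  have hF : 0 ≤ anF1 K := anF1_nonneg K
  have hpi := Real.pi_pos
  set I : Finset H.O := Finset.univ.filter fun o => ρ o ≠ 0 ∧ rhRow H u o ≠ 0 with hI
  have htouch : ∀ o ∈ I, AnTouch U g ν (kp o) := by
    intro o ho
    obtain ⟨hρ, hy⟩ := (Finset.mem_filter.1 ho).2
    have hex : ∃ p : (domG D cut).V, domPos p ∈ g.cell (kp o) ∧ u p ≠ 0 := by
      by_contra hh
      push Not at hh
      apply hy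
      rw [psa_row_eq H kp ρ hR u o]
      have h0 : lin (rhT (anRho (D := D) (cut := cut) (g.cell (kp o)))) u = 0 := by
        unfold lin
        refine Finset.sum_eq_zero fun v _ => ?_
        by_cases hv : domPos v ∈ g.cell (kp o)
        · rw [hh v hv]
          simp
        · unfold rhT anRho
          rw [if_neg hv]
          simp
      rw [h0, mul_zero]
    obtain ⟨p, hpd, hup⟩ := hex
    have hp : p ∈ U := by
      by_contra hh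
      exact hup (hu p hh)
    exact pn_an_touch_of_acon hc ν h1 hU' (fun x hx κ' hκ' => hA' x hx.1 o hρ κ' hκ') hp hpd
  have hover : ∀ z, (I.filter fun o => z ∈ g.region (anNb (kp o))).card ≤ 9 := by
    intro z
    have hinj : Set.InjOn kp ↑(I.filter fun o => z ∈ g.region (anNb (kp o))) := by
      intro o ho o' ho' e
      have a1 := (Finset.mem_filter.1 (Finset.mem_filter.1 (Finset.mem_coe.1 ho)).1).2.1
      have a2 := (Finset.mem_filter.1 (Finset.mem_filter.1 (Finset.mem_coe.1 ho')).1).2.1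
      exact hR.inj o o' a1 a2 e
    rw [← Finset.card_image_of_injOn hinj]
    refine (Finset.card_le_card fun d hd => ?_).trans (pn_an_overlap g (I.image kp) z)
    obtain ⟨i, hi, rfl⟩ := Finset.mem_image.1 hd
    obtain ⟨hi1, hi2⟩ := Finset.mem_filter.1 hi
    exact Finset.mem_filter.2 ⟨Finset.mem_image_of_mem kp hi1, hi2⟩
  have hsum := AnFlow.sum (U := U) (s := (2 * Real.pi * rmax) * M * (42 / (ν : ℝ))) I
    (fun o x => (-(2 * Real.pi * ρ o * rhRow H u o)) * anRho (g.cell (kp o)) x)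
    (fun o => (-(2 * Real.pi * ρ o * rhRow H u o)) ^ 2 * anF1 K) (by positivity)
    (fun o => g.region (anNb (kp o))) 9 hover
    (fun o ho => ((pn_an_cell hc K ν hν h1 h2 U (htouch o ho)).smul (-(2 * Real.pi * ρ o * rhRow H u o))).mono le_rfl
      (mul_le_mul_of_nonneg_right (by
        rw [abs_neg, abs_mul, abs_of_nonneg (mul_nonneg (by positivity) (hR.nonneg o))]
        exact mul_le_mul (mul_le_mul_of_nonneg_left (hr o) (by positivity)) (hM o) (abs_nonneg _) (by positivity))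
        (by positivity)) (Finset.Subset.refl _))
  refine ((hsum.congr fun x => ?_).mono ?_ (le_of_eq ?_) (Finset.Subset.refl _)).flowLe
  · unfold rhT rhTilt
    rw [← Finset.sum_neg_distrib, Finset.mul_sum]
    refine Finset.sum_subset_zero_on_sdiff (Finset.subset_univ I) (fun o ho => ?_) (fun o _ => ?_)
    · have ho' : ¬ (ρ o ≠ 0 ∧ rhRow H u o ≠ 0) := fun hh =>
        (Finset.mem_sdiff.1 ho).2 (Finset.mem_filter.2 ⟨Finset.mem_univ o, hh⟩)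
      rw [hR.hB]
      by_cases hρ : ρ o = 0
      · rw [hρ]; ring
      · have : rhRow H u o = 0 := by
          by_contra hh
          exact ho' ⟨hρ, hh⟩
        rw [this]; ring
    · rw [hR.hB]
      ring
  · have e1 : ∑ o ∈ I, (-(2 * Real.pi * ρ o * rhRow H u o)) ^ 2 * anF1 K
        ≤ ∑ o, (2 * Real.pi * rmax) ^ 2 * rhRow H u o ^ 2 * anF1 K := by
      refine (Finset.sum_le_sum fun o _ => ?_).trans
        (Finset.sum_le_sum_of_subset_of_nonneg (Finset.subset_univ I) fun o _ _ => by positivity)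
      have e0 : (-(2 * Real.pi * ρ o * rhRow H u o)) ^ 2 = (2 * Real.pi * ρ o) ^ 2 * rhRow H u o ^ 2 := by ring
      rw [e0]
      refine mul_le_mul_of_nonneg_right (mul_le_mul_of_nonneg_right ?_ (sq_nonneg _)) hF
      exact pow_le_pow_left₀ (mul_nonneg (by positivity) (hR.nonneg o)) (mul_le_mul_of_nonneg_left (hr o) (by positivity)) 2
    have e2 : ∑ o, (2 * Real.pi * rmax) ^ 2 * rhRow H u o ^ 2 * anF1 K = anF1 K * (2 * Real.pi * rmax) ^ 2 * clY H u := by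
      unfold clY
      rw [Finset.mul_sum]
      exact Finset.sum_congr rfl fun o _ => by ring
    rw [e2] at e1
    push_cast
    linarith
  · push_cast
    ring

end Anc

/-! ## 3. Flows and reference representations -/

/-- **L-PSA-2** a fine cell against its medium cell.   [`pn_an_fine h.cm K ν s h.hν h.hs (psa_med_side h).1 (psa_med_side h).2` at the medium cell `S23.coarse s κ` (`∈ Γm.T` by `h.hT`) with the rectangle of the fine cell (`anCell_eq`);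
the four inclusions: `Sec.sec_gr_1d_sub gf.mono₁ h.ref.1 κ.1 _`, same for `x₂`; nonempty / height `≥ ν`: `gf.mono₁`, `h.ge.2 κ.2`.] -/
theorem psa_flow_fine (h : PsTwo D cut s Γm gm Γf gf K ν) (κ : Fin (s * n₁) × Fin (s * n₂)) (hκ : κ ∈ Γf.T) :
    AnFlow (∅ : Set (domG D cut).V) (fun x => anRho (gf.cell κ) x - anRho (gm.cell (S23.coarse s κ)) x)
      (2 * ((K : ℝ) * (s : ℝ)) + 2 * (K : ℝ)) (2 / (ν : ℝ)) D := by
  have hm := psa_med_side h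
  have a := Sec.sec_gr_1d_sub gf.mono₁ h.ref.1 κ.1 (Nat.div_lt_of_lt_mul κ.1.2)
  have b := Sec.sec_gr_1d_sub gf.mono₂ h.ref.2 κ.2 (Nat.div_lt_of_lt_mul κ.2.2)
  have hT : S23.coarse s κ ∈ Γm.T := (h.hT κ).1 hκ
  have key := pn_an_fine h.cm K ν s h.hν h.hs hm.1 hm.2 hT (a₁ := gf.x₁ κ.1.castSucc) (a₁' := gf.x₁ κ.1.succ)
    (c₁ := gf.x₂ κ.2.castSucc) (c₁' := gf.x₂ κ.2.succ) a.1 (gf.mono₁ Fin.castSucc_lt_succ) a.2 b.1 (h.ge.2 κ.2) b.2
  exact key.mono le_rfl le_rfl (pn_ag_cell_sub h.cm hT)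

/-- **L-PSA-9** (this and the next two).   two medium cells of one component   [`pn_an_conn h.cm K (s * ν) _ (psa_med_side h).1 (psa_med_side h).2 hk`, `unfold psRm psTm`] -/
theorem psa_flow_med (h : PsTwo D cut s Γm gm Γf gf K ν) {k k₀ : Fin n₁ × Fin n₂} (hk : Γm.Conn k k₀) :
    AnFlow (∅ : Set (domG D cut).V) (fun x => anRho (gm.cell k) x - anRho (gm.cell k₀) x) (psRm K (n₁ * n₂)) (psTm (n₁ * n₂) s ν) D := by
  unfold psRm psTm
  exact pn_an_conn h.cm K (s * ν) (Nat.succ_le_of_lt (Nat.mul_pos h.hs h.hν)) (psa_med_side h).1 (psa_med_side h).2 hk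

/-- a fine cell against a medium cell of its component   [`(psa_flow_fine ..).add (psa_flow_med ..)`, `.congr` (`ring`), `.mono` (`Finset.union_self`)] -/
theorem psa_flow_fm (h : PsTwo D cut s Γm gm Γf gf K ν) (κ : Fin (s * n₁) × Fin (s * n₂)) (hκ : κ ∈ Γf.T) {k₀ : Fin n₁ × Fin n₂}
    (hk : Γm.Conn (S23.coarse s κ) k₀) :
    AnFlow (∅ : Set (domG D cut).V) (fun x => anRho (gf.cell κ) x - anRho (gm.cell k₀) x) (psRf K (n₁ * n₂) s) (psTf (n₁ * n₂) s ν) D := by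
  unfold psRf psTf
  exact (((psa_flow_fine h κ hκ).add (psa_flow_med h hk)).congr fun x => by ring).mono le_rfl le_rfl (by rw [Finset.union_self])

/-- a point against a medium cell of its component   [`pn_an_point h.cf K ν h.hν h.ge h.le (pn_ag_mem_T h.cf x.2 hx) x hx` (`Pi.single_apply`), `.mono` to the support `D` (`pn_ag_cell_sub`), `.add (psa_flow_fm ..)`] -/
theorem psa_flow_pt (h : PsTwo D cut s Γm gm Γf gf K ν) (x : (domG D cut).V) (κ : Fin (s * n₁) × Fin (s * n₂)) (hx : domPos x ∈ gf.cell κ)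
    {k₀ : Fin n₁ × Fin n₂} (hk : Γm.Conn (S23.coarse s κ) k₀) :
    AnFlow (∅ : Set (domG D cut).V) (fun y => (Pi.single x (1 : ℝ) : (domG D cut).V → ℝ) y - anRho (gm.cell k₀) y) (psRp K (n₁ * n₂) s ν) (psTp (n₁ * n₂) s ν) D := by
  have hκ : κ ∈ Γf.T := pn_ag_mem_T h.cf (z := domPos x) x.2 hx
  unfold psRp psTp
  refine ((((pn_an_point h.cf K ν h.hν h.ge h.le hκ x hx).mono le_rfl le_rfl (pn_ag_cell_sub h.cf hκ)).add
    (psa_flow_fm h κ hκ hk)).congr fun y => ?_).mono le_rfl le_rfl (by rw [Finset.union_self])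
  rw [Pi.single_apply]
  ring

/-- **L-PSA-3** the average over a medium cell is the convex combination of the averages over its fine cells.
[`z = domPos x`.  If `z ∈ gm.cell k`: exactly one fine cell `κ₀` with `coarse κ₀ = k` contains `z` (`Sec.sec_gr_cell_find`, `pn_an_cell_unique`), the sum is `(|κ₀|/|k|) |κ₀|⁻¹ = |k|⁻¹` (`|κ₀| ≠ 0`: it contains `z`).   If `z ∉ gm.cell k`: all terms vanish (`Sec.sec_gr_cell_sub`).] -/
theorem psa_avg_split (href : S23.Refines s gf gm) (k : Fin n₁ × Fin n₂) (x : (domG D cut).V) :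
    anRho (gm.cell k) x = ∑ κ ∈ Finset.univ.filter (fun κ => S23.coarse s κ = k), ((gf.cell κ).card : ℝ) / ((gm.cell k).card : ℝ) * anRho (gf.cell κ) x := by
  unfold anRho
  by_cases hz : domPos x ∈ gm.cell k
  · obtain ⟨κ₀, h1, h2⟩ := Sec.sec_gr_cell_find href k hz
    rw [if_pos hz, Finset.sum_eq_single κ₀]
    · rw [if_pos h2]
      have hc : ((gf.cell κ₀).card : ℝ) ≠ 0 := by
        exact_mod_cast (Finset.card_pos.2 ⟨_, h2⟩).ne'
      rw [div_mul_eq_mul_div, mul_inv_cancel₀ hc, one_div]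
    · intro κ _ hne
      rw [if_neg, mul_zero]
      intro h3
      exact hne (pn_an_cell_unique gf h3 h2)
    · intro h3
      exact (h3 (Finset.mem_filter.2 ⟨Finset.mem_univ _, h1⟩)).elim
  · rw [if_neg hz]
    symm
    refine Finset.sum_eq_zero fun κ hκ => ?_
    rw [if_neg, mul_zero]
    intro h3
    have h4 := Sec.sec_gr_cell_sub href κ h3
    rw [(Finset.mem_filter.1 hκ).2] at h4
    exact hz h4

theorem psa_wt_card {m₁ m₂ : ℕ} (g : DGrid m₁ m₂) (k : Fin m₁ × Fin m₂) :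
    ((g.cell k).card : ℝ) = ((g.x₁ k.1.succ - g.x₁ k.1.castSucc : ℤ) : ℝ) * ((g.x₂ k.2.succ - g.x₂ k.2.castSucc : ℤ) : ℝ) := by
  unfold DGrid.cell
  rw [Finset.card_product, Int.card_Ico, Int.card_Ico]
  have h1 : 0 ≤ g.x₁ k.1.succ - g.x₁ k.1.castSucc := sub_nonneg.2 (g.mono₁ Fin.castSucc_lt_succ).le
  have h2 : 0 ≤ g.x₂ k.2.succ - g.x₂ k.2.castSucc := sub_nonneg.2 (g.mono₂ Fin.castSucc_lt_succ).le
  have e1 : (((g.x₁ k.1.succ - g.x₁ k.1.castSucc).toNat : ℕ) : ℝ) = ((g.x₁ k.1.succ - g.x₁ k.1.castSucc : ℤ) : ℝ) := by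
    rw [← Int.cast_natCast, Int.toNat_of_nonneg h1]
  have e2 : (((g.x₂ k.2.succ - g.x₂ k.2.castSucc).toNat : ℕ) : ℝ) = ((g.x₂ k.2.succ - g.x₂ k.2.castSucc : ℤ) : ℝ) := by
    rw [← Int.cast_natCast, Int.toNat_of_nonneg h2]
  rw [Nat.cast_mul, e1, e2]

theorem psa_wt_card_le {m₁ m₂ : ℕ} (g : DGrid m₁ m₂) (n : ℕ) (h : g.SideLe n) (k : Fin m₁ × Fin m₂) :
    ((g.cell k).card : ℝ) ≤ (n : ℝ) ^ 2 := by
  rw [psa_wt_card, sq]
  have h1 : ((g.x₁ k.1.succ - g.x₁ k.1.castSucc : ℤ) : ℝ) ≤ (n : ℝ) := by exact_mod_cast h.1 k.1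
  have h2 : ((g.x₂ k.2.succ - g.x₂ k.2.castSucc : ℤ) : ℝ) ≤ (n : ℝ) := by exact_mod_cast h.2 k.2
  have h3 : (0 : ℝ) ≤ ((g.x₂ k.2.succ - g.x₂ k.2.castSucc : ℤ) : ℝ) := by
    exact_mod_cast sub_nonneg.2 (g.mono₂ Fin.castSucc_lt_succ).le
  exact mul_le_mul h1 h2 h3 (Nat.cast_nonneg n)

theorem psa_wt_card_ge {m₁ m₂ : ℕ} (g : DGrid m₁ m₂) (n : ℕ) (h : g.SideGe n) (k : Fin m₁ × Fin m₂) :
    (n : ℝ) ^ 2 ≤ ((g.cell k).card : ℝ) := by
  rw [psa_wt_card, sq]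
  have h1 : (n : ℝ) ≤ ((g.x₁ k.1.succ - g.x₁ k.1.castSucc : ℤ) : ℝ) := by exact_mod_cast h.1 k.1
  have h2 : (n : ℝ) ≤ ((g.x₂ k.2.succ - g.x₂ k.2.castSucc : ℤ) : ℝ) := by exact_mod_cast h.2 k.2
  exact mul_le_mul h1 h2 (Nat.cast_nonneg n) ((Nat.cast_nonneg n).trans h1)

theorem psa_wt_sum {n₁ n₂ s : ℕ} {gm : DGrid n₁ n₂} {gf : DGrid (s * n₁) (s * n₂)} (href : S23.Refines s gf gm) (k : Fin n₁ × Fin n₂) :
    ((gm.cell k).card : ℝ) = ∑ κ ∈ Finset.univ.filter (fun κ => S23.coarse s κ = k), ((gf.cell κ).card : ℝ) := by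
  have e : gm.cell k = (Finset.univ.filter (fun κ => S23.coarse s κ = k)).biUnion gf.cell := by
    ext x
    simp only [Finset.mem_biUnion, Finset.mem_filter, Finset.mem_univ, true_and]
    constructor
    · intro hx
      exact Sec.sec_gr_cell_find href k hx
    · rintro ⟨κ, rfl, hx⟩
      exact Sec.sec_gr_cell_sub href κ hx
  rw [e, Finset.card_biUnion, Nat.cast_sum]
  intro κ _ κ' _ hne
  exact Finset.disjoint_left.2 fun x hx hx' => hne (pn_an_cell_unique gf hx hx')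

/-- **L-PSA-4** the weights: they sum to one and each is at most `K²/s²`.
[sum: `gm.cell k` is the disjoint union of its fine cells (`Sec.region_fine` at `{k}`, `Finset.card_biUnion`, disjoint by `pn_an_cell_unique`), `|k| ≠ 0`.
bound: `|κ| = (side₁)(side₂) ≤ (K ν)²` (`DGrid.cell`, `Finset.card_product`, `Int.card_Ico`, `h.le`), `|k| ≥ (s ν)²` (`psa_med_side`).] -/
theorem psa_wt (h : PsTwo D cut s Γm gm Γf gf K ν) (k : Fin n₁ × Fin n₂) :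
    ∑ κ ∈ Finset.univ.filter (fun κ => S23.coarse s κ = k), ((gf.cell κ).card : ℝ) / ((gm.cell k).card : ℝ) = 1 ∧
    ∀ κ, S23.coarse s κ = k → ((gf.cell κ).card : ℝ) / ((gm.cell k).card : ℝ) ≤ (K : ℝ) ^ 2 / (s : ℝ) ^ 2 := by
  have hmed := psa_med_side h
  have hsν : (0 : ℝ) < ((s * ν : ℕ) : ℝ) ^ 2 := by
    have h1 : 0 < s * ν := Nat.mul_pos h.hs h.hν
    have h2 : (0 : ℝ) < ((s * ν : ℕ) : ℝ) := by exact_mod_cast h1
    positivity
  have hge := psa_wt_card_ge gm (s * ν) hmed.1 k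
  have hpos : (0 : ℝ) < ((gm.cell k).card : ℝ) := lt_of_lt_of_le hsν hge
  refine ⟨?_, ?_⟩
  · rw [← Finset.sum_div, ← psa_wt_sum h.ref k, div_self hpos.ne']
  · intro κ _
    have hle := psa_wt_card_le gf (K * ν) h.le κ
    refine (div_le_div₀ (by positivity) hle hsν hge).trans (le_of_eq ?_)
    have hν : (ν : ℝ) ≠ 0 := by
      have := h.hν
      positivity
    have hs : (s : ℝ) ≠ 0 := by
      have := h.hs
      positivity
    push_cast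
    field_simp

/-- **L-PSA-5** the average over a FULL band medium cell `k₀` (every fine cell of `k₀` carries a row with coefficient `r > 0`) is a combination of the rows with `∑ c² ≤ K²/(s r)²`.
[`c o := if S23.coarse s (kp o) = k₀ ∧ ρ o ≠ 0 then (|kp o|/|k₀|)/ρ o else 0`.   The map `o ↦ kp o` is a bijection from `{o | coarse (kp o) = k₀ ∧ ρ o ≠ 0}` onto `{κ | coarse κ = k₀}` (`hR.inj`, `hk₀`), and `ρ o = r` there (`hk₀` + `hR.inj`): `Finset.sum_bij` / `Finset.sum_nbij`.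
`∑ c o * H.B o x = ∑_κ (|κ|/|k₀|) anRho κ x` (`hR.hB`, `psa_avg_split`);   `∑ c² = r⁻² ∑_κ w_κ² ≤ r⁻² (K²/s²) ∑ w_κ = K²/(s r)²` (`psa_wt`).] -/
theorem psa_rows_k0 (h : PsTwo D cut s Γm gm Γf gf K ν) (H : HLaw (domG D cut)) (kp : H.O → Fin (s * n₁) × Fin (s * n₂)) (ρ : H.O → ℝ)
    (hR : PsRows H gf kp ρ) (r : ℝ) (hr : 0 < r) (k₀ : Fin n₁ × Fin n₂) (hk₀ : ∀ κ, S23.coarse s κ = k₀ → ∃ o, kp o = κ ∧ ρ o = r) :
    ∃ c : H.O → ℝ, ∑ o, c o ^ 2 ≤ (K : ℝ) ^ 2 / ((s : ℝ) * r) ^ 2 ∧ ∀ x, ∑ o, c o * H.B o x = anRho (gm.cell k₀) x := by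
  obtain ⟨w, hw⟩ : ∃ w : Fin (s * n₁) × Fin (s * n₂) → ℝ, w = fun κ => ((gf.cell κ).card : ℝ) / ((gm.cell k₀).card : ℝ) := ⟨_, rfl⟩
  have hw0 : ∀ κ, 0 ≤ w κ := fun κ => by rw [hw]; positivity
  obtain ⟨hsum, hbd⟩ := psa_wt h k₀
  have hsum' : ∑ κ ∈ Finset.univ.filter (fun κ => S23.coarse s κ = k₀), w κ = 1 := by rw [hw]; exact hsum
  have hbd' : ∀ κ, S23.coarse s κ = k₀ → w κ ≤ (K : ℝ) ^ 2 / (s : ℝ) ^ 2 := fun κ hκ => by rw [hw]; exact hbd κ hκ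
  have hρ : ∀ o, S23.coarse s (kp o) = k₀ ∧ ρ o ≠ 0 → ρ o = r := by
    intro o ho
    obtain ⟨o', h1, h2⟩ := hk₀ (kp o) ho.1
    have : o = o' := hR.inj o o' ho.2 (by rw [h2]; exact hr.ne') h1.symm
    rw [this, h2]
  have hbij : ∀ F : Fin (s * n₁) × Fin (s * n₂) → ℝ,
      ∑ o ∈ Finset.univ.filter (fun o => S23.coarse s (kp o) = k₀ ∧ ρ o ≠ 0), F (kp o)
        = ∑ κ ∈ Finset.univ.filter (fun κ => S23.coarse s κ = k₀), F κ := by
    intro F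
    refine Finset.sum_nbij kp ?_ ?_ ?_ fun _ _ => rfl
    · intro o ho
      exact Finset.mem_filter.2 ⟨Finset.mem_univ _, (Finset.mem_filter.1 ho).2.1⟩
    · intro o ho o' ho' he
      exact hR.inj o o' (Finset.mem_filter.1 (Finset.mem_coe.1 ho)).2.2 (Finset.mem_filter.1 (Finset.mem_coe.1 ho')).2.2 he
    · intro κ hκ
      have hκ' := (Finset.mem_filter.1 (Finset.mem_coe.1 hκ)).2
      obtain ⟨o, h1, h2⟩ := hk₀ κ hκ'
      refine ⟨o, Finset.mem_coe.2 (Finset.mem_filter.2 ⟨Finset.mem_univ _, by rw [h1]; exact hκ', by rw [h2]; exact hr.ne'⟩), h1⟩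
  refine ⟨fun o => if S23.coarse s (kp o) = k₀ ∧ ρ o ≠ 0 then w (kp o) / ρ o else 0, ?_, fun x => ?_⟩
  · have e1 : ∑ o, (if S23.coarse s (kp o) = k₀ ∧ ρ o ≠ 0 then w (kp o) / ρ o else 0) ^ 2
        = ∑ o ∈ Finset.univ.filter (fun o => S23.coarse s (kp o) = k₀ ∧ ρ o ≠ 0), (w (kp o) / r) ^ 2 := by
      rw [Finset.sum_filter]
      refine Finset.sum_congr rfl fun o _ => ?_
      split_ifs with ho
      · rw [hρ o ho]
      · simp
    rw [e1, hbij fun κ => (w κ / r) ^ 2]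
    have hs0 : (0 : ℝ) < s := by exact_mod_cast h.hs
    calc ∑ κ ∈ Finset.univ.filter (fun κ => S23.coarse s κ = k₀), (w κ / r) ^ 2
        ≤ ∑ κ ∈ Finset.univ.filter (fun κ => S23.coarse s κ = k₀), (K : ℝ) ^ 2 / ((s : ℝ) * r) ^ 2 * w κ := by
          refine Finset.sum_le_sum fun κ hκ => ?_
          have h1 := hbd' κ (Finset.mem_filter.1 hκ).2
          have h2 : w κ * w κ ≤ (K : ℝ) ^ 2 / (s : ℝ) ^ 2 * w κ := mul_le_mul_of_nonneg_right h1 (hw0 κ)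
          have e2 : (w κ / r) ^ 2 = (w κ * w κ) * (r ^ 2)⁻¹ := by field_simp
          have e3 : (K : ℝ) ^ 2 / ((s : ℝ) * r) ^ 2 * w κ = ((K : ℝ) ^ 2 / (s : ℝ) ^ 2 * w κ) * (r ^ 2)⁻¹ := by field_simp
          rw [e2, e3]
          exact mul_le_mul_of_nonneg_right h2 (by positivity)
      _ = (K : ℝ) ^ 2 / ((s : ℝ) * r) ^ 2 := by rw [← Finset.mul_sum, hsum', mul_one]
  · have e1 : ∑ o, (if S23.coarse s (kp o) = k₀ ∧ ρ o ≠ 0 then w (kp o) / ρ o else 0) * H.B o x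
        = ∑ o ∈ Finset.univ.filter (fun o => S23.coarse s (kp o) = k₀ ∧ ρ o ≠ 0), w (kp o) * anRho (gf.cell (kp o)) x := by
      rw [Finset.sum_filter]
      refine Finset.sum_congr rfl fun o _ => ?_
      split_ifs with ho
      · rw [hR.hB]
        have := ho.2
        field_simp
      · simp
    rw [e1, hbij fun κ => w κ * anRho (gf.cell κ) x, psa_avg_split h.ref k₀ x, hw]

/-- **L-PSA-10** (this and `psa_rep_med`, `psa_rep_fine`, `psa_rep_pt`).   a flow to a combination of the rows is a reference representation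
[`s' o := a / (2π) * c o`; `∑ s'_o rhT (B_o) x = a φ x` (`rhT`, `Finset.mul_sum`, `hφ`, `field_simp`); a flow grounded on `∅` is a flow grounded on `Q`.
For the three corollaries: `psa_rows_k0`, the flows `psa_flow_med/fm/pt` (`AnFlow.smul (2π)`, `AnFlow.flowLe`), `a = 2π, 2π, 1`.] -/
theorem psa_rep_of_flow {G : HGraph} (H : HLaw G) (c : H.O → ℝ) (σ : ℝ) (hc : ∑ o, c o ^ 2 ≤ σ) (φ : G.V → ℝ) (hφ : ∀ x, ∑ o, c o * H.B o x = φ x)
    (f : G.V → ℝ) (a R t : ℝ) (hfl : FlowLe G ∅ (fun x => f x - a * φ x) R t) (Q : Set G.V) :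
    clRep H Q f R t ((a / (2 * Real.pi)) ^ 2 * σ) := by
  refine ⟨fun o => a / (2 * Real.pi) * c o, ?_, ?_⟩
  · calc ∑ o, (a / (2 * Real.pi) * c o) ^ 2 = (a / (2 * Real.pi)) ^ 2 * ∑ o, c o ^ 2 := by
          rw [Finset.mul_sum]
          exact Finset.sum_congr rfl fun o _ => by ring
      _ ≤ _ := mul_le_mul_of_nonneg_left hc (sq_nonneg _)
  · obtain ⟨t', h1, h2, h3⟩ := hfl
    refine ⟨t', ?_, h2, h3⟩
    intro v _
    have e : ∀ x, f x - ∑ o, a / (2 * Real.pi) * c o * rhT (H.B o) x = f x - a * φ x := by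
      intro x
      rw [← hφ x, Finset.mul_sum]
      congr 1
      refine Finset.sum_congr rfl fun o _ => ?_
      unfold rhT
      have hpi : Real.pi ≠ 0 := Real.pi_ne_zero
      field_simp
    simp only [e]
    exact h1 v (fun x hx => absurd hx (Set.notMem_empty x))

section Rep

variable (h : PsTwo D cut s Γm gm Γf gf K ν) (H : HLaw (domG D cut)) (kp : H.O → Fin (s * n₁) × Fin (s * n₂)) (ρ : H.O → ℝ)
  (hR : PsRows H gf kp ρ) (r : ℝ) (hr : 0 < r) (k₀ : Fin n₁ × Fin n₂) (hk₀ : ∀ κ, S23.coarse s κ = k₀ → ∃ o, kp o = κ ∧ ρ o = r)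

include h hR hr hk₀

/-- the common step of `psa_rep_med`, `psa_rep_fine` -/
theorem psa_rep_aux (W : Finset (ℤ × ℤ)) (R t : ℝ)
    (hfl : AnFlow (∅ : Set (domG D cut).V) (fun x => anRho W x - anRho (gm.cell k₀) x) R t D) (Q : Set (domG D cut).V) :
    clRep H Q (rhT (anRho W)) ((2 * Real.pi) ^ 2 * R) (2 * Real.pi * t) ((K : ℝ) ^ 2 / ((s : ℝ) * r) ^ 2) := by
  obtain ⟨c, hc, hφ⟩ := psa_rows_k0 h H kp ρ hR r hr k₀ hk₀
  have hpi : (0 : ℝ) < 2 * Real.pi := by positivity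
  have h1 := (hfl.smul (2 * Real.pi)).flowLe
  rw [abs_of_pos hpi] at h1
  have h2 := psa_rep_of_flow H c _ hc _ hφ (rhT (anRho W)) (2 * Real.pi) _ _
    (by
      have e : (fun x => rhT (anRho W) x - 2 * Real.pi * anRho (D := D) (cut := cut) (gm.cell k₀) x)
          = fun x => 2 * Real.pi * (anRho W x - anRho (gm.cell k₀) x) := by
        funext x
        unfold rhT
        ring
      rw [e]
      exact h1) Q
  rw [div_self hpi.ne', one_pow, one_mul] at h2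
  exact h2

/-- **(CR) medium cells** -/
theorem psa_rep_med {k : Fin n₁ × Fin n₂} (hk : Γm.Conn k k₀) (Q : Set (domG D cut).V) :
    clRep H Q (rhT (anRho (gm.cell k))) ((2 * Real.pi) ^ 2 * psRm K (n₁ * n₂)) (2 * Real.pi * psTm (n₁ * n₂) s ν) ((K : ℝ) ^ 2 / ((s : ℝ) * r) ^ 2) :=
  psa_rep_aux h H kp ρ hR r hr k₀ hk₀ _ _ _ (psa_flow_med h hk) Q

/-- **(CR) fine cells** -/
theorem psa_rep_fine (κ : Fin (s * n₁) × Fin (s * n₂)) (hκ : κ ∈ Γf.T) (hk : Γm.Conn (S23.coarse s κ) k₀) (Q : Set (domG D cut).V) :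
    clRep H Q (rhT (anRho (gf.cell κ))) ((2 * Real.pi) ^ 2 * psRf K (n₁ * n₂) s) (2 * Real.pi * psTf (n₁ * n₂) s ν) ((K : ℝ) ^ 2 / ((s : ℝ) * r) ^ 2) :=
  psa_rep_aux h H kp ρ hR r hr k₀ hk₀ _ _ _ (psa_flow_fm h κ hκ hk) Q

/-- **(CR) points** (test on the INTEGER height: `lin (Pi.single x 1) h = h x`) -/
theorem psa_rep_pt (x : (domG D cut).V) (κ : Fin (s * n₁) × Fin (s * n₂)) (hx : domPos x ∈ gf.cell κ) (hk : Γm.Conn (S23.coarse s κ) k₀) (Q : Set (domG D cut).V) :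
    clRep H Q (Pi.single x (1 : ℝ)) (psRp K (n₁ * n₂) s ν) (psTp (n₁ * n₂) s ν) ((1 / (2 * Real.pi)) ^ 2 * ((K : ℝ) ^ 2 / ((s : ℝ) * r) ^ 2)) := by
  obtain ⟨c, hc, hφ⟩ := psa_rows_k0 h H kp ρ hR r hr k₀ hk₀
  have h1 := (psa_flow_pt h x κ hx hk).flowLe
  refine psa_rep_of_flow H c _ hc _ hφ (Pi.single x (1 : ℝ)) 1 _ _ ?_ Q
  simp only [one_mul]
  exact h1

end Rep

/-! ## 1. The standing hypotheses -/

/-- a flow grounded on the empty set kills the functions with zero gradients -/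
theorem psa_ctx_flow0 {f : (domG D cut).V → ℝ} {R t : ℝ} {W : Finset (ℤ × ℤ)} (hfl : AnFlow (∅ : Set (domG D cut).V) f R t W)
    (v : (domG D cut).V → ℝ) (hv : ∀ e, v ((domG D cut).tgt e) = v ((domG D cut).src e)) : ∑ x, f x * v x = 0 := by
  obtain ⟨t', h1, -⟩ := hfl
  rw [h1 v (fun x hx => absurd hx (Set.notMem_empty x))]
  refine Finset.sum_eq_zero fun e _ => ?_
  rw [hv e, sub_self, mul_zero]

/-- the end of a chain of adjacent cells lies in the geometry -/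
theorem psa_ctx_conn_mem {m₁ m₂ : ℕ} (Γ : CGeom m₁ m₂) {k k' : Fin m₁ × Fin m₂} (hk : k ∈ Γ.T) (h : Γ.Conn k k') : k' ∈ Γ.T := by
  unfold CGeom.Conn at h
  induction h with
  | refl => exact hk
  | tail _ hbc _ => exact hbc.2.1

/-- **L-PSA-11 (1)** every constant is confined.   [`v` with zero gradients: a flow grounded on `∅` gives `∑ f v = 0`; so `v x = avg_{k₀} v` (`psa_flow_pt`) and `avg_{kp o} v = avg_{k₀} v` (`psa_flow_fine`), `k₀ = coarse (kp o)`; `H.obs v o = ρ o avg_{kp o} v = 0`.] -/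
theorem psa_ctx (h : PsTwo D cut s Γm gm Γf gf K ν) (H : HLaw (domG D cut)) (kp : H.O → Fin (s * n₁) × Fin (s * n₂)) (ρ : H.O → ℝ)
    (hR : PsRows H gf kp ρ) (P : Set (domG D cut).V) (b : ℝ) (hb : 0 < b)
    (hconf : ∀ k ∈ Γm.T, ∃ o, ρ o ≠ 0 ∧ Γm.Conn k (S23.coarse s (kp o))) : ClCtx H P b := by
  refine ⟨hb, ?_, ?_⟩
  · intro v _ hv hobs
    funext x
    have hxD : domPos x ∈ gf.region Γf.T := by
      rw [← h.cf.dom]
      exact Subtype.property (p := fun v => v ∈ D) x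
    obtain ⟨κ, hκ, hxκ⟩ := Finset.mem_biUnion.1 hxD
    have hkm : S23.coarse s κ ∈ Γm.T := (h.hT κ).1 hκ
    obtain ⟨o, ho, hcon⟩ := hconf _ hkm
    have hk0 : S23.coarse s (kp o) ∈ Γm.T := psa_ctx_conn_mem Γm hkm hcon
    have hkpo : kp o ∈ Γf.T := (h.hT _).2 hk0
    have e1 := psa_ctx_flow0 (psa_flow_pt h x κ hxκ hcon) v hv
    have e2 := psa_ctx_flow0 (psa_flow_fine h (kp o) hkpo) v hv
    have e3 : ρ o * ∑ y, anRho (gf.cell (kp o)) y * v y = 0 := by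
      rw [← hobs o]
      unfold HLaw.obs
      rw [Finset.mul_sum]
      refine Finset.sum_congr rfl fun y _ => ?_
      rw [hR.hB o y]
      ring
    have e4 : ∑ y, anRho (gf.cell (kp o)) y * v y = 0 := (mul_eq_zero.1 e3).resolve_left ho
    simp only [sub_mul, Finset.sum_sub_distrib] at e1 e2
    have e5 : ∑ y, (Pi.single x (1 : ℝ) : (domG D cut).V → ℝ) y * v y = v x := by
      rw [Finset.sum_eq_single x]
      · rw [Pi.single_eq_same, one_mul]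
      · intro y _ hy
        rw [Pi.single_eq_of_ne hy, zero_mul]
      · intro hn
        exact absurd (Finset.mem_univ _) hn
    rw [e5] at e1
    rw [e4] at e2
    show v x = 0
    linarith
  · intro o x
    rw [hR.hB o x]
    refine mul_nonneg (hR.nonneg o) ?_
    unfold anRho
    split_ifs
    · positivity
    · exact le_rfl

/-! ## 3'. The exits under `PsFull` -/

/-- every medium cell is joined to a FULL band medium cell: all its fine cells carry a row with the coefficient `r` -/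
def PsFull {O : Type} (Γm : CGeom n₁ n₂) (kp : O → Fin (s * n₁) × Fin (s * n₂)) (ρ : O → ℝ) (r : ℝ) : Prop :=
  ∀ k ∈ Γm.T, ∃ k₀, Γm.Conn k k₀ ∧ ∀ κ, S23.coarse s κ = k₀ → ∃ o, kp o = κ ∧ ρ o = r

section Full

variable (h : PsTwo D cut s Γm gm Γf gf K ν) (H : HLaw (domG D cut)) (kp : H.O → Fin (s * n₁) × Fin (s * n₂)) (ρ : H.O → ℝ)
  (hR : PsRows H gf kp ρ) (r : ℝ) (hr : 0 < r) (hF : PsFull Γm kp ρ r)

include h hR hr hF

/-- **L-PSA-12** (the four statements of this section): choose `k₀` by `hF`.   [`psa_ctx_full`: `psa_ctx`; a fine cell of `k₀`: `(⟨s * k₀.1, _⟩, ⟨s * k₀.2, _⟩)` (`Nat.mul_div_cancel_left`).   `psa_repF`: `h.hT`.   `psa_repP`: the fine cell of `x`: `h.cf.dom`, `Finset.mem_biUnion`.] -/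
theorem psa_ctx_full (P : Set (domG D cut).V) (b : ℝ) (hb : 0 < b) : ClCtx H P b := by
  refine psa_ctx h H kp ρ hR P b hb fun k hk => ?_
  obtain ⟨k₀, hk₀, hfull⟩ := hF k hk
  have hs : 0 < s := h.hs
  have e1 : s * k₀.1.1 < s * n₁ := Nat.mul_lt_mul_of_pos_left k₀.1.2 hs
  have e2 : s * k₀.2.1 < s * n₂ := Nat.mul_lt_mul_of_pos_left k₀.2.2 hs
  have hco : S23.coarse s ((⟨s * k₀.1.1, e1⟩, ⟨s * k₀.2.1, e2⟩) : Fin (s * n₁) × Fin (s * n₂)) = k₀ := by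
    refine Prod.ext (Fin.ext ?_) (Fin.ext ?_)
    · exact Nat.mul_div_cancel_left _ hs
    · exact Nat.mul_div_cancel_left _ hs
  obtain ⟨o, ho, hρ⟩ := hfull _ hco
  refine ⟨o, by rw [hρ]; exact hr.ne', ?_⟩
  rw [ho, hco]
  exact hk₀

theorem psa_repM (k : Fin n₁ × Fin n₂) (hk : k ∈ Γm.T) (Q : Set (domG D cut).V) :
    clRep H Q (rhT (anRho (gm.cell k))) ((2 * Real.pi) ^ 2 * psRm K (n₁ * n₂)) (2 * Real.pi * psTm (n₁ * n₂) s ν) ((K : ℝ) ^ 2 / ((s : ℝ) * r) ^ 2) := by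
  obtain ⟨k₀, hk₀, hfull⟩ := hF k hk
  exact psa_rep_med h H kp ρ hR r hr k₀ hfull hk₀ Q

theorem psa_repF (κ : Fin (s * n₁) × Fin (s * n₂)) (hκ : κ ∈ Γf.T) (Q : Set (domG D cut).V) :
    clRep H Q (rhT (anRho (gf.cell κ))) ((2 * Real.pi) ^ 2 * psRf K (n₁ * n₂) s) (2 * Real.pi * psTf (n₁ * n₂) s ν) ((K : ℝ) ^ 2 / ((s : ℝ) * r) ^ 2) := by
  obtain ⟨k₀, hk₀, hfull⟩ := hF _ ((h.hT κ).1 hκ)
  exact psa_rep_fine h H kp ρ hR r hr k₀ hfull κ hκ hk₀ Q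

theorem psa_repP (x : (domG D cut).V) (Q : Set (domG D cut).V) :
    clRep H Q (Pi.single x (1 : ℝ)) (psRp K (n₁ * n₂) s ν) (psTp (n₁ * n₂) s ν) ((1 / (2 * Real.pi)) ^ 2 * ((K : ℝ) ^ 2 / ((s : ℝ) * r) ^ 2)) := by
  have hx : domPos x ∈ gf.region Γf.T := h.cf.dom ▸ (x.2 : domPos x ∈ D)
  rw [DGrid.region, Finset.mem_biUnion] at hx
  obtain ⟨κ, hκ, hxκ⟩ := hx
  obtain ⟨k₀, hk₀, hfull⟩ := hF _ ((h.hT κ).1 hκ)
  exact psa_rep_pt h H kp ρ hR r hr k₀ hfull x κ hxκ hk₀ Q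

end Full

/-! ## 2'. Anchoring with hypotheses on the MEDIUM chart; (AN1) for a visited cell -/

theorem psa_div_succ_le (hs : 1 ≤ s) {a b : ℕ} (h : a ≤ b + 1) : a / s ≤ b / s + 1 := by
  calc a / s ≤ (b + s) / s := Nat.div_le_div_right (by omega)
    _ = b / s + 1 := Nat.add_div_right b hs

/-- **L-PSA-6** neighbouring fine cells have neighbouring (or equal) medium cells.   [`anNb`, `Finset.mem_filter`, `S23.coarse`; `a ≤ b + 1 → a / s ≤ b / s + 1` (`Nat.div_le_div_right`, `Nat.add_div_le_add_div` or `Nat.succ_div_le`; `s ≥ 1`).] -/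
theorem psa_nb_coarse (hs : 1 ≤ s) {κ κ' : Fin (s * n₁) × Fin (s * n₂)} (h : κ' ∈ anNb κ) : S23.coarse s κ' ∈ anNb (S23.coarse s κ) := by
  unfold anNb at h ⊢
  obtain ⟨-, h1, h2, h3, h4⟩ := Finset.mem_filter.1 h
  exact Finset.mem_filter.2 ⟨Finset.mem_univ _, psa_div_succ_le hs h1, psa_div_succ_le hs h2, psa_div_succ_le hs h3, psa_div_succ_le hs h4⟩

/-- **(AN2)**, far hypothesis on the medium chart: no site of `A'` lies in the `3×3` MEDIUM block of the medium cell of a nonzero row.   [part of L-PSA-6: `psa_ancFl h.cf ..`, `psa_nb_coarse`, `Sec.sec_gr_cell_sub h.ref`.] -/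
theorem psa_ancFl_med (h : PsTwo D cut s Γm gm Γf gf K ν) (H : HLaw (domG D cut)) (kp : H.O → Fin (s * n₁) × Fin (s * n₂)) (ρ : H.O → ℝ)
    (hR : PsRows H gf kp ρ) (rmax : ℝ) (hr0 : 0 ≤ rmax) (hr : ∀ o, ρ o ≤ rmax) (A' : Set (domG D cut).V)
    (hA' : ∀ x ∈ A', ∀ o, ρ o ≠ 0 → ∀ k', domPos x ∈ gm.cell k' → k' ∉ anNb (S23.coarse s (kp o))) :
    AncFl (domG D cut) H (clFar (domG D cut) A') (9 * anF1 K * (2 * Real.pi * rmax) ^ 2) (378 * (2 * Real.pi * rmax) / (ν : ℝ)) :=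
  psa_ancFl h.cf K ν h.hν h.ge h.le H kp ρ hR rmax hr0 hr A' fun x hx o ho κ' hκ' hmem =>
    hA' x hx o ho (S23.coarse s κ') (Sec.sec_gr_cell_sub h.ref κ' hκ') (psa_nb_coarse h.hs hmem)

/-- **L-PSA-13 (AN1)** = `hvB`, `hvI` of `pn_rch_X2`: an exploration from a set `A` which is far from the cell `d` (any chart) and visits `d`.
[`pn_an_touch_of_acon hc ν h1 hU hA hp hpd` (`AConn` = `ACon` by defeq), `pn_an_cell`, `.smul (2π)`, `.flowLe`; `rhT`.] -/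
theorem psa_touch_flow {m₁ m₂ : ℕ} {Γ : CGeom m₁ m₂} {g : DGrid m₁ m₂} (hc : AnChart D cut Γ g) (K ν : ℕ) (hν : 1 ≤ ν) (h1 : g.SideGe ν) (h2 : g.SideLe (K * ν))
    (A U : Set (domG D cut).V) (hU : AConn (domG D cut) A U) (d : Fin m₁ × Fin m₂) (hA : ∀ x ∈ A, ∀ κ', domPos x ∈ g.cell κ' → κ' ∉ anNb d)
    (hne : (U ∩ {x | domPos x ∈ g.cell d}).Nonempty) :
    FlowLe (domG D cut) U (rhT (anRho (g.cell d))) ((2 * Real.pi) ^ 2 * anF1 K) (2 * Real.pi * (42 / (ν : ℝ))) := by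
  obtain ⟨p, hp, hpd⟩ := hne
  have hU' : ACon (domG D cut) A U := hU
  have ht : AnTouch U g ν d := pn_an_touch_of_acon hc ν h1 hU' hA hp hpd
  have hfl := ((pn_an_cell hc K ν hν h1 h2 U ht).smul (2 * Real.pi)).flowLe
  rw [abs_of_nonneg (by positivity : (0 : ℝ) ≤ 2 * Real.pi)] at hfl
  exact hfl

/-! ## 4. The numbers of `pn_rch_X2` -/

section Num

variable {G : HGraph}

/-- **L-PSA-14** (this, `psa_v2`, `psa_m8`).   normalisation   [`rhN`, `ENNReal.div_le_of_le_mul`; `pn_cl_norm` is not even needed] -/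
theorem psa_norm_le (H : HLaw G) (P : Set G.V) (b : ℝ) (hc : ClCtx H P b) (F : (G.V → ℤ) → (G.E → Bool) → ℝ≥0∞) (C : ℝ)
    (h : rhI H b P F ≤ ENNReal.ofReal C * rhI H b P (fun _ _ => 1)) : rhN H b P F ≤ ENNReal.ofReal C := by
  unfold rhN
  exact ENNReal.div_le_of_le_mul h

/-- `v2`: the variance of a test with a reference representation.   [`pn_rch_prior_var` + `pn_cl_prior_second` + `pn_cl_norm` (cancel the normalisation), or directly `pn_br_lf_st` + `pn_ref_var`.] -/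
theorem psa_v2 (H : HLaw G) (P : Set G.V) (hΛ : H.Λ = HLaw.pinned P) (hP : H.Proper) (b : ℝ) (hc : ClCtx H P b) (f : G.V → ℝ) (R t σ : ℝ)
    (hrep : clRep H P f R t σ) : (H.sys b).V0 (rhLf H hP b f) ≤ 2 * b * R + σ := by
  obtain ⟨s, hs, t', hfl, hR, -⟩ := hrep
  rw [pn_br_lf_st H hP b P hΛ P subset_rfl f t' s hfl]
  refine (pn_ref_var (pn_cl_ctx_ok H P b hc hΛ) b (fun _ => le_rfl) t' s).trans ?_
  have h3 : 2 * b * ∑ e : G.E, t' e ^ 2 ≤ 2 * b * R := mul_le_mul_of_nonneg_left hR (by have := hc.hb; positivity)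
  exact add_le_add h3 hs

/-- `m8`: eighth moment of the height at a point, POLYNOMIAL in the cost (`pn_cl_prior_m8` at `θ = X^{-1/2}`; `pn_rch_site`). -/
theorem psa_m8 (H : HLaw G) (P : Set G.V) (b : ℝ) (hc : ClCtx H P b) (x : G.V) (R t σ : ℝ) (hrep : clRep H P (Pi.single x (1 : ℝ)) R t σ)
    (X : ℝ) (hX : 0 < X) (h1 : b * R + σ / 2 ≤ X) (h2 : t ^ 2 ≤ X) :
    rhI H b P (fun h _ => ENNReal.ofReal ((h x : ℝ) ^ 8)) ≤ ENNReal.ofReal (80640 * Real.exp 1 * X ^ 4) * rhI H b P (fun _ _ => 1) := by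
  have hs0 : 0 < Real.sqrt X := Real.sqrt_pos.2 hX
  have hsq : Real.sqrt X ^ 2 = X := Real.sq_sqrt hX.le
  have hθ0 : 0 < (Real.sqrt X)⁻¹ := inv_pos.2 hs0
  have ht : t ≤ Real.sqrt X := Real.le_sqrt_of_sq_le h2
  have hθ : (Real.sqrt X)⁻¹ * t ≤ 1 := by
    rw [inv_mul_le_iff₀ hs0, mul_one]
    exact ht
  have key := pn_cl_prior_m8 H P b hc (Pi.single x (1 : ℝ)) R t σ hrep (Real.sqrt X)⁻¹ hθ0 hθ
  simp only [pn_rch_site] at key
  refine key.trans (mul_le_mul_left (ENNReal.ofReal_le_ofReal ?_) _)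
  have e1 : ((Real.sqrt X)⁻¹) ^ 8 = (X ^ 4)⁻¹ := by
    rw [inv_pow]
    congr 1
    calc Real.sqrt X ^ 8 = (Real.sqrt X ^ 2) ^ 4 := by ring
      _ = X ^ 4 := by rw [hsq]
  have e2 : ((Real.sqrt X)⁻¹) ^ 2 = X⁻¹ := by rw [inv_pow, hsq]
  rw [e1, e2, div_inv_eq_mul]
  have h3 : X⁻¹ * (b * R + σ / 2) ≤ 1 := by
    rw [inv_mul_le_iff₀ hX, mul_one]
    exact h1
  have h4 : Real.exp (X⁻¹ * (b * R + σ / 2)) ≤ Real.exp 1 := Real.exp_le_exp.2 h3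
  have h5 : 0 ≤ 80640 * X ^ 4 := by positivity
  calc 80640 * X ^ 4 * Real.exp (X⁻¹ * (b * R + σ / 2)) ≤ 80640 * X ^ 4 * Real.exp 1 := mul_le_mul_of_nonneg_left h4 h5
    _ = 80640 * Real.exp 1 * X ^ 4 := by ring

end Num

section Num2

variable {m₁ m₂ : ℕ} {g : DGrid m₁ m₂} (H : HLaw (domG D cut)) (kp : H.O → Fin m₁ × Fin m₂) (ρ : H.O → ℝ) (hR : PsRows H g kp ρ)
  (P : Set (domG D cut).V) (b : ℝ) (hc : ClCtx H P b)

include hR in
/-- **L-PSA-7** the `ℓ¹` norm of a row.   [`clN`, `rhT`, `hR.hB`; `∑_x anRho W x = #{x | domPos x ∈ W}/|W| ≤ 1`: `pn_br_sumV` turns the sum into `∑_{z ∈ D} if z ∈ W then |W|⁻¹ else 0 = |D ∩ W| |W|⁻¹`.] -/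
theorem psa_clN (o : H.O) : 0 ≤ clN H o ∧ clN H o ≤ 2 * Real.pi * ρ o := by
  have hpi := Real.pi_pos
  have hρ := hR.nonneg o
  obtain ⟨W, hW⟩ : ∃ W, W = g.cell (kp o) := ⟨_, rfl⟩
  have h1 : clN H o = 2 * Real.pi * ρ o * ∑ x : (domG D cut).V, anRho W x := by
    unfold clN rhT
    rw [Finset.mul_sum]
    refine Finset.sum_congr rfl fun x _ => ?_
    rw [hR.hB, ← hW]
    ring
  have h2 : ∑ x : (domG D cut).V, anRho W x = ((D ∩ W).card : ℝ) * (W.card : ℝ)⁻¹ := by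
    have := pn_br_sumV (D := D) (cut := cut) (fun z => if z ∈ W then (W.card : ℝ)⁻¹ else 0)
    unfold anRho
    rw [this, ← Finset.sum_filter, Finset.sum_const, nsmul_eq_mul, Finset.filter_mem_eq_inter]
  have h3 : 0 ≤ ((D ∩ W).card : ℝ) * (W.card : ℝ)⁻¹ := by positivity
  have h4 : ((D ∩ W).card : ℝ) * (W.card : ℝ)⁻¹ ≤ 1 := by
    rcases Nat.eq_zero_or_pos W.card with h0 | h0
    · simp [h0]
    · rw [← div_eq_mul_inv, div_le_one (by exact_mod_cast h0)]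
      exact_mod_cast Finset.card_le_card Finset.inter_subset_right
  rw [h1, h2]
  have h5 : 0 ≤ 2 * Real.pi * ρ o := by positivity
  exact ⟨mul_nonneg h5 h3, mul_le_of_le_one_right h5 h4⟩

include hR hc in
/-- **L-PSA-15** `th`: `E|y(h)|² ≤ ∑_o ρ_o² (2 b R + σ)`.   [`clY = ∑ (ρ_o lin f_o h)²` (`psa_row_eq`); `pn_cl_I_sum`, `pn_cl_I_mul`-type calculus of `ClusSum.lean`, `pn_cl_prior_second` for each `o` with `ρ o ≠ 0`; `psa_norm_le`.] -/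
theorem psa_th (R t σ : ℝ) (hrep : ∀ o, ρ o ≠ 0 → clRep H P (rhT (anRho (g.cell (kp o)))) R t σ) :
    rhN H b P (fun h _ => ENNReal.ofReal (clY H h)) ≤ ENNReal.ofReal ((∑ o, ρ o ^ 2) * (2 * b * R + σ)) := by
  apply psa_norm_le H P b hc
  have e1 : (fun (h : (domG D cut).V → ℤ) (_ : (domG D cut).E → Bool) => ENNReal.ofReal (clY H h))
      = fun h ω => ∑ o ∈ Finset.univ, ENNReal.ofReal (ρ o ^ 2)
          * (fun (h : (domG D cut).V → ℤ) (_ : (domG D cut).E → Bool) => ENNReal.ofReal (lin (rhT (anRho (g.cell (kp o)))) h ^ 2)) h ω := by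
    funext h ω
    unfold clY
    rw [ENNReal.ofReal_sum_of_nonneg fun o _ => sq_nonneg _]
    refine Finset.sum_congr rfl fun o _ => ?_
    rw [psa_row_eq H kp ρ hR h o, mul_pow, ENNReal.ofReal_mul (sq_nonneg _)]
  rw [e1, pn_cl_I_sum]
  have e2 : ENNReal.ofReal ((∑ o, ρ o ^ 2) * (2 * b * R + σ)) * rhI H b P (fun _ _ => 1)
      = ∑ o, ENNReal.ofReal (ρ o ^ 2) * (ENNReal.ofReal (2 * b * R + σ) * rhI H b P (fun _ _ => 1)) := by
    rw [ENNReal.ofReal_mul (Finset.sum_nonneg fun o _ => sq_nonneg _), ENNReal.ofReal_sum_of_nonneg fun o _ => sq_nonneg _,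
      mul_assoc, Finset.sum_mul]
  rw [e2]
  refine Finset.sum_le_sum fun o _ => ?_
  rw [pn_cl_I_mul]
  by_cases ho : ρ o = 0
  · simp [ho]
  · exact mul_le_mul_right (pn_cl_prior_second H P b hc _ R t σ (hrep o ho)) _

variable (m8 : ℝ) (hm0 : 0 ≤ m8)
  (hm8 : ∀ x, rhI H b P (fun h _ => ENNReal.ofReal ((h x : ℝ) ^ 8)) ≤ ENNReal.ofReal m8 * rhI H b P (fun _ _ => 1)) (T : ℝ) (hT : 0 < T)

include hR hc hm0 hm8 hT

/-- **L-PSA-16** (this, `psa_BY`, `psa_Bfg`).   `PB`   [`pn_cl_bad_prob` with `X = univ`, `psa_clN`, `psa_norm_le`] -/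
theorem psa_PB : rhN H b P (fun h _ => rhInd (clBad H T h)) ≤ ENNReal.ofReal (T⁻¹ ^ 8 * (∑ o, (2 * Real.pi * ρ o) ^ 8) * m8) := by
  have hpow : ∀ n : ℕ, 0 ≤ ∑ o, clN H o ^ n ∧ ∑ o, clN H o ^ n ≤ ∑ o, (2 * Real.pi * ρ o) ^ n := fun n =>
    ⟨Finset.sum_nonneg fun o _ => pow_nonneg (psa_clN H kp ρ hR o).1 n,
      Finset.sum_le_sum fun o _ => pow_le_pow_left₀ (psa_clN H kp ρ hR o).1 (psa_clN H kp ρ hR o).2 n⟩
  apply psa_norm_le H P b hc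
  refine (pn_cl_bad_prob H P b hc.hB Set.univ m8 hm0 (fun x _ => hm8 x) (fun o x hx => absurd (Set.mem_univ x) hx) T hT).trans ?_
  refine mul_le_mul_left (ENNReal.ofReal_le_ofReal ?_) _
  have h1 := (hpow 8).2
  have h2 : 0 ≤ T⁻¹ ^ 8 := by positivity
  exact mul_le_mul_of_nonneg_right (mul_le_mul_of_nonneg_left h1 h2) hm0

/-- `BY`   [`pn_cl_bad_YA`] -/
theorem psa_BY : rhN H b P (fun h _ => rhInd (clBad H T h) * ENNReal.ofReal (clYA H h))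
    ≤ ENNReal.ofReal (T⁻¹ ^ 6 * (∑ o, (2 * Real.pi * ρ o) ^ 6) * (∑ o, (2 * Real.pi * ρ o) ^ 2) * m8) := by
  have hpow : ∀ n : ℕ, 0 ≤ ∑ o, clN H o ^ n ∧ ∑ o, clN H o ^ n ≤ ∑ o, (2 * Real.pi * ρ o) ^ n := fun n =>
    ⟨Finset.sum_nonneg fun o _ => pow_nonneg (psa_clN H kp ρ hR o).1 n,
      Finset.sum_le_sum fun o _ => pow_le_pow_left₀ (psa_clN H kp ρ hR o).1 (psa_clN H kp ρ hR o).2 n⟩
  apply psa_norm_le H P b hc
  refine (pn_cl_bad_YA H P b hc.hB Set.univ m8 hm0 (fun x _ => hm8 x) (fun o x hx => absurd (Set.mem_univ x) hx) T hT).trans ?_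
  refine mul_le_mul_left (ENNReal.ofReal_le_ofReal ?_) _
  obtain ⟨a1, a2⟩ := hpow 6
  obtain ⟨b1, b2⟩ := hpow 2
  have h2 : 0 ≤ T⁻¹ ^ 6 := by positivity
  refine mul_le_mul_of_nonneg_right ?_ hm0
  exact mul_le_mul (mul_le_mul_of_nonneg_left a2 h2) b2 b1 (mul_nonneg h2 (a1.trans a2))

/-- `Bfg` (and `Bff`: `c' = c`, `linA c h ^ 2 = linA c h * linA c h`)   [`pn_cl_bad_prod`] -/
theorem psa_Bfg (c c' : (domG D cut).V → ℝ) (hc0 : ∀ x, 0 ≤ c x) (hc0' : ∀ x, 0 ≤ c' x) (S S' : ℝ) (hS : ∑ x, c x ≤ S) (hS' : ∑ x, c' x ≤ S') :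
    rhN H b P (fun h _ => rhInd (clBad H T h) * ENNReal.ofReal (linA c h * linA c' h))
      ≤ ENNReal.ofReal (T⁻¹ ^ 6 * (∑ o, (2 * Real.pi * ρ o) ^ 6) * (S * S') * m8) := by
  have hpow : ∀ n : ℕ, 0 ≤ ∑ o, clN H o ^ n ∧ ∑ o, clN H o ^ n ≤ ∑ o, (2 * Real.pi * ρ o) ^ n := fun n =>
    ⟨Finset.sum_nonneg fun o _ => pow_nonneg (psa_clN H kp ρ hR o).1 n,
      Finset.sum_le_sum fun o _ => pow_le_pow_left₀ (psa_clN H kp ρ hR o).1 (psa_clN H kp ρ hR o).2 n⟩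
  apply psa_norm_le H P b hc
  refine (pn_cl_bad_prod H P b hc.hB Set.univ m8 hm0 (fun x _ => hm8 x) (fun o x hx => absurd (Set.mem_univ x) hx) T hT c c' hc0 hc0'
    (fun x hx => absurd (Set.mem_univ x) hx) (fun x hx => absurd (Set.mem_univ x) hx)).trans ?_
  refine mul_le_mul_left (ENNReal.ofReal_le_ofReal ?_) _
  obtain ⟨a1, a2⟩ := hpow 6
  have h2 : 0 ≤ T⁻¹ ^ 6 := by positivity
  have c1 : 0 ≤ ∑ x, c x := Finset.sum_nonneg fun x _ => hc0 x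
  have c2 : 0 ≤ ∑ x, c' x := Finset.sum_nonneg fun x _ => hc0' x
  refine mul_le_mul_of_nonneg_right ?_ hm0
  exact mul_le_mul (mul_le_mul_of_nonneg_left a2 h2) (mul_le_mul hS hS' c2 (c1.trans hS)) (mul_nonneg c1 c2) (mul_nonneg h2 (a1.trans a2))

end Num2

/-! ## 5. The regime and the bad event: one statement -/

/-- the constant `c2` of `pn_rch_X2` (uniform in `b ≤ b₁`) -/
def psC2 (K N s : ℕ) (r b₁ : ℝ) : ℝ := b₁ * ((2 * Real.pi) ^ 2 * psRm K N) + (K : ℝ) ^ 2 / ((s : ℝ) * r) ^ 2 / 2 + 1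

/-- real arithmetic of `psa_pack`: powers of `ν` -/
theorem psa_pk_pow8 (τ ν : ℝ) (hτ : 0 < τ) (hν : 1 ≤ ν) : (τ * ν)⁻¹ ^ 8 * ν ^ 4 ≤ τ⁻¹ ^ 8 / ν := by
  have hν0 : 0 < ν := by linarith
  have hu1 : ν⁻¹ ≤ 1 := inv_le_one_of_one_le₀ hν
  have hu0 : 0 < ν⁻¹ := inv_pos.mpr hν0
  have e : (τ * ν)⁻¹ ^ 8 * ν ^ 4 = τ⁻¹ ^ 8 * (ν⁻¹ ^ 3 * ν⁻¹) := by
    field_simp
  rw [e, div_eq_mul_inv]
  have h3 : ν⁻¹ ^ 3 ≤ 1 := pow_le_one₀ hu0.le hu1
  have : ν⁻¹ ^ 3 * ν⁻¹ ≤ 1 * ν⁻¹ := mul_le_mul_of_nonneg_right h3 hu0.le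
  have hp : 0 ≤ τ⁻¹ ^ 8 := by positivity
  nlinarith

theorem psa_pk_pow6 (τ ν : ℝ) (hτ : 0 < τ) (hν : 1 ≤ ν) : (τ * ν)⁻¹ ^ 6 * ν ^ 4 ≤ τ⁻¹ ^ 6 / ν := by
  have hν0 : 0 < ν := by linarith
  have hu1 : ν⁻¹ ≤ 1 := inv_le_one_of_one_le₀ hν
  have hu0 : 0 < ν⁻¹ := inv_pos.mpr hν0
  have e : (τ * ν)⁻¹ ^ 6 * ν ^ 4 = τ⁻¹ ^ 6 * (ν⁻¹ * ν⁻¹) := by
    field_simp
  rw [e, div_eq_mul_inv]
  have : ν⁻¹ * ν⁻¹ ≤ 1 * ν⁻¹ := mul_le_mul_of_nonneg_right hu1 hu0.le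
  have hp : 0 ≤ τ⁻¹ ^ 6 := by positivity
  nlinarith

/-- sums of powers of the rows -/
theorem psa_pk_sum {O : Type} [Fintype O] (ρ : O → ℝ) (r : ℝ) (M : ℕ) (hr : 0 ≤ r) (h0 : ∀ o, 0 ≤ ρ o) (h1 : ∀ o, ρ o ≤ r) (hM : Fintype.card O ≤ M) (j : ℕ) :
    0 ≤ ∑ o, (2 * Real.pi * ρ o) ^ j ∧ ∑ o, (2 * Real.pi * ρ o) ^ j ≤ (M : ℝ) * (2 * Real.pi * r) ^ j := by
  have hpi := Real.pi_pos
  constructor
  · exact Finset.sum_nonneg fun o _ => pow_nonneg (mul_nonneg (by positivity) (h0 o)) j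
  · calc ∑ o, (2 * Real.pi * ρ o) ^ j ≤ ∑ _o : O, (2 * Real.pi * r) ^ j :=
          Finset.sum_le_sum fun o _ => pow_le_pow_left₀ (mul_nonneg (by positivity) (h0 o)) (mul_le_mul_of_nonneg_left (h1 o) (by positivity)) j
      _ = (Fintype.card O : ℝ) * (2 * Real.pi * r) ^ j := by simp [Finset.card_univ]
      _ ≤ (M : ℝ) * (2 * Real.pi * r) ^ j := mul_le_mul_of_nonneg_right (by exact_mod_cast hM) (by positivity)

theorem psa_pk_Rm (K N : ℕ) : 0 ≤ psRm K N := by unfold psRm; positivity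

theorem psa_pk_Rf (K N s : ℕ) : 0 ≤ psRf K N s := by
  have := psa_pk_Rm K N
  unfold psRf; positivity

theorem psa_pk_F1 (K : ℕ) : 0 ≤ anF1 K := by unfold anF1; positivity

/-- the linear bound of the cost at a point -/
def psX0 (K N s : ℕ) (r b₁ : ℝ) : ℝ :=
  b₁ * (8 * (K : ℝ) + 2 * psRf K N s) + (1 / (2 * Real.pi)) ^ 2 * ((K : ℝ) ^ 2 / ((s : ℝ) * r) ^ 2) / 2 + (4 + 4 * (N : ℝ)) ^ 2 + 1

theorem psa_pk_X0 (K N s : ℕ) (r b₁ : ℝ) (hb₁ : 0 < b₁) : 0 < psX0 K N s r b₁ := by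
  have := psa_pk_Rf K N s
  unfold psX0; positivity

theorem psa_pk_X1 (K N s ν : ℕ) (r b₁ b : ℝ) (hb₁ : 0 < b₁) (hbb : b ≤ b₁) (hν : 1 ≤ ν) :
    b * psRp K N s ν + (1 / (2 * Real.pi)) ^ 2 * ((K : ℝ) ^ 2 / ((s : ℝ) * r) ^ 2) / 2 ≤ psX0 K N s r b₁ * ν := by
  have hf := psa_pk_Rf K N s
  have hν' : (1 : ℝ) ≤ ν := by exact_mod_cast hν
  have hσ : 0 ≤ (1 / (2 * Real.pi)) ^ 2 * ((K : ℝ) ^ 2 / ((s : ℝ) * r) ^ 2) / 2 := by positivity
  have hK : (0 : ℝ) ≤ K := Nat.cast_nonneg K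
  have h1 : psRp K N s ν ≤ (8 * (K : ℝ) + 2 * psRf K N s) * ν := by
    unfold psRp; nlinarith
  have h0 : 0 ≤ psRp K N s ν := by unfold psRp; positivity
  have h2 : b * psRp K N s ν ≤ b₁ * ((8 * (K : ℝ) + 2 * psRf K N s) * ν) :=
    mul_le_mul hbb h1 h0 hb₁.le
  have h3 : (1 / (2 * Real.pi)) ^ 2 * ((K : ℝ) ^ 2 / ((s : ℝ) * r) ^ 2) / 2 ≤ (1 / (2 * Real.pi)) ^ 2 * ((K : ℝ) ^ 2 / ((s : ℝ) * r) ^ 2) / 2 * ν :=
    le_mul_of_one_le_right hσ hν'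
  have h4 : 0 ≤ ((4 + 4 * (N : ℝ)) ^ 2 + 1) * ν := by positivity
  unfold psX0
  nlinarith

theorem psa_pk_X2 (K N s ν : ℕ) (r b₁ : ℝ) (hb₁ : 0 < b₁) (hν : 1 ≤ ν) (hs : 1 ≤ s) :
    psTp N s ν ^ 2 ≤ psX0 K N s r b₁ * ν := by
  have hf := psa_pk_Rf K N s
  have hν' : (1 : ℝ) ≤ ν := by exact_mod_cast hν
  have hs' : (1 : ℝ) ≤ s := by exact_mod_cast hs
  have hσ : 0 ≤ (1 / (2 * Real.pi)) ^ 2 * ((K : ℝ) ^ 2 / ((s : ℝ) * r) ^ 2) / 2 := by positivity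
  have hK : (0 : ℝ) ≤ K := Nat.cast_nonneg K
  have hN : (0 : ℝ) ≤ N := Nat.cast_nonneg N
  have h1 : (2 : ℝ) / ν ≤ 2 := div_le_self (by norm_num) hν'
  have hsν : (1 : ℝ) ≤ ((s * ν : ℕ) : ℝ) := by
    push_cast; nlinarith
  have h2 : (4 : ℝ) / ((s * ν : ℕ) : ℝ) ≤ 4 := div_le_self (by norm_num) hsν
  have h2' : (0 : ℝ) ≤ 4 / ((s * ν : ℕ) : ℝ) := by positivity
  have h3 : psTp N s ν ≤ 4 + 4 * (N : ℝ) := by
    unfold psTp psTf psTm; nlinarith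
  have h0 : 0 ≤ psTp N s ν := by unfold psTp psTf psTm; positivity
  have h4 : psTp N s ν ^ 2 ≤ (4 + 4 * (N : ℝ)) ^ 2 := pow_le_pow_left₀ h0 h3 2
  have h5 : (4 + 4 * (N : ℝ)) ^ 2 ≤ psX0 K N s r b₁ := by
    have : 0 ≤ b₁ * (8 * (K : ℝ) + 2 * psRf K N s) := by positivity
    unfold psX0; linarith
  have h6 : psX0 K N s r b₁ ≤ psX0 K N s r b₁ * ν := le_mul_of_one_le_right (psa_pk_X0 K N s r b₁ hb₁).le hν'
  linarith

theorem psa_pk_sq (A ϑ τ : ℝ) (hA0 : 0 ≤ A) (hτ0 : 0 < τ) (hτ2 : τ ≤ ϑ / (A + 1)) : A * τ ^ 2 ≤ ϑ ^ 2 := by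
  have h5 : τ ^ 2 ≤ (ϑ / (A + 1)) ^ 2 := pow_le_pow_left₀ hτ0.le hτ2 2
  have h6 : A * (ϑ / (A + 1)) ^ 2 ≤ ϑ ^ 2 := by
    rw [div_pow, mul_div_assoc', div_le_iff₀ (by positivity)]
    nlinarith [sq_nonneg ϑ, mul_nonneg (sq_nonneg ϑ) hA0, mul_nonneg (sq_nonneg ϑ) (sq_nonneg A)]
  have h7 : A * τ ^ 2 ≤ A * (ϑ / (A + 1)) ^ 2 := mul_le_mul_of_nonneg_left h5 hA0
  linarith

/-- **L-PSA-17 (5)** regime `Tr = τ ν`, `Θ = ϑ ν`: the hypotheses `hTr`, `hΘ`, `hsup` of `pn_rch_X2` (with `w, t₁` of `psa_ancFl`, `Rg, tg, σ` of `psa_repM`, `c2 = psC2`) and the four contributions of the bad event are `≤ C/ν`;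
`τ, ϑ, C` depend only on `(K, N, s, M, r, b₁)`. -/
theorem psa_pack (K N s M : ℕ) (r b₁ : ℝ) (hr : 0 < r) (hb₁ : 0 < b₁) :
    ∃ τ ϑ C : ℝ, 0 < τ ∧ 0 < ϑ ∧ 0 ≤ C ∧
      ∀ (D : Finset (ℤ × ℤ)) (cut : Set Bond) (n₁ n₂ : ℕ) (Γm : CGeom n₁ n₂) (gm : DGrid n₁ n₂) (Γf : CGeom (s * n₁) (s * n₂)) (gf : DGrid (s * n₁) (s * n₂)) (ν : ℕ),
        n₁ * n₂ = N → PsTwo D cut s Γm gm Γf gf K ν →
      ∀ (H : HLaw (domG D cut)) (kp : H.O → Fin (s * n₁) × Fin (s * n₂)) (ρ : H.O → ℝ), PsRows H gf kp ρ → (∀ o, ρ o ≤ r) → PsFull Γm kp ρ r → Fintype.card H.O ≤ M →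
      ∀ (P : Set (domG D cut).V) (b : ℝ), 0 < b → b ≤ b₁ →
        2 * (378 * (2 * Real.pi * r) / (ν : ℝ) * (τ * ν)) ≤ 1 ∧
        b * ((2 * Real.pi) ^ 2 * psRm K N) + (K : ℝ) ^ 2 / ((s : ℝ) * r) ^ 2 / 2 ≤ psC2 K N s r b₁ ∧
        b * (9 * anF1 K * (2 * Real.pi * r) ^ 2) * (Fintype.card H.O * (τ * ν) ^ 2) ≤ (ϑ * ν) ^ 2 * psC2 K N s r b₁ ∧
        378 * (2 * Real.pi * r) / (ν : ℝ) * (τ * ν) + ϑ * ν * (2 * Real.pi * psTm N s ν) ≤ 1 ∧
        rhN H b P (fun h _ => rhInd (clBad H (τ * ν) h)) ≤ ENNReal.ofReal (C / ν) ∧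
        rhN H b P (fun h _ => rhInd (clBad H (τ * ν) h) * ENNReal.ofReal (clYA H h)) ≤ ENNReal.ofReal (C / ν) ∧
        ∀ c c' : (domG D cut).V → ℝ, (∀ x, 0 ≤ c x) → (∀ x, 0 ≤ c' x) → ∑ x, c x ≤ 2 * Real.pi → ∑ x, c' x ≤ 2 * Real.pi →
          rhN H b P (fun h _ => rhInd (clBad H (τ * ν) h) * ENNReal.ofReal (linA c h * linA c' h)) ≤ ENNReal.ofReal (C / ν) := by
  have hpi := Real.pi_pos
  have hF1 := psa_pk_F1 K
  have hRm := psa_pk_Rm K N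
  have hX0 := psa_pk_X0 K N s r b₁ hb₁
  obtain ⟨ϑ, hϑ⟩ : ∃ x : ℝ, x = 1 / (16 * Real.pi * ((N : ℝ) + 1)) := ⟨_, rfl⟩
  obtain ⟨A, hA⟩ : ∃ x : ℝ, x = b₁ * (9 * anF1 K * (2 * Real.pi * r) ^ 2) * (M : ℝ) := ⟨_, rfl⟩
  have hϑ0 : 0 < ϑ := by rw [hϑ]; positivity
  have hA0 : 0 ≤ A := by rw [hA]; positivity
  obtain ⟨τ, hτ⟩ : ∃ x : ℝ, x = min (1 / (1512 * Real.pi * r)) (ϑ / (A + 1)) := ⟨_, rfl⟩
  have hτ0 : 0 < τ := by rw [hτ]; exact lt_min (by positivity) (by positivity)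
  have hτ1 : τ ≤ 1 / (1512 * Real.pi * r) := hτ ▸ min_le_left _ _
  have hτ2 : τ ≤ ϑ / (A + 1) := hτ ▸ min_le_right _ _
  obtain ⟨E, hE⟩ : ∃ x : ℝ, x = 80640 * Real.exp 1 * psX0 K N s r b₁ ^ 4 := ⟨_, rfl⟩
  have hE0 : 0 ≤ E := by rw [hE]; positivity
  obtain ⟨C1, hC1⟩ : ∃ x : ℝ, x = τ⁻¹ ^ 8 * ((M : ℝ) * (2 * Real.pi * r) ^ 8) * E := ⟨_, rfl⟩
  obtain ⟨C2, hC2⟩ : ∃ x : ℝ, x = τ⁻¹ ^ 6 * ((M : ℝ) * (2 * Real.pi * r) ^ 6) * ((M : ℝ) * (2 * Real.pi * r) ^ 2) * E := ⟨_, rfl⟩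
  obtain ⟨C3, hC3⟩ : ∃ x : ℝ, x = τ⁻¹ ^ 6 * ((M : ℝ) * (2 * Real.pi * r) ^ 6) * (2 * Real.pi * (2 * Real.pi)) * E := ⟨_, rfl⟩
  have hC10 : 0 ≤ C1 := by rw [hC1]; positivity
  have hC20 : 0 ≤ C2 := by rw [hC2]; positivity
  have hC30 : 0 ≤ C3 := by rw [hC3]; positivity
  refine ⟨τ, ϑ, C1 + C2 + C3, hτ0, hϑ0, by positivity, ?_⟩
  intro D cut n₁ n₂ Γm gm Γf gf ν hN h H kp ρ hR hρ hF hM P b hb hbb
  subst hN
  have hν : (1 : ℝ) ≤ ν := by exact_mod_cast h.hν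
  have hν0 : (0 : ℝ) < ν := by linarith
  have hs : (1 : ℝ) ≤ s := by exact_mod_cast h.hs
  -- the anchor term
  have e1 : 378 * (2 * Real.pi * r) / (ν : ℝ) * (τ * ν) = 756 * Real.pi * r * τ := by
    field_simp; ring
  have b1 : 756 * Real.pi * r * τ ≤ 1 / 2 := by
    have : 756 * Real.pi * r * τ ≤ 756 * Real.pi * r * (1 / (1512 * Real.pi * r)) :=
      mul_le_mul_of_nonneg_left hτ1 (by positivity)
    have e : 756 * Real.pi * r * (1 / (1512 * Real.pi * r)) = 1 / 2 := by field_simp; norm_num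
    linarith
  have hC2ge : 1 ≤ psC2 K (n₁ * n₂) s r b₁ := by
    have : 0 ≤ b₁ * ((2 * Real.pi) ^ 2 * psRm K (n₁ * n₂)) + (K : ℝ) ^ 2 / ((s : ℝ) * r) ^ 2 / 2 := by positivity
    unfold psC2; linarith
  have hc : ClCtx H P b := psa_ctx_full h H kp ρ hR r hr hF P b hb
  obtain ⟨m8, hm8d⟩ : ∃ x : ℝ, x = 80640 * Real.exp 1 * (psX0 K (n₁ * n₂) s r b₁ * ν) ^ 4 := ⟨_, rfl⟩
  have hm0 : 0 ≤ m8 := by rw [hm8d]; positivity
  have em8 : m8 = E * (ν : ℝ) ^ 4 := by rw [hm8d, hE]; ring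
  have hm8 : ∀ x, rhI H b P (fun h _ => ENNReal.ofReal ((h x : ℝ) ^ 8)) ≤ ENNReal.ofReal m8 * rhI H b P (fun _ _ => 1) := by
    intro x
    rw [hm8d]
    exact psa_m8 H P b hc x _ _ _ (psa_repP h H kp ρ hR r hr hF x P) (psX0 K (n₁ * n₂) s r b₁ * ν) (by positivity)
      (psa_pk_X1 K (n₁ * n₂) s ν r b₁ b hb₁ hbb h.hν) (psa_pk_X2 K (n₁ * n₂) s ν r b₁ hb₁ h.hν h.hs)
  have hT : 0 < τ * ν := by positivity
  have S8 := psa_pk_sum ρ r M hr.le hR.nonneg hρ hM 8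
  have S6 := psa_pk_sum ρ r M hr.le hR.nonneg hρ hM 6
  have S2 := psa_pk_sum ρ r M hr.le hR.nonneg hρ hM 2
  have p8 := psa_pk_pow8 τ ν hτ0 hν
  have p6 := psa_pk_pow6 τ ν hτ0 hν
  have hi8 : 0 ≤ (τ * (ν : ℝ))⁻¹ ^ 8 := by positivity
  have hi6 : 0 ≤ (τ * (ν : ℝ))⁻¹ ^ 6 := by positivity
  have hC1ν : 0 ≤ C1 / ν := by positivity
  have hC2ν : 0 ≤ C2 / ν := by positivity
  have hC3ν : 0 ≤ C3 / ν := by positivity
  have esum : (C1 + C2 + C3) / (ν : ℝ) = C1 / ν + C2 / ν + C3 / ν := by ring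
  refine ⟨?_, ?_, ?_, ?_, ?_, ?_, ?_⟩
  · rw [e1]; linarith
  · have : b * ((2 * Real.pi) ^ 2 * psRm K (n₁ * n₂)) ≤ b₁ * ((2 * Real.pi) ^ 2 * psRm K (n₁ * n₂)) :=
      mul_le_mul_of_nonneg_right hbb (by positivity)
    unfold psC2; linarith
  · have hcard : (Fintype.card H.O : ℝ) ≤ M := by exact_mod_cast hM
    have h1 : b * (9 * anF1 K * (2 * Real.pi * r) ^ 2) * (Fintype.card H.O * (τ * ν) ^ 2) ≤ A * (τ * ν) ^ 2 := by
      have h2 : b * (9 * anF1 K * (2 * Real.pi * r) ^ 2) ≤ b₁ * (9 * anF1 K * (2 * Real.pi * r) ^ 2) :=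
        mul_le_mul_of_nonneg_right hbb (by positivity)
      have h3 : (Fintype.card H.O : ℝ) * (τ * ν) ^ 2 ≤ (M : ℝ) * (τ * ν) ^ 2 := mul_le_mul_of_nonneg_right hcard (by positivity)
      calc b * (9 * anF1 K * (2 * Real.pi * r) ^ 2) * (Fintype.card H.O * (τ * ν) ^ 2)
          ≤ b₁ * (9 * anF1 K * (2 * Real.pi * r) ^ 2) * ((M : ℝ) * (τ * ν) ^ 2) := mul_le_mul h2 h3 (by positivity) (by positivity)
        _ = A * (τ * ν) ^ 2 := by rw [hA]; ring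
    have h4 : A * τ ^ 2 ≤ ϑ ^ 2 := psa_pk_sq A ϑ τ hA0 hτ0 hτ2
    have h7 : A * (τ * ν) ^ 2 ≤ (ϑ * ν) ^ 2 := by
      have : A * (τ * ν) ^ 2 = A * τ ^ 2 * (ν : ℝ) ^ 2 := by ring
      rw [this, mul_pow]
      exact mul_le_mul_of_nonneg_right h4 (by positivity)
    have h8 : (ϑ * ν) ^ 2 ≤ (ϑ * ν) ^ 2 * psC2 K (n₁ * n₂) s r b₁ := le_mul_of_one_le_right (by positivity) hC2ge
    linarith
  · rw [e1]
    have e2 : ϑ * ν * (2 * Real.pi * psTm (n₁ * n₂) s ν) = ϑ * (8 * Real.pi * ((n₁ * n₂ : ℕ) : ℝ)) / s := by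
      unfold psTm; push_cast; field_simp; ring
    have b2 : ϑ * (8 * Real.pi * ((n₁ * n₂ : ℕ) : ℝ)) / s ≤ 1 / 2 := by
      have h1 : ϑ * (8 * Real.pi * ((n₁ * n₂ : ℕ) : ℝ)) / s ≤ ϑ * (8 * Real.pi * ((n₁ * n₂ : ℕ) : ℝ)) := div_le_self (by positivity) hs
      have h2 : ϑ * (8 * Real.pi * ((n₁ * n₂ : ℕ) : ℝ)) ≤ ϑ * (8 * Real.pi * (((n₁ * n₂ : ℕ) : ℝ) + 1)) := by
        apply mul_le_mul_of_nonneg_left _ hϑ0.le
        exact mul_le_mul_of_nonneg_left (by linarith) (by positivity)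
      have h3 : ϑ * (8 * Real.pi * (((n₁ * n₂ : ℕ) : ℝ) + 1)) = 1 / 2 := by
        rw [hϑ]; field_simp; norm_num
      linarith
    rw [e2]; linarith
  · refine (psa_PB H kp ρ hR P b hc m8 hm0 hm8 (τ * ν) hT).trans (ENNReal.ofReal_le_ofReal ?_)
    have h1 : (τ * (ν : ℝ))⁻¹ ^ 8 * (∑ o, (2 * Real.pi * ρ o) ^ 8) * m8 ≤ C1 / ν := by
      calc (τ * (ν : ℝ))⁻¹ ^ 8 * (∑ o, (2 * Real.pi * ρ o) ^ 8) * m8
          ≤ (τ * (ν : ℝ))⁻¹ ^ 8 * ((M : ℝ) * (2 * Real.pi * r) ^ 8) * m8 :=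
            mul_le_mul_of_nonneg_right (mul_le_mul_of_nonneg_left S8.2 hi8) hm0
        _ = ((τ * (ν : ℝ))⁻¹ ^ 8 * (ν : ℝ) ^ 4) * (((M : ℝ) * (2 * Real.pi * r) ^ 8) * E) := by rw [em8]; ring
        _ ≤ (τ⁻¹ ^ 8 / ν) * (((M : ℝ) * (2 * Real.pi * r) ^ 8) * E) := mul_le_mul_of_nonneg_right p8 (by positivity)
        _ = C1 / ν := by rw [hC1]; ring
    rw [esum]; linarith
  · refine (psa_BY H kp ρ hR P b hc m8 hm0 hm8 (τ * ν) hT).trans (ENNReal.ofReal_le_ofReal ?_)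
    have h1 : (τ * (ν : ℝ))⁻¹ ^ 6 * (∑ o, (2 * Real.pi * ρ o) ^ 6) * (∑ o, (2 * Real.pi * ρ o) ^ 2) * m8 ≤ C2 / ν := by
      calc (τ * (ν : ℝ))⁻¹ ^ 6 * (∑ o, (2 * Real.pi * ρ o) ^ 6) * (∑ o, (2 * Real.pi * ρ o) ^ 2) * m8
          ≤ (τ * (ν : ℝ))⁻¹ ^ 6 * ((M : ℝ) * (2 * Real.pi * r) ^ 6) * ((M : ℝ) * (2 * Real.pi * r) ^ 2) * m8 :=
            mul_le_mul_of_nonneg_right (mul_le_mul (mul_le_mul_of_nonneg_left S6.2 hi6) S2.2 S2.1 (by positivity)) hm0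
        _ = ((τ * (ν : ℝ))⁻¹ ^ 6 * (ν : ℝ) ^ 4) * (((M : ℝ) * (2 * Real.pi * r) ^ 6) * ((M : ℝ) * (2 * Real.pi * r) ^ 2) * E) := by rw [em8]; ring
        _ ≤ (τ⁻¹ ^ 6 / ν) * (((M : ℝ) * (2 * Real.pi * r) ^ 6) * ((M : ℝ) * (2 * Real.pi * r) ^ 2) * E) := mul_le_mul_of_nonneg_right p6 (by positivity)
        _ = C2 / ν := by rw [hC2]; ring
    rw [esum]; linarith
  · intro c c' hc0 hc0' hS hS'
    refine (psa_Bfg H kp ρ hR P b hc m8 hm0 hm8 (τ * ν) hT c c' hc0 hc0' _ _ hS hS').trans (ENNReal.ofReal_le_ofReal ?_)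
    have h1 : (τ * (ν : ℝ))⁻¹ ^ 6 * (∑ o, (2 * Real.pi * ρ o) ^ 6) * (2 * Real.pi * (2 * Real.pi)) * m8 ≤ C3 / ν := by
      calc (τ * (ν : ℝ))⁻¹ ^ 6 * (∑ o, (2 * Real.pi * ρ o) ^ 6) * (2 * Real.pi * (2 * Real.pi)) * m8
          ≤ (τ * (ν : ℝ))⁻¹ ^ 6 * ((M : ℝ) * (2 * Real.pi * r) ^ 6) * (2 * Real.pi * (2 * Real.pi)) * m8 :=
            mul_le_mul_of_nonneg_right (mul_le_mul_of_nonneg_right (mul_le_mul_of_nonneg_left S6.2 hi6) (by positivity)) hm0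
        _ = ((τ * (ν : ℝ))⁻¹ ^ 6 * (ν : ℝ) ^ 4) * (((M : ℝ) * (2 * Real.pi * r) ^ 6) * (2 * Real.pi * (2 * Real.pi)) * E) := by rw [em8]; ring
        _ ≤ (τ⁻¹ ^ 6 / ν) * (((M : ℝ) * (2 * Real.pi * r) ^ 6) * (2 * Real.pi * (2 * Real.pi)) * E) := mul_le_mul_of_nonneg_right p6 (by positivity)
        _ = C3 / ν := by rw [hC3]; ring
    rw [esum]; linarith

/-- Stores the on-demand equation lemmas of the definitions above in THIS module (rule 6 hygiene). -/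
theorem psa_forced : True := by
  have := @psRm.eq_1
  have := @psRf.eq_1
  have := @psRp.eq_1
  have := @psTm.eq_1
  have := @psTf.eq_1
  have := @psTp.eq_1
  have := @PsFull.eq_1
  have := @psC2.eq_1
  have := @psX0.eq_1
  trivial

end

end Claimed.Agent.R285.Pins
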