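import Claimed.Agent.R285.Pins.ShiftDefs
import Claimed.Agent.R285.Pins.ShiftAnc
import Claimed.Agent.R285.Pins.ReachFix

/-!
# ROW 285, PINS / CORE-LIM, PART (A): THE FINITE EXITS for the concrete band law      (contract: helper249;   ARCHITECT OF THIS FILE: helper164, with helper74 (`ShiftAnc`), helper85 (geometry))

Everything here is for ONE grid `g'` (one finite graph), with explicit constants; no limit.   Definitions: `Pins/ShiftDefs.lean`.   Consumer: `Pins/ShiftLim.lean` (helper249).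
THE CONTRACT = the five statements `psh_law_lam`, `psh_ctx`, `psh_anc`, `psh_rep`, `psh_fin` (verbatim as helper249 wrote them).
ALL FIVE ARE PROVED here (no sorry in this file) from (a) the generic package `Pins/ShiftAnc.lean` (helper74, `psa_*`), (b) `pn_rch_X2` (helper121), (c) the geometric facts `psh_g_*` of section 0.
-/

set_option autoImplicit false

namespace Claimed.Agent.R285.Pins

open scoped Classical ENNReal

noncomputable section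

variable {n₁ n₂ : ℕ}

/-! ## 0. Geometry of the two charts and of the layers -/

/-- (g0) the medium grid is refined by the fine grid -/
theorem psh_g_refines (s : ℕ) (hs : 1 ≤ s) (g' : DGrid (s * n₁) (s * n₂)) : S23.Refines s g' (shMed s g') := by
  have hs0 : 0 < s := hs
  unfold shMed
  rw [dif_pos hs0]
  constructor
  · intro i i' h
    show g'.x₁ i' = g'.x₁ ⟨s * i.1, _⟩
    congr 1
    exact Fin.ext h
  · intro j j' h
    show g'.x₂ j' = g'.x₂ ⟨s * j.1, _⟩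
    congr 1
    exact Fin.ext h

/-- the two charts -/
theorem psh_two (K s : ℕ) (hs : 1 ≤ s) (Γ : CGeom n₁ n₂) (g' : DGrid (s * n₁) (s * n₂)) (ν : ℕ) (hν : 1 ≤ ν) (h1 : g'.SideGe ν) (h2 : g'.SideLe (K * ν)) :
    PsTwo (g'.region (shGeo s Γ).T) ((shGeo s Γ).cutB g') s (shFree Γ) (shMed s g') (shGeo s Γ) g' K ν :=
  psa_two_refine (shFree Γ) (shMed s g') g' (psh_g_refines s hs g') K ν hν hs h1 h2

/-- the cell of a row -/
def shKp (s : ℕ) (Γ : CGeom n₁ n₂) (J : ℕ) (lam : ℝ) (g' : DGrid (s * n₁) (s * n₂)) : (shLaw s Γ J lam g').O → Fin (s * n₁) × Fin (s * n₂) :=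
  fun o => finProdFinEquiv.symm (show Fin ((s * n₁) * (s * n₂)) from o)

/-- the coefficient of a row -/
def shRho (s : ℕ) (Γ : CGeom n₁ n₂) (J : ℕ) (lam : ℝ) (g' : DGrid (s * n₁) (s * n₂)) : (shLaw s Γ J lam g').O → ℝ :=
  fun o => if shKp s Γ J lam g' o ∈ S23.fine s (shKb Γ J) then Real.sqrt lam / s else 0

theorem psh_mem_fine (s : ℕ) (A : Finset (Fin n₁ × Fin n₂)) (κ : Fin (s * n₁) × Fin (s * n₂)) : κ ∈ S23.fine s A ↔ S23.coarse s κ ∈ A := by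
  simp only [S23.fine, Finset.mem_filter, Finset.mem_univ, true_and]

theorem psh_geo_T (s : ℕ) (Γ : CGeom n₁ n₂) : (shGeo s Γ).T = S23.fine s Γ.T := rfl

theorem psh_geo_pin (s : ℕ) (Γ : CGeom n₁ n₂) : (shGeo s Γ).pin = ∅ := by
  show S23.fine s (∅ : Finset (Fin n₁ × Fin n₂)) = ∅
  ext κ
  simp [psh_mem_fine]

theorem psh_kb_sub (Γ : CGeom n₁ n₂) (J : ℕ) : shKb Γ J ⊆ Γ.T := Finset.filter_subset _ _

theorem psh_rows (s : ℕ) (Γ : CGeom n₁ n₂) (J : ℕ) (lam : ℝ) (g' : DGrid (s * n₁) (s * n₂)) :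
    PsRows (D := g'.region (shGeo s Γ).T) (cut := (shGeo s Γ).cutB g') (shLaw s Γ J lam g') g' (shKp s Γ J lam g') (shRho s Γ J lam g') := by
  refine psa_rows_lawR (shGeo s Γ) g' (shRow s (shKb Γ J) lam) (fun o => finProdFinEquiv.symm o) finProdFinEquiv.symm.injective
    (S23.fine s (shKb Γ J)) ?_ (Real.sqrt lam / s) (by positivity) ?_
  · intro κ hκ
    rw [psh_geo_T, psh_mem_fine]
    exact psh_kb_sub Γ J ((psh_mem_fine s _ κ).1 hκ)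
  · intro o κ
    simp only [shRow, psh_mem_fine]

theorem psh_rho_le (s : ℕ) (Γ : CGeom n₁ n₂) (J : ℕ) (lam : ℝ) (g' : DGrid (s * n₁) (s * n₂)) (o : (shLaw s Γ J lam g').O) :
    shRho s Γ J lam g' o ≤ Real.sqrt lam / s := by
  unfold shRho
  split_ifs
  · exact le_rfl
  · positivity

theorem psh_rho_ne (s : ℕ) (Γ : CGeom n₁ n₂) (J : ℕ) (lam : ℝ) (g' : DGrid (s * n₁) (s * n₂)) (o : (shLaw s Γ J lam g').O)
    (h : shRho s Γ J lam g' o ≠ 0) : S23.coarse s (shKp s Γ J lam g' o) ∈ shKb Γ J := by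
  unfold shRho at h
  split_ifs at h with h1
  · exact (psh_mem_fine s _ _).1 h1
  · exact absurd rfl h

theorem psh_card (s : ℕ) (Γ : CGeom n₁ n₂) (J : ℕ) (lam : ℝ) (g' : DGrid (s * n₁) (s * n₂)) :
    Fintype.card (shLaw s Γ J lam g').O = (s * n₁) * (s * n₂) := by
  show Fintype.card (Fin ((s * n₁) * (s * n₂))) = _
  convert Fintype.card_fin _

theorem psh_conn_free (Γ : CGeom n₁ n₂) {κ κ' : Fin n₁ × Fin n₂} (h : Γ.Conn κ κ') : (shFree Γ).Conn κ κ' := h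

theorem psh_full (s : ℕ) (Γ : CGeom n₁ n₂) (J : ℕ) (hconf : ShConf Γ J) (lam : ℝ) (g' : DGrid (s * n₁) (s * n₂)) :
    PsFull (shFree Γ) (shKp s Γ J lam g') (shRho s Γ J lam g') (Real.sqrt lam / s) := by
  intro k hk
  obtain ⟨d, hd, hc⟩ := hconf k hk
  refine ⟨d, psh_conn_free Γ hc, fun κ hκ => ⟨(finProdFinEquiv κ : Fin ((s * n₁) * (s * n₂))), ?_, ?_⟩⟩
  · show finProdFinEquiv.symm (finProdFinEquiv κ) = κ
    exact Equiv.symm_apply_apply _ _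
  · have e : shKp s Γ J lam g' (finProdFinEquiv κ : Fin ((s * n₁) * (s * n₂))) = κ := Equiv.symm_apply_apply _ _
    unfold shRho
    rw [e, if_pos ((psh_mem_fine s _ κ).2 (hκ ▸ hd))]

/-- every grid has sides in `[1, K]` for some `K` -/
theorem psh_g_sides {m₁ m₂ : ℕ} (g : DGrid m₁ m₂) : ∃ K : ℕ, g.SideGe 1 ∧ g.SideLe (K * 1) := by
  refine ⟨(∑ i : Fin m₁, (g.x₁ i.succ - g.x₁ i.castSucc).toNat) + ∑ j : Fin m₂, (g.x₂ j.succ - g.x₂ j.castSucc).toNat, ⟨fun i => ?_, fun j => ?_⟩, ⟨fun i => ?_, fun j => ?_⟩⟩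
  · have := g.mono₁ (Fin.castSucc_lt_succ (i := i))
    push_cast
    omega
  · have := g.mono₂ (Fin.castSucc_lt_succ (i := j))
    push_cast
    omega
  · have h := Finset.single_le_sum (f := fun i : Fin m₁ => (g.x₁ i.succ - g.x₁ i.castSucc).toNat) (fun _ _ => Nat.zero_le _) (Finset.mem_univ i)
    have h' : (g.x₁ i.succ - g.x₁ i.castSucc).toNat ≤ ∑ i : Fin m₁, (g.x₁ i.succ - g.x₁ i.castSucc).toNat := h
    have := Int.self_le_toNat (g.x₁ i.succ - g.x₁ i.castSucc)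
    generalize (∑ i : Fin m₁, (g.x₁ i.succ - g.x₁ i.castSucc).toNat) = S1 at h' ⊢
    generalize (∑ j : Fin m₂, (g.x₂ j.succ - g.x₂ j.castSucc).toNat) = S2
    push_cast
    omega
  · have h := Finset.single_le_sum (f := fun j : Fin m₂ => (g.x₂ j.succ - g.x₂ j.castSucc).toNat) (fun _ _ => Nat.zero_le _) (Finset.mem_univ j)
    have h' : (g.x₂ j.succ - g.x₂ j.castSucc).toNat ≤ ∑ j : Fin m₂, (g.x₂ j.succ - g.x₂ j.castSucc).toNat := h
    have := Int.self_le_toNat (g.x₂ j.succ - g.x₂ j.castSucc)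
    generalize (∑ j : Fin m₂, (g.x₂ j.succ - g.x₂ j.castSucc).toNat) = S2 at h' ⊢
    generalize (∑ i : Fin m₁, (g.x₁ i.succ - g.x₁ i.castSucc).toNat) = S1
    push_cast
    omega

/-! ## 1. The contract: (A0), (A1) -/

/-- (A0) the band law has no pins -/
theorem psh_law_lam (s : ℕ) (Γ : CGeom n₁ n₂) (J : ℕ) (lam : ℝ) (g' : DGrid (s * n₁) (s * n₂)) :
    (shLaw s Γ J lam g').Λ = HLaw.pinned ∅ := by
  show HLaw.pinned ((shGeo s Γ).sites g' (shGeo s Γ).pin) = HLaw.pinned ∅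
  congr 1
  rw [psh_geo_pin]
  ext x
  simp only [CGeom.sites, domSet, DGrid.region, Finset.biUnion_empty, Finset.coe_empty, Set.mem_empty_iff_false]
  exact Iff.rfl

theorem psh_r_pos (s : ℕ) (hs : 1 ≤ s) (lam : ℝ) (hlam : 0 < lam) : 0 < Real.sqrt lam / s := by
  have : (0 : ℝ) < s := by exact_mod_cast hs
  have := Real.sqrt_pos.2 hlam
  positivity

/-- (A1) the standing hypotheses of CLUS2 / REACH (they give `Proper` and `Ok`: `pn_cl_ctx_proper`, `pn_cl_ctx_ok`) -/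
theorem psh_ctx (s : ℕ) (hs : 1 ≤ s) (Γ : CGeom n₁ n₂) (J : ℕ) (hconf : ShConf Γ J) (lam : ℝ) (hlam : 0 < lam)
    (g' : DGrid (s * n₁) (s * n₂)) (b : ℝ) (hb : 0 < b) : ClCtx (shLaw s Γ J lam g') ∅ b := by
  obtain ⟨K, h1, h2⟩ := psh_g_sides g'
  exact psa_ctx_full (psh_two K s hs Γ g' 1 le_rfl h1 h2) (shLaw s Γ J lam g') (shKp s Γ J lam g') (shRho s Γ J lam g') (psh_rows s Γ J lam g')
    (Real.sqrt lam / s) (psh_r_pos s hs lam hlam) (psh_full s Γ J hconf lam g') ∅ b hb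

/-! ## 2. Sites, averages, layers -/

/-- (g2) the sites of a union of medium cells -/
theorem psh_g_sites (s : ℕ) (hs : 1 ≤ s) (Γ : CGeom n₁ n₂) (g' : DGrid (s * n₁) (s * n₂)) (A : Finset (Fin n₁ × Fin n₂)) (x : (shG s Γ g').V) :
    x ∈ shSites s Γ g' A ↔ ∃ κ ∈ A, domPos (D := g'.region (shGeo s Γ).T) (cut := (shGeo s Γ).cutB g') x ∈ (shMed s g').cell κ := by
  have e : g'.region (S23.fine s A) = (shMed s g').region A := Sec.region_fine (psh_g_refines s hs g') A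
  show domPos (D := g'.region (shGeo s Γ).T) (cut := (shGeo s Γ).cutB g') x ∈ (↑(g'.region (S23.fine s A)) : Set (ℤ × ℤ)) ↔ _
  rw [e, Finset.mem_coe, DGrid.region, Finset.mem_biUnion]

/-- every vertex lies in a medium cell of `Γ.T` -/
theorem psh_g_cell_ex (s : ℕ) (hs : 1 ≤ s) (Γ : CGeom n₁ n₂) (g' : DGrid (s * n₁) (s * n₂)) (x : (shG s Γ g').V) :
    ∃ κ ∈ Γ.T, domPos (D := g'.region (shGeo s Γ).T) (cut := (shGeo s Γ).cutB g') x ∈ (shMed s g').cell κ := by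
  have e : g'.region (S23.fine s Γ.T) = (shMed s g').region Γ.T := Sec.region_fine (psh_g_refines s hs g') Γ.T
  have hx : domPos (D := g'.region (shGeo s Γ).T) (cut := (shGeo s Γ).cutB g') x ∈ g'.region (shGeo s Γ).T :=
    Subtype.property (p := fun v => v ∈ g'.region (shGeo s Γ).T) x
  have hx' : domPos (D := g'.region (shGeo s Γ).T) (cut := (shGeo s Γ).cutB g') x ∈ (shMed s g').region Γ.T := e ▸ hx
  rw [DGrid.region, Finset.mem_biUnion] at hx'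
  exact hx'

/-- (g1) the average over a medium cell -/
theorem psh_g_avg (s : ℕ) (hs : 1 ≤ s) (Γ : CGeom n₁ n₂) (g' : DGrid (s * n₁) (s * n₂)) (κ : Fin n₁ × Fin n₂) (hκ : κ ∈ Γ.T) :
    shAvg s Γ g' κ = anRho (D := g'.region (shGeo s Γ).T) (cut := (shGeo s Γ).cutB g') ((shMed s g').cell κ) := by
  have e1 : S23.fine s {κ} ∩ (shGeo s Γ).T = S23.fine s {κ} := by
    rw [Finset.inter_eq_left, psh_geo_T]
    intro κ' h
    rw [psh_mem_fine] at h ⊢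
    rw [Finset.mem_singleton.1 h]
    exact hκ
  have e2 : g'.region (S23.fine s {κ}) = (shMed s g').cell κ := by
    rw [Sec.region_fine (psh_g_refines s hs g') {κ}, DGrid.region, Finset.singleton_biUnion]
  funext x
  unfold shAvg CGeom.avgRow anRho
  rw [e1, e2]
  have e3 : x ∈ (shGeo s Γ).sites g' (S23.fine s {κ}) ↔ domPos (D := g'.region (shGeo s Γ).T) (cut := (shGeo s Γ).cutB g') x ∈ (shMed s g').cell κ := by
    have := psh_g_sites s hs Γ g' {κ} x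
    simpa [shSites] using this
  by_cases h : x ∈ (shGeo s Γ).sites g' (S23.fine s {κ})
  · rw [if_pos h, if_pos (e3.1 h)]
  · rw [if_neg h, if_neg (fun h' => h (e3.2 h'))]

theorem psh_mem_ball (p : Finset (Fin n₁ × Fin n₂)) (j : ℕ) (κ : Fin n₁ × Fin n₂) : κ ∈ shBall p j ↔ ∃ κ' ∈ p, shLe j κ κ' := by
  unfold shBall
  rw [Finset.mem_filter]
  simp

theorem psh_mem_nb (κ κ' : Fin n₁ × Fin n₂) :
    κ' ∈ anNb κ ↔ κ'.1.1 ≤ κ.1.1 + 1 ∧ κ.1.1 ≤ κ'.1.1 + 1 ∧ κ'.2.1 ≤ κ.2.1 + 1 ∧ κ.2.1 ≤ κ'.2.1 + 1 := by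
  unfold anNb
  rw [Finset.mem_filter]
  simp

theorem psh_ball_mono (p : Finset (Fin n₁ × Fin n₂)) {j j' : ℕ} (h : j ≤ j') : shBall p j ⊆ shBall p j' := by
  intro κ hκ
  rw [psh_mem_ball] at hκ ⊢
  obtain ⟨κ', h', a, b, c, d⟩ := hκ
  exact ⟨κ', h', by omega, by omega, by omega, by omega⟩

theorem psh_ball_self (p : Finset (Fin n₁ × Fin n₂)) (j : ℕ) {κ : Fin n₁ × Fin n₂} (h : κ ∈ p) : κ ∈ shBall p j := by
  rw [psh_mem_ball]
  exact ⟨κ, h, by omega, by omega, by omega, by omega⟩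

theorem psh_ball_nb (p : Finset (Fin n₁ × Fin n₂)) (j : ℕ) {κ κ' : Fin n₁ × Fin n₂} (h : κ ∈ shBall p j) (hn : κ' ∈ anNb κ) : κ' ∈ shBall p (j + 1) := by
  rw [psh_mem_ball] at h ⊢
  rw [psh_mem_nb] at hn
  obtain ⟨κ₀, h', a, b, c, d⟩ := h
  obtain ⟨a', b', c', d'⟩ := hn
  exact ⟨κ₀, h', by omega, by omega, by omega, by omega⟩

theorem psh_nb_symm {κ κ' : Fin n₁ × Fin n₂} (hn : κ' ∈ anNb κ) : κ ∈ anNb κ' := by
  rw [psh_mem_nb] at hn ⊢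
  obtain ⟨a', b', c', d'⟩ := hn
  exact ⟨by omega, by omega, by omega, by omega⟩

theorem psh_mem_kb (Γ : CGeom n₁ n₂) (J : ℕ) (κ : Fin n₁ × Fin n₂) : κ ∈ shKb Γ J ↔ κ ∈ Γ.T ∧ κ ∈ shBall Γ.pin (J + 2) ∧ κ ∉ shBall Γ.pin (J + 1) := by
  unfold shKb
  rw [Finset.mem_filter]

theorem psh_mem_far (Γ : CGeom n₁ n₂) (J : ℕ) (κ : Fin n₁ × Fin n₂) : κ ∈ shFarC Γ J ↔ κ ∈ Γ.T ∧ (κ ∈ shBall Γ.pin J ∨ κ ∉ shBall Γ.pin (J + 3)) := by
  unfold shFarC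
  rw [Finset.mem_filter]

theorem psh_mem_cb (Γ : CGeom n₁ n₂) (J : ℕ) (κ : Fin n₁ × Fin n₂) :
    κ ∈ shCB Γ J ↔ κ ∈ Γ.T ∧ κ ∈ shBall Γ.pin (2 * J + 4) ∧ κ ∉ shBall Γ.pin (2 * J + 3) := by
  unfold shCB
  rw [Finset.mem_filter]

theorem psh_mem_ci (Γ : CGeom n₁ n₂) (κ : Fin n₁ × Fin n₂) : κ ∈ shCI Γ ↔ κ ∈ Γ.T ∧ κ ∈ Γ.pin := by
  unfold shCI
  rw [Finset.mem_filter]

theorem psh_mem_tg (Γ : CGeom n₁ n₂) (J : ℕ) (κ : Fin n₁ × Fin n₂) : κ ∈ shTg Γ J ↔ κ ∈ Γ.T ∧ κ ∉ shBall Γ.pin (2 * J + 4) := by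
  unfold shTg
  rw [Finset.mem_filter]

/-- (g3) a far cell is not a neighbour of a band cell -/
theorem psh_g_far (Γ : CGeom n₁ n₂) (J : ℕ) {k k' : Fin n₁ × Fin n₂} (hk : k ∈ shKb Γ J) (hk' : k' ∈ shFarC Γ J) : k' ∉ anNb k := by
  intro hn
  rw [psh_mem_kb] at hk
  rw [psh_mem_far] at hk'
  rcases hk'.2 with h | h
  · exact hk.2.2 (psh_ball_nb _ _ h (psh_nb_symm hn))
  · exact h (psh_ball_nb _ _ hk.2.1 hn)

theorem psh_g_pin_far (Γ : CGeom n₁ n₂) (J : ℕ) {k : Fin n₁ × Fin n₂} (hk : k ∈ Γ.T) (hp : k ∈ Γ.pin) : k ∈ shFarC Γ J := by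
  rw [psh_mem_far]
  exact ⟨hk, Or.inl (psh_ball_self _ _ hp)⟩

theorem psh_g_cb_far (Γ : CGeom n₁ n₂) (J : ℕ) {k : Fin n₁ × Fin n₂} (hk : k ∈ shCB Γ J) : k ∈ shFarC Γ J := by
  rw [psh_mem_cb] at hk
  rw [psh_mem_far]
  exact ⟨hk.1, Or.inr fun h => hk.2.2 (psh_ball_mono _ (by omega) h)⟩

/-- a pinned cell and a `B`-cell are not neighbours -/
theorem psh_g_pin_cb (Γ : CGeom n₁ n₂) (J : ℕ) {k k' : Fin n₁ × Fin n₂} (hk : k ∈ Γ.pin) (hk' : k' ∈ shCB Γ J) : k' ∉ anNb k := by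
  intro hn
  rw [psh_mem_cb] at hk'
  exact hk'.2.2 (psh_ball_mono _ (by omega) (psh_ball_nb _ 0 (psh_ball_self _ 0 hk) hn))

theorem psh_sites_mono (s : ℕ) (hs : 1 ≤ s) (Γ : CGeom n₁ n₂) (g' : DGrid (s * n₁) (s * n₂)) {A B : Finset (Fin n₁ × Fin n₂)}
    (h : ∀ κ ∈ A, κ ∈ Γ.T → κ ∈ B) : shSites s Γ g' A ⊆ shSites s Γ g' B := by
  intro x hx
  rw [psh_g_sites s hs] at hx ⊢
  obtain ⟨κ, hκ, hxκ⟩ := hx
  obtain ⟨κ', hκ', hxκ'⟩ := psh_g_cell_ex s hs Γ g' x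
  have e := pn_an_cell_unique _ hxκ hxκ'
  exact ⟨κ, h κ hκ (e ▸ hκ'), hxκ⟩

/-! ## 3. The contract: (A2), (A3) -/

theorem psh_w_eq (K s : ℕ) (lam : ℝ) (hlam : 0 ≤ lam) : 9 * anF1 K * (2 * Real.pi * (Real.sqrt lam / s)) ^ 2 = shW K lam s := by
  unfold shW
  rw [mul_pow, div_pow, Real.sq_sqrt hlam]
  ring

theorem psh_t_eq (s ν : ℕ) (lam : ℝ) : 378 * (2 * Real.pi * (Real.sqrt lam / s)) / (ν : ℝ) = shT1 lam s ν := by
  unfold shT1
  ring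

/-- (A2) **(AN2) for the remaining tilt of the band law**, and the pin lies in the far set -/
theorem psh_anc (K s : ℕ) (hs : 1 ≤ s) (Γ : CGeom n₁ n₂) (J : ℕ) (lam : ℝ) (hlam : 0 ≤ lam) (g' : DGrid (s * n₁) (s * n₂)) (ν : ℕ) (hν : 1 ≤ ν)
    (h1 : g'.SideGe ν) (h2 : g'.SideLe (K * ν)) :
    AncFl (shG s Γ g') (shLaw s Γ J lam g') (clFar (shG s Γ g') (shSites s Γ g' (shFarC Γ J))) (shW K lam s) (shT1 lam s ν) ∧
      shSites s Γ g' Γ.pin ⊆ shSites s Γ g' (shFarC Γ J) := by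
  refine ⟨?_, psh_sites_mono s hs Γ g' fun κ hκ hT => psh_g_pin_far Γ J hT hκ⟩
  have h := psa_ancFl_med (psh_two K s hs Γ g' ν hν h1 h2) (shLaw s Γ J lam g') (shKp s Γ J lam g') (shRho s Γ J lam g') (psh_rows s Γ J lam g')
    (Real.sqrt lam / s) (by positivity) (psh_rho_le s Γ J lam g') (shSites s Γ g' (shFarC Γ J)) (by
      intro x hx o ho k' hk'
      obtain ⟨κ, hκ, hxκ⟩ := (psh_g_sites s hs Γ g' _ x).1 hx
      rw [pn_an_cell_unique _ hk' hxκ]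
      exact psh_g_far Γ J (psh_rho_ne s Γ J lam g' o ho) hκ)
  rw [psh_w_eq K s lam hlam, psh_t_eq] at h
  exact h

theorem psh_sr_eq (s : ℕ) (hs : 1 ≤ s) (lam : ℝ) (hlam : 0 ≤ lam) : ((s : ℝ) * (Real.sqrt lam / s)) ^ 2 = lam := by
  have : (s : ℝ) ≠ 0 := by
    have : (0 : ℝ) < s := by exact_mod_cast hs
    exact this.ne'
  rw [mul_div_cancel₀ _ this, Real.sq_sqrt hlam]

/-- representation of a medium cell, any grounding set -/
theorem psh_repQ (K s : ℕ) (hs : 1 ≤ s) (Γ : CGeom n₁ n₂) (J : ℕ) (hconf : ShConf Γ J) (lam : ℝ) (hlam : 0 < lam) (g' : DGrid (s * n₁) (s * n₂)) (ν : ℕ)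
    (hν : 1 ≤ ν) (h1 : g'.SideGe ν) (h2 : g'.SideLe (K * ν)) (κ : Fin n₁ × Fin n₂) (hκ : κ ∈ Γ.T) (Q : Set (shG s Γ g').V) :
    clRep (shLaw s Γ J lam g') Q (rhT (shAvg s Γ g' κ)) ((2 * Real.pi) ^ 2 * psRm K (n₁ * n₂)) (2 * Real.pi * psTm (n₁ * n₂) s ν) ((K : ℝ) ^ 2 / lam) := by
  have h := psa_repM (psh_two K s hs Γ g' ν hν h1 h2) (shLaw s Γ J lam g') (shKp s Γ J lam g') (shRho s Γ J lam g') (psh_rows s Γ J lam g')
    (Real.sqrt lam / s) (psh_r_pos s hs lam hlam) (psh_full s Γ J hconf lam g') κ hκ Q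
  rw [psh_sr_eq s hs lam hlam.le, ← psh_g_avg s hs Γ g' κ hκ] at h
  exact h

/-- (A3) **representation of the average over a medium cell** (uniform in `lam ≥ 1`, `s`): flow between medium cells + the rows of one band cell -/
theorem psh_rep (K s : ℕ) (hs : 1 ≤ s) (Γ : CGeom n₁ n₂) (J : ℕ) (hconf : ShConf Γ J) (lam : ℝ) (hlam : 0 < lam) (g' : DGrid (s * n₁) (s * n₂)) (ν : ℕ)
    (hν : 1 ≤ ν) (h1 : g'.SideGe ν) (h2 : g'.SideLe (K * ν)) (κ : Fin n₁ × Fin n₂) (hκ : κ ∈ Γ.T) :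
    clRep (shLaw s Γ J lam g') ∅ (rhT (shAvg s Γ g' κ)) ((2 * Real.pi) ^ 2 * (((n₁ * n₂ : ℕ) : ℝ) * (((n₁ * n₂ : ℕ) : ℝ) * (24 * (K : ℝ)))))
      (2 * Real.pi * (((n₁ * n₂ : ℕ) : ℝ) * (4 / ((s : ℝ) * (ν : ℝ))))) ((K : ℝ) ^ 2 / lam) := by
  have h := psh_repQ K s hs Γ J hconf lam hlam g' ν hν h1 h2 κ hκ ∅
  unfold psRm psTm at h
  rw [Nat.cast_mul s ν] at h
  exact h

/-! ## 4. Crossing and touching -/

theorem psh_adj_nb (Γ : CGeom n₁ n₂) {κ κ' : Fin n₁ × Fin n₂} (h : κ = κ' ∨ Γ.Adj κ κ') : κ' ∈ anNb κ := by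
  rw [psh_mem_nb]
  rcases h with rfl | ⟨_, _, h | h | h | h⟩
  · exact ⟨by omega, by omega, by omega, by omega⟩
  · have := congrArg Fin.val h.2.1
    exact ⟨by omega, by omega, by omega, by omega⟩
  · have := congrArg Fin.val h.1
    exact ⟨by omega, by omega, by omega, by omega⟩
  · have := congrArg Fin.val h.2.1
    exact ⟨by omega, by omega, by omega, by omega⟩
  · have := congrArg Fin.val h.1
    exact ⟨by omega, by omega, by omega, by omega⟩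

/-- the medium chart -/
theorem psh_chart_med (s : ℕ) (hs : 1 ≤ s) (Γ : CGeom n₁ n₂) (g' : DGrid (s * n₁) (s * n₂)) :
    AnChart (g'.region (shGeo s Γ).T) ((shGeo s Γ).cutB g') (shFree Γ) (shMed s g') := by
  obtain ⟨K, h1, h2⟩ := psh_g_sides g'
  exact (psh_two K s hs Γ g' 1 le_rfl h1 h2).cm

theorem psh_mem_single (s : ℕ) (hs : 1 ≤ s) (Γ : CGeom n₁ n₂) (g' : DGrid (s * n₁) (s * n₂)) (κ : Fin n₁ × Fin n₂) (x : (shG s Γ g').V) :
    x ∈ shSites s Γ g' {κ} ↔ domPos (D := g'.region (shGeo s Γ).T) (cut := (shGeo s Γ).cutB g') x ∈ (shMed s g').cell κ := by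
  rw [psh_g_sites s hs]
  simp

/-- (g5) CROSSING = `hX1`: an exploration from the pin which reaches the target visits a `B`-cell -/
theorem psh_g_cross (s : ℕ) (hs : 1 ≤ s) (Γ : CGeom n₁ n₂) (J : ℕ) (g' : DGrid (s * n₁) (s * n₂)) (U : Set (shG s Γ g').V)
    (hU : AConn (shG s Γ g') (shSites s Γ g' Γ.pin) U) (hT : (U ∩ shSites s Γ g' (shTg Γ J)).Nonempty) :
    ∃ j : {κ // κ ∈ shCB Γ J}, (U ∩ shSites s Γ g' {j.1}).Nonempty := by
  obtain ⟨v, hvU, hvT⟩ := hT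
  obtain ⟨a, ha, hpath⟩ := hU.2 v hvU
  have hc := psh_chart_med s hs Γ g'
  have key : ∀ y : (shG s Γ g').V, Relation.ReflTransGen (fun x y => gAdj (shG s Γ g') x y ∧ y ∈ U) a y →
      (∀ κ, domPos (D := g'.region (shGeo s Γ).T) (cut := (shGeo s Γ).cutB g') y ∈ (shMed s g').cell κ → κ ∈ shBall Γ.pin (2 * J + 3)) ∨
        ∃ j : {κ // κ ∈ shCB Γ J}, (U ∩ shSites s Γ g' {j.1}).Nonempty := by
    intro y hy
    induction hy with
    | refl =>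
      left
      intro κ hκ
      obtain ⟨κ', hκ', hx'⟩ := (psh_g_sites s hs Γ g' _ a).1 ha
      rw [pn_an_cell_unique _ hκ hx']
      exact psh_ball_self _ _ hκ'
    | @tail y z _ hstep ih =>
      rcases ih with ih | ih
      · obtain ⟨κy, _, hy'⟩ := psh_g_cell_ex s hs Γ g' y
        obtain ⟨κz, hzT, hz'⟩ := psh_g_cell_ex s hs Γ g' z
        have hnb : κz ∈ anNb κy := psh_adj_nb (shFree Γ) (pn_an_bond_adj hc hstep.1 hy' hz')
        have hb : κz ∈ shBall Γ.pin (2 * J + 4) := psh_ball_nb _ _ (ih κy hy') hnb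
        by_cases h3 : κz ∈ shBall Γ.pin (2 * J + 3)
        · left
          intro κ hκ
          rw [pn_an_cell_unique _ hκ hz']
          exact h3
        · right
          exact ⟨⟨κz, (psh_mem_cb Γ J κz).2 ⟨hzT, hb, h3⟩⟩, z, hstep.2, (psh_mem_single s hs Γ g' κz z).2 hz'⟩
      · exact Or.inr ih
  rcases key v hpath with h | h
  · exfalso
    obtain ⟨κ, hκ, hx⟩ := (psh_g_sites s hs Γ g' _ v).1 hvT
    exact ((psh_mem_tg Γ J κ).1 hκ).2 (psh_ball_mono _ (by omega) (h κ hx))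
  · exact h

/-- `hX2`: the `I`-cells are the pinned cells -/
theorem psh_g_cross2 (s : ℕ) (hs : 1 ≤ s) (Γ : CGeom n₁ n₂) (g' : DGrid (s * n₁) (s * n₂)) (U : Set (shG s Γ g').V)
    (hT : (U ∩ shSites s Γ g' Γ.pin).Nonempty) : ∃ i : {κ // κ ∈ shCI Γ}, (U ∩ shSites s Γ g' {i.1}).Nonempty := by
  obtain ⟨v, hvU, hvT⟩ := hT
  obtain ⟨κ, hκ, hx⟩ := (psh_g_sites s hs Γ g' _ v).1 hvT
  obtain ⟨κ', hκ', hx'⟩ := psh_g_cell_ex s hs Γ g' v
  have e := pn_an_cell_unique _ hx hx'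
  exact ⟨⟨κ, (psh_mem_ci Γ κ).2 ⟨e ▸ hκ', hκ⟩⟩, v, hvU, (psh_mem_single s hs Γ g' κ v).2 hx⟩

/-- (AN1) in the medium chart: `hvB`, `hvI` -/
theorem psh_g_touch (K s : ℕ) (hs : 1 ≤ s) (Γ : CGeom n₁ n₂) (g' : DGrid (s * n₁) (s * n₂)) (ν : ℕ) (hν : 1 ≤ ν) (h1 : g'.SideGe ν) (h2 : g'.SideLe (K * ν))
    (A U : Set (shG s Γ g').V) (hU : AConn (shG s Γ g') A U) (d : Fin n₁ × Fin n₂) (hd : d ∈ Γ.T)
    (hA : ∀ x ∈ A, ∀ κ', domPos (D := g'.region (shGeo s Γ).T) (cut := (shGeo s Γ).cutB g') x ∈ (shMed s g').cell κ' → κ' ∉ anNb d)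
    (hne : (U ∩ shSites s Γ g' {d}).Nonempty) :
    FlowLe (shG s Γ g') U (rhT (shAvg s Γ g' d)) (shR K) (2 * Real.pi * (42 / ((s * ν : ℕ) : ℝ))) := by
  have h := psh_two K s hs Γ g' ν hν h1 h2
  have hm := psa_med_side h
  have := psa_touch_flow h.cm K (s * ν) (Nat.mul_pos hs hν) hm.1 hm.2 A U hU d hA (by
    obtain ⟨x, hxU, hx⟩ := hne
    exact ⟨x, hxU, (psh_mem_single s hs Γ g' d x).1 hx⟩)
  rw [← psh_g_avg s hs Γ g' d hd] at this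
  exact this

/-! ## 5. The contract: (A4) -/

/-- pure arithmetic: the bound of `pn_rch_X2` against the bound of the contract -/
theorem psh_num (PB BY Bff Bfg βd b w th q γ s' s χ₀ v2 c2' c2 nB nI N η : ℝ)
    (hPB0 : 0 ≤ PB) (hBY0 : 0 ≤ BY) (hBff0 : 0 ≤ Bff) (hBfg0 : 0 ≤ Bfg)
    (hPB : PB ≤ βd) (hBY : BY ≤ βd) (hBff : Bff ≤ βd) (hBfg : Bfg ≤ βd)
    (hbw0 : 0 ≤ b * w) (hbw : 16 * (b * w) ≤ 1) (hth0 : 0 ≤ th) (hq : b * w * th ≤ q)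
    (hγ : 0 < γ) (hs' : 0 < s') (hs : 0 < s) (hη : 0 < η) (hχ : 0 ≤ χ₀) (hv2 : 0 ≤ v2) (hc2' : 0 ≤ c2') (hc2 : c2' ≤ c2)
    (hnB0 : 0 ≤ nB) (hnB : nB ≤ N) (hnI0 : 0 ≤ nI) (hnI : nI ≤ N) :
    PB + 2 * b * w * th / η + γ⁻¹ ^ 2 * (nB * (γ * (s' + 8 * b * w * th / s' + 2 * PB)
        + nI * (χ₀ + 2 * s * (2 * v2 + 16 * b * w * c2' * (2 * th + BY) + 2 * Bff)
          + 4 * b * w * (c2' + 1) * (2 * th + BY) / s + Bfg + PB + Bff)))
    ≤ βd + 2 * q / η + γ⁻¹ ^ 2 * (N * (γ * (s' + 8 * q / s' + 2 * βd)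
        + N * (χ₀ + 2 * s * (2 * v2 + 32 * c2 * q + (c2 + 2) * βd)
          + 4 * (c2 + 1) * (2 * q + βd) / s + 3 * βd))) := by
  obtain ⟨X, hX⟩ : ∃ X, X = b * w * th := ⟨_, rfl⟩
  obtain ⟨Y, hY⟩ : ∃ Y, Y = b * w * BY := ⟨_, rfl⟩
  have hβ0 : 0 ≤ βd := hPB0.trans hPB
  have hX0 : 0 ≤ X := by rw [hX]; positivity
  have hXq : X ≤ q := hX ▸ hq
  have hY0 : 0 ≤ Y := by rw [hY]; positivity
  have hYβ : 16 * Y ≤ βd := by
    rw [hY]
    calc 16 * (b * w * BY) = (16 * (b * w)) * BY := by ring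
      _ ≤ 1 * BY := mul_le_mul_of_nonneg_right hbw hBY0
      _ ≤ βd := by rw [one_mul]; exact hBY
  have hq0 : 0 ≤ q := hX0.trans hXq
  have e1 : 2 * b * w * th / η = 2 * X / η := by rw [hX]; ring
  have e2 : 8 * b * w * th / s' = 8 * X / s' := by rw [hX]; ring
  have e3 : 16 * b * w * c2' * (2 * th + BY) = c2' * (32 * X + 16 * Y) := by rw [hX, hY]; ring
  have e4 : 4 * b * w * (c2' + 1) * (2 * th + BY) / s = 4 * (c2' + 1) * (2 * X + Y) / s := by rw [hX, hY]; ring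
  rw [e1, e2, e3, e4]
  have t1 : 2 * X / η ≤ 2 * q / η := by gcongr
  have t2 : 8 * X / s' ≤ 8 * q / s' := by gcongr
  have t3 : c2' * (32 * X + 16 * Y) ≤ 32 * c2 * q + c2 * βd := by
    calc c2' * (32 * X + 16 * Y) ≤ c2 * (32 * q + βd) := by
          apply mul_le_mul hc2 (by linarith) (by positivity) (hc2'.trans hc2)
      _ = _ := by ring
  have t4 : 4 * (c2' + 1) * (2 * X + Y) / s ≤ 4 * (c2 + 1) * (2 * q + βd) / s := by
    apply div_le_div_of_nonneg_right _ hs.le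
    apply mul_le_mul (by linarith) (by linarith) (by positivity) (by linarith)
  have i1 : χ₀ + 2 * s * (2 * v2 + c2' * (32 * X + 16 * Y) + 2 * Bff) + 4 * (c2' + 1) * (2 * X + Y) / s + Bfg + PB + Bff
      ≤ χ₀ + 2 * s * (2 * v2 + 32 * c2 * q + (c2 + 2) * βd) + 4 * (c2 + 1) * (2 * q + βd) / s + 3 * βd := by
    have : 2 * s * (2 * v2 + c2' * (32 * X + 16 * Y) + 2 * Bff) ≤ 2 * s * (2 * v2 + 32 * c2 * q + (c2 + 2) * βd) := by
      apply mul_le_mul_of_nonneg_left _ (by positivity)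
      linarith
    linarith
  have i0 : 0 ≤ χ₀ + 2 * s * (2 * v2 + c2' * (32 * X + 16 * Y) + 2 * Bff) + 4 * (c2' + 1) * (2 * X + Y) / s + Bfg + PB + Bff := by positivity
  have hN0 : 0 ≤ N := hnB0.trans hnB
  have i2 := mul_le_mul hnI i1 i0 hN0
  have j1 : γ * (s' + 8 * X / s' + 2 * PB) ≤ γ * (s' + 8 * q / s' + 2 * βd) := by
    apply mul_le_mul_of_nonneg_left _ hγ.le
    linarith
  have j0 : 0 ≤ γ * (s' + 8 * X / s' + 2 * PB) + nI * (χ₀ + 2 * s * (2 * v2 + c2' * (32 * X + 16 * Y) + 2 * Bff) + 4 * (c2' + 1) * (2 * X + Y) / s + Bfg + PB + Bff) := by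
    positivity
  have j2 := mul_le_mul hnB (add_le_add j1 i2) j0 hN0
  have j3 := mul_le_mul_of_nonneg_left j2 (by positivity : 0 ≤ γ⁻¹ ^ 2)
  linarith

theorem psh_rho_sum {D : Finset (ℤ × ℤ)} {cut : Set Bond} (W : Finset (ℤ × ℤ)) : ∑ x : (domG D cut).V, anRho W x ≤ 1 := by
  have e : ∑ x : (domG D cut).V, anRho W x = ∑ z ∈ D, (if z ∈ W then (W.card : ℝ)⁻¹ else 0) :=
    pn_br_sumV (D := D) (cut := cut) (fun z => if z ∈ W then (W.card : ℝ)⁻¹ else 0)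
  rw [e, ← Finset.sum_filter, Finset.sum_const, nsmul_eq_mul]
  have h1 : ((D.filter fun z => z ∈ W).card : ℝ) ≤ (W.card : ℝ) := by
    exact_mod_cast Finset.card_le_card fun z hz => (Finset.mem_filter.1 hz).2
  rcases Nat.eq_zero_or_pos W.card with h0 | h0
  · rw [h0]; simp
  · have : (0 : ℝ) < W.card := by exact_mod_cast h0
    rw [← div_eq_mul_inv, div_le_one this]
    exact h1

theorem psh_avg_nonneg (s : ℕ) (Γ : CGeom n₁ n₂) (g' : DGrid (s * n₁) (s * n₂)) (κ : Fin n₁ × Fin n₂) (x : (shG s Γ g').V) : 0 ≤ rhT (shAvg s Γ g' κ) x := by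
  unfold rhT shAvg CGeom.avgRow
  have := Real.pi_pos
  split_ifs <;> positivity

theorem psh_avg_off (s : ℕ) (Γ : CGeom n₁ n₂) (g' : DGrid (s * n₁) (s * n₂)) (κ : Fin n₁ × Fin n₂) (x : (shG s Γ g').V) (hx : x ∉ shSites s Γ g' {κ}) :
    rhT (shAvg s Γ g' κ) x = 0 := by
  have hx' : x ∉ (shGeo s Γ).sites g' (S23.fine s {κ}) := hx
  unfold rhT shAvg CGeom.avgRow
  rw [if_neg hx', mul_zero]

theorem psh_avg_sum (s : ℕ) (hs : 1 ≤ s) (Γ : CGeom n₁ n₂) (g' : DGrid (s * n₁) (s * n₂)) (κ : Fin n₁ × Fin n₂) (hκ : κ ∈ Γ.T) :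
    ∑ x, rhT (shAvg s Γ g' κ) x ≤ 2 * Real.pi := by
  rw [psh_g_avg s hs Γ g' κ hκ]
  have h := psh_rho_sum (D := g'.region (shGeo s Γ).T) (cut := (shGeo s Γ).cutB g') ((shMed s g').cell κ)
  have hp := Real.pi_pos
  have e : ∑ x : (domG (g'.region (shGeo s Γ).T) ((shGeo s Γ).cutB g')).V, rhT (anRho ((shMed s g').cell κ)) x
      = 2 * Real.pi * ∑ x : (domG (g'.region (shGeo s Γ).T) ((shGeo s Γ).cutB g')).V, anRho ((shMed s g').cell κ) x := by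
    rw [Finset.mul_sum]
    rfl
  refine (le_of_eq e).trans ?_
  nlinarith

theorem psh_sum_rho (s : ℕ) (hs : 1 ≤ s) (Γ : CGeom n₁ n₂) (J : ℕ) (lam : ℝ) (hlam : 0 ≤ lam) (g' : DGrid (s * n₁) (s * n₂)) :
    ∑ o, shRho s Γ J lam g' o ^ 2 ≤ ((n₁ * n₂ : ℕ) : ℝ) * lam := by
  have hs0 : (0 : ℝ) < s := by exact_mod_cast hs
  have h1 : ∀ o ∈ Finset.univ, shRho s Γ J lam g' o ^ 2 ≤ lam / (s : ℝ) ^ 2 := by
    intro o _
    unfold shRho
    split_ifs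
    · rw [div_pow, Real.sq_sqrt hlam]
    · rw [zero_pow two_ne_zero]; positivity
  refine (Finset.sum_le_card_nsmul _ _ _ h1).trans (le_of_eq ?_)
  rw [Finset.card_univ, psh_card, nsmul_eq_mul]
  push_cast
  field_simp

/-- the constant `C₁` -/
def shC1 (K N : ℕ) (B : ℝ) : ℝ :=
  16 * B * (9 * anF1 K * (2 * Real.pi) ^ 2)
    + B * (9 * anF1 K * (2 * Real.pi) ^ 2) * (N : ℝ) * (2 * B * (2 * Real.pi) ^ 2 * (8 * (K : ℝ) + 2 * psRm K N) + (K : ℝ) ^ 2)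

theorem psh_q (K N s : ℕ) (hs : 1 ≤ s) (B b lam S : ℝ) (hb : 0 < b) (hbB : b ≤ B) (hlam : 1 ≤ lam) (hS0 : 0 ≤ S) (hS : S ≤ (N : ℝ) * lam) :
    b * shW K lam s * (S * (2 * b * ((2 * Real.pi) ^ 2 * psRf K N s) + (K : ℝ) ^ 2 / lam)) ≤ shC1 K N B * lam ^ 2 / s := by
  have hs0 : (0 : ℝ) < s := by exact_mod_cast hs
  have hs1 : (1 : ℝ) ≤ s := by exact_mod_cast hs
  have hF := anF1_nonneg K
  have hRm : 0 ≤ psRm K N := by unfold psRm; positivity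
  have hB0 : 0 < B := hb.trans_le hbB
  have hl0 : 0 < lam := one_pos.trans_le hlam
  obtain ⟨W0, hW0⟩ : ∃ W0, W0 = 9 * anF1 K * (2 * Real.pi) ^ 2 := ⟨_, rfl⟩
  have hW00 : 0 ≤ W0 := by rw [hW0]; positivity
  obtain ⟨E, hE⟩ : ∃ E, E = 2 * B * (2 * Real.pi) ^ 2 * (8 * (K : ℝ) + 2 * psRm K N) + (K : ℝ) ^ 2 := ⟨_, rfl⟩
  have hE0 : 0 ≤ E := by rw [hE]; positivity
  have hw : shW K lam s = W0 * lam / (s : ℝ) ^ 2 := by unfold shW; rw [hW0]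
  have hRf : psRf K N s ≤ (8 * (K : ℝ) + 2 * psRm K N) * s := by
    unfold psRf
    have hK : (0 : ℝ) ≤ K := Nat.cast_nonneg K
    nlinarith [mul_nonneg hK (sub_nonneg.2 hs1), mul_nonneg hRm (sub_nonneg.2 hs1)]
  have hRf0 : 0 ≤ psRf K N s := by unfold psRf; positivity
  have h1 : 2 * b * ((2 * Real.pi) ^ 2 * psRf K N s) + (K : ℝ) ^ 2 / lam ≤ E * s := by
    have a1 : 2 * b * ((2 * Real.pi) ^ 2 * psRf K N s) ≤ 2 * B * ((2 * Real.pi) ^ 2 * ((8 * (K : ℝ) + 2 * psRm K N) * s)) := by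
      apply mul_le_mul (by linarith) (mul_le_mul_of_nonneg_left hRf (by positivity)) (by positivity) (by positivity)
    have a2 : (K : ℝ) ^ 2 / lam ≤ (K : ℝ) ^ 2 * s := by
      calc (K : ℝ) ^ 2 / lam ≤ (K : ℝ) ^ 2 / 1 := div_le_div_of_nonneg_left (by positivity) one_pos hlam
        _ = (K : ℝ) ^ 2 * 1 := by ring
        _ ≤ (K : ℝ) ^ 2 * s := mul_le_mul_of_nonneg_left hs1 (by positivity)
    rw [hE]
    nlinarith
  have h10 : 0 ≤ 2 * b * ((2 * Real.pi) ^ 2 * psRf K N s) + (K : ℝ) ^ 2 / lam := by positivity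
  have h2 : S * (2 * b * ((2 * Real.pi) ^ 2 * psRf K N s) + (K : ℝ) ^ 2 / lam) ≤ ((N : ℝ) * lam) * (E * s) :=
    mul_le_mul hS h1 h10 (by positivity)
  have h3 : b * shW K lam s ≤ B * (W0 * lam / (s : ℝ) ^ 2) := by
    rw [hw]
    exact mul_le_mul_of_nonneg_right hbB (by positivity)
  have h4 := mul_le_mul h3 h2 (by positivity) (by positivity)
  refine h4.trans ?_
  have e : B * (W0 * lam / (s : ℝ) ^ 2) * ((N : ℝ) * lam * (E * s)) = (B * W0 * N * E) * lam ^ 2 / s := by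
    field_simp
  rw [e]
  apply div_le_div_of_nonneg_right _ hs0.le
  apply mul_le_mul_of_nonneg_right _ (by positivity)
  unfold shC1
  rw [← hW0, ← hE]
  have : 0 ≤ 16 * B * W0 := by positivity
  linarith

theorem psh_bw (K N s : ℕ) (hs : 1 ≤ s) (B b lam : ℝ) (hb : 0 < b) (hbB : b ≤ B) (hlam : 0 ≤ lam) (hC : shC1 K N B * lam ≤ (s : ℝ) ^ 2) :
    16 * b * shW K lam s ≤ 1 := by
  have hs0 : (0 : ℝ) < s := by exact_mod_cast hs
  have hF := anF1_nonneg K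
  have hRm : 0 ≤ psRm K N := by unfold psRm; positivity
  have hB0 : 0 < B := hb.trans_le hbB
  have h1 : 16 * B * (9 * anF1 K * (2 * Real.pi) ^ 2) ≤ shC1 K N B := by
    unfold shC1
    have : 0 ≤ B * (9 * anF1 K * (2 * Real.pi) ^ 2) * (N : ℝ) * (2 * B * (2 * Real.pi) ^ 2 * (8 * (K : ℝ) + 2 * psRm K N) + (K : ℝ) ^ 2) := by positivity
    linarith
  have e : 16 * b * shW K lam s = (16 * b * (9 * anF1 K * (2 * Real.pi) ^ 2)) * lam / (s : ℝ) ^ 2 := by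
    unfold shW
    ring
  rw [e, div_le_one (by positivity)]
  refine le_trans ?_ hC
  apply mul_le_mul_of_nonneg_right _ hlam
  refine le_trans ?_ h1
  apply mul_le_mul_of_nonneg_right _ (by positivity)
  linarith

theorem psh_card_le (A : Finset (Fin n₁ × Fin n₂)) : (Fintype.card {κ // κ ∈ A} : ℝ) ≤ ((n₁ * n₂ : ℕ) : ℝ) := by
  rw [Fintype.card_coe]
  have h := Finset.card_le_univ A
  rw [Fintype.card_prod, Fintype.card_fin, Fintype.card_fin] at h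
  exact_mod_cast h

/-- (A4) **THE FINITE EXIT** = `pn_rch_X2` for the band law with all deterministic hypotheses and all crude moments discharged.   `q = C₁ lam²/s ≥ b w E|y(h)|²`, `N = n₁ n₂`, `βd` = a bound of the four bad terms.
Inputs left: the gap `γ` (characteristic coefficients of the `B`- and `I`-cells) and the cross covariance `χ₀`. -/
theorem psh_fin (K n₁ n₂ : ℕ) (hK : 1 ≤ K) (b₁ : ℝ) : ∃ C₁ c2 v2 : ℝ, 0 ≤ C₁ ∧ 0 < c2 ∧ 0 ≤ v2 ∧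
    ∀ (Γ : CGeom n₁ n₂) (J : ℕ), ShConf Γ J → ∀ (lam : ℝ) (s : ℕ), 1 ≤ lam → 1 ≤ s → C₁ * lam ≤ (s : ℝ) ^ 2 → ∀ βd : ℝ, 0 < βd →
    ∃ ν₀ : ℕ, ∀ (g' : DGrid (s * n₁) (s * n₂)) (ν : ℕ), ν₀ ≤ ν → g'.SideGe ν → g'.SideLe (K * ν) → ∀ b : ℝ, 0 < b → b ≤ b₁ →
    ∀ γ χ₀ η s₁ s₂ : ℝ, 0 < γ → 0 ≤ χ₀ → 0 < η → 0 < s₁ → 0 < s₂ →
    (∀ κ ∈ shCB Γ J, ∀ X : ((shLaw s Γ J lam g').sys b).L →+ ℝ, (shLaw s Γ J lam g').Lift b (shAvg s Γ g' κ) X →
      γ ≤ Real.exp (-(b * shR K)) - ((shLaw s Γ J lam g').sys b).phi X) →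
    (∀ κ ∈ shCI Γ, ∀ X : ((shLaw s Γ J lam g').sys b).L →+ ℝ, (shLaw s Γ J lam g').Lift b (shAvg s Γ g' κ) X →
      γ ≤ Real.exp (-(b * shR K)) - ((shLaw s Γ J lam g').sys b).phi X) →
    (∀ κ ∈ shCB Γ J, ∀ κ' ∈ shCI Γ, ∀ X X' : ((shLaw s Γ J lam g').sys b).L →+ ℝ, (shLaw s Γ J lam g').Lift b (shAvg s Γ g' κ) X →
      (shLaw s Γ J lam g').Lift b (shAvg s Γ g' κ') X' → ((shLaw s Γ J lam g').sys b).Cv 0 0 X X' ≤ χ₀) →
    shBad K s Γ J lam g' b η ≤ βd + 2 * (C₁ * lam ^ 2 / s) / η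
      + γ⁻¹ ^ 2 * (((n₁ * n₂ : ℕ) : ℝ) * (γ * (s₂ + 8 * (C₁ * lam ^ 2 / s) / s₂ + 2 * βd)
        + ((n₁ * n₂ : ℕ) : ℝ) * (χ₀ + 2 * s₁ * (2 * v2 + 32 * c2 * (C₁ * lam ^ 2 / s) + (c2 + 2) * βd)
          + 4 * (c2 + 1) * (2 * (C₁ * lam ^ 2 / s) + βd) / s₁ + 3 * βd))) := by
  obtain ⟨B, hBd⟩ : ∃ B, B = max b₁ 1 := ⟨_, rfl⟩
  have hB0 : 0 < B := by rw [hBd]; exact lt_max_of_lt_right one_pos
  have hRm : 0 ≤ psRm K (n₁ * n₂) := by unfold psRm; positivity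
  have hK1 : (1 : ℝ) ≤ K := by exact_mod_cast hK
  have hK0 : (0 : ℝ) < K := one_pos.trans_le hK1
  have hF : 0 < anF1 K := by unfold anF1; positivity
  refine ⟨shC1 K (n₁ * n₂) B, B * ((2 * Real.pi) ^ 2 * psRm K (n₁ * n₂)) + (K : ℝ) ^ 2 / 2 + 1,
    2 * B * ((2 * Real.pi) ^ 2 * psRm K (n₁ * n₂)) + (K : ℝ) ^ 2, ?_, by positivity, by positivity, ?_⟩
  · unfold shC1; positivity
  intro Γ J hconf lam s hlam hs hC βd hβ
  have hl0 : 0 < lam := one_pos.trans_le hlam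
  have hr := psh_r_pos s hs lam hl0
  obtain ⟨τ, ϑ, C, hτ, hϑ, hC0, hpack⟩ := psa_pack K (n₁ * n₂) s ((s * n₁) * (s * n₂)) (Real.sqrt lam / s) B hr hB0
  refine ⟨max 1 ⌈C / βd⌉₊, ?_⟩
  intro g' ν hν0 h1 h2 b hb hb1 γ χ₀ η s₁ s₂ hγ hχ0 hη hs₁ hs₂ hγB hγI hχ
  have hν : 1 ≤ ν := (le_max_left _ _).trans hν0
  have hνr : (0 : ℝ) < ν := by exact_mod_cast hν
  have hs0 : (0 : ℝ) < s := by exact_mod_cast hs
  have hCν : C / ν ≤ βd := by
    have h3 : C / βd ≤ ν := (Nat.le_ceil _).trans (by exact_mod_cast (le_max_right _ _).trans hν0)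
    rw [div_le_iff₀ hνr]
    rw [div_le_iff₀ hβ] at h3
    linarith
  have hCν0 : 0 ≤ C / ν := by positivity
  have hbB : b ≤ B := hb1.trans (hBd ▸ le_max_left _ _)
  have h2c := psh_two K s hs Γ g' ν hν h1 h2
  obtain ⟨p1, p2, p3, p4, p5, p6, p7⟩ := hpack _ _ n₁ n₂ (shFree Γ) (shMed s g') (shGeo s Γ) g' ν rfl h2c (shLaw s Γ J lam g')
    (shKp s Γ J lam g') (shRho s Γ J lam g') (psh_rows s Γ J lam g') (psh_rho_le s Γ J lam g') (psh_full s Γ J hconf lam g')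
    (psh_card s Γ J lam g').le ∅ b hb hbB
  rw [psh_t_eq] at p1 p4
  rw [psh_w_eq K s lam hl0.le] at p3
  rw [psh_sr_eq s hs lam hl0.le] at p2
  have hc2le : psC2 K (n₁ * n₂) s (Real.sqrt lam / s) B ≤ B * ((2 * Real.pi) ^ 2 * psRm K (n₁ * n₂)) + (K : ℝ) ^ 2 / 2 + 1 := by
    unfold psC2
    rw [psh_sr_eq s hs lam hl0.le]
    have : (K : ℝ) ^ 2 / lam ≤ (K : ℝ) ^ 2 := div_le_self (by positivity) hlam
    linarith
  have hc2pos : 0 < psC2 K (n₁ * n₂) s (Real.sqrt lam / s) B := by unfold psC2; positivity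
  have hΛ := psh_law_lam s Γ J lam g'
  have hc := psh_ctx s hs Γ J hconf lam hl0 g' b hb
  have hP := pn_cl_ctx_proper _ ∅ b hc hΛ
  have hOk := pn_cl_ctx_ok _ ∅ b hc hΛ
  obtain ⟨hanc, hAA'⟩ := psh_anc K s hs Γ J lam hl0.le g' ν hν h1 h2
  have hw : 0 < shW K lam s := by unfold shW; positivity
  have hbw := psh_bw K (n₁ * n₂) s hs B b lam hb hbB hl0.le hC
  have hTB : ∀ j : {κ // κ ∈ shCB Γ J}, j.1 ∈ Γ.T := fun j => ((psh_mem_cb Γ J j.1).1 j.2).1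
  have hTI : ∀ i : {κ // κ ∈ shCI Γ}, i.1 ∈ Γ.T := fun i => ((psh_mem_ci Γ i.1).1 i.2).1
  have hS0 : 0 ≤ ∑ o, shRho s Γ J lam g' o ^ 2 := Finset.sum_nonneg fun _ _ => sq_nonneg _
  have hRf0 : 0 ≤ psRf K (n₁ * n₂) s := by unfold psRf; positivity
  have hth := psa_th (shLaw s Γ J lam g') (shKp s Γ J lam g') (shRho s Γ J lam g') (psh_rows s Γ J lam g') ∅ b hc
    ((2 * Real.pi) ^ 2 * psRf K (n₁ * n₂) s) (2 * Real.pi * psTf (n₁ * n₂) s ν) ((K : ℝ) ^ 2 / lam) (by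
      intro o ho
      have h := psa_repF h2c (shLaw s Γ J lam g') (shKp s Γ J lam g') (shRho s Γ J lam g') (psh_rows s Γ J lam g')
        (Real.sqrt lam / s) hr (psh_full s Γ J hconf lam g') (shKp s Γ J lam g' o)
        ((psh_mem_fine s _ _).2 (psh_kb_sub Γ J (psh_rho_ne s Γ J lam g' o ho))) ∅
      rw [psh_sr_eq s hs lam hl0.le] at h
      exact h)
  have main := pn_rch_X2 (ιB := {κ // κ ∈ shCB Γ J}) (ιI := {κ // κ ∈ shCI Γ}) (shLaw s Γ J lam g') ∅ hΛ hP b hc hOk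
    (shSites s Γ g' Γ.pin) (shSites s Γ g' (shTg Γ J)) (shSites s Γ g' (shFarC Γ J))
    (fun j => shSites s Γ g' {j.1}) (fun i => shSites s Γ g' {i.1}) (fun j => rhT (shAvg s Γ g' j.1)) (fun i => rhT (shAvg s Γ g' i.1))
    (fun j x => psh_avg_nonneg s Γ g' j.1 x) (fun j x hx => psh_avg_off s Γ g' j.1 x hx) (fun i x => psh_avg_nonneg s Γ g' i.1 x)
    hAA' (fun j => psh_sites_mono s hs Γ g' fun κ hκ _ => by rw [Finset.mem_singleton.1 hκ]; exact psh_g_cb_far Γ J j.2)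
    (fun U hU hT => psh_g_cross s hs Γ J g' U hU hT)
    (fun j x hx U hU hne => psh_g_cross2 s hs Γ g' U hne)
    (shW K lam s) (shT1 lam s ν) (τ * ν) hw hbw hanc (by positivity) p1
    (shR K) (2 * Real.pi * (42 / ((s * ν : ℕ) : ℝ)))
    (fun j U hU hne => psh_g_touch K s hs Γ g' ν hν h1 h2 _ U hU j.1 (hTB j) (by
      intro x hx κ' hκ'
      obtain ⟨κ, hκ, hxκ⟩ := (psh_g_sites s hs Γ g' _ x).1 hx
      rw [pn_an_cell_unique _ hκ' hxκ]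
      exact fun hn => psh_g_pin_cb Γ J hκ j.2 (psh_nb_symm hn)) hne)
    (fun j x hx i U hU hne => psh_g_touch K s hs Γ g' ν hν h1 h2 _ U hU i.1 (hTI i) (by
      intro y hy κ' hκ'
      rw [Set.mem_singleton_iff.1 hy] at hκ'
      rw [pn_an_cell_unique _ hκ' ((psh_mem_single s hs Γ g' j.1 x).1 hx)]
      exact psh_g_pin_cb Γ J ((psh_mem_ci Γ i.1).1 i.2).2 j.2) hne)
    γ hγ (fun j => hγB j.1 j.2 _ (pn_br_lift_lf _ hP b _)) (fun i => hγI i.1 i.2 _ (pn_br_lift_lf _ hP b _))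
    ((2 * Real.pi) ^ 2 * psRm K (n₁ * n₂)) (2 * Real.pi * psTm (n₁ * n₂) s ν) ((K : ℝ) ^ 2 / lam) (psC2 K (n₁ * n₂) s (Real.sqrt lam / s) B) (ϑ * ν)
    (fun j U _ => psh_repQ K s hs Γ J hconf lam hl0 g' ν hν h1 h2 j.1 (hTB j) _)
    (fun i U _ => psh_repQ K s hs Γ J hconf lam hl0 g' ν hν h1 h2 i.1 (hTI i) _)
    (by unfold psTm; positivity) hc2pos p2 (by positivity) p3 p4
    ((∑ o, shRho s Γ J lam g' o ^ 2) * (2 * b * ((2 * Real.pi) ^ 2 * psRf K (n₁ * n₂) s) + (K : ℝ) ^ 2 / lam))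
    (2 * B * ((2 * Real.pi) ^ 2 * psRm K (n₁ * n₂)) + (K : ℝ) ^ 2) χ₀ (C / ν) (C / ν) (C / ν) (C / ν)
    (by positivity) (by positivity) hχ0 hCν0 hCν0 hCν0 hCν0 hth
    (fun j => by
      have h := psa_v2 (shLaw s Γ J lam g') ∅ hΛ hP b hc _ _ _ _ (psh_repQ K s hs Γ J hconf lam hl0 g' ν hν h1 h2 j.1 (hTB j) ∅)
      refine h.trans ?_
      have a1 : (K : ℝ) ^ 2 / lam ≤ (K : ℝ) ^ 2 := div_le_self (by positivity) hlam
      have a2 : 2 * b * ((2 * Real.pi) ^ 2 * psRm K (n₁ * n₂)) ≤ 2 * B * ((2 * Real.pi) ^ 2 * psRm K (n₁ * n₂)) :=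
        mul_le_mul_of_nonneg_right (by linarith) (by positivity)
      linarith)
    (fun j i => hχ j.1 j.2 i.1 i.2 _ _ (pn_br_lift_lf _ hP b _) (pn_br_lift_lf _ hP b _))
    p5 p6
    (fun j => by
      have h := p7 (rhT (shAvg s Γ g' j.1)) (rhT (shAvg s Γ g' j.1)) (psh_avg_nonneg s Γ g' j.1) (psh_avg_nonneg s Γ g' j.1)
        (psh_avg_sum s hs Γ g' j.1 (hTB j)) (psh_avg_sum s hs Γ g' j.1 (hTB j))
      simp only [sq]
      exact h)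
    (fun j i => p7 (rhT (shAvg s Γ g' j.1)) (rhT (shAvg s Γ g' i.1)) (psh_avg_nonneg s Γ g' j.1) (psh_avg_nonneg s Γ g' i.1)
        (psh_avg_sum s hs Γ g' j.1 (hTB j)) (psh_avg_sum s hs Γ g' i.1 (hTI i)))
    η s₁ s₂ hη hs₁ hs₂
  unfold shBad
  refine main.trans ?_
  exact psh_num _ _ _ _ βd b (shW K lam s) _ (shC1 K (n₁ * n₂) B * lam ^ 2 / s) γ s₂ s₁ χ₀ _ _ _ _ _ _ η hCν0 hCν0 hCν0 hCν0 hCν hCν hCν hCν
    (by positivity) (by linarith) (by positivity)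
    (psh_q K (n₁ * n₂) s hs B b lam _ hb hbB hlam hS0 (psh_sum_rho s hs Γ J lam hl0.le g'))
    hγ hs₂ hs₁ hη hχ0 (by positivity) hc2pos.le hc2le (Nat.cast_nonneg _) (psh_card_le _) (Nat.cast_nonneg _) (psh_card_le _)

/-- Stores the on-demand equation lemmas of the definitions above in THIS module (rule 6 hygiene). -/
theorem psh_fin_forced : True := by
  have := @shKp.eq_1
  have := @shRho.eq_1
  have := @shC1.eq_1
  trivial

end

end Claimed.Agent.R285.Pins
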