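import Claimed.Agent.R285.Pins.ShiftDefs
import Claimed.Agent.R285.Sec.Grid

/-!
# ROW 285, PINS / CORE-LIM, PART (A): THE CONCRETE GEOMETRY of `Pins/ShiftDefs.lean`      (helper85; architect of part (A): helper164, contract helper249)

All DETERMINISTIC hypotheses of `pn_rch_X2` / `pn_rch_X1` / `pn_rch_dPin` for the band law `shLaw s Γ J lam g'`, and the concrete instance of the two charts used by `Pins/ShiftAnc.lean` (helper74).
* s1 medium grid: `psg_refines`, `psg_med_ge`, `psg_med_le`;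
* s2 charts: `psg_chart_fine`, `psg_chart_med` (both of `D = g'.region (shGeo s Γ).T`, `cut = (shGeo s Γ).cutB g'`, i.e. of `shG s Γ g'`);
* s3 vocabulary: `psg_sites` (sites of medium cells), `psg_avg` (`shAvg = anRho (medium cell)`), `psg_row` (rows of the band law), `psg_law_lam`;
* s4 layers: `psg_ball_mono`, `psg_ball_step`, crossing `psg_cross`;
* s5 exits in the form of `pn_rch_X2`: `psg_hAA'`, `psg_hBA'`, `psg_hX1`, `psg_hX2`, `psg_hvB`, `psg_hvI`, `psg_hfB0`, `psg_hfBs`, `psg_far` (far hypothesis of (AN2) in the FINE chart).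
-/

set_option autoImplicit false

namespace Claimed.Agent.R285.Pins

open scoped Classical ENNReal

noncomputable section

variable {n₁ n₂ : ℕ}

/-! ## 1. The medium grid -/

theorem psg_med_x₁ (s : ℕ) (hs : 1 ≤ s) (g' : DGrid (s * n₁) (s * n₂)) (i : Fin (n₁ + 1)) (i' : Fin (s * n₁ + 1))
    (h : i'.1 = s * i.1) : (shMed s g').x₁ i = g'.x₁ i' := by
  unfold shMed
  rw [dif_pos (by omega : 0 < s)]
  show g'.x₁ ⟨s * i.1, _⟩ = g'.x₁ i'
  congr 1
  exact Fin.ext h.symm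

theorem psg_med_x₂ (s : ℕ) (hs : 1 ≤ s) (g' : DGrid (s * n₁) (s * n₂)) (j : Fin (n₂ + 1)) (j' : Fin (s * n₂ + 1))
    (h : j'.1 = s * j.1) : (shMed s g').x₂ j = g'.x₂ j' := by
  unfold shMed
  rw [dif_pos (by omega : 0 < s)]
  show g'.x₂ ⟨s * j.1, _⟩ = g'.x₂ j'
  congr 1
  exact Fin.ext h.symm

/-- the fine grid refines the medium grid -/
theorem psg_refines (s : ℕ) (hs : 1 ≤ s) (g' : DGrid (s * n₁) (s * n₂)) : S23.Refines s g' (shMed s g') :=
  ⟨fun i i' h => (psg_med_x₁ s hs g' i i' h).symm, fun j j' h => (psg_med_x₂ s hs g' j j' h).symm⟩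

theorem psg_1d_ge {N : ℕ} (y : Fin (N + 1) → ℤ) (ν : ℤ) (h : ∀ i : Fin N, ν ≤ y i.succ - y i.castSucc) (a : ℕ) :
    ∀ (r : ℕ) (h1 : a + r < N + 1), (r : ℤ) * ν ≤ y ⟨a + r, h1⟩ - y ⟨a, by omega⟩ := by
  intro r
  induction r with
  | zero => intro h1; simp
  | succ r ih =>
    intro h1
    have h2 := ih (by omega)
    have h3 := h ⟨a + r, by omega⟩
    have e1 : (⟨a + r, by omega⟩ : Fin N).succ = ⟨a + (r + 1), h1⟩ := rfl
    have e2 : (⟨a + r, by omega⟩ : Fin N).castSucc = ⟨a + r, by omega⟩ := rfl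
    rw [e1, e2] at h3
    push_cast
    linarith

theorem psg_1d_le {N : ℕ} (y : Fin (N + 1) → ℤ) (ν : ℤ) (h : ∀ i : Fin N, y i.succ - y i.castSucc ≤ ν) (a : ℕ) :
    ∀ (r : ℕ) (h1 : a + r < N + 1), y ⟨a + r, h1⟩ - y ⟨a, by omega⟩ ≤ (r : ℤ) * ν := by
  intro r
  induction r with
  | zero => intro h1; simp
  | succ r ih =>
    intro h1
    have h2 := ih (by omega)
    have h3 := h ⟨a + r, by omega⟩
    have e1 : (⟨a + r, by omega⟩ : Fin N).succ = ⟨a + (r + 1), h1⟩ := rfl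
    have e2 : (⟨a + r, by omega⟩ : Fin N).castSucc = ⟨a + r, by omega⟩ := rfl
    rw [e1, e2] at h3
    push_cast
    linarith

theorem psg_idx {s n : ℕ} (i : Fin n) : s * i.1 + s < s * n + 1 := by
  have := Nat.mul_le_mul_left s (Nat.succ_le_of_lt i.2)
  rw [Nat.mul_succ] at this
  omega

/-- the sides of the medium cells: lower bound -/
theorem psg_med_ge (s : ℕ) (hs : 1 ≤ s) (g' : DGrid (s * n₁) (s * n₂)) (ν : ℕ) (h1 : g'.SideGe ν) :
    (shMed s g').SideGe (s * ν) := by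
  constructor
  · intro i
    rw [psg_med_x₁ s hs g' i.succ ⟨s * i.1 + s, psg_idx i⟩ (by simp [Nat.mul_succ]),
      psg_med_x₁ s hs g' i.castSucc ⟨s * i.1, by have := psg_idx (s := s) i; omega⟩ rfl]
    have := psg_1d_ge g'.x₁ ν h1.1 (s * i.1) s (psg_idx i)
    push_cast
    exact this
  · intro j
    rw [psg_med_x₂ s hs g' j.succ ⟨s * j.1 + s, psg_idx j⟩ (by simp [Nat.mul_succ]),
      psg_med_x₂ s hs g' j.castSucc ⟨s * j.1, by have := psg_idx (s := s) j; omega⟩ rfl]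
    have := psg_1d_ge g'.x₂ ν h1.2 (s * j.1) s (psg_idx j)
    push_cast
    exact this

/-- the sides of the medium cells: upper bound -/
theorem psg_med_le (s : ℕ) (hs : 1 ≤ s) (g' : DGrid (s * n₁) (s * n₂)) (K ν : ℕ) (h2 : g'.SideLe (K * ν)) :
    (shMed s g').SideLe (K * (s * ν)) := by
  constructor
  · intro i
    rw [psg_med_x₁ s hs g' i.succ ⟨s * i.1 + s, psg_idx i⟩ (by simp [Nat.mul_succ]),
      psg_med_x₁ s hs g' i.castSucc ⟨s * i.1, by have := psg_idx (s := s) i; omega⟩ rfl]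
    have := psg_1d_le g'.x₁ ((K * ν : ℕ) : ℤ) h2.1 (s * i.1) s (psg_idx i)
    refine this.trans (le_of_eq ?_)
    push_cast
    ring
  · intro j
    rw [psg_med_x₂ s hs g' j.succ ⟨s * j.1 + s, psg_idx j⟩ (by simp [Nat.mul_succ]),
      psg_med_x₂ s hs g' j.castSucc ⟨s * j.1, by have := psg_idx (s := s) j; omega⟩ rfl]
    have := psg_1d_le g'.x₂ ((K * ν : ℕ) : ℤ) h2.2 (s * j.1) s (psg_idx j)
    refine this.trans (le_of_eq ?_)
    push_cast
    ring

/-! ## 2. The two charts of `shG s Γ g'` -/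

/-- the sites of THE graph -/
abbrev psgD (s : ℕ) (Γ : CGeom n₁ n₂) (g' : DGrid (s * n₁) (s * n₂)) : Finset (ℤ × ℤ) := g'.region (shGeo s Γ).T

/-- the removed bonds of THE graph -/
abbrev psgC (s : ℕ) (Γ : CGeom n₁ n₂) (g' : DGrid (s * n₁) (s * n₂)) : Set Bond := (shGeo s Γ).cutB g'

theorem psg_graph (s : ℕ) (Γ : CGeom n₁ n₂) (g' : DGrid (s * n₁) (s * n₂)) : shG s Γ g' = domG (psgD s Γ g') (psgC s Γ g') := rfl

/-- the fine chart -/
theorem psg_chart_fine (s : ℕ) (Γ : CGeom n₁ n₂) (g' : DGrid (s * n₁) (s * n₂)) :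
    AnChart (psgD s Γ g') (psgC s Γ g') (shGeo s Γ) g' := anChart_self _ _

/-- the medium chart -/
theorem psg_chart_med (s : ℕ) (hs : 1 ≤ s) (Γ : CGeom n₁ n₂) (g' : DGrid (s * n₁) (s * n₂)) :
    AnChart (psgD s Γ g') (psgC s Γ g') (shFree Γ) (shMed s g') := by
  have hr := psg_refines s hs g'
  refine ⟨?_, fun e _ _ => ?_⟩
  · show g'.region (S23.fine s Γ.T) = (shMed s g').region Γ.T
    exact Sec.region_fine hr Γ.T
  · show e ∈ S23.crossB g' (S23.fineF s Γ.cutF) ↔ e ∈ S23.crossB (shMed s g') Γ.cutF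
    rw [Sec.crossB_fineF hr]

theorem psg_free_adj (Γ : CGeom n₁ n₂) (κ κ' : Fin n₁ × Fin n₂) : (shFree Γ).Adj κ κ' ↔ Γ.Adj κ κ' := Iff.rfl

theorem psg_free_conn (Γ : CGeom n₁ n₂) (κ κ' : Fin n₁ × Fin n₂) : (shFree Γ).Conn κ κ' ↔ Γ.Conn κ κ' := Iff.rfl

theorem psg_fine_T (s : ℕ) (Γ : CGeom n₁ n₂) (κ : Fin (s * n₁) × Fin (s * n₂)) : κ ∈ (shGeo s Γ).T ↔ S23.coarse s κ ∈ Γ.T := by
  show κ ∈ S23.fine s Γ.T ↔ _
  simp [S23.fine]

/-! ## 3. Vocabulary: sites, averages, rows -/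

/-- position of a vertex of THE graph -/
abbrev psgPos {s : ℕ} {Γ : CGeom n₁ n₂} {g' : DGrid (s * n₁) (s * n₂)} (x : (shG s Γ g').V) : ℤ × ℤ :=
  domPos (D := psgD s Γ g') (cut := psgC s Γ g') x

theorem psg_pos_mem {s : ℕ} {Γ : CGeom n₁ n₂} {g' : DGrid (s * n₁) (s * n₂)} (x : (shG s Γ g').V) : psgPos x ∈ psgD s Γ g' :=
  Subtype.property (p := fun v => v ∈ psgD s Γ g') x

/-- the sites of a union of medium cells -/
theorem psg_sites (s : ℕ) (hs : 1 ≤ s) (Γ : CGeom n₁ n₂) (g' : DGrid (s * n₁) (s * n₂)) (A : Finset (Fin n₁ × Fin n₂))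
    (x : (shG s Γ g').V) : x ∈ shSites s Γ g' A ↔ ∃ κ ∈ A, psgPos x ∈ (shMed s g').cell κ := by
  show psgPos x ∈ (↑(g'.region (S23.fine s A)) : Set (ℤ × ℤ)) ↔ _
  rw [Sec.region_fine (psg_refines s hs g') A, Finset.mem_coe, DGrid.region, Finset.mem_biUnion]

/-- every vertex lies in a medium cell of `Γ.T` -/
theorem psg_cell_ex (s : ℕ) (hs : 1 ≤ s) (Γ : CGeom n₁ n₂) (g' : DGrid (s * n₁) (s * n₂)) (x : (shG s Γ g').V) :
    ∃ κ ∈ Γ.T, psgPos x ∈ (shMed s g').cell κ := by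
  have h := psg_pos_mem x
  rw [(psg_chart_med s hs Γ g').dom, DGrid.region, Finset.mem_biUnion] at h
  exact h

/-- the average over ONE cell of any geometry is `anRho` of the cell -/
theorem psg_avg_cell {m₁ m₂ : ℕ} (Γ : CGeom m₁ m₂) (g : DGrid m₁ m₂) (κ : Fin m₁ × Fin m₂) :
    Γ.avgRow g {κ} = anRho (D := g.region Γ.T) (cut := Γ.cutB g) (g.cell κ) := by
  funext x
  have hreg : g.region {κ} = g.cell κ := by simp [DGrid.region]
  have hiff : x ∈ Γ.sites g {κ} ↔ domPos (D := g.region Γ.T) (cut := Γ.cutB g) x ∈ g.cell κ := by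
    show domPos (D := g.region Γ.T) (cut := Γ.cutB g) x ∈ (↑(g.region {κ}) : Set (ℤ × ℤ)) ↔ _
    rw [hreg, Finset.mem_coe]
  unfold CGeom.avgRow anRho
  by_cases hx : domPos (D := g.region Γ.T) (cut := Γ.cutB g) x ∈ g.cell κ
  · rw [if_pos (hiff.2 hx), if_pos hx]
    have hT : κ ∈ Γ.T := pn_ag_mem_T (anChart_self Γ g) (Subtype.property (p := fun v => v ∈ g.region Γ.T) x) hx
    rw [Finset.singleton_inter_of_mem hT, hreg]
  · rw [if_neg (fun h => hx (hiff.1 h)), if_neg hx]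

/-- the average over a medium cell is `anRho` of the medium cell -/
theorem psg_avg (s : ℕ) (hs : 1 ≤ s) (Γ : CGeom n₁ n₂) (g' : DGrid (s * n₁) (s * n₂)) (κ : Fin n₁ × Fin n₂) :
    shAvg s Γ g' κ = anRho (D := psgD s Γ g') (cut := psgC s Γ g') ((shMed s g').cell κ) := by
  funext x
  have hr := psg_refines s hs g'
  have hreg : (shMed s g').region {κ} = (shMed s g').cell κ := by simp [DGrid.region]
  have hiff : x ∈ (shGeo s Γ).sites g' (S23.fine s {κ}) ↔ psgPos x ∈ (shMed s g').cell κ := by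
    exact (psg_sites s hs Γ g' {κ} x).trans (by simp)
  unfold shAvg CGeom.avgRow anRho
  by_cases hx : psgPos x ∈ (shMed s g').cell κ
  · rw [if_pos (hiff.2 hx), if_pos hx]
    have hT : κ ∈ Γ.T := pn_ag_mem_T (psg_chart_med s hs Γ g') (psg_pos_mem x) hx
    have e : S23.fine s {κ} ∩ (shGeo s Γ).T = S23.fine s {κ} := by
      show S23.fine s {κ} ∩ S23.fine s Γ.T = _
      rw [← Sec.fine_inter, Finset.singleton_inter_of_mem hT]
    rw [e, Sec.region_fine hr, hreg]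
  · rw [if_neg (fun h => hx (hiff.1 h)), if_neg hx]

/-- the coefficient of the row `o` of the band law -/
def psgRho (s : ℕ) (Γ : CGeom n₁ n₂) (J : ℕ) (lam : ℝ) (o : Fin ((s * n₁) * (s * n₂))) : ℝ :=
  if S23.coarse s (finProdFinEquiv.symm o) ∈ shKb Γ J then Real.sqrt lam / s else 0

/-- **the rows of the band law** -/
theorem psg_row (s : ℕ) (Γ : CGeom n₁ n₂) (J : ℕ) (lam : ℝ) (g' : DGrid (s * n₁) (s * n₂)) (o : Fin ((s * n₁) * (s * n₂)))
    (x : (shG s Γ g').V) :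
    (shLaw s Γ J lam g').B o x
      = psgRho s Γ J lam o * anRho (D := psgD s Γ g') (cut := psgC s Γ g') (g'.cell (finProdFinEquiv.symm o)) x := by
  show ∑ κ, shRow s (shKb Γ J) lam o κ * (shGeo s Γ).avgRow g' {κ} x = _
  rw [Finset.sum_eq_single (finProdFinEquiv.symm o)]
  · rw [psg_avg_cell]
    congr 1
    unfold shRow psgRho
    simp
  · intro κ _ hκ
    unfold shRow
    rw [if_neg (fun h => hκ h.1), zero_mul]
  · intro h
    exact absurd (Finset.mem_univ _) h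

theorem psgRho_nonneg (s : ℕ) (Γ : CGeom n₁ n₂) (J : ℕ) (lam : ℝ) (o : Fin ((s * n₁) * (s * n₂))) : 0 ≤ psgRho s Γ J lam o := by
  unfold psgRho
  split_ifs
  · positivity
  · exact le_rfl

theorem psgRho_le (s : ℕ) (Γ : CGeom n₁ n₂) (J : ℕ) (lam : ℝ) (o : Fin ((s * n₁) * (s * n₂))) :
    psgRho s Γ J lam o ≤ Real.sqrt lam / s := by
  unfold psgRho
  split_ifs
  · exact le_rfl
  · positivity

/-- (A0) the band law has no pins -/
theorem psg_law_lam (s : ℕ) (Γ : CGeom n₁ n₂) (J : ℕ) (lam : ℝ) (g' : DGrid (s * n₁) (s * n₂)) :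
    (shLaw s Γ J lam g').Λ = HLaw.pinned ∅ := by
  show HLaw.pinned ((shGeo s Γ).sites g' (shGeo s Γ).pin) = HLaw.pinned ∅
  congr 1
  have e : (shGeo s Γ).pin = ∅ := by
    show S23.fine s (∅ : Finset (Fin n₁ × Fin n₂)) = ∅
    simp [S23.fine]
  rw [e]
  refine Set.eq_empty_iff_forall_notMem.2 fun x hx => ?_
  have hx' : psgPos x ∈ g'.region ∅ := hx
  simp [DGrid.region] at hx'

/-! ## 4. Layers -/

theorem psg_ball_mem (p : Finset (Fin n₁ × Fin n₂)) (j : ℕ) (κ : Fin n₁ × Fin n₂) : κ ∈ shBall p j ↔ ∃ κ' ∈ p, shLe j κ κ' := by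
  simp [shBall]

theorem psg_ball_mono (p : Finset (Fin n₁ × Fin n₂)) {j j' : ℕ} (h : j ≤ j') : shBall p j ⊆ shBall p j' := by
  intro κ hκ
  rw [psg_ball_mem] at hκ ⊢
  obtain ⟨κ', h1, h2⟩ := hκ
  refine ⟨κ', h1, ?_⟩
  unfold shLe at *
  omega

theorem psg_ball_self (p : Finset (Fin n₁ × Fin n₂)) {κ : Fin n₁ × Fin n₂} (h : κ ∈ p) (j : ℕ) : κ ∈ shBall p j := by
  rw [psg_ball_mem]
  refine ⟨κ, h, ?_⟩
  unfold shLe
  omega

theorem psg_nb_mem (d κ : Fin n₁ × Fin n₂) :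
    κ ∈ anNb d ↔ κ.1.1 ≤ d.1.1 + 1 ∧ d.1.1 ≤ κ.1.1 + 1 ∧ κ.2.1 ≤ d.2.1 + 1 ∧ d.2.1 ≤ κ.2.1 + 1 := by
  simp [anNb]

theorem psg_ball_step (p : Finset (Fin n₁ × Fin n₂)) (j : ℕ) {κ κ' : Fin n₁ × Fin n₂} (hκ : κ ∈ shBall p j) (h : κ' ∈ anNb κ) :
    κ' ∈ shBall p (j + 1) := by
  rw [psg_ball_mem] at hκ ⊢
  rw [psg_nb_mem] at h
  obtain ⟨κ0, h1, h2⟩ := hκ
  refine ⟨κ0, h1, ?_⟩
  unfold shLe at *
  omega

theorem psg_adj_nb {Γ : CGeom n₁ n₂} {κ κ' : Fin n₁ × Fin n₂} (h : Γ.Adj κ κ') : κ' ∈ anNb κ := by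
  rw [psg_nb_mem]
  obtain ⟨-, -, h | h | h | h⟩ := h
  · have := congrArg Fin.val h.2.1; omega
  · have := congrArg Fin.val h.1; omega
  · have := congrArg Fin.val h.2.1; omega
  · have := congrArg Fin.val h.1; omega

/-- **crossing**: an exploration which starts inside the ball of radius `L` and leaves it visits a cell at distance exactly `L + 1` -/
theorem psg_cross {D : Finset (ℤ × ℤ)} {cut : Set Bond} {Γ : CGeom n₁ n₂} {g : DGrid n₁ n₂} (hc : AnChart D cut Γ g)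
    (p : Finset (Fin n₁ × Fin n₂)) (L : ℕ) {A U : Set (domG D cut).V} (hU : AConn (domG D cut) A U)
    (hA : ∀ x ∈ A, ∀ κ, domPos x ∈ g.cell κ → κ ∈ shBall p L)
    {v : (domG D cut).V} (hv : v ∈ U) {κv : Fin n₁ × Fin n₂} (hκv : domPos v ∈ g.cell κv) (hfar : κv ∉ shBall p L) :
    ∃ y ∈ U, ∃ κ ∈ Γ.T, domPos y ∈ g.cell κ ∧ κ ∈ shBall p (L + 1) ∧ κ ∉ shBall p L := by
  obtain ⟨a, haA, hpath⟩ := hU.2 v hv
  have hcell : ∀ y : (domG D cut).V, ∃ κ, domPos y ∈ g.cell κ := by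
    intro y
    have h : domPos y ∈ g.region Γ.T := by
      rw [← hc.dom]
      exact Subtype.property (p := fun v => v ∈ D) y
    rw [DGrid.region, Finset.mem_biUnion] at h
    obtain ⟨κ, -, h⟩ := h
    exact ⟨κ, h⟩
  have key : ∀ v', Relation.ReflTransGen (fun x y => gAdj (domG D cut) x y ∧ y ∈ U) a v' →
      (∀ κ, domPos v' ∈ g.cell κ → κ ∈ shBall p L) ∨
      ∃ y ∈ U, ∃ κ ∈ Γ.T, domPos y ∈ g.cell κ ∧ κ ∈ shBall p (L + 1) ∧ κ ∉ shBall p L := by
    intro v' hpath'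
    induction hpath' with
    | refl => exact Or.inl (hA a haA)
    | @tail b c _ hbc ih =>
      rcases ih with ih | ih
      · by_cases hcL : ∀ κ, domPos c ∈ g.cell κ → κ ∈ shBall p L
        · exact Or.inl hcL
        · push Not at hcL
          obtain ⟨κc, h1, h2⟩ := hcL
          right
          obtain ⟨κb, hκb⟩ := hcell b
          refine ⟨c, hbc.2, κc, pn_ag_mem_T hc (Subtype.property (p := fun v => v ∈ D) c) h1, h1, ?_, h2⟩
          rcases pn_an_bond_adj hc hbc.1 hκb h1 with e | e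
          · subst e
            exact psg_ball_mono p (Nat.le_succ L) (ih _ hκb)
          · exact psg_ball_step p L (ih _ hκb) (psg_adj_nb e)
      · exact Or.inr ih
  rcases key v hpath with h | h
  · exact absurd (h κv hκv) hfar
  · exact h

/-- **(AN1) for a visited cell**, test on the integer height -/
theorem psg_visit {D : Finset (ℤ × ℤ)} {cut : Set Bond} {Γ : CGeom n₁ n₂} {g : DGrid n₁ n₂} (hc : AnChart D cut Γ g)
    (K ν : ℕ) (hν : 1 ≤ ν) (h1 : g.SideGe ν) (h2 : g.SideLe (K * ν)) {A U : Set (domG D cut).V} (hU : AConn (domG D cut) A U)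
    {d : Fin n₁ × Fin n₂} (hA : ∀ x ∈ A, ∀ κ', domPos x ∈ g.cell κ' → κ' ∉ anNb d)
    {q : (domG D cut).V} (hq : q ∈ U) (hqd : domPos q ∈ g.cell d) :
    FlowLe (domG D cut) U (rhT (anRho (g.cell d))) ((2 * Real.pi) ^ 2 * anF1 K) (2 * Real.pi * (42 / (ν : ℝ))) := by
  have ht : AnTouch U g ν d := pn_an_touch_of_acon hc ν h1 hU hA hq hqd
  have h := ((pn_an_cell hc K ν hν h1 h2 U ht).smul (2 * Real.pi)).flowLe
  rw [abs_of_pos (by positivity)] at h
  exact h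

/-! ## 5. The deterministic hypotheses of `pn_rch_X2` for the band law
`A = shSites .. Γ.pin`, `T = shSites .. (shTg Γ J)`, `A' = shSites .. (shFarC Γ J)`, `cB κ = shSites .. {κ}` (`κ ∈ shCB Γ J`), `cI κ = shSites .. {κ}` (`κ ∈ shCI Γ`), `fB κ = fI κ = rhT (shAvg .. κ)`. -/

section Exits

variable (s : ℕ) (hs : 1 ≤ s) (Γ : CGeom n₁ n₂) (J : ℕ) (g' : DGrid (s * n₁) (s * n₂))

include hs

/-- the medium cell of a vertex is unique -/
theorem psg_cell_of_sites {A : Finset (Fin n₁ × Fin n₂)} {x : (shG s Γ g').V} (hx : x ∈ shSites s Γ g' A) {κ : Fin n₁ × Fin n₂}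
    (hκ : psgPos x ∈ (shMed s g').cell κ) : κ ∈ A ∧ κ ∈ Γ.T := by
  obtain ⟨κ0, h0, h1⟩ := (psg_sites s hs Γ g' A x).1 hx
  rw [pn_an_cell_unique _ hκ h1]
  exact ⟨h0, pn_ag_mem_T (psg_chart_med s hs Γ g') (psg_pos_mem x) h1⟩

theorem psg_sites_mono {A B : Finset (Fin n₁ × Fin n₂)} (h : ∀ κ ∈ A, κ ∈ Γ.T → κ ∈ B) : shSites s Γ g' A ⊆ shSites s Γ g' B := by
  intro x hx
  obtain ⟨κ0, h0, h1⟩ := (psg_sites s hs Γ g' A x).1 hx
  exact (psg_sites s hs Γ g' B x).2 ⟨κ0, h κ0 h0 (psg_cell_of_sites s hs Γ g' hx h1).2, h1⟩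

/-- `hAA'`: the pin lies in the far set -/
theorem psg_hAA' : shSites s Γ g' Γ.pin ⊆ shSites s Γ g' (shFarC Γ J) :=
  psg_sites_mono s hs Γ g' fun _ hκ hT => Finset.mem_filter.2 ⟨hT, Or.inl (psg_ball_self _ hκ J)⟩

/-- `hBA'`: the `B`-cells lie in the far set -/
theorem psg_hBA' {κ : Fin n₁ × Fin n₂} (hκ : κ ∈ shCB Γ J) : shSites s Γ g' {κ} ⊆ shSites s Γ g' (shFarC Γ J) := by
  refine psg_sites_mono s hs Γ g' fun κ' hκ' hT => ?_
  rw [Finset.mem_singleton] at hκ'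
  subst hκ'
  exact Finset.mem_filter.2 ⟨hT, Or.inr fun h => (Finset.mem_filter.1 hκ).2.2 (psg_ball_mono _ (by omega) h)⟩

/-- the target lies in the far set -/
theorem psg_hTA' : shSites s Γ g' (shTg Γ J) ⊆ shSites s Γ g' (shFarC Γ J) :=
  psg_sites_mono s hs Γ g' fun κ hκ hT =>
    Finset.mem_filter.2 ⟨hT, Or.inr fun h => (Finset.mem_filter.1 hκ).2 (psg_ball_mono _ (by omega) h)⟩

/-- `hX1`: an exploration from the pin which reaches the target visits a `B`-cell -/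
theorem psg_hX1 (U : Set (shG s Γ g').V) (hU : AConn (shG s Γ g') (shSites s Γ g' Γ.pin) U)
    (hT : (U ∩ shSites s Γ g' (shTg Γ J)).Nonempty) : ∃ κ ∈ shCB Γ J, (U ∩ shSites s Γ g' {κ}).Nonempty := by
  obtain ⟨v, hvU, hvT⟩ := hT
  obtain ⟨κv, hκv, hv⟩ := (psg_sites s hs Γ g' _ v).1 hvT
  obtain ⟨y, hyU, κ, hκT, hy, h1, h2⟩ := psg_cross (psg_chart_med s hs Γ g') Γ.pin (2 * J + 3) hU
    (fun x hx _ hκ => psg_ball_self _ (psg_cell_of_sites s hs Γ g' hx hκ).1 _) hvU hv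
    (fun h => (Finset.mem_filter.1 hκv).2 (psg_ball_mono _ (by omega) h))
  exact ⟨κ, Finset.mem_filter.2 ⟨hκT, h1, h2⟩, y, hyU, (psg_sites s hs Γ g' _ y).2 ⟨κ, Finset.mem_singleton_self κ, hy⟩⟩

/-- `hX2`: a set which meets the pin meets an `I`-cell -/
theorem psg_hX2 (U : Set (shG s Γ g').V) (hA : (U ∩ shSites s Γ g' Γ.pin).Nonempty) :
    ∃ κ ∈ shCI Γ, (U ∩ shSites s Γ g' {κ}).Nonempty := by
  obtain ⟨v, hvU, hvA⟩ := hA
  obtain ⟨κ, hκ, hv⟩ := (psg_sites s hs Γ g' _ v).1 hvA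
  exact ⟨κ, Finset.mem_filter.2 ⟨(psg_cell_of_sites s hs Γ g' hvA hv).2, hκ⟩, v, hvU,
    (psg_sites s hs Γ g' _ v).2 ⟨κ, Finset.mem_singleton_self κ, hv⟩⟩

/-- `hfB0`, `hfI0` -/
theorem psg_hf0 (κ : Fin n₁ × Fin n₂) (x : (shG s Γ g').V) : 0 ≤ rhT (shAvg s Γ g' κ) x := by
  rw [psg_avg s hs]
  unfold rhT anRho
  split_ifs <;> positivity

/-- `hfBs` -/
theorem psg_hfs (κ : Fin n₁ × Fin n₂) (x : (shG s Γ g').V) (hx : x ∉ shSites s Γ g' {κ}) : rhT (shAvg s Γ g' κ) x = 0 := by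
  rw [psg_avg s hs]
  unfold rhT anRho
  rw [if_neg fun h => hx ((psg_sites s hs Γ g' _ x).2 ⟨κ, Finset.mem_singleton_self κ, h⟩), mul_zero]

/-- the sup bound of the flows of (AN1) in the medium chart -/
def psgT0 (s ν : ℕ) : ℝ := 2 * Real.pi * (42 / ((s * ν : ℕ) : ℝ))

/-- `hvB`: (AN1) for a `B`-cell visited from the pin -/
theorem psg_hvB (K ν : ℕ) (hν : 1 ≤ ν) (h1 : g'.SideGe ν) (h2 : g'.SideLe (K * ν)) {κ : Fin n₁ × Fin n₂} (hκ : κ ∈ shCB Γ J)
    (U : Set (shG s Γ g').V) (hU : AConn (shG s Γ g') (shSites s Γ g' Γ.pin) U) (hne : (U ∩ shSites s Γ g' {κ}).Nonempty) :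
    FlowLe (shG s Γ g') U (rhT (shAvg s Γ g' κ)) (shR K) (psgT0 s ν) := by
  obtain ⟨q, hqU, hq⟩ := hne
  obtain ⟨κ0, h0, hq'⟩ := (psg_sites s hs Γ g' _ q).1 hq
  rw [Finset.mem_singleton] at h0
  subst h0
  rw [psg_avg s hs]
  refine psg_visit (psg_chart_med s hs Γ g') K (s * ν) (Nat.mul_pos hs hν) (psg_med_ge s hs g' ν h1) (psg_med_le s hs g' K ν h2) hU
    (fun x hx κ' hκ' hnb => ?_) hqU hq'
  have h3 := psg_ball_step Γ.pin 0 (psg_ball_self _ (psg_cell_of_sites s hs Γ g' hx hκ').1 0) (anNb_symm.1 hnb)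
  exact (Finset.mem_filter.1 hκ).2.2 (psg_ball_mono _ (by omega) h3)

/-- `hvI`: (AN1) for an `I`-cell visited from a site of a `B`-cell -/
theorem psg_hvI (K ν : ℕ) (hν : 1 ≤ ν) (h1 : g'.SideGe ν) (h2 : g'.SideLe (K * ν)) {κB : Fin n₁ × Fin n₂} (hκB : κB ∈ shCB Γ J)
    {x : (shG s Γ g').V} (hx : x ∈ shSites s Γ g' {κB}) {κ : Fin n₁ × Fin n₂} (hκ : κ ∈ shCI Γ)
    (U : Set (shG s Γ g').V) (hU : AConn (shG s Γ g') {x} U) (hne : (U ∩ shSites s Γ g' {κ}).Nonempty) :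
    FlowLe (shG s Γ g') U (rhT (shAvg s Γ g' κ)) (shR K) (psgT0 s ν) := by
  obtain ⟨q, hqU, hq⟩ := hne
  obtain ⟨κ0, h0, hq'⟩ := (psg_sites s hs Γ g' _ q).1 hq
  rw [Finset.mem_singleton] at h0
  subst h0
  rw [psg_avg s hs]
  refine psg_visit (psg_chart_med s hs Γ g') K (s * ν) (Nat.mul_pos hs hν) (psg_med_ge s hs g' ν h1) (psg_med_le s hs g' K ν h2) hU
    (fun x' hx' κ' hκ' hnb => ?_) hqU hq'
  have hx'' : x' = x := hx'
  subst hx''
  have e := (psg_cell_of_sites s hs Γ g' hx hκ').1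
  rw [Finset.mem_singleton] at e
  subst e
  have h3 := psg_ball_step Γ.pin 0 (psg_ball_self _ (Finset.mem_filter.1 hκ).2 0) hnb
  exact (Finset.mem_filter.1 hκB).2.2 (psg_ball_mono _ (by omega) h3)

theorem psg_div_step {a b : ℕ} (h : a ≤ b + 1) : a / s ≤ b / s + 1 := by
  calc a / s ≤ (b + s) / s := Nat.div_le_div_right (by omega)
    _ = b / s + 1 := Nat.add_div_right b (by omega)

/-- neighbours in the fine array have neighbouring (or equal) medium cells -/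
theorem psg_coarse_nb {d κ : Fin (s * n₁) × Fin (s * n₂)} (h : κ ∈ anNb d) : S23.coarse s κ ∈ anNb (S23.coarse s d) := by
  rw [psg_nb_mem] at h ⊢
  exact ⟨psg_div_step s hs h.1, psg_div_step s hs h.2.1, psg_div_step s hs h.2.2.1, psg_div_step s hs h.2.2.2⟩

/-- **the far hypothesis of (AN2) in the FINE chart**: no far site lies in the `3 × 3` fine block of a fine band cell -/
theorem psg_far {x : (shG s Γ g').V} (hx : x ∈ shSites s Γ g' (shFarC Γ J)) {d : Fin (s * n₁) × Fin (s * n₂)}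
    (hd : S23.coarse s d ∈ shKb Γ J) {κ' : Fin (s * n₁) × Fin (s * n₂)} (hκ' : psgPos x ∈ g'.cell κ') : κ' ∉ anNb d := by
  intro hnb
  have h1 := Sec.sec_gr_cell_sub (psg_refines s hs g') κ' hκ'
  have h2 := (Finset.mem_filter.1 (psg_cell_of_sites s hs Γ g' hx h1).1).2
  have h3 := psg_coarse_nb s hs hnb
  have hd' := (Finset.mem_filter.1 hd).2
  rcases h2 with h2 | h2
  · exact hd'.2 (psg_ball_step _ J h2 (anNb_symm.1 h3))
  · exact h2 (psg_ball_step _ (J + 2) hd'.1 h3)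

/-- `far1` (MEDIUM chart): no far site lies in the `3 × 3` medium block of a band cell -/
theorem psg_far_med {x : (shG s Γ g').V} (hx : x ∈ shSites s Γ g' (shFarC Γ J)) {d : Fin n₁ × Fin n₂} (hd : d ∈ shKb Γ J)
    {κ' : Fin n₁ × Fin n₂} (hκ' : psgPos x ∈ (shMed s g').cell κ') : κ' ∉ anNb d := by
  intro h3
  have h2 := (Finset.mem_filter.1 (psg_cell_of_sites s hs Γ g' hx hκ').1).2
  have hd' := (Finset.mem_filter.1 hd).2
  rcases h2 with h2 | h2
  · exact hd'.2 (psg_ball_step _ J h2 (anNb_symm.1 h3))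
  · exact h2 (psg_ball_step _ (J + 2) hd'.1 h3)

/-- `far2`: no site of the pin lies in the `3 × 3` medium block of a `B`-cell -/
theorem psg_far2 {κ : Fin n₁ × Fin n₂} (hκ : κ ∈ shCB Γ J) {x : (shG s Γ g').V} (hx : x ∈ shSites s Γ g' Γ.pin)
    {κ' : Fin n₁ × Fin n₂} (hκ' : psgPos x ∈ (shMed s g').cell κ') : κ' ∉ anNb κ := by
  intro hnb
  have h3 := psg_ball_step Γ.pin 0 (psg_ball_self _ (psg_cell_of_sites s hs Γ g' hx hκ').1 0) (anNb_symm.1 hnb)
  exact (Finset.mem_filter.1 hκ).2.2 (psg_ball_mono _ (by omega) h3)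

omit hs in
/-- `far3`: a `B`-cell is not in the `3 × 3` medium block of an `I`-cell -/
theorem psg_far3 {κ : Fin n₁ × Fin n₂} (hκ : κ ∈ shCB Γ J) {i : Fin n₁ × Fin n₂} (hi : i ∈ shCI Γ) : κ ∉ anNb i := by
  intro hnb
  have h3 := psg_ball_step Γ.pin 0 (psg_ball_self _ (Finset.mem_filter.1 hi).2 0) hnb
  exact (Finset.mem_filter.1 hκ).2.2 (psg_ball_mono _ (by omega) h3)

omit hs in
theorem psg_CB_sub : shCB Γ J ⊆ Γ.T := Finset.filter_subset _ _

omit hs in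
theorem psg_CI_sub : shCI Γ ⊆ Γ.T := Finset.filter_subset _ _

omit hs in
theorem psg_Kb_sub : shKb Γ J ⊆ Γ.T := Finset.filter_subset _ _

/-- the sites of a union of medium cells, region form -/
theorem psg_sites_region (A : Finset (Fin n₁ × Fin n₂)) : shSites s Γ g' A = {x | psgPos x ∈ (shMed s g').region A} := by
  ext x
  rw [psg_sites s hs, Set.mem_ofPred_eq, DGrid.region, Finset.mem_biUnion]

/-- the sites of one medium cell -/
theorem psg_sites_single (κ : Fin n₁ × Fin n₂) : shSites s Γ g' {κ} = {x | psgPos x ∈ (shMed s g').cell κ} := by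
  ext x
  rw [psg_sites s hs]
  simp

end Exits

/-- Stores the on-demand equation lemmas of the definitions above in THIS module (rule 6 hygiene). -/
theorem psg_defs_forced : True := by
  have := @psgRho.eq_1; have := @psgT0.eq_1
  trivial

end

end Claimed.Agent.R285.Pins
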