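import Claimed.Agent.R285.Pins.T31Scn

/-!
# ROW 285, PINS, package T31 (architect helper217).  FILE: EXITS at the level of a scenario (helper200).   PAPER-FREE.   No sorry.

From ONE hypothesis `𝔰.GLim a R` (+ `BD`, `Bdd`, `AllOk`): the four forms of [C]T3.1 used outside:
* `pn_t31e_tilt`  : observation centres + real tilt  (`C3.mixed_tilt`),      * `pn_t31e_lap` : centred Laplace limit (`C3.mixed_laplace`),
* `pn_t31e_var`   : variances (`C3.mixed_var`),                              * `pn_t31e_phi` : characteristic coefficients (`C3.mixed_phi`).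
All statements are given for an arbitrary family of laws `H` with `hH : 𝔰.law R = H` (so that `pn_t31s_law` can be used without any transport of the dependent tests `X k`).
-/

set_option autoImplicit false

namespace Claimed.Agent.R285.Pins

open Filter Topology MeasureTheory Pot
open scoped Classical

noncomputable section

variable (𝔰 : Scn) {a : ℝ}

/-- the affine datum of pure observation centres -/
theorem pn_t31e_amb {G : HGraph} (H : HLaw G) (b : ℝ) (c : H.O → ℝ) :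
    HLaw.Aff.amb (H := H) ⟨0, 0, c⟩ b = ((0, fun o => - c o) : (H.sys b).Amb) := by
  unfold HLaw.Aff.amb
  simp only [map_zero, zero_add]
  rfl

/-- one law: the shifted and tilted partition ratio is a centred Laplace transform -/
theorem pn_t31e_ratio {G : HGraph} (H : HLaw G) (b : ℝ) (hOk : (H.sys b).Ok) (c : H.O → ℝ) (X : (H.sys b).L →+ ℝ) :
    2 * Real.log ((H.sys b).wT (HLaw.Aff.amb (H := H) ⟨0, 0, c⟩ b) X / (H.sys b).w 0)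
      = 2 * lLap (H.sys b) (X + obsS (H.sys b) c) - ∑ o, c o ^ 2 := by
  have h0 : (H.sys b).wT (HLaw.Aff.amb (H := H) ⟨0, 0, c⟩ b) X
      = Real.exp (-(∑ o, c o ^ 2) / 2) * (H.sys b).wT 0 (X + obsS (H.sys b) c) := by
    rw [pn_t31e_amb]
    exact pn_t31_centre (H.sys b) c X
  rw [h0, mul_div_assoc, ← rd_E0_exp]
  have hpos : 0 < (H.sys b).E0 fun z => Real.exp ((X + obsS (H.sys b) c) z) := by
    rw [rd_E0_exp]
    exact div_pos (lsys_pos _ hOk 0 _) (rd_w_pos hOk 0)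
  rw [Real.log_mul (Real.exp_pos _).ne' hpos.ne', Real.log_exp]
  unfold lLap
  ring

/-- **EXIT: centred Laplace limit.** -/
theorem pn_t31e_lap {N : ℕ} (R : ℕ → Fin N → 𝔰.ι → ℝ) (hGL : 𝔰.GLim a R) (H : ∀ k, HLaw (𝔰.G k)) (hH : 𝔰.law R = H)
    (t : ℕ → 𝔰.ι → ℝ) (Tb : ℝ) (ht : ∀ k κ, |t k κ| ≤ Tb)
    (X : ∀ k, ((H k).sys (𝔰.b k)).L →+ ℝ) (hX : ∀ k, (H k).Lift (𝔰.b k) (𝔰.tst k (t k)) (X k)) :
    Tendsto (fun k => (H k).logLap (𝔰.b k) (X k) - (H k).gVar a (𝔰.tst k (t k)) / 2) atTop (𝓝 0) := by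
  subst hH
  exact hGL t Tb ht X hX

/-- the Laplace limit along all real multiples -/
theorem pn_t31e_mult (ha : 0 < a) {N : ℕ} (R : ℕ → Fin N → 𝔰.ι → ℝ) (hGL : 𝔰.GLim a R)
    (t : ℕ → 𝔰.ι → ℝ) (Tb : ℝ) (ht : ∀ k κ, |t k κ| ≤ Tb)
    (X : ∀ k, (𝔰.sys R k).L →+ ℝ) (hX : ∀ k, (𝔰.law R k).Lift (𝔰.b k) (𝔰.tst k (t k)) (X k)) (s : ℝ) :
    Tendsto (fun k => lLap (𝔰.sys R k) (s • X k) - s ^ 2 * (𝔰.law R k).gVar a (𝔰.tst k (t k)) / 2) atTop (𝓝 0) := by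
  have h := hGL (fun k => s • t k) (|s| * Tb) (fun k κ => by
    rw [Pi.smul_apply, smul_eq_mul, abs_mul]
    exact mul_le_mul_of_nonneg_left (ht k κ) (abs_nonneg s)) (fun k => s • X k) (fun k => by
    rw [pn_t31_tst_smul]
    exact pn_t31_lift_smul _ _ s (hX k))
  refine h.congr fun k => ?_
  rw [pn_t31_tst_smul, pl_gVar_smul _ ha]

/-- the reference variances of a bounded sequence of tests are bounded in absolute value -/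
theorem pn_t31e_bd (ha : 0 < a) {N : ℕ} (R : ℕ → Fin N → 𝔰.ι → ℝ) (hBD : 𝔰.BD a R) (t : ℕ → 𝔰.ι → ℝ) (Tb : ℝ)
    (ht : ∀ k κ, |t k κ| ≤ Tb) : ∃ C : ℝ, ∀ k, |(𝔰.law R k).gVar a (𝔰.tst k (t k))| ≤ C := by
  obtain ⟨C, hC⟩ := hBD Tb
  refine ⟨C, fun k => ?_⟩
  rw [abs_of_nonneg (pl_gVar_nonneg _ ha _)]
  exact hC k (t k) (ht k)

/-- **EXIT: variances.** -/
theorem pn_t31e_var (ha : 0 < a) {N : ℕ} (R : ℕ → Fin N → 𝔰.ι → ℝ) (hOk : 𝔰.AllOk R) (hBD : 𝔰.BD a R) (hGL : 𝔰.GLim a R)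
    (H : ∀ k, HLaw (𝔰.G k)) (hH : 𝔰.law R = H) (t : ℕ → 𝔰.ι → ℝ) (Tb : ℝ) (ht : ∀ k κ, |t k κ| ≤ Tb)
    (X : ∀ k, ((H k).sys (𝔰.b k)).L →+ ℝ) (hX : ∀ k, (H k).Lift (𝔰.b k) (𝔰.tst k (t k)) (X k)) :
    Tendsto (fun k => ((H k).sys (𝔰.b k)).V0 (X k) - (H k).gVar a (𝔰.tst k (t k))) atTop (𝓝 0) := by
  subst hH
  obtain ⟨C, hC⟩ := pn_t31e_bd 𝔰 ha R hBD t Tb ht
  exact pn_t31_lap_var (fun k => 𝔰.sys R k) hOk X _ C hC (pn_t31e_mult 𝔰 ha R hGL t Tb ht X hX)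

/-- **EXIT: characteristic coefficients.** -/
theorem pn_t31e_phi (ha : 0 < a) {N : ℕ} (R : ℕ → Fin N → 𝔰.ι → ℝ) (hOk : 𝔰.AllOk R) (hBD : 𝔰.BD a R) (hGL : 𝔰.GLim a R)
    (H : ∀ k, HLaw (𝔰.G k)) (hH : 𝔰.law R = H) (t : ℕ → 𝔰.ι → ℝ) (Tb : ℝ) (ht : ∀ k κ, |t k κ| ≤ Tb)
    (X : ∀ k, ((H k).sys (𝔰.b k)).L →+ ℝ) (hX : ∀ k, (H k).Lift (𝔰.b k) (𝔰.tst k (t k)) (X k)) :
    Tendsto (fun k => ((H k).sys (𝔰.b k)).phi (X k) - Real.exp (-(H k).gVar a (𝔰.tst k (t k)) / 2)) atTop (𝓝 0) := by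
  subst hH
  obtain ⟨C, hC⟩ := pn_t31e_bd 𝔰 ha R hBD t Tb ht
  exact pn_t31_lap_phi (fun k => 𝔰.sys R k) hOk X _ C hC (pn_t31e_mult 𝔰 ha R hGL t Tb ht X hX)

/-- **EXIT: observation centres and real tilts**, law of the scenario. -/
theorem pn_t31e_tilt0 (ha : 0 < a) {N : ℕ} (R : ℕ → Fin N → 𝔰.ι → ℝ) (hR : 𝔰.Bdd R) (hOk : 𝔰.AllOk R) (hGL : 𝔰.GLim a R)
    (t : ℕ → 𝔰.ι → ℝ) (c : ℕ → Fin N → ℝ) (Tb : ℝ) (ht : ∀ k κ, |t k κ| ≤ Tb) (hc : ∀ k o, |c k o| ≤ Tb)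
    (X : ∀ k, (𝔰.sys R k).L →+ ℝ) (hX : ∀ k, (𝔰.law R k).Lift (𝔰.b k) (𝔰.tst k (t k)) (X k)) :
    Tendsto (fun k => 2 * Real.log ((𝔰.sys R k).wT (HLaw.Aff.amb (H := 𝔰.law R k) ⟨0, 0, c k⟩ (𝔰.b k)) (X k) / (𝔰.sys R k).w 0)
        - (𝔰.law R k).gTilt a 0 (c k) (𝔰.tst k (t k))) atTop (𝓝 0) := by
  obtain ⟨CR, hCR⟩ := hR
  let t' : ℕ → 𝔰.ι → ℝ := fun k => t k + fun κ => ∑ o, c k o * R k o κ
  have ht' : ∀ k κ, |t' k κ| ≤ |Tb| + N * (|Tb| * |CR|) := by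
    intro k κ
    have h1 : |∑ o, c k o * R k o κ| ≤ N * (|Tb| * |CR|) := by
      refine (Finset.abs_sum_le_sum_abs _ _).trans ?_
      have h2 : ∀ o ∈ (Finset.univ : Finset (Fin N)), |c k o * R k o κ| ≤ |Tb| * |CR| := by
        intro o _
        rw [abs_mul]
        exact mul_le_mul ((hc k o).trans (le_abs_self _)) ((hCR k o κ).trans (le_abs_self _)) (abs_nonneg _) (abs_nonneg _)
      refine (Finset.sum_le_sum h2).trans (le_of_eq ?_)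
      simp
    calc |t' k κ| ≤ |t k κ| + |∑ o, c k o * R k o κ| := abs_add_le _ _
      _ ≤ |Tb| + N * (|Tb| * |CR|) := add_le_add ((ht k κ).trans (le_abs_self _)) h1
  have htst : ∀ k, 𝔰.tst k (t' k) = 𝔰.tst k (t k) + plObsT (𝔰.law R k) (c k) := by
    intro k
    rw [pn_t31_U_obsT, ← pn_t31_tst_add]
  have hlift : ∀ k, (𝔰.law R k).Lift (𝔰.b k) (𝔰.tst k (t' k)) (X k + obsS (𝔰.sys R k) (c k)) := by
    intro k
    rw [htst]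
    exact pn_t31_lift_add _ _ (hX k) (pn_t31_lift_obs _ _ _)
  have h := (hGL t' _ ht' _ hlift).const_mul 2
  rw [mul_zero] at h
  refine h.congr fun k => ?_
  have e1 := pn_t31e_ratio (𝔰.law R k) (𝔰.b k) (hOk k) (c k) (X k)
  have e2 := pn_t31_gTilt (𝔰.law R k) ha (c k) (pn_t31_lift_adm _ _ (hOk k) (hX k))
  have e1' : 2 * Real.log ((𝔰.sys R k).wT (HLaw.Aff.amb (H := 𝔰.law R k) ⟨0, 0, c k⟩ (𝔰.b k)) (X k) / (𝔰.sys R k).w 0)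
      = 2 * lLap (𝔰.sys R k) (X k + obsS (𝔰.sys R k) (c k)) - ∑ o, c k o ^ 2 := e1
  have e2' : (𝔰.law R k).gTilt a 0 (c k) (𝔰.tst k (t k))
      = (𝔰.law R k).gVar a (𝔰.tst k (t k) + plObsT (𝔰.law R k) (c k)) - ∑ o, c k o ^ 2 := e2
  rw [e1', e2', htst]
  ring

/-- **EXIT: observation centres and real tilts.** -/
theorem pn_t31e_tilt (ha : 0 < a) {N : ℕ} (R : ℕ → Fin N → 𝔰.ι → ℝ) (hR : 𝔰.Bdd R) (hOk : 𝔰.AllOk R) (hGL : 𝔰.GLim a R)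
    (H : ∀ k, HLaw (𝔰.G k)) (hH : 𝔰.law R = H) (t : ℕ → 𝔰.ι → ℝ) (c : ∀ k, (H k).O → ℝ) (Tb : ℝ) (ht : ∀ k κ, |t k κ| ≤ Tb)
    (hc : ∀ k o, |c k o| ≤ Tb)
    (X : ∀ k, ((H k).sys (𝔰.b k)).L →+ ℝ) (hX : ∀ k, (H k).Lift (𝔰.b k) (𝔰.tst k (t k)) (X k)) :
    Tendsto (fun k => 2 * Real.log (((H k).sys (𝔰.b k)).wT (HLaw.Aff.amb (H := H k) ⟨0, 0, c k⟩ (𝔰.b k)) (X k) / ((H k).sys (𝔰.b k)).w 0)
        - (H k).gTilt a 0 (c k) (𝔰.tst k (t k))) atTop (𝓝 0) := by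
  subst hH
  exact pn_t31e_tilt0 𝔰 ha R hR hOk hGL t c Tb ht hc X hX

/-! ## The scenario of a geometry: the statements of `Read/C3.lean`, with MOVING rows -/

section Geo

variable {m₁ m₂ : ℕ} (Γ : CGeom m₁ m₂) (g : ℕ → DGrid m₁ m₂) (b : ℕ → ℝ) {J : ℕ} (u : Fin J → ℕ → ℤ × ℤ → ℝ)

/-- a combination of cell averages as a test of the scenario -/
theorem pn_t31e_tst_cell (k : ℕ) (t : C3.Cell m₁ m₂ → ℝ) :
    (geoX Γ g b u).tst k (Sum.elim t fun _ => 0) = Γ.cellTest (g k) t := by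
  funext v
  show ∑ i : C3.Cell m₁ m₂ ⊕ Fin J, (Sum.elim t fun _ => 0) i * (geoX Γ g b u).φ k i v = _
  rw [Fintype.sum_sum_type]
  simp only [Sum.elim_inl, Sum.elim_inr, zero_mul, Finset.sum_const_zero, add_zero]
  rfl

theorem pn_t31e_abs_elim (t : C3.Cell m₁ m₂ → ℝ) (Tb : ℝ) (ht : ∀ κ, |t κ| ≤ Tb) (i : C3.Cell m₁ m₂ ⊕ Fin J) :
    |(Sum.elim t fun _ => (0 : ℝ)) i| ≤ |Tb| := by
  rcases i with κ | j
  · exact (ht κ).trans (le_abs_self _)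
  · simp

theorem pn_t31e_bdd {N : ℕ} (R : ℕ → Fin N → C3.Cell m₁ m₂ → ℝ) (CR : ℝ) (hR : ∀ k o κ, |R k o κ| ≤ CR) :
    (geoX Γ g b u).Bdd (rX R) :=
  ⟨|CR|, fun k o i => pn_t31e_abs_elim (R k o) CR (hR k o) i⟩

variable {N : ℕ} (R : ℕ → Fin N → C3.Cell m₁ m₂ → ℝ)

theorem pn_t31e_allOk (hOk : ∀ k, ((C3.lawR Γ (g k) (R k)).sys (b k)).Ok) : (geoX Γ g b u).AllOk (rX R) := by
  intro k
  have h := congrFun (pn_t31s_law Γ g b u R) k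
  show (((geoX Γ g b u).law (rX R) k).sys (b k)).Ok
  rw [h]
  exact hOk k

/-- **`C3.mixed_tilt`, moving rows.** -/
theorem pn_t31e_geo_tilt (ha : 0 < a) (CR : ℝ) (hR : ∀ k o κ, |R k o κ| ≤ CR) (hOk : ∀ k, ((C3.lawR Γ (g k) (R k)).sys (b k)).Ok)
    (hGL : (geoX Γ g b u).GLim a (rX R))
    (t : ℕ → C3.Cell m₁ m₂ → ℝ) (c : ℕ → Fin N → ℝ) (Tb : ℝ) (ht : ∀ k κ, |t k κ| ≤ Tb) (hc : ∀ k o, |c k o| ≤ Tb)
    (X : ∀ k, ((C3.lawR Γ (g k) (R k)).sys (b k)).L →+ ℝ)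
    (hX : ∀ k, (C3.lawR Γ (g k) (R k)).Lift (b k) (Γ.cellTest (g k) (t k)) (X k)) :
    Tendsto (fun k => 2 * Real.log (((C3.lawR Γ (g k) (R k)).sys (b k)).wT
          (HLaw.Aff.amb (H := C3.lawR Γ (g k) (R k)) ⟨0, 0, c k⟩ (b k)) (X k) / ((C3.lawR Γ (g k) (R k)).sys (b k)).w 0)
        - (C3.lawR Γ (g k) (R k)).gTilt a 0 (c k) (Γ.cellTest (g k) (t k))) atTop (𝓝 0) := by
  have h := pn_t31e_tilt (geoX Γ g b u) ha (rX R) (pn_t31e_bdd Γ g b u R CR hR) (pn_t31e_allOk Γ g b u R hOk) hGL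
    (fun k => C3.lawR Γ (g k) (R k)) (pn_t31s_law Γ g b u R) (fun k => Sum.elim (t k) fun _ => 0) c |Tb|
    (fun k i => pn_t31e_abs_elim (t k) Tb (ht k) i) (fun k o => (hc k o).trans (le_abs_self _)) X
    (fun k => by rw [pn_t31e_tst_cell]; exact hX k)
  simp only [pn_t31e_tst_cell] at h
  exact h

/-- **`C3.mixed_laplace`, moving rows.** -/
theorem pn_t31e_geo_lap (hGL : (geoX Γ g b u).GLim a (rX R))
    (t : ℕ → C3.Cell m₁ m₂ → ℝ) (Tb : ℝ) (ht : ∀ k κ, |t k κ| ≤ Tb)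
    (X : ∀ k, ((C3.lawR Γ (g k) (R k)).sys (b k)).L →+ ℝ)
    (hX : ∀ k, (C3.lawR Γ (g k) (R k)).Lift (b k) (Γ.cellTest (g k) (t k)) (X k)) :
    Tendsto (fun k => (C3.lawR Γ (g k) (R k)).logLap (b k) (X k)
        - (C3.lawR Γ (g k) (R k)).gVar a (Γ.cellTest (g k) (t k)) / 2) atTop (𝓝 0) := by
  have h := pn_t31e_lap (geoX Γ g b u) (rX R) hGL
    (fun k => C3.lawR Γ (g k) (R k)) (pn_t31s_law Γ g b u R) (fun k => Sum.elim (t k) fun _ => 0) |Tb|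
    (fun k i => pn_t31e_abs_elim (t k) Tb (ht k) i) X (fun k => by rw [pn_t31e_tst_cell]; exact hX k)
  simp only [pn_t31e_tst_cell] at h
  exact h

/-- **`C3.mixed_var`, moving rows.** -/
theorem pn_t31e_geo_var (ha : 0 < a) (hOk : ∀ k, ((C3.lawR Γ (g k) (R k)).sys (b k)).Ok)
    (hBD : (geoX Γ g b u).BD a (rX R)) (hGL : (geoX Γ g b u).GLim a (rX R))
    (t : ℕ → C3.Cell m₁ m₂ → ℝ) (Tb : ℝ) (ht : ∀ k κ, |t k κ| ≤ Tb)
    (X : ∀ k, ((C3.lawR Γ (g k) (R k)).sys (b k)).L →+ ℝ)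
    (hX : ∀ k, (C3.lawR Γ (g k) (R k)).Lift (b k) (Γ.cellTest (g k) (t k)) (X k)) :
    Tendsto (fun k => ((C3.lawR Γ (g k) (R k)).sys (b k)).V0 (X k)
        - (C3.lawR Γ (g k) (R k)).gVar a (Γ.cellTest (g k) (t k))) atTop (𝓝 0) := by
  have h := pn_t31e_var (geoX Γ g b u) ha (rX R) (pn_t31e_allOk Γ g b u R hOk) hBD hGL
    (fun k => C3.lawR Γ (g k) (R k)) (pn_t31s_law Γ g b u R) (fun k => Sum.elim (t k) fun _ => 0) |Tb|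
    (fun k i => pn_t31e_abs_elim (t k) Tb (ht k) i) X (fun k => by rw [pn_t31e_tst_cell]; exact hX k)
  simp only [pn_t31e_tst_cell] at h
  exact h

/-- **`C3.mixed_phi`, moving rows.** -/
theorem pn_t31e_geo_phi (ha : 0 < a) (hOk : ∀ k, ((C3.lawR Γ (g k) (R k)).sys (b k)).Ok)
    (hBD : (geoX Γ g b u).BD a (rX R)) (hGL : (geoX Γ g b u).GLim a (rX R))
    (t : ℕ → C3.Cell m₁ m₂ → ℝ) (Tb : ℝ) (ht : ∀ k κ, |t k κ| ≤ Tb)
    (X : ∀ k, ((C3.lawR Γ (g k) (R k)).sys (b k)).L →+ ℝ)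
    (hX : ∀ k, (C3.lawR Γ (g k) (R k)).Lift (b k) (Γ.cellTest (g k) (t k)) (X k)) :
    Tendsto (fun k => ((C3.lawR Γ (g k) (R k)).sys (b k)).phi (X k)
        - Real.exp (-(C3.lawR Γ (g k) (R k)).gVar a (Γ.cellTest (g k) (t k)) / 2)) atTop (𝓝 0) := by
  have h := pn_t31e_phi (geoX Γ g b u) ha (rX R) (pn_t31e_allOk Γ g b u R hOk) hBD hGL
    (fun k => C3.lawR Γ (g k) (R k)) (pn_t31s_law Γ g b u R) (fun k => Sum.elim (t k) fun _ => 0) |Tb|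
    (fun k i => pn_t31e_abs_elim (t k) Tb (ht k) i) X (fun k => by rw [pn_t31e_tst_cell]; exact hX k)
  simp only [pn_t31e_tst_cell] at h
  exact h

end Geo

end

end Claimed.Agent.R285.Pins
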