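import Claimed.Agent.R285.Pins.ShiftRef
import Claimed.Agent.R285.Pins.T31Main
import Claimed.Agent.R285.Pins.T31Exit
import Claimed.Agent.R285.Sec.Rect

/-!
# ROW 285, PINS / CORE-LIM, PART (B2): THE LIMITS      (owner helper249).   `Pins/Plan.lean` s7-s8.

INPUT `ShIn a b ν` = [C]T3.1 for PIN-FREE geometries (`GeoIn` of `Pins/T31Main.lean`, helper217: does not depend on the exploration core).
* `psh_cell_var`, `psh_cell_phi` : variances and characters of bounded moving cell tests under the band law;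
* `psh_gap` : the gap `γ = shGam K b₁` of the `B`- and `I`-cells;      `psh_chi` : the cross covariance through the band;
* **`psh_bad_lim`** : the bad event is negligible in the order `k → ∞`, `s → ∞`, `lam → ∞`;
* **`psh_dPin`** : the pin interaction vanishes under the band law (= `T32.pn_in_band` of helper178).
Consumer of `psh_bad_lim`: `Pins/ShiftCore.lean` (helper235: `pn_core_low`).
-/

set_option autoImplicit false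

namespace Claimed.Agent.R285.Pins

open Filter Topology Pot
open scoped Classical ENNReal

noncomputable section

/-! ## 0. Vocabulary -/

/-- **INPUT**: [C]T3.1 for pin-free geometries at all comparable scales -/
def ShIn (a : ℝ) (b : ℕ → ℝ) (ν : ℕ → ℕ) : Prop :=
  ∀ (m₁ m₂ : ℕ) (Γ : CGeom m₁ m₂), Γ.NoDiag → Γ.pin = ∅ → ∀ ν' : ℕ → ℕ, C3.Comp ν ν' → GeoIn a b ν' Γ

/-- the condition on the number of layers -/
def ShJ (a b₁ : ℝ) (K J : ℕ) : Prop := 2 * b₁ * shR K + 2 ≤ a / 8 * Real.log (((J : ℝ) + 1) / ((K : ℝ) + 1))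

/-- the gap -/
def shGam (K : ℕ) (b₁ : ℝ) : ℝ := Real.exp (-(b₁ * shR K)) * (1 - Real.exp (-1)) / 2

/-- the bound of the prior variance of a medium cell -/
def shV (a : ℝ) (K N : ℕ) : ℝ := a * ((N : ℝ) * ((N : ℝ) * (24 * (K : ℝ)))) + (K : ℝ) ^ 2

/-- the constant of the band -/
def shCb (a : ℝ) (K : ℕ) (lam : ℝ) (s : ℕ) : ℝ :=
  2 * ((18 / a + 18 * lam * (K : ℝ) ^ 2 / (s : ℝ) ^ 2) * (2 * (K : ℝ) ^ 2 / lam + 2 * a * (K : ℝ) ^ 2 / (s : ℝ) ^ 2))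

theorem psl_lim_forced : True := by
  have := @ShIn.eq_1; have := @ShJ.eq_1; have := @shGam.eq_1; have := @shV.eq_1; have := @shCb.eq_1
  trivial

theorem psl_R_nonneg (K : ℕ) : 0 ≤ shR K := by
  unfold shR
  exact mul_nonneg (by positivity) (anF1_nonneg K)

theorem psl_gam_pos (K : ℕ) (b₁ : ℝ) : 0 < shGam K b₁ := by
  unfold shGam
  have h : Real.exp (-1) < 1 := by
    rw [Real.exp_lt_one_iff]
    norm_num
  have := Real.exp_pos (-(b₁ * shR K))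
  have h2 : 0 < 1 - Real.exp (-1) := by linarith
  positivity

theorem psh_J_exists (a : ℝ) (ha : 0 < a) (b₁ : ℝ) (K : ℕ) : ∃ J : ℕ, ShJ a b₁ K J := by
  obtain ⟨c, hc⟩ : ∃ c : ℝ, c = (2 * b₁ * shR K + 2) * 8 / a := ⟨_, rfl⟩
  obtain ⟨J, hJ⟩ := exists_nat_ge (Real.exp c * ((K : ℝ) + 1))
  refine ⟨J, ?_⟩
  unfold ShJ
  have hK : (0 : ℝ) < (K : ℝ) + 1 := by positivity
  have h1 : Real.exp c ≤ ((J : ℝ) + 1) / ((K : ℝ) + 1) := by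
    rw [le_div_iff₀ hK]
    linarith
  have h2 : c ≤ Real.log (((J : ℝ) + 1) / ((K : ℝ) + 1)) := by
    rw [Real.le_log_iff_exp_le (by positivity)]
    exact h1
  have h3 : 2 * b₁ * shR K + 2 = a / 8 * c := by
    rw [hc]
    field_simp
  rw [h3]
  exact mul_le_mul_of_nonneg_left h2 (by positivity)

/-- polarisation -/
theorem psl_cv_polar (S : LSys) (hS : S.Ok) (X Y : S.L →+ ℝ) : S.Cv 0 0 X Y = (S.V0 (X + Y) - S.V0 (X - Y)) / 4 := by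
  have h1 := Free.var_add S hS X Y
  have h2 := Free.var_add S hS X (-Y)
  have e1 : S.V0 (-Y) = S.V0 Y := by
    have := rd_V0_smul (S := S) (-1) Y
    rw [neg_one_smul] at this
    rw [this]
    ring
  have e2 : S.Cv 0 0 X (-Y) = - S.Cv 0 0 X Y := by
    rw [rd_Cv0_eq, rd_Cv0_eq]
    have : (fun z => X z * (-Y) z) = fun z => (-1 : ℝ) * (X z * Y z) := by
      funext z
      rw [AddMonoidHom.neg_apply]
      ring
    rw [this, rd_E0_smul]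
    ring
  rw [← sub_eq_add_neg, e1, e2] at h2
  linarith

/-! ## 1. The band law: limits of cell tests -/

section Lim

variable {a : ℝ} {b : ℕ → ℝ} {ν : ℕ → ℕ} {n₁ n₂ : ℕ}

theorem psl_geo_noDiag (s : ℕ) (Γ : CGeom n₁ n₂) (hΓ : Γ.NoDiag) : (shGeo s Γ).NoDiag := Sec.noDiag_refine (shFree Γ) hΓ s

/-- the standing data of the limits `k → ∞` at fixed `lam`, `s` -/
structure ShStd (a : ℝ) (b : ℕ → ℝ) (ν : ℕ → ℕ) (Γ : CGeom n₁ n₂) (J : ℕ) (lam : ℝ) (s K : ℕ) (g' : ℕ → DGrid (s * n₁) (s * n₂))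
    (ν' : ℕ → ℕ) : Prop where
  hS : C3.Scen a b ν
  hIn : ShIn a b ν
  hΓ : Γ.NoDiag
  hconf : ShConf Γ J
  hlam : 0 < lam
  hs : 1 ≤ s
  hg : Admissible K g' ν'
  hc : C3.Comp ν ν'

variable {Γ : CGeom n₁ n₂} {J : ℕ} {lam : ℝ} {s K : ℕ} {g' : ℕ → DGrid (s * n₁) (s * n₂)} {ν' : ℕ → ℕ}

theorem ShStd.b_pos (h : ShStd a b ν Γ J lam s K g' ν') (k : ℕ) : 0 < b k := by
  obtain ⟨b₀, b₁, h0, h1⟩ := h.hS.b_cpt
  exact lt_of_lt_of_le h0 (h1 k).1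

theorem ShStd.ok (h : ShStd a b ν Γ J lam s K g' ν') (k : ℕ) : ((shLaw s Γ J lam (g' k)).sys (b k)).Ok :=
  psh_ok s h.hs Γ J h.hconf lam h.hlam (g' k) (b k) (h.b_pos k)

/-- no shift -/
def shU0 : Fin 0 → ℕ → ℤ × ℤ → ℝ := fun j => j.elim0

theorem psl_row_bd (s : ℕ) (Kb : Finset (Fin n₁ × Fin n₂)) (lam : ℝ) :
    ∃ Rb : ℝ, ∀ (_ : ℕ) (o : Fin ((s * n₁) * (s * n₂))) (κ : C3.Cell (s * n₁) (s * n₂)), |shRow s Kb lam o κ| ≤ Rb := by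
  refine ⟨Real.sqrt lam / s, fun _ o κ => ?_⟩
  have h0 : 0 ≤ Real.sqrt lam / s := by positivity
  unfold shRow
  split_ifs
  · rw [abs_of_nonneg h0]
  · rw [abs_zero]; exact h0

theorem ShStd.GL (h : ShStd a b ν Γ J lam s K g' ν') :
    (geoX (shGeo s Γ) g' b shU0).GLim a (rX fun _ => shRow s (shKb Γ J) lam) ∧ (geoX (shGeo s Γ) g' b shU0).BD a (rX fun _ => shRow s (shKb Γ J) lam) := by
  have hu : ShFam (shGeo s Γ) ν' g' shU0 := ⟨fun j => j.elim0, ⟨0, fun _ j => j.elim0⟩⟩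
  have hU := pn_t31r_uconf_fixed (shGeo s Γ) (shRow s (shKb Γ J) lam)
  exact ⟨pn_t31m_GL h.hS.a_pos h.b_pos (shGeo s Γ) (psl_geo_noDiag s Γ h.hΓ) (h.hIn _ _ _ (psl_geo_noDiag s Γ h.hΓ) (psh_geo_pin s Γ) ν' h.hc)
      K g' h.hg shU0 hu (fun _ => shRow s (shKb Γ J) lam) (psl_row_bd s _ lam) hU h.ok,
    pn_t31r_BD (shGeo s Γ) K g' h.hg b shU0 hu.en h.hS.a_pos (fun _ => shRow s (shKb Γ J) lam) (psl_row_bd s _ lam) hU⟩

/-- variances of bounded moving cell tests under the band law -/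
theorem psh_cell_var (h : ShStd a b ν Γ J lam s K g' ν') (t : ℕ → C3.Cell (s * n₁) (s * n₂) → ℝ) (Tb : ℝ) (ht : ∀ k κ, |t k κ| ≤ Tb)
    (X : ∀ k, ((shLaw s Γ J lam (g' k)).sys (b k)).L →+ ℝ)
    (hX : ∀ k, (shLaw s Γ J lam (g' k)).Lift (b k) ((shGeo s Γ).cellTest (g' k) (t k)) (X k)) :
    Tendsto (fun k => ((shLaw s Γ J lam (g' k)).sys (b k)).V0 (X k)
      - (shLaw s Γ J lam (g' k)).gVar a ((shGeo s Γ).cellTest (g' k) (t k))) atTop (𝓝 0) :=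
  pn_t31e_geo_var (shGeo s Γ) g' b shU0 (fun _ => shRow s (shKb Γ J) lam) h.hS.a_pos h.ok h.GL.2 h.GL.1 t Tb ht X hX

/-- characters of bounded moving cell tests under the band law -/
theorem psh_cell_phi (h : ShStd a b ν Γ J lam s K g' ν') (t : ℕ → C3.Cell (s * n₁) (s * n₂) → ℝ) (Tb : ℝ) (ht : ∀ k κ, |t k κ| ≤ Tb)
    (X : ∀ k, ((shLaw s Γ J lam (g' k)).sys (b k)).L →+ ℝ)
    (hX : ∀ k, (shLaw s Γ J lam (g' k)).Lift (b k) ((shGeo s Γ).cellTest (g' k) (t k)) (X k)) :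
    Tendsto (fun k => ((shLaw s Γ J lam (g' k)).sys (b k)).phi (X k)
      - Real.exp (-(shLaw s Γ J lam (g' k)).gVar a ((shGeo s Γ).cellTest (g' k) (t k)) / 2)) atTop (𝓝 0) :=
  pn_t31e_geo_phi (shGeo s Γ) g' b shU0 (fun _ => shRow s (shKb Γ J) lam) h.hS.a_pos h.ok h.GL.2 h.GL.1 t Tb ht X hX

/-! ## 2. The gap and the cross covariance -/

theorem psl_mem_T {κ : Fin n₁ × Fin n₂} (hκ : κ ∈ shCB Γ J ∨ κ ∈ shCI Γ) : κ ∈ Γ.T := by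
  rcases hκ with hκ | hκ
  · exact (Finset.mem_filter.1 hκ).1
  · exact (Finset.mem_filter.1 hκ).1

/-- **the gap** of the `B`- and `I`-cells -/
theorem psh_gap (h : ShStd a b ν Γ J lam s K g' ν') (b₁ : ℝ) (hb₁ : ∀ k, b k ≤ b₁) (hJ : ShJ a b₁ K J) (κ : Fin n₁ × Fin n₂)
    (hκ : κ ∈ shCB Γ J ∨ κ ∈ shCI Γ) :
    ∀ᶠ k in atTop, ∀ X : ((shLaw s Γ J lam (g' k)).sys (b k)).L →+ ℝ, (shLaw s Γ J lam (g' k)).Lift (b k) (shAvg s Γ (g' k) κ) X →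
      shGam K b₁ ≤ Real.exp (-(b k * shR K)) - ((shLaw s Γ J lam (g' k)).sys (b k)).phi X := by
  have hκT := psl_mem_T hκ
  choose X₀ hX₀ using fun k => psh_lift_exists s h.hs Γ J h.hconf lam h.hlam (g' k) (b k) (shAvg s Γ (g' k) κ)
  have hX₀' : ∀ k, (shLaw s Γ J lam (g' k)).Lift (b k) ((shGeo s Γ).cellTest (g' k) (shCoef s (g' k) κ)) (X₀ k) := by
    intro k
    rw [← psh_avg_cellTest s h.hs Γ (g' k) κ hκT]
    exact hX₀ k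
  have hlim := psh_cell_phi h (fun k => shCoef s (g' k) κ) 1 (fun k κ' => psh_coef_le s (g' k) κ κ') X₀ hX₀'
  have hev := (tendsto_order.1 hlim).2 _ (psl_gam_pos K b₁)
  have hν : ∀ᶠ k in atTop, 1 ≤ ν' k := h.hg.1.eventually_ge_atTop 1
  filter_upwards [hev, hν] with k h1 h2 X hX
  have e : X = X₀ k := pn_t31_lift_unique _ _ hX (hX₀ k)
  rw [e]
  rw [← psh_avg_cellTest s h.hs Γ (g' k) κ hκT] at h1
  have hge := psh_gVar_ge K s h.hs Γ J h.hconf lam h.hlam (g' k) (ν' k) h2 (h.hg.2 k).1 (h.hg.2 k).2 h.hS.a_pos κ hκ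
  have hge' : 2 * b₁ * shR K + 2 ≤ (shLaw s Γ J lam (g' k)).gVar a (shAvg s Γ (g' k) κ) := le_trans hJ hge
  have e1 : Real.exp (-(shLaw s Γ J lam (g' k)).gVar a (shAvg s Γ (g' k) κ) / 2) ≤ Real.exp (-(b₁ * shR K)) * Real.exp (-1) := by
    rw [← Real.exp_add]
    apply Real.exp_le_exp.2
    linarith
  have e2 : Real.exp (-(b₁ * shR K)) ≤ Real.exp (-(b k * shR K)) := by
    apply Real.exp_le_exp.2
    have := mul_le_mul_of_nonneg_right (hb₁ k) (psl_R_nonneg K)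
    linarith
  have e3 : shGam K b₁ = Real.exp (-(b₁ * shR K)) * (1 - Real.exp (-1)) / 2 := rfl
  linarith

theorem psl_cellTest_add {m₁ m₂ : ℕ} (Γ : CGeom m₁ m₂) (g : DGrid m₁ m₂) (t t' : Fin m₁ × Fin m₂ → ℝ) :
    Γ.cellTest g (t + t') = Γ.cellTest g t + Γ.cellTest g t' := by
  funext v
  simp only [CGeom.cellTest, Pi.add_apply, add_mul, Finset.sum_add_distrib]

theorem psl_cellTest_sub {m₁ m₂ : ℕ} (Γ : CGeom m₁ m₂) (g : DGrid m₁ m₂) (t t' : Fin m₁ × Fin m₂ → ℝ) :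
    Γ.cellTest g (t - t') = Γ.cellTest g t - Γ.cellTest g t' := by
  funext v
  simp only [CGeom.cellTest, Pi.sub_apply, sub_mul, Finset.sum_sub_distrib]

theorem psl_Cb_nonneg (ha : 0 < a) (K : ℕ) (hlam : 0 < lam) (s : ℕ) : 0 ≤ shCb a K lam s := by
  unfold shCb
  positivity

/-- **the cross covariance** through the band -/
theorem psh_chi (h : ShStd a b ν Γ J lam s K g' ν') (hlam1 : 1 ≤ lam) (κ κ' : Fin n₁ × Fin n₂) (hκ : κ ∈ shCB Γ J) (hκ' : κ' ∈ shCI Γ)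
    (χ₀ : ℝ) (hχ : shCb a K lam s * (2 * shV a K (n₁ * n₂)) < χ₀) :
    ∀ᶠ k in atTop, ∀ X X' : ((shLaw s Γ J lam (g' k)).sys (b k)).L →+ ℝ, (shLaw s Γ J lam (g' k)).Lift (b k) (shAvg s Γ (g' k) κ) X →
      (shLaw s Γ J lam (g' k)).Lift (b k) (shAvg s Γ (g' k) κ') X' → ((shLaw s Γ J lam (g' k)).sys (b k)).Cv 0 0 X X' ≤ χ₀ := by
  have hκT : κ ∈ Γ.T := psl_mem_T (Or.inl hκ)
  have hκT' : κ' ∈ Γ.T := psl_mem_T (J := J) (Or.inr hκ')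
  choose X₀ hX₀ using fun k => psh_lift_exists s h.hs Γ J h.hconf lam h.hlam (g' k) (b k) (shAvg s Γ (g' k) κ)
  choose X₁ hX₁ using fun k => psh_lift_exists s h.hs Γ J h.hconf lam h.hlam (g' k) (b k) (shAvg s Γ (g' k) κ')
  have hbd : ∀ k κ'', |(shCoef s (g' k) κ + shCoef s (g' k) κ') κ''| ≤ 2 := by
    intro k κ''
    have := abs_add_le (shCoef s (g' k) κ κ'') (shCoef s (g' k) κ' κ'')
    have h1 := psh_coef_le s (g' k) κ κ''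
    have h2 := psh_coef_le s (g' k) κ' κ''
    rw [Pi.add_apply]
    linarith
  have hbd' : ∀ k κ'', |(shCoef s (g' k) κ - shCoef s (g' k) κ') κ''| ≤ 2 := by
    intro k κ''
    have := abs_sub (shCoef s (g' k) κ κ'') (shCoef s (g' k) κ' κ'')
    have h1 := psh_coef_le s (g' k) κ κ''
    have h2 := psh_coef_le s (g' k) κ' κ''
    rw [Pi.sub_apply]
    linarith
  have hp := psh_cell_var h (fun k => shCoef s (g' k) κ + shCoef s (g' k) κ') 2 hbd (fun k => X₀ k + X₁ k) (fun k => by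
    rw [psl_cellTest_add, ← psh_avg_cellTest s h.hs Γ (g' k) κ hκT, ← psh_avg_cellTest s h.hs Γ (g' k) κ' hκT']
    exact pn_t31_lift_add _ _ (hX₀ k) (hX₁ k))
  have hm := psh_cell_var h (fun k => shCoef s (g' k) κ - shCoef s (g' k) κ') 2 hbd' (fun k => X₀ k - X₁ k) (fun k => by
    rw [psl_cellTest_sub, ← psh_avg_cellTest s h.hs Γ (g' k) κ hκT, ← psh_avg_cellTest s h.hs Γ (g' k) κ' hκT']
    exact pn_t31_lift_sub _ _ (hX₀ k) (hX₁ k))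
  have hd := (hp.sub hm).div_const 4
  rw [sub_zero, zero_div] at hd
  have hev := (tendsto_order.1 hd).2 (χ₀ - shCb a K lam s * (2 * shV a K (n₁ * n₂))) (by linarith)
  have hν : ∀ᶠ k in atTop, 3 ≤ ν' k := h.hg.1.eventually_ge_atTop 3
  filter_upwards [hev, hν] with k h1 h2 X X' hX hX'
  have e : X = X₀ k := pn_t31_lift_unique _ _ hX (hX₀ k)
  have e' : X' = X₁ k := pn_t31_lift_unique _ _ hX' (hX₁ k)
  rw [e, e', psl_cv_polar _ (h.ok k)]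
  simp only [psl_cellTest_add, psl_cellTest_sub] at h1
  rw [← psh_avg_cellTest s h.hs Γ (g' k) κ hκT, ← psh_avg_cellTest s h.hs Γ (g' k) κ' hκT'] at h1
  have hc := psh_cov_ref K s h.hs Γ J h.hconf lam h.hlam (g' k) (ν' k) h2 (h.hg.2 k).1 (h.hg.2 k).2 h.hS.a_pos κ κ' hκ hκ'
  have hv := psh_gVar_le K s h.hs Γ J h.hconf lam hlam1 (g' k) (ν' k) (by omega) (h.hg.2 k).1 (h.hg.2 k).2 h.hS.a_pos κ hκT
  have hv' := psh_gVar_le K s h.hs Γ J h.hconf lam hlam1 (g' k) (ν' k) (by omega) (h.hg.2 k).1 (h.hg.2 k).2 h.hS.a_pos κ' hκT'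
  have hc2 : plCov (shLaw s Γ J lam (g' k)) a (shAvg s Γ (g' k) κ) (shAvg s Γ (g' k) κ') ≤ shCb a K lam s * (2 * shV a K (n₁ * n₂)) := by
    refine (le_abs_self _).trans (hc.trans ?_)
    refine mul_le_mul_of_nonneg_left ?_ (psl_Cb_nonneg h.hS.a_pos K h.hlam s)
    unfold shV
    linarith
  unfold plCov at hc2
  linarith

/-! ## 3. The order of the constants -/

theorem psl_small (C δ : ℝ) (hC : 0 ≤ C) (hδ : 0 < δ) : ∃ x : ℝ, 0 < x ∧ C * x ≤ δ := by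
  refine ⟨δ / (C + 1), by positivity, ?_⟩
  rw [← mul_div_assoc, div_le_iff₀ (by positivity)]
  nlinarith

/-- the right side of `psh_fin` -/
def shF (N γ η c2 v2 q βd χ₀ s₁ s₂ : ℝ) : ℝ :=
  βd + 2 * q / η + γ⁻¹ ^ 2 * (N * (γ * (s₂ + 8 * q / s₂ + 2 * βd)
    + N * (χ₀ + 2 * s₁ * (2 * v2 + 32 * c2 * q + (c2 + 2) * βd) + 4 * (c2 + 1) * (2 * q + βd) / s₁ + 3 * βd)))

theorem psl_arith (N γ η c2 v2 ε : ℝ) (hN : 0 ≤ N) (hγ : 0 < γ) (hη : 0 < η) (hc2 : 0 < c2) (hv2 : 0 ≤ v2) (hε : 0 < ε) :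
    ∃ s₁ s₂ χ₀ q₀ : ℝ, 0 < s₁ ∧ 0 < s₂ ∧ 0 < χ₀ ∧ 0 < q₀ ∧ ∀ q βd : ℝ, 0 ≤ q → q ≤ q₀ → 0 ≤ βd → βd ≤ q₀ → shF N γ η c2 v2 q βd χ₀ s₁ s₂ ≤ ε := by
  obtain ⟨s₂, hs₂, h2⟩ := psl_small (γ⁻¹ ^ 2 * (N * γ)) (ε / 6) (by positivity) (by positivity)
  obtain ⟨χ₀, hχ₀, h3⟩ := psl_small (γ⁻¹ ^ 2 * (N * N)) (ε / 6) (by positivity) (by positivity)
  obtain ⟨s₁, hs₁, h1⟩ := psl_small (γ⁻¹ ^ 2 * (N * N) * (4 * v2)) (ε / 6) (by positivity) (by positivity)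
  obtain ⟨A, hA⟩ : ∃ A : ℝ, A = 2 / η + γ⁻¹ ^ 2 * (N * (γ * (8 / s₂) + N * (2 * s₁ * (32 * c2) + 4 * (c2 + 1) * 2 / s₁))) := ⟨_, rfl⟩
  obtain ⟨B, hB⟩ : ∃ B : ℝ, B = 1 + γ⁻¹ ^ 2 * (N * (γ * 2 + N * (2 * s₁ * (c2 + 2) + 4 * (c2 + 1) / s₁ + 3))) := ⟨_, rfl⟩
  have hA0 : 0 ≤ A := by rw [hA]; positivity
  have hB0 : 0 ≤ B := by rw [hB]; positivity
  obtain ⟨q₀, hq₀, h4⟩ := psl_small (A + B) (ε / 2) (by positivity) (by positivity)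
  refine ⟨s₁, s₂, χ₀, q₀, hs₁, hs₂, hχ₀, hq₀, fun q βd _ hq _ hβ => ?_⟩
  have e : shF N γ η c2 v2 q βd χ₀ s₁ s₂ = γ⁻¹ ^ 2 * (N * γ) * s₂ + γ⁻¹ ^ 2 * (N * N) * χ₀ + γ⁻¹ ^ 2 * (N * N) * (4 * v2) * s₁ + A * q + B * βd := by
    rw [hA, hB]
    unfold shF
    ring
  rw [e]
  have h5 := mul_le_mul_of_nonneg_left hq hA0
  have h6 := mul_le_mul_of_nonneg_left hβ hB0
  nlinarith

theorem psl_Cb_le (ha : 0 < a) (K : ℕ) (hlam : 0 < lam) (s : ℕ) (hs : lam ≤ (s : ℝ) ^ 2) :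
    shCb a K lam s ≤ 2 * ((18 / a + 18 * (K : ℝ) ^ 2) * (2 * (K : ℝ) ^ 2 + 2 * a * (K : ℝ) ^ 2)) / lam := by
  have hs0 : 0 < (s : ℝ) ^ 2 := lt_of_lt_of_le hlam hs
  have h1 : 18 * lam * (K : ℝ) ^ 2 / (s : ℝ) ^ 2 ≤ 18 * (K : ℝ) ^ 2 := by
    rw [div_le_iff₀ hs0]
    have : 0 ≤ 18 * (K : ℝ) ^ 2 := by positivity
    nlinarith
  have h2 : 2 * a * (K : ℝ) ^ 2 / (s : ℝ) ^ 2 ≤ 2 * a * (K : ℝ) ^ 2 / lam :=
    div_le_div_of_nonneg_left (by positivity) hlam hs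
  have e : 2 * ((18 / a + 18 * (K : ℝ) ^ 2) * (2 * (K : ℝ) ^ 2 + 2 * a * (K : ℝ) ^ 2)) / lam
      = 2 * ((18 / a + 18 * (K : ℝ) ^ 2) * (2 * (K : ℝ) ^ 2 / lam + 2 * a * (K : ℝ) ^ 2 / lam)) := by
    ring
  rw [e]
  unfold shCb
  refine mul_le_mul_of_nonneg_left ?_ (by norm_num)
  refine mul_le_mul (by linarith) (by linarith) (by positivity) (by positivity)

end Lim

/-! ## 4. The bad event is negligible -/

section Main

variable {a : ℝ} {b : ℕ → ℝ} {ν : ℕ → ℕ} {n₁ n₂ : ℕ}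

/-- **THEOREM A** ([C]P3.8 under the band law): the exploration from the pin neither collects a large tilt nor reaches the target, in the order `k → ∞`, `s → ∞`, `lam → ∞`. -/
theorem psh_bad_lim (hS : C3.Scen a b ν) (hIn : ShIn a b ν) (K : ℕ) (hK : 1 ≤ K) (b₁ : ℝ) (hb₁ : ∀ k, b k ≤ b₁) (J : ℕ) (hJ : ShJ a b₁ K J)
    (Γ : CGeom n₁ n₂) (hΓ : Γ.NoDiag) (hconf : ShConf Γ J) (η ε : ℝ) (hη : 0 < η) (hε : 0 < ε) :
    ∃ lam₀ : ℝ, 1 ≤ lam₀ ∧ ∀ lam ≥ lam₀, ∃ s₀ : ℕ, 1 ≤ s₀ ∧ ∀ s ≥ s₀, ∀ (g' : ℕ → DGrid (s * n₁) (s * n₂)) (ν' : ℕ → ℕ),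
      Admissible K g' ν' → C3.Comp ν ν' → ∀ᶠ k in atTop, shBad K s Γ J lam (g' k) (b k) η ≤ ε := by
  have ha := hS.a_pos
  obtain ⟨C₁, c2, v2, hC₁, hc2, hv2, hfin⟩ := psh_fin K n₁ n₂ hK b₁
  obtain ⟨s₁, s₂, χ₀, q₀, hs₁, hs₂, hχ₀, hq₀, har⟩ :=
    psl_arith ((n₁ * n₂ : ℕ) : ℝ) (shGam K b₁) η c2 v2 ε (Nat.cast_nonneg _) (psl_gam_pos K b₁) hη hc2 hv2 hε
  obtain ⟨Cb, hCb⟩ : ∃ Cb : ℝ, Cb = 2 * ((18 / a + 18 * (K : ℝ) ^ 2) * (2 * (K : ℝ) ^ 2 + 2 * a * (K : ℝ) ^ 2)) := ⟨_, rfl⟩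
  have hCb0 : 0 ≤ Cb := by rw [hCb]; positivity
  have hV0 : 0 ≤ shV a K (n₁ * n₂) := by unfold shV; positivity
  refine ⟨max 1 (Cb * (2 * shV a K (n₁ * n₂)) / χ₀ + 1), le_max_left _ _, fun lam hlam => ?_⟩
  have hlam1 : 1 ≤ lam := (le_max_left _ _).trans hlam
  have hlam0 : 0 < lam := by linarith
  have hlam2 : Cb * (2 * shV a K (n₁ * n₂)) / χ₀ < lam := by
    have := (le_max_right 1 (Cb * (2 * shV a K (n₁ * n₂)) / χ₀ + 1)).trans hlam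
    linarith
  obtain ⟨s₀, hs₀⟩ := exists_nat_ge (max (max 1 (C₁ * lam)) (max lam (C₁ * lam ^ 2 / q₀)))
  have hs₀1 : (1 : ℝ) ≤ s₀ := ((le_max_left _ _).trans (le_max_left _ _)).trans hs₀
  refine ⟨s₀, by exact_mod_cast hs₀1, fun s hs g' ν' hg hc => ?_⟩
  have hss : (s₀ : ℝ) ≤ s := by exact_mod_cast hs
  have hs1r : (1 : ℝ) ≤ s := hs₀1.trans hss
  have hs1 : 1 ≤ s := by exact_mod_cast hs1r
  have hsq : (s : ℝ) ≤ (s : ℝ) ^ 2 := by nlinarith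
  have hA : C₁ * lam ≤ (s : ℝ) ^ 2 := ((((le_max_right _ _).trans (le_max_left _ _)).trans hs₀).trans hss).trans hsq
  have hB : lam ≤ (s : ℝ) ^ 2 := ((((le_max_left _ _).trans (le_max_right _ _)).trans hs₀).trans hss).trans hsq
  have hC : C₁ * lam ^ 2 / s ≤ q₀ := by
    have h1 : C₁ * lam ^ 2 / q₀ ≤ s := (((le_max_right _ _).trans (le_max_right _ _)).trans hs₀).trans hss
    rw [div_le_iff₀ hq₀] at h1
    rw [div_le_iff₀ (by linarith)]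
    linarith
  have hq0 : 0 ≤ C₁ * lam ^ 2 / s := by positivity
  obtain ⟨ν₀, hν₀⟩ := hfin Γ J hconf lam s hlam1 hs1 hA q₀ hq₀
  have h : ShStd a b ν Γ J lam s K g' ν' := ⟨hS, hIn, hΓ, hconf, hlam0, hs1, hg, hc⟩
  have hχ : shCb a K lam s * (2 * shV a K (n₁ * n₂)) < χ₀ := by
    have h1 := psl_Cb_le ha K hlam0 s hB
    rw [← hCb] at h1
    have h2 : shCb a K lam s * (2 * shV a K (n₁ * n₂)) ≤ Cb / lam * (2 * shV a K (n₁ * n₂)) :=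
      mul_le_mul_of_nonneg_right h1 (by positivity)
    refine lt_of_le_of_lt h2 ?_
    rw [div_lt_iff₀ hχ₀] at hlam2
    rw [div_mul_eq_mul_div, div_lt_iff₀ hlam0]
    linarith
  have e1 : ∀ᶠ k in atTop, ∀ κ ∈ shCB Γ J, ∀ X : ((shLaw s Γ J lam (g' k)).sys (b k)).L →+ ℝ,
      (shLaw s Γ J lam (g' k)).Lift (b k) (shAvg s Γ (g' k) κ) X →
      shGam K b₁ ≤ Real.exp (-(b k * shR K)) - ((shLaw s Γ J lam (g' k)).sys (b k)).phi X :=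
    (Filter.eventually_all_finset _).2 fun κ hκ => psh_gap h b₁ hb₁ hJ κ (Or.inl hκ)
  have e2 : ∀ᶠ k in atTop, ∀ κ ∈ shCI Γ, ∀ X : ((shLaw s Γ J lam (g' k)).sys (b k)).L →+ ℝ,
      (shLaw s Γ J lam (g' k)).Lift (b k) (shAvg s Γ (g' k) κ) X →
      shGam K b₁ ≤ Real.exp (-(b k * shR K)) - ((shLaw s Γ J lam (g' k)).sys (b k)).phi X :=
    (Filter.eventually_all_finset _).2 fun κ hκ => psh_gap h b₁ hb₁ hJ κ (Or.inr hκ)
  have e3 : ∀ᶠ k in atTop, ∀ κ ∈ shCB Γ J, ∀ κ' ∈ shCI Γ, ∀ X X' : ((shLaw s Γ J lam (g' k)).sys (b k)).L →+ ℝ,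
      (shLaw s Γ J lam (g' k)).Lift (b k) (shAvg s Γ (g' k) κ) X → (shLaw s Γ J lam (g' k)).Lift (b k) (shAvg s Γ (g' k) κ') X' →
      ((shLaw s Γ J lam (g' k)).sys (b k)).Cv 0 0 X X' ≤ χ₀ :=
    (Filter.eventually_all_finset _).2 fun κ hκ => (Filter.eventually_all_finset _).2 fun κ' hκ' => psh_chi h hlam1 κ κ' hκ hκ' χ₀ hχ
  filter_upwards [e1, e2, e3, hg.1.eventually_ge_atTop ν₀] with k k1 k2 k3 k4
  refine (hν₀ (g' k) (ν' k) k4 (hg.2 k).1 (hg.2 k).2 (b k) (h.b_pos k) (hb₁ k) (shGam K b₁) χ₀ η s₁ s₂ (psl_gam_pos K b₁) hχ₀.le hη hs₁ hs₂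
    k1 k2 k3).trans ?_
  exact har (C₁ * lam ^ 2 / s) q₀ hq0 hC hq₀.le le_rfl

theorem psl_adm_mono {m₁ m₂ : ℕ} {K K' : ℕ} (hK : K ≤ K') {g : ℕ → DGrid m₁ m₂} {ν' : ℕ → ℕ} (h : Admissible K g ν') : Admissible K' g ν' := by
  refine ⟨h.1, fun k => ⟨(h.2 k).1, ?_, ?_⟩⟩
  · intro i
    have h1 := (h.2 k).2.1 i
    have h2 : ((K * ν' k : ℕ) : ℤ) ≤ ((K' * ν' k : ℕ) : ℤ) := by exact_mod_cast Nat.mul_le_mul_right _ hK
    exact h1.trans h2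
  · intro j
    have h1 := (h.2 k).2.2 j
    have h2 : ((K * ν' k : ℕ) : ℤ) ≤ ((K' * ν' k : ℕ) : ℤ) := by exact_mod_cast Nat.mul_le_mul_right _ hK
    exact h1.trans h2

/-- **THEOREM C** ([C](3.28) + P3.8): the pin interaction vanishes under the band law (contract `T32.pn_in_band` of helper178). -/
theorem psh_dPin (hS : C3.Scen a b ν) (hIn : ShIn a b ν) (K : ℕ) : ∃ J : ℕ, ∀ (n₁ n₂ : ℕ) (Γ : CGeom n₁ n₂), Γ.NoDiag → ShConf Γ J →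
    ∀ A ⊆ shTg Γ J, ∀ ε > 0, ∃ lam₀ : ℝ, 0 < lam₀ ∧ ∀ lam ≥ lam₀, ∃ s₀ : ℕ, ∀ s ≥ s₀, ∀ (g' : ℕ → DGrid (s * n₁) (s * n₂)) (ν' : ℕ → ℕ),
      Admissible K g' ν' → C3.Comp ν ν' →
      ∀ᶠ k in atTop, (shLaw s Γ J lam (g' k)).dPin (b k) (shSites s Γ (g' k) A) (shSites s Γ (g' k) Γ.pin) ≤ ε := by
  obtain ⟨b₀, b₁, hb₀, hb⟩ := hS.b_cpt
  obtain ⟨J, hJ⟩ := psh_J_exists a hS.a_pos b₁ (max K 1)
  refine ⟨J, fun n₁ n₂ Γ hΓ hconf A hA ε hε => ?_⟩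
  obtain ⟨η, hη⟩ : ∃ η : ℝ, η = min (b₀ / 4) (ε / 2) := ⟨_, rfl⟩
  have hη0 : 0 < η := by rw [hη]; exact lt_min (by positivity) (by positivity)
  obtain ⟨p, hp⟩ : ∃ p : ℝ, p = 1 - Real.exp (-(ε / 2)) := ⟨_, rfl⟩
  have hp1 : p < 1 := by rw [hp]; have := Real.exp_pos (-(ε / 2)); linarith
  have hp0 : 0 < p := by
    rw [hp]
    have : Real.exp (-(ε / 2)) < 1 := by rw [Real.exp_lt_one_iff]; linarith
    linarith
  obtain ⟨lam₀, hl₀, H⟩ := psh_bad_lim hS hIn (max K 1) (le_max_right _ _) b₁ (fun k => (hb k).2) J hJ Γ hΓ hconf η p hη0 hp0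
  refine ⟨lam₀, by linarith, fun lam hlam => ?_⟩
  obtain ⟨s₀, hs₀, H'⟩ := H lam hlam
  refine ⟨s₀, fun s hs g' ν' hg hc => ?_⟩
  have hg' := psl_adm_mono (le_max_left K 1) hg
  filter_upwards [H' s hs g' ν' hg' hc, hg.1.eventually_ge_atTop 1] with k k1 k2
  have h4 : 4 * η ≤ b k := by
    have h1 : η ≤ b₀ / 4 := by rw [hη]; exact min_le_left _ _
    have := (hb k).1
    linarith
  have h5 := psh_dPin_fin (max K 1) s (hs₀.trans hs) Γ J hconf lam (by linarith) (g' k) (ν' k) k2 (hg'.2 k).1 (hg'.2 k).2 (b k)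
    (lt_of_lt_of_le hb₀ (hb k).1) η h4 A hA p hp1 k1
  have h6 : Real.log (1 - p) = -(ε / 2) := by
    rw [hp, sub_sub_cancel, Real.log_exp]
  have h7 : η ≤ ε / 2 := by rw [hη]; exact min_le_right _ _
  rw [h6] at h5
  linarith

end Main

end

end Claimed.Agent.R285.Pins
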