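import Claimed.Agent.R285.Pins.T31Main
import Claimed.Agent.R285.Pins.T31Den
import Claimed.Agent.R285.Pins.FpPhase

/-!
# ROW 285, PINS, package T31 (architect helper217).  FILE 7: THE INPUTS ARE LINKED; THE PIN-FREE CASE.   PAPER-FREE.     Plan of the package: header of `Pins/T31Geo.lean`.

This file does NOT depend on the exploration core (`Pins/CoreTop.lean`): CORE-LIM (`Pins/Shift*.lean`) may import it.
* `pn_t31f_geoIn_of` : `ShiftLimOn` on all components ⟹ `GeoIn` (DENSITY `pn_t31d_cell` + FP).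
* `pn_t31f_geoIn`    : pin-free geometries.
* `pn_t31_free_lap / var / phi / tilt` : the limits for pin-free `NoDiag` geometries, MOVING bounded rows with `UConf1`, tests `cellTest (t k) + gRow (∑_j s k j u j k)`, `u j` ambient `C2.Reg` shifts.
-/

set_option autoImplicit false

namespace Claimed.Agent.R285.Pins

open Filter Topology MeasureTheory Pot
open scoped Classical

noncomputable section

/-! ## 0. (former `Pins/FpT31.lean`, helper279) the two inputs `FPLap`, `FPPhase` of the package are PROVED -/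

/-- **INPUT FP-1 of T31.** -/
theorem pn_fp_FPLap {a : ℝ} {b : ℕ → ℝ} {ν : ℕ → ℕ} (hS : C2.ScaleCoef b ν a) : FPLap a b ν :=
  fun _ _ U Pn _ hUP K g hg u hu => pn_fp_lap hS (polyG U Pn) hUP K g hg u hu

/-- **INPUT FP-2 of T31.** -/
theorem pn_fp_FPPhase {a : ℝ} {b : ℕ → ℝ} {ν : ℕ → ℕ} (hF : C3.FreeIn a b ν) (hb : ∀ k, 0 < b k) : FPPhase b ν :=
  fun _ _ U Pn _ hUP K g hg l hl t Tb ht hq q X hX =>
    pn_fp_phase hF hb (polyG U Pn) hUP K g hg t Tb ht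
      (fun k => by
        have h1 : ∑ κ ∈ (polyG U Pn).T, t k κ = (l : ℝ) := hq k
        rw [h1]
        exact_mod_cast hl) q X hX

/-- both from a scenario -/
theorem pn_fp_of_scen {a : ℝ} {b : ℕ → ℝ} {ν : ℕ → ℕ} (hS : C3.Scen a b ν) : FPLap a b ν ∧ FPPhase b ν := by
  obtain ⟨b₀, b₁, h0, hb⟩ := hS.b_cpt
  exact ⟨pn_fp_FPLap hS.coef, pn_fp_FPPhase hS.free fun k => lt_of_lt_of_le h0 (hb k).1⟩

variable {m₁ m₂ : ℕ} {a : ℝ} {b : ℕ → ℝ} {ν : ℕ → ℕ}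

theorem pn_t31f_b_pos (hS : C3.Scen a b ν) (k : ℕ) : 0 < b k := by
  obtain ⟨b₀, b₁, h0, h⟩ := hS.b_cpt
  exact lt_of_lt_of_le h0 (h k).1

/-- DENSITY in the form of the interface -/
theorem pn_t31f_compOn (hS : C3.Scen a b ν) {U : Finset (C3.Cell m₁ m₂)} (Pn : Finset (C3.Cell m₁ m₂)) (hU : Pot.Poly U) (hne : U.Nonempty)
    (hSL : ShiftLimOn a b ν U Pn) : CompLimOn a b ν U Pn := by
  intro K g hg t Tb ht u hu _
  have h := pn_t31d_cell hS.a_pos hS.b_cpt U Pn hU hne hSL K g hg (J := 1) (fun _ => u) (fun _ => hu) t (fun _ _ => 1) (max Tb 1)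
    (fun k κ => (ht k κ).trans (le_max_left _ _)) (fun _ _ => by rw [abs_one]; exact le_max_right _ _)
  have e : (fun k => (polyG U Pn).cellTest (g k) (t k) + ∑ _i : Fin 1, (1 : ℝ) • gRow (polyG U Pn) (g k) (u k)) =
      fun k => (polyG U Pn).cellTest (g k) (t k) + gRow (polyG U Pn) (g k) (u k) := by
    funext k
    simp
  rw [e] at h
  exact h

theorem pn_t31f_poly (Γ : CGeom m₁ m₂) (hΓ : Γ.NoDiag) {U : Finset (C3.Cell m₁ m₂)} (hU : U ∈ comps Γ) : Pot.Poly U := by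
  obtain ⟨κ₀, h0, rfl⟩ := Finset.mem_image.1 hU
  exact ro_poly_comp' Γ hΓ κ₀ h0

/-- shifts on all components ⟹ everything the geometry needs -/
theorem pn_t31f_geoIn_of (hS : C3.Scen a b ν) (Γ : CGeom m₁ m₂) (hΓ : Γ.NoDiag) (hSL : ∀ U ∈ comps Γ, ShiftLimOn a b ν U Γ.pin) :
    GeoIn a b ν Γ where
  comp := fun U hU => pn_t31f_compOn hS Γ.pin (pn_t31f_poly Γ hΓ hU) (pn_t31g_comps_nonempty Γ hU) (hSL U hU)
  phase := fun U hU => (pn_fp_of_scen hS).2 m₁ m₂ U Γ.pin (pn_t31f_poly Γ hΓ (Finset.mem_filter.1 hU).1) (Finset.mem_filter.1 hU).2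

theorem pn_t31f_comp_free (Γ : CGeom m₁ m₂) (hpin : Γ.T ∩ Γ.pin = ∅) {U : Finset (C3.Cell m₁ m₂)} (hU : U ∈ comps Γ) : U ∩ Γ.pin = ∅ := by
  rw [← Finset.subset_empty, ← hpin]
  exact Finset.inter_subset_inter_right (pn_t31g_comps_sub Γ hU)

/-- **pin-free geometries** -/
theorem pn_t31f_geoIn (hS : C3.Scen a b ν) (Γ : CGeom m₁ m₂) (hΓ : Γ.NoDiag) (hpin : Γ.T ∩ Γ.pin = ∅) : GeoIn a b ν Γ :=
  pn_t31f_geoIn_of hS Γ hΓ fun U hU K g hg u hu =>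
    (pn_fp_of_scen hS).1 m₁ m₂ U Γ.pin (pn_t31f_poly Γ hΓ hU) (pn_t31f_comp_free Γ hpin hU) K g hg u hu.1

/-- on a free polygon every `Reg` shift is of the class -/
theorem pn_t31f_shiftOK {U Pn : Finset (C3.Cell m₁ m₂)} (h : U ∩ Pn = ∅) {g : ℕ → DGrid m₁ m₂} {u : ℕ → ℤ × ℤ → ℝ}
    (hu : C2.Reg ν (fun k => roRc (g k)) u) : ShiftOK ν U Pn g u := by
  refine ⟨hu, 1, one_pos, fun k x _ hx => ?_⟩
  obtain ⟨y, hy, -⟩ := hx
  rw [h] at hy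
  simp [DGrid.region] at hy

theorem pn_t31f_shFam (Γ : CGeom m₁ m₂) (hpin : Γ.T ∩ Γ.pin = ∅) {g : ℕ → DGrid m₁ m₂} {J : ℕ} {u : Fin J → ℕ → ℤ × ℤ → ℝ}
    (hu : ∀ j, C2.Reg ν (fun k => roRc (g k)) (u j)) (hE : ∃ E : ℝ, ∀ k j, C3.dirT Γ (g k) (u j k) ≤ E) : ShFam Γ ν g u :=
  ⟨fun j _ hU => pn_t31f_shiftOK (pn_t31f_comp_free Γ hpin hU) (hu j), hE⟩

/-- no shift -/
theorem pn_t31f_shFam0 (Γ : CGeom m₁ m₂) (g : ℕ → DGrid m₁ m₂) (u : Fin 0 → ℕ → ℤ × ℤ → ℝ) : ShFam Γ ν g u :=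
  ⟨fun j => j.elim0, 0, fun _ j => j.elim0⟩

theorem pn_t31f_geoT0 (Γ : CGeom m₁ m₂) (g : ℕ → DGrid m₁ m₂) (u : Fin 0 → ℕ → ℤ × ℤ → ℝ) (t : ℕ → C3.Cell m₁ m₂ → ℝ) (s : ℕ → Fin 0 → ℝ) :
    geoT Γ g u t s = fun k => Γ.cellTest (g k) (t k) := by
  funext k
  have key : ∀ v : (Γ.graph (g k)).V, Γ.cellTest (g k) (t k) v + gRow Γ (g k) (fun x => ∑ j : Fin 0, s k j * u j k x) v =
      Γ.cellTest (g k) (t k) v := by
    intro v
    rw [pn_t31s_T_gRow_lin Γ (g k) (s k) (fun j => u j k) v]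
    simp
  exact funext key

/-! ## The pin-free exits (input of CORE-LIM) -/

section Free

variable (hS : C3.Scen a b ν) (Γ : CGeom m₁ m₂) (hΓ : Γ.NoDiag) (hpin : Γ.T ∩ Γ.pin = ∅)
    (K : ℕ) (g : ℕ → DGrid m₁ m₂) (hg : Admissible K g ν) {J : ℕ} (u : Fin J → ℕ → ℤ × ℤ → ℝ)
    (hu : ∀ j, C2.Reg ν (fun k => roRc (g k)) (u j)) (hE : ∃ E : ℝ, ∀ k j, C3.dirT Γ (g k) (u j k) ≤ E) {N : ℕ}
    (R : ℕ → Fin N → C3.Cell m₁ m₂ → ℝ) (hR : ∃ Rb : ℝ, ∀ k o κ, |R k o κ| ≤ Rb) (hU : UConf1 Γ R)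
    (hOk : ∀ k, ((C3.lawR Γ (g k) (R k)).sys (b k)).Ok)
    (t : ℕ → C3.Cell m₁ m₂ → ℝ) (s : ℕ → Fin J → ℝ) (Tb : ℝ) (ht : ∀ k κ, |t k κ| ≤ Tb) (hs : ∀ k j, |s k j| ≤ Tb)

include hS hΓ hpin hg hu hE hR hU hOk ht hs

theorem pn_t31_free_lap : LapLim a (fun k => C3.lawR Γ (g k) (R k)) b (geoT Γ g u t s) :=
  pn_t31_geo_lap hS.a_pos (pn_t31f_b_pos hS) Γ hΓ (pn_t31f_geoIn hS Γ hΓ hpin) K g hg u (pn_t31f_shFam Γ hpin hu hE) R hR hU hOk t s Tb ht hs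

theorem pn_t31_free_var : VarLim a (fun k => C3.lawR Γ (g k) (R k)) b (geoT Γ g u t s) :=
  pn_t31_geo_var hS.a_pos (pn_t31f_b_pos hS) Γ hΓ (pn_t31f_geoIn hS Γ hΓ hpin) K g hg u (pn_t31f_shFam Γ hpin hu hE) R hR hU hOk t s Tb ht hs

theorem pn_t31_free_phi : PhiLim a (fun k => C3.lawR Γ (g k) (R k)) b (geoT Γ g u t s) :=
  pn_t31_geo_phi hS.a_pos (pn_t31f_b_pos hS) Γ hΓ (pn_t31f_geoIn hS Γ hΓ hpin) K g hg u (pn_t31f_shFam Γ hpin hu hE) R hR hU hOk t s Tb ht hs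

theorem pn_t31_free_tilt (c : ℕ → Fin N → ℝ) (hc : ∀ k o, |c k o| ≤ Tb) : TiltLim a (fun k => C3.lawR Γ (g k) (R k)) b (geoT Γ g u t s) c :=
  pn_t31_geo_tilt hS.a_pos (pn_t31f_b_pos hS) Γ hΓ (pn_t31f_geoIn hS Γ hΓ hpin) K g hg u (pn_t31f_shFam Γ hpin hu hE) R hR hU hOk t s Tb ht hs c hc

end Free

/-! ## (former `Pins/T31In.lean`, helper279) -/

/-- `GeoIn` for pin-free geometries at every comparable scale (no exploration core) -/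
theorem pn_t31_shIn {a : ℝ} {b : ℕ → ℝ} {ν : ℕ → ℕ} (hS : C3.Scen a b ν) :
    ∀ (m₁ m₂ : ℕ) (Γ : CGeom m₁ m₂), Γ.NoDiag → Γ.pin = ∅ → ∀ ν' : ℕ → ℕ, C3.Comp ν ν' → GeoIn a b ν' Γ :=
  fun _ _ Γ hΓ hpin _ h => pn_t31f_geoIn (pn_t31_scen_comp hS h) Γ hΓ (by rw [hpin, Finset.inter_empty])

end

end Claimed.Agent.R285.Pins
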