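import Claimed.Agent.R285.Pins.ShiftLim
import Claimed.Agent.R285.Pins.T31Free
import Claimed.Agent.R285.Pins.Sub
import Claimed.Agent.R285.Pins.Fp

/-!
# ROW 285, PINS / CORE-LIM, PART (B3): THE MEDIUM LEVEL      (owner helper249).   `Pins/Plan.lean` s7-s8.

* `psh_grad_lim`  : variance and Laplace transform of the gradient test under the band law (`pn_t31_free_var/lap` + `psh_gVar_grad`);
* `psh_core_fine` : the lower bound in the FINE chart, for arbitrary fine grids;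
* `psh_chart_dirT`, `psh_chart_V0` : the bare law does not see a refinement of the chart;
* `psl_reg_ev` : `C2.Reg` at a comparable scale, data changed for finitely many `k`;
* **`psh_core`** : the lower bound at the MEDIUM level (geometry `Γ` with `ShConf Γ J`, shifts vanishing on `shNr Γ J`).
Consumer: `pn_core_low` (coarse → medium: helper235).
-/

set_option autoImplicit false

namespace Claimed.Agent.R285.Pins

open Filter Topology Pot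
open scoped Classical ENNReal

noncomputable section

variable {a : ℝ} {b : ℕ → ℝ} {ν : ℕ → ℕ} {n₁ n₂ : ℕ}

/-! ## 1. The gradient test under the band law -/

theorem psl_geoT_one {m₁ m₂ : ℕ} (Γ : CGeom m₁ m₂) (g : ℕ → DGrid m₁ m₂) (u : ℕ → ℤ × ℤ → ℝ) :
    geoT Γ g (fun _ : Fin 1 => u) (fun _ _ => 0) (fun _ _ => 1) = fun k => gRow Γ (g k) (u k) := by
  funext k
  have e1 : cmbU (fun _ : Fin 1 => u) (fun _ _ => 1) k = u k := by
    funext x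
    simp [cmbU]
  have e2 : Γ.cellTest (g k) (fun _ => 0) = 0 := by
    funext v
    simp [CGeom.cellTest]
  show Γ.cellTest (g k) (fun _ => 0) + gRow Γ (g k) (cmbU (fun _ : Fin 1 => u) (fun _ _ => 1) k) = _
  rw [e1, e2, zero_add]

variable {Γ : CGeom n₁ n₂} {J : ℕ} {lam : ℝ} {s K : ℕ} {g' : ℕ → DGrid (s * n₁) (s * n₂)} {ν' : ℕ → ℕ}

theorem psl_kb_sub_nr (Γ : CGeom n₁ n₂) (J : ℕ) : shKb Γ J ⊆ shNr Γ J := by
  intro κ hκ
  obtain ⟨hT, hB, -⟩ := Finset.mem_filter.1 hκ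
  refine Finset.mem_filter.2 ⟨hT, ?_⟩
  obtain ⟨-, κ', hκ', h⟩ := Finset.mem_filter.1 hB
  refine Finset.mem_filter.2 ⟨Finset.mem_univ _, κ', hκ', ?_⟩
  unfold shLe at h ⊢
  omega

/-- variance and Laplace transform of the gradient test under the band law -/
theorem psh_grad_lim (h : ShStd a b ν Γ J lam s K g' ν') (u : ℕ → ℤ × ℤ → ℝ) (hu : C2.Reg ν' (fun k => roRc (g' k)) u)
    (E₀ : ℝ) (hE : ∀ k, C3.dirT (shGeo s Γ) (g' k) (u k) ≤ E₀)
    (hv : ∀ k, ∀ x ∈ (g' k).region (S23.fine s (shKb Γ J)), u k x = 0) :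
    Tendsto (fun k => ((shLaw s Γ J lam (g' k)).sys (b k)).V0 (C3.gradT (shGeo s Γ) (shRow s (shKb Γ J) lam) (g' k) (b k) (u k))
      - a * C3.dirT (shGeo s Γ) (g' k) (u k)) atTop (𝓝 0) ∧
    Tendsto (fun k => lLap ((shLaw s Γ J lam (g' k)).sys (b k)) (C3.gradT (shGeo s Γ) (shRow s (shKb Γ J) lam) (g' k) (b k) (u k))
      - a * C3.dirT (shGeo s Γ) (g' k) (u k) / 2) atTop (𝓝 0) := by
  have hS' : C3.Scen a b ν' := pn_t31_scen_comp h.hS h.hc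
  have hpin : (shGeo s Γ).T ∩ (shGeo s Γ).pin = ∅ := by rw [psh_geo_pin, Finset.inter_empty]
  have hU := pn_t31r_uconf_fixed (shGeo s Γ) (shRow s (shKb Γ J) lam)
  have hL : ∀ k, (C3.lawR (shGeo s Γ) (g' k) (shRow s (shKb Γ J) lam)).Lift (b k)
      (geoT (shGeo s Γ) g' (fun _ : Fin 1 => u) (fun _ _ => 0) (fun _ _ => 1) k)
      (C3.gradT (shGeo s Γ) (shRow s (shKb Γ J) lam) (g' k) (b k) (u k)) := by
    intro k
    rw [psl_geoT_one]
    exact psh_lift_grad _ _ _ _ _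
  have hvar := pn_t31_free_var hS' (shGeo s Γ) (psl_geo_noDiag s Γ h.hΓ) hpin K g' h.hg (fun _ : Fin 1 => u) (fun _ => hu)
    ⟨E₀, fun k _ => hE k⟩ (fun _ => shRow s (shKb Γ J) lam) (psl_row_bd s _ lam) hU h.ok (fun _ _ => 0) (fun _ _ => 1) 1
    (fun _ _ => by simp) (fun _ _ => by simp) _ hL
  have hlap := pn_t31_free_lap hS' (shGeo s Γ) (psl_geo_noDiag s Γ h.hΓ) hpin K g' h.hg (fun _ : Fin 1 => u) (fun _ => hu)
    ⟨E₀, fun k _ => hE k⟩ (fun _ => shRow s (shKb Γ J) lam) (psl_row_bd s _ lam) hU h.ok (fun _ _ => 0) (fun _ _ => 1) 1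
    (fun _ _ => by simp) (fun _ _ => by simp) _ hL
  have e : ∀ k, (C3.lawR (shGeo s Γ) (g' k) (shRow s (shKb Γ J) lam)).gVar a
      (geoT (shGeo s Γ) g' (fun _ : Fin 1 => u) (fun _ _ => 0) (fun _ _ => 1) k) = a * C3.dirT (shGeo s Γ) (g' k) (u k) := by
    intro k
    rw [psl_geoT_one]
    exact psh_gVar_grad s Γ J lam (g' k) h.hS.a_pos (u k) (hv k)
  simp only [e] at hvar hlap
  exact ⟨hvar, hlap⟩

theorem psl_region_mono {m₁ m₂ : ℕ} (g : DGrid m₁ m₂) {A B : Finset (Fin m₁ × Fin m₂)} (h : A ⊆ B) : g.region A ⊆ g.region B := by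
  unfold DGrid.region
  exact Finset.biUnion_subset_biUnion_of_subset_left _ h

theorem psl_fine_mono (s : ℕ) {A B : Finset (Fin n₁ × Fin n₂)} (h : A ⊆ B) : S23.fine s A ⊆ S23.fine s B := by
  intro κ hκ
  rw [pn_sb_mem_fine] at hκ ⊢
  exact h hκ

/-- the choice of `η` and of the bound of the bad event -/
theorem psl_eta (m4 b₀ ε : ℝ) (hm : 0 < m4) (hb : 0 < b₀) (hε : 0 < ε) :
    ∃ η δ : ℝ, 0 < η ∧ 0 < δ ∧ 4 * η ≤ b₀ ∧ Real.sqrt m4 * Real.sqrt (Real.exp (4 * η) - 1) ≤ ε / 4 ∧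
      ∀ x : ℝ, x ≤ δ → Real.sqrt m4 * Real.sqrt x ≤ ε / 4 := by
  have hs : 0 < Real.sqrt m4 := Real.sqrt_pos.2 hm
  obtain ⟨δ, hδ⟩ : ∃ δ : ℝ, δ = (ε / (4 * Real.sqrt m4)) ^ 2 := ⟨_, rfl⟩
  have hδ0 : 0 < δ := by rw [hδ]; positivity
  have key : ∀ x : ℝ, x ≤ δ → Real.sqrt m4 * Real.sqrt x ≤ ε / 4 := by
    intro x hx
    have h1 : Real.sqrt x ≤ ε / (4 * Real.sqrt m4) := by
      rw [← Real.sqrt_sq (by positivity : (0 : ℝ) ≤ ε / (4 * Real.sqrt m4)), ← hδ]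
      exact Real.sqrt_le_sqrt hx
    calc Real.sqrt m4 * Real.sqrt x ≤ Real.sqrt m4 * (ε / (4 * Real.sqrt m4)) := mul_le_mul_of_nonneg_left h1 hs.le
      _ = ε / 4 := by field_simp
  have hl : 0 < Real.log (1 + δ) := Real.log_pos (by linarith)
  refine ⟨min (b₀ / 4) (Real.log (1 + δ) / 4), δ, lt_min (by positivity) (by positivity), hδ0, ?_, key _ ?_, key⟩
  · have := min_le_left (b₀ / 4) (Real.log (1 + δ) / 4)
    linarith
  · have h1 := min_le_right (b₀ / 4) (Real.log (1 + δ) / 4)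
    have h2 : Real.exp (4 * min (b₀ / 4) (Real.log (1 + δ) / 4)) ≤ Real.exp (Real.log (1 + δ)) := Real.exp_le_exp.2 (by linarith)
    rw [Real.exp_log (by linarith)] at h2
    linarith

/-- **the lower bound in the fine chart** -/
theorem psh_core_fine (hS : C3.Scen a b ν) (K : ℕ) (hK : 1 ≤ K) (b₁ : ℝ) (hb₁ : ∀ k, b k ≤ b₁) (J : ℕ) (hJ : ShJ a b₁ K J)
    (Γ : CGeom n₁ n₂) (hΓ : Γ.NoDiag) (hconf : ShConf Γ J) (E₀ ε : ℝ) (hε : 0 < ε) :
    ∃ s₀ : ℕ, 1 ≤ s₀ ∧ ∀ s ≥ s₀, ∀ (g' : ℕ → DGrid (s * n₁) (s * n₂)) (ν' : ℕ → ℕ), Admissible K g' ν' → C3.Comp ν ν' →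
      ∀ u : ℕ → ℤ × ℤ → ℝ, C2.Reg ν' (fun k => roRc (g' k)) u → (∀ k, C3.dirT (shGeo s Γ) (g' k) (u k) ≤ E₀) →
      (∀ k, ∀ x ∈ (g' k).region (S23.fine s (shNr Γ J)), u k x = 0) →
      ∀ᶠ k in atTop, a * C3.dirT (shGeo s Γ) (g' k) (u k) - ε ≤
        ((C3.lawR (S23.refine s Γ) (g' k) C3.noRow).sys (b k)).V0 (C3.gradT (S23.refine s Γ) C3.noRow (g' k) (b k) (u k)) := by
  have ha := hS.a_pos
  obtain ⟨b₀, _, hb₀, hb⟩ := hS.b_cpt
  obtain ⟨m4, hm4⟩ : ∃ m4 : ℝ, m4 = 48 * Real.exp (a * E₀ / 2 + 1) := ⟨_, rfl⟩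
  have hm40 : 0 < m4 := by rw [hm4]; positivity
  obtain ⟨η, δ, hη, hδ, hηb, h1, h2⟩ := psl_eta m4 b₀ ε hm40 hb₀ hε
  obtain ⟨lam, hlam1, hl⟩ := psh_bad_lim hS (pn_t31_shIn hS) K hK b₁ hb₁ J hJ Γ hΓ hconf η δ hη hδ
  obtain ⟨s₀, hs₀, hs⟩ := hl lam le_rfl
  have hlam : 0 < lam := by linarith
  refine ⟨s₀, hs₀, fun s hss g' ν' hg hc u hu hE hv => ?_⟩
  have hs1 : 1 ≤ s := hs₀.trans hss
  have hstd : ShStd a b ν Γ J lam s K g' ν' := ⟨hS, pn_t31_shIn hS, hΓ, hconf, hlam, hs1, hg, hc⟩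
  obtain ⟨hvar, hlap⟩ := psh_grad_lim hstd u hu E₀ hE
    (fun k x hx => hv k x (psl_region_mono _ (psl_fine_mono s (psl_kb_sub_nr Γ J)) hx))
  have ev1 := (tendsto_order.1 hvar).1 (-(ε / 4)) (by linarith)
  have ev2 := (tendsto_order.1 hlap).2 1 one_pos
  have ev3 := hs s hss g' ν' hg hc
  have ev4 : ∀ᶠ k in atTop, 1 ≤ ν' k := hg.1.eventually_ge_atTop 1
  filter_upwards [ev1, ev2, ev3, ev4] with k k1 k2 k3 k4
  have hbk : 0 < b k := lt_of_lt_of_le hb₀ (hb k).1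
  have hm : 48 * ((shLaw s Γ J lam (g' k)).sys (b k)).E0
      (fun z => Real.exp (C3.gradT (shGeo s Γ) (shRow s (shKb Γ J) lam) (g' k) (b k) (u k) z)) ≤ m4 := by
    rw [hm4]
    refine mul_le_mul_of_nonneg_left ?_ (by norm_num)
    refine (Real.le_exp_log _).trans (Real.exp_le_exp.2 ?_)
    have e : Real.log (((shLaw s Γ J lam (g' k)).sys (b k)).E0
        (fun z => Real.exp (C3.gradT (shGeo s Γ) (shRow s (shKb Γ J) lam) (g' k) (b k) (u k) z)))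
        = lLap ((shLaw s Γ J lam (g' k)).sys (b k)) (C3.gradT (shGeo s Γ) (shRow s (shKb Γ J) lam) (g' k) (b k) (u k)) := rfl
    rw [e]
    have := mul_le_mul_of_nonneg_left (hE k) ha.le
    linarith
  have hX := psh_X1 K s hs1 Γ J hconf lam hlam (g' k) (ν' k) k4 (hg.2 k).1 (hg.2 k).2 (b k) hbk η (hηb.trans (hb k).1) (u k) (hv k) m4 hm
  have h3 := h2 _ k3
  rw [mul_add] at hX
  linarith

/-! ## 2. Charts -/

/-- the bare variance of the gradient test as a function of the sites, the cut bonds and the pinned sites -/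
def shVarD (β : ℝ) (D : Finset (ℤ × ℤ)) (cut : Set Bond) (P : Set (ℤ × ℤ)) (R : Fin 0 → ℤ × ℤ → ℝ) (u : ℤ × ℤ → ℝ) : ℝ :=
  ((sbLaw D cut P R).sys β).V0 (C2.flowS ((sbLaw D cut P R).sys β) fun e => 2 * Real.pi * C2.gd u (domBond (D := D) (cut := cut) e))

/-- the Dirichlet energy as a function of the sites and the cut bonds -/
def shDirD (D : Finset (ℤ × ℤ)) (cut : Set Bond) (u : ℤ × ℤ → ℝ) : ℝ :=
  ∑ e : (domG D cut).E, C2.gd u (domBond (D := D) (cut := cut) e) ^ 2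

theorem psl_med_forced : True := by
  have := @shVarD.eq_1; have := @shDirD.eq_1
  trivial

theorem psl_V0_eq {m₁ m₂ : ℕ} (Γ : CGeom m₁ m₂) (g : DGrid m₁ m₂) (β : ℝ) (u : ℤ × ℤ → ℝ) :
    ((C3.lawR Γ g C3.noRow).sys β).V0 (C3.gradT Γ C3.noRow g β u)
      = shVarD β (g.region Γ.T) (Γ.cutB g) (↑(g.region Γ.pin) : Set (ℤ × ℤ)) (fun o => sbCT Γ.T g (C3.noRow o)) u := rfl

theorem psl_dirT_eq {m₁ m₂ : ℕ} (Γ : CGeom m₁ m₂) (g : DGrid m₁ m₂) (u : ℤ × ℤ → ℝ) :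
    C3.dirT Γ g u = shDirD (g.region Γ.T) (Γ.cutB g) u := rfl

/-- the Dirichlet energy does not see the refinement -/
theorem psh_chart_dirT {m₁ m₂ r : ℕ} {g' : DGrid (r * m₁) (r * m₂)} {g : DGrid m₁ m₂} (h : S23.Refines r g' g) (Γ : CGeom m₁ m₂)
    (u : ℤ × ℤ → ℝ) : C3.dirT (S23.refine r Γ) g' u = C3.dirT Γ g u := by
  rw [psl_dirT_eq, psl_dirT_eq, pn_sb_cut h Γ]
  show shDirD (g'.region (S23.fine r Γ.T)) _ u = _
  rw [pn_sb_region h]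

/-- the bare law does not see the refinement -/
theorem psh_chart_V0 {m₁ m₂ r : ℕ} {g' : DGrid (r * m₁) (r * m₂)} {g : DGrid m₁ m₂} (h : S23.Refines r g' g) (Γ : CGeom m₁ m₂)
    (β : ℝ) (u : ℤ × ℤ → ℝ) :
    ((C3.lawR (S23.refine r Γ) g' C3.noRow).sys β).V0 (C3.gradT (S23.refine r Γ) C3.noRow g' β u)
      = ((C3.lawR Γ g C3.noRow).sys β).V0 (C3.gradT Γ C3.noRow g β u) := by
  rw [psl_V0_eq, psl_V0_eq, pn_sb_cut h Γ]
  show shVarD β (g'.region (S23.fine r Γ.T)) _ (↑(g'.region (S23.fine r Γ.pin)) : Set (ℤ × ℤ)) _ u = _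
  rw [pn_sb_region h, pn_sb_region h]
  congr 1
  exact Subsingleton.elim _ _

/-- the pins do not enter the Dirichlet energy -/
theorem psl_dirT_free (s : ℕ) (Γ : CGeom n₁ n₂) (g' : DGrid (s * n₁) (s * n₂)) (u : ℤ × ℤ → ℝ) :
    C3.dirT (shGeo s Γ) g' u = C3.dirT (S23.refine s Γ) g' u := rfl

/-! ## 3. Regular shifts -/

theorem psl_div_comp (M : ℝ) (n n' c : ℕ) (h1 : n ≤ c * n') (h2 : n' ≤ c * n) :
    M / n ≤ (((c : ℝ) ^ 2 + c) * |M|) / n' ∧ M / (n : ℝ) ^ 2 ≤ (((c : ℝ) ^ 2 + c) * |M|) / (n' : ℝ) ^ 2 := by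
  rcases Nat.eq_zero_or_pos n' with rfl | hn'
  · have : n = 0 := by omega
    subst this
    simp
  have hn : 0 < n := by
    rcases Nat.eq_zero_or_pos n with rfl | h
    · omega
    · exact h
  have hnR : (0 : ℝ) < n := by exact_mod_cast hn
  have hnR' : (0 : ℝ) < n' := by exact_mod_cast hn'
  have h2R : (n' : ℝ) ≤ c * n := by exact_mod_cast h2
  have hM := abs_nonneg M
  have hM' := le_abs_self M
  have hc : (0 : ℝ) ≤ c := Nat.cast_nonneg c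
  constructor
  · rw [div_le_div_iff₀ hnR hnR']
    calc M * n' ≤ |M| * n' := mul_le_mul_of_nonneg_right hM' hnR'.le
      _ ≤ |M| * (c * n) := mul_le_mul_of_nonneg_left h2R hM
      _ ≤ ((c : ℝ) ^ 2 + c) * |M| * n := by nlinarith [mul_nonneg (mul_nonneg (sq_nonneg (c : ℝ)) hM) hnR.le]
  · rw [div_le_div_iff₀ (by positivity) (by positivity)]
    have h3 : (n' : ℝ) ^ 2 ≤ (c * n) ^ 2 := pow_le_pow_left₀ hnR'.le h2R 2
    calc M * (n' : ℝ) ^ 2 ≤ |M| * (n' : ℝ) ^ 2 := mul_le_mul_of_nonneg_right hM' (by positivity)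
      _ ≤ |M| * ((c : ℝ) * n) ^ 2 := mul_le_mul_of_nonneg_left h3 hM
      _ ≤ ((c : ℝ) ^ 2 + c) * |M| * (n : ℝ) ^ 2 := by nlinarith [mul_nonneg (mul_nonneg hc hM) (sq_nonneg (n : ℝ))]

theorem psl_c2bd_zero (M : ℝ) (hM : 0 ≤ M) (n : ℕ) (R : C2.Rc) : C2.C2bd M n R 0 := by
  have hz : ∀ e : Bond, C2.gd (0 : ℤ × ℤ → ℝ) e = 0 := fun e => by simp [C2.gd]
  refine ⟨fun e _ => ?_, fun e _ u _ _ => ?_⟩
  · rw [hz, abs_zero]; positivity
  · rw [hz, hz, sub_zero, abs_zero]; positivity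

/-- `C2.Reg` at a comparable scale, data changed for finitely many `k` -/
theorem psl_reg_ev {n n' : ℕ → ℕ} {R R' : ℕ → C2.Rc} {u u' : ℕ → ℤ × ℤ → ℝ} (h : C2.Reg n R u) (hc : C3.Comp n n')
    (hev : ∀ᶠ k in atTop, R' k = R k ∧ u' k = u k) : C2.Reg n' R' u' := by
  intro ε hε
  obtain ⟨M, γ, hγ, hd⟩ := h ε hε
  obtain ⟨c, hc⟩ := hc
  refine ⟨((c : ℝ) ^ 2 + c) * |M|, fun k => if R' k = R k then γ k else 0, fun k => ?_, ?_⟩
  · by_cases hk : R' k = R k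
    · simp only [if_pos hk]
      rw [hk]
      obtain ⟨d1, d2⟩ := psl_div_comp M (n k) (n' k) c (hc k).1 (hc k).2
      exact ⟨fun e he => ((hγ k).1 e he).trans d1, fun e he u hu hu' => ((hγ k).2 e he u hu hu').trans d2⟩
    · simp only [if_neg hk]
      exact psl_c2bd_zero _ (by positivity) _ _
  · filter_upwards [hd, hev] with k k1 k2
    simp only [if_pos k2.1]
    rw [k2.1, k2.2]
    exact k1

theorem psl_roRc {m₁ m₂ r : ℕ} {g' : DGrid (r * m₁) (r * m₂)} {g : DGrid m₁ m₂} (h : S23.Refines r g' g) : roRc g' = roRc g := by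
  have a1 : g'.x₁ 0 = g.x₁ 0 := h.1 0 0 (by simp)
  have a2 : g'.x₂ 0 = g.x₂ 0 := h.2 0 0 (by simp)
  have a3 : g'.x₁ (Fin.last _) = g.x₁ (Fin.last _) := h.1 (Fin.last _) (Fin.last _) (by simp)
  have a4 : g'.x₂ (Fin.last _) = g.x₂ (Fin.last _) := h.2 (Fin.last _) (Fin.last _) (by simp)
  unfold roRc
  rw [a1, a2, a3, a4]

theorem psl_dirT_zero {m₁ m₂ : ℕ} (Γ : CGeom m₁ m₂) (g : DGrid m₁ m₂) : C3.dirT Γ g 0 = 0 := by
  simp [C3.dirT, C2.gd]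

/-! ## 4. The medium level -/

/-- **THE LOWER BOUND AT THE MEDIUM LEVEL.**   `Γ` = medium geometry with pins, every component of which meets the band `{d = J + 2}`; the shifts vanish (eventually) on the cells of `Γ.T` at index distance `≤ 2J + 5` from the pins. -/
theorem psh_core (hS : C3.Scen a b ν) (K : ℕ) (b₁ : ℝ) (hb₁ : ∀ k, b k ≤ b₁) (J : ℕ) (hJ : ShJ a b₁ (2 * K + 1) J)
    (Γ : CGeom n₁ n₂) (hΓ : Γ.NoDiag) (hconf : ShConf Γ J) (g : ℕ → DGrid n₁ n₂) (ν₁ : ℕ → ℕ) (hg : Admissible K g ν₁)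
    (hc : C3.Comp ν ν₁) (u : ℕ → ℤ × ℤ → ℝ) (hu : C2.Reg ν₁ (fun k => roRc (g k)) u)
    (hv : ∀ᶠ k in atTop, ∀ x ∈ (g k).region (shNr Γ J), u k x = 0) (ε : ℝ) (hε : 0 < ε) :
    ∀ᶠ k in atTop, a * C3.dirT Γ (g k) (u k) - ε ≤
      ((C3.lawR Γ (g k) C3.noRow).sys (b k)).V0 (C3.gradT Γ C3.noRow (g k) (b k) (u k)) := by
  obtain ⟨C, hC⟩ := pn_fp_reg_bdd hg.1 _ (pn_fp_adm_rc hg) hu
  obtain ⟨s, hs1, hs⟩ := psh_core_fine hS (2 * K + 1) (by omega) b₁ hb₁ J hJ Γ hΓ hconf (max C 0) ε hε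
  have hs0 : 0 < s := hs1
  obtain ⟨good, hgd⟩ : ∃ good : ℕ → Prop, good = fun k =>
      sbOK s (g k) ∧ (roRc (g k)).dir (u k) ≤ C ∧ ∀ x ∈ (g k).region (shNr Γ J), u k x = 0 := ⟨_, rfl⟩
  have hgood : ∀ᶠ k in atTop, good k := by
    rw [hgd]
    exact (pn_sb_ev hg hs0).and (hC.and hv)
  have hg1 : ∀ k, good k → S23.Refines s (sbG s (g k)) (g k) := by
    intro k hk
    rw [hgd] at hk
    exact pn_sb_refines hs0 hk.1
  obtain ⟨u', hu'⟩ : ∃ u' : ℕ → ℤ × ℤ → ℝ, u' = fun k => if good k then u k else 0 := ⟨_, rfl⟩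
  have e1 : ∀ k, good k → u' k = u k := fun k hk => by rw [hu']; exact if_pos hk
  have e0 : ∀ k, ¬ good k → u' k = 0 := fun k hk => by rw [hu']; exact if_neg hk
  have hreg : C2.Reg (fun k => sbNu s (ν₁ k)) (fun k => roRc (sbG s (g k))) u' :=
    psl_reg_ev hu (pn_sb_comp ν₁ hs0) (hgood.mono fun k hk => ⟨psl_roRc (hg1 k hk), e1 k hk⟩)
  have hen : ∀ k, C3.dirT (shGeo s Γ) (sbG s (g k)) (u' k) ≤ max C 0 := by
    intro k
    by_cases hk : good k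
    · rw [e1 k hk, psl_dirT_free, psh_chart_dirT (hg1 k hk)]
      have h2 : (roRc (g k)).dir (u k) ≤ C := by
        rw [hgd] at hk
        exact hk.2.1
      exact ((pn_fp_dirT_le Γ (g k) (u k)).trans h2).trans (le_max_left _ _)
    · rw [e0 k hk, psl_dirT_zero]
      exact le_max_right _ _
  have hvan : ∀ k, ∀ x ∈ (sbG s (g k)).region (S23.fine s (shNr Γ J)), u' k x = 0 := by
    intro k x hx
    by_cases hk : good k
    · rw [pn_sb_region (hg1 k hk)] at hx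
      rw [e1 k hk]
      rw [hgd] at hk
      exact hk.2.2 x hx
    · rw [e0 k hk]
      rfl
  have key := hs s le_rfl (fun k => sbG s (g k)) (fun k => sbNu s (ν₁ k)) (pn_sb_adm hg hs0)
    (pn_t31m_sc_trans hc (pn_sb_comp ν₁ hs0)) u' hreg hen hvan
  filter_upwards [key, hgood] with k k1 k2
  rw [e1 k k2, psl_dirT_free, psh_chart_dirT (hg1 k k2), psh_chart_V0 (hg1 k k2)] at k1
  exact k1

end

end Claimed.Agent.R285.Pins
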