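import Claimed.Agent.R285.Pins.T31Law
import Claimed.Agent.R285.Read.C3Defs
import Claimed.Agent.R285.Pot.RoDefs
import Claimed.Agent.R285.Pot.RoGeo
import Claimed.Agent.R285.Pot.RoComp

/-!
# ROW 285, PINS, package T31 = [C] Theorem 3.1 (architect helper217).  FILE 3: GEOMETRY.   VOCABULARY + INTERFACES + COMPONENTS.   PAPER-FREE.

Every `sorry` is a LEAF (`L-T31G-*`, name in the docstring); statements frozen (tell helper217 at once if one looks false or awkward); prove IN PLACE, helpers directly above, prefix `pn_t31g_<leaf>_`.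

## PLAN OF THE PACKAGE (files T31Lib, T31Law [abstract, closed], T31Geo, T31Ref, T31Comp, T31Main, T31Rat, T31)
 INPUTS (owners outside): `FPLap`, `FPPhase` (free polygons, helper279), `CoreLow` (exploration core, helper249), `Pot.pot_regopt` (helper170), `C2.reg_smear`, `Sec.avg_adjacent`.
 1. `polyG U Pn` = the plain polygon `U` (all n.n. bonds of `g.region U`, no cut) with pinned cells `Pn`.   The components of a `NoDiag` geometry are such polygons (`Pot.ro_poly_comp`, `Pot.ro_bonds_comp`).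
 2. SHIFTS.  `ShiftLimOn a b ν U Pn`: Laplace limit `lLap (gradT u) - a/2 dirT u → 0` for ambient `Reg` shifts vanishing in a `δν`-collar of the pins.  Free polygon: `FPLap`.  Pinned: upper bound = release the pins (`refSub`) + `FPLap`,
    lower bound = `lsys_laplace_lower` + `CoreLow`.                                                                                  (T31Comp)
 3. CELL TESTS on a polygon: the test is the gradient test of `v` = optimiser / a; `pot_regopt` gives an ambient `w` close to `v` in energy, `Reg` by `reg_smear`; abstract density lemma `pn_t31_dense`.      (T31Comp)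
 4. COMPONENTS: `(lawR Γ g noRow).sys` is the product of the systems of its components (two `LSys.Ref` with `Free.pi`): `pn_t31_split_*`.       (this file)
 5. REFERENCE BOUNDS (`BD`, `OB`, properness) from the UNIFORM CONFINEMENT `UConf1` and `Sec.avg_adjacent`.                (T31Ref)
 6. ROWS: `pn_t31_rows` for the scenario `geoX Γ g b u` (basic tests = cell averages and finitely many gradient tests).   (T31Main)      7. partition ratios (T31Rat).      8. exits = `C3.mixed_*` verbatim + moving rows (T31).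
-/

set_option autoImplicit false

namespace Claimed.Agent.R285.Pins

open Filter Topology MeasureTheory Pot
open scoped Classical

noncomputable section

variable {m₁ m₂ : ℕ}

/-! ## 1. Polygons -/

/-- the plain polygon `U` with pinned cells `Pn` (only `U ∩ Pn` matters): all n.n. bonds of `g.region U`, no cut, no box -/
def polyG (U Pn : Finset (C3.Cell m₁ m₂)) : CGeom m₁ m₂ where
  T := U
  cutF := ∅
  pin := Pn
  nObs := 0
  box := Fin.elim0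
  wgt := Fin.elim0

/-- the massless law of a polygon -/
def plaw (U Pn : Finset (C3.Cell m₁ m₂)) (g : DGrid m₁ m₂) : HLaw ((polyG U Pn).graph g) := C3.lawR (polyG U Pn) g C3.noRow

/-- its system -/
def psys (U Pn : Finset (C3.Cell m₁ m₂)) (g : DGrid m₁ m₂) (β : ℝ) : LSys := (plaw U Pn g).sys β

/-- the gradient test of an ambient shift on a polygon -/
def pgrad (U Pn : Finset (C3.Cell m₁ m₂)) (g : DGrid m₁ m₂) (β : ℝ) (u : ℤ × ℤ → ℝ) : (psys U Pn g β).L →+ ℝ :=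
  C3.gradT (polyG U Pn) C3.noRow g β u

/-- the Dirichlet energy of an ambient shift on a polygon -/
def pdir (U Pn : Finset (C3.Cell m₁ m₂)) (g : DGrid m₁ m₂) (u : ℤ × ℤ → ℝ) : ℝ := C3.dirT (polyG U Pn) g u

/-- restriction of an ambient function to the vertices of a geometry -/
def amb (Γ : CGeom m₁ m₂) (g : DGrid m₁ m₂) {α : Type} (u : ℤ × ℤ → α) : (Γ.graph g).V → α :=
  domFn (D := g.region Γ.T) (cut := Γ.cutB g) u

/-- position of a vertex of a geometry -/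
def vpos (Γ : CGeom m₁ m₂) (g : DGrid m₁ m₂) (v : (Γ.graph g).V) : ℤ × ℤ := domPos (D := g.region Γ.T) (cut := Γ.cutB g) v

/-- the vertex at a position -/
def vmk (Γ : CGeom m₁ m₂) (g : DGrid m₁ m₂) (x : ℤ × ℤ) (hx : x ∈ g.region Γ.T) : (Γ.graph g).V := Subtype.mk x hx

/-- the row vector of the gradient test of an ambient shift -/
def gRow (Γ : CGeom m₁ m₂) (g : DGrid m₁ m₂) (u : ℤ × ℤ → ℝ) : (Γ.graph g).V → ℝ := HLaw.gradRow (amb Γ g u)

/-! ## 2. THE INTERFACES -/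

/-- the class of shifts: ambient, `Reg` on the enclosing rectangle of the grid, vanishing on the sites of the polygon within `δ ν` of the pinned cells -/
def ShiftOK (ν : ℕ → ℕ) (U Pn : Finset (C3.Cell m₁ m₂)) (g : ℕ → DGrid m₁ m₂) (u : ℕ → ℤ × ℤ → ℝ) : Prop :=
  C2.Reg ν (fun k => roRc (g k)) u ∧
    ∃ δ : ℝ, 0 < δ ∧ ∀ k, ∀ x ∈ (g k).region U, roNear ((g k).region (U ∩ Pn)) (δ * ν k) x → u k x = 0

/-- **INPUT FP-1 (helper279)**: Laplace limit of gradient tests of ambient regular shifts on FREE polygons.   NOTE: the grids may sit anywhere in `ℤ²` (`C2.Adm` wants them near the origin: translate, `C2.rc_translate`). -/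
def FPLap (a : ℝ) (b : ℕ → ℝ) (ν : ℕ → ℕ) : Prop :=
  ∀ (m₁ m₂ : ℕ) (U Pn : Finset (C3.Cell m₁ m₂)), Pot.Poly U → U ∩ Pn = ∅ → ∀ (K : ℕ) (g : ℕ → DGrid m₁ m₂), Admissible K g ν →
    ∀ u : ℕ → ℤ × ℤ → ℝ, C2.Reg ν (fun k => roRc (g k)) u →
      Tendsto (fun k => lLap (psys U Pn (g k) (b k)) (pgrad U Pn (g k) (b k) (u k)) - a / 2 * pdir U Pn (g k) (u k)) atTop (𝓝 0)

/-- **INPUT FP-2 (helper279)**: vanishing characters of a fixed nonzero integer total charge on FREE polygons (`lsys_phi_mono` to the enclosing rectangle, `C2.uniform_phase`). -/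
def FPPhase (b : ℕ → ℝ) (ν : ℕ → ℕ) : Prop :=
  ∀ (m₁ m₂ : ℕ) (U Pn : Finset (C3.Cell m₁ m₂)), Pot.Poly U → U ∩ Pn = ∅ → ∀ (K : ℕ) (g : ℕ → DGrid m₁ m₂), Admissible K g ν →
    ∀ l : ℤ, l ≠ 0 → ∀ (t : ℕ → C3.Cell m₁ m₂ → ℝ) (Tb : ℝ), (∀ k κ, |t k κ| ≤ Tb) → (∀ k, ∑ κ ∈ U, t k κ = (l : ℝ)) →
    ∀ (q : ∀ k, ((polyG U Pn).graph (g k)).V → ℤ) (X : ∀ k, (psys U Pn (g k) (b k)).L →+ ℝ),
      (∀ k, (plaw U Pn (g k)).Lift (b k) ((polyG U Pn).cellTest (g k) (t k) - C3.ptRow (q k)) (X k)) →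
      Tendsto (fun k => (psys U Pn (g k) (b k)).phi (X k)) atTop (𝓝 0)

/-- **INPUT CORE (helper249)**: under the hard pins a regular ambient shift which vanishes near the pins keeps the variance `a 𝓔(u)`. -/
def CoreLow (a : ℝ) (b : ℕ → ℝ) (ν : ℕ → ℕ) : Prop :=
  ∀ (m₁ m₂ : ℕ) (U Pn : Finset (C3.Cell m₁ m₂)), Pot.Poly U → (U ∩ Pn).Nonempty → ∀ (K : ℕ) (g : ℕ → DGrid m₁ m₂), Admissible K g ν →
    ∀ u : ℕ → ℤ × ℤ → ℝ, ShiftOK ν U Pn g u → ∀ ε : ℝ, 0 < ε →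
      ∀ᶠ k in atTop, a * pdir U Pn (g k) (u k) - ε ≤ (psys U Pn (g k) (b k)).V0 (pgrad U Pn (g k) (b k) (u k))

/-- Laplace limit of the gradient tests of all shifts of the class, on ONE polygon -/
def ShiftLimOn (a : ℝ) (b : ℕ → ℝ) (ν : ℕ → ℕ) (U Pn : Finset (C3.Cell m₁ m₂)) : Prop :=
  ∀ (K : ℕ) (g : ℕ → DGrid m₁ m₂), Admissible K g ν → ∀ u : ℕ → ℤ × ℤ → ℝ, ShiftOK ν U Pn g u →
    Tendsto (fun k => lLap (psys U Pn (g k) (b k)) (pgrad U Pn (g k) (b k) (u k)) - a / 2 * pdir U Pn (g k) (u k)) atTop (𝓝 0)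

/-- vanishing characters on ONE free polygon -/
def PhaseOn (b : ℕ → ℝ) (ν : ℕ → ℕ) (U Pn : Finset (C3.Cell m₁ m₂)) : Prop :=
  ∀ (K : ℕ) (g : ℕ → DGrid m₁ m₂), Admissible K g ν →
    ∀ l : ℤ, l ≠ 0 → ∀ (t : ℕ → C3.Cell m₁ m₂ → ℝ) (Tb : ℝ), (∀ k κ, |t k κ| ≤ Tb) → (∀ k, ∑ κ ∈ U, t k κ = (l : ℝ)) →
    ∀ (q : ∀ k, ((polyG U Pn).graph (g k)).V → ℤ) (X : ∀ k, (psys U Pn (g k) (b k)).L →+ ℝ),
      (∀ k, (plaw U Pn (g k)).Lift (b k) ((polyG U Pn).cellTest (g k) (t k) - C3.ptRow (q k)) (X k)) →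
      Tendsto (fun k => (psys U Pn (g k) (b k)).phi (X k)) atTop (𝓝 0)

/-- Gaussian Laplace limit of ONE sequence of tests in a sequence of laws (all lifts) -/
def LapLim (a : ℝ) {G : ℕ → HGraph} (H : ∀ k, HLaw (G k)) (b : ℕ → ℝ) (f : ∀ k, (G k).V → ℝ) : Prop :=
  ∀ X : ∀ k, ((H k).sys (b k)).L →+ ℝ, (∀ k, (H k).Lift (b k) (f k) (X k)) →
    Tendsto (fun k => lLap ((H k).sys (b k)) (X k) - (H k).gVar a (f k) / 2) atTop (𝓝 0)

/-! ## 3. Components -/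

/-- the components of a geometry -/
def comps (Γ : CGeom m₁ m₂) : Finset (Finset (C3.Cell m₁ m₂)) := Γ.T.image (roComp Γ)

/-- the components without pinned cell -/
def freeC (Γ : CGeom m₁ m₂) : Finset (Finset (C3.Cell m₁ m₂)) := (comps Γ).filter fun U => U ∩ Γ.pin = ∅

/-- a function on the vertices of `Γ`, read on the polygon `U` (`0` off `g.region Γ.T`) -/
def pullV (Γ : CGeom m₁ m₂) (U : Finset (C3.Cell m₁ m₂)) (g : DGrid m₁ m₂) {α : Type} [Zero α] (f : (Γ.graph g).V → α) :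
    ((polyG U Γ.pin).graph g).V → α :=
  fun v => if h : vpos (polyG U Γ.pin) g v ∈ g.region Γ.T then f (vmk Γ g _ h) else 0

/-- a function on the vertices of the polygon `U`, extended by zero to the vertices of `Γ` -/
def pushV (Γ : CGeom m₁ m₂) (U : Finset (C3.Cell m₁ m₂)) (g : DGrid m₁ m₂) {α : Type} [Zero α]
    (f : ((polyG U Γ.pin).graph g).V → α) : (Γ.graph g).V → α :=
  fun v => if h : vpos Γ g v ∈ g.region U then f (vmk (polyG U Γ.pin) g _ h) else 0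

/-- the heights of `Γ` which live on `U` -/
def latOn (Γ : CGeom m₁ m₂) (g : DGrid m₁ m₂) (U : Finset (C3.Cell m₁ m₂)) : AddSubgroup ((Γ.graph g).V → ℤ) :=
  HLaw.pinned (Γ.sites g Γ.pin) ⊓ HLaw.pinned (Γ.sites g U)ᶜ

theorem pn_t31g_mem_roComp (Γ : CGeom m₁ m₂) (κ₀ κ : C3.Cell m₁ m₂) : κ ∈ roComp Γ κ₀ ↔ Γ.Conn κ₀ κ := by
  simp [roComp]

theorem pn_t31g_conn_mem (Γ : CGeom m₁ m₂) {κ₀ κ : C3.Cell m₁ m₂} (h0 : κ₀ ∈ Γ.T) (h : Γ.Conn κ₀ κ) : κ ∈ Γ.T := by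
  rcases Relation.ReflTransGen.cases_tail h with h1 | ⟨c, _, hc⟩
  · exact h1 ▸ h0
  · exact hc.2.1

theorem pn_t31g_comps_sub (Γ : CGeom m₁ m₂) {U : Finset (C3.Cell m₁ m₂)} (hU : U ∈ comps Γ) : U ⊆ Γ.T := by
  obtain ⟨κ₀, h0, rfl⟩ := Finset.mem_image.1 hU
  intro κ hκ
  exact pn_t31g_conn_mem Γ h0 ((pn_t31g_mem_roComp Γ κ₀ κ).1 hκ)

theorem pn_t31g_comps_nonempty (Γ : CGeom m₁ m₂) {U : Finset (C3.Cell m₁ m₂)} (hU : U ∈ comps Γ) : U.Nonempty := by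
  obtain ⟨κ₀, _, rfl⟩ := Finset.mem_image.1 hU
  exact ⟨κ₀, (pn_t31g_mem_roComp Γ κ₀ κ₀).2 Relation.ReflTransGen.refl⟩

theorem pn_t31g_C1_adj_symm (Γ : CGeom m₁ m₂) : Std.Symm Γ.Adj := by
  constructor
  rintro κ κ' ⟨h1, h2, h | h | h | h⟩
  · exact ⟨h2, h1, Or.inr (Or.inr (Or.inl ⟨h.1, h.2.1.symm, h.2.2⟩))⟩
  · exact ⟨h2, h1, Or.inr (Or.inr (Or.inr ⟨h.1.symm, h.2.1, h.2.2⟩))⟩
  · exact ⟨h2, h1, Or.inl ⟨h.1, h.2.1.symm, h.2.2⟩⟩
  · exact ⟨h2, h1, Or.inr (Or.inl ⟨h.1.symm, h.2.1, h.2.2⟩)⟩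

theorem pn_t31g_C1_conn_symm (Γ : CGeom m₁ m₂) {κ κ' : C3.Cell m₁ m₂} (h : Γ.Conn κ κ') : Γ.Conn κ' κ :=
  (@Relation.ReflTransGen.stdSymm _ _ (pn_t31g_C1_adj_symm Γ)).symm _ _ h

/-- **L-T31G-C1** (~120 l. for the block of four).  `Conn` is an equivalence relation (`Adj` is symmetric: swap the four alternatives; `Relation.ReflTransGen.symmetric`), so two components which meet are equal. -/
theorem pn_t31g_comps_disj (Γ : CGeom m₁ m₂) {U U' : Finset (C3.Cell m₁ m₂)} (hU : U ∈ comps Γ) (hU' : U' ∈ comps Γ) (h : U ≠ U') :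
    Disjoint U U' := by
  obtain ⟨κ₀, _, rfl⟩ := Finset.mem_image.1 hU
  obtain ⟨κ₁, _, rfl⟩ := Finset.mem_image.1 hU'
  rw [Finset.disjoint_left]
  intro κ h0 h1
  apply h
  rw [pn_t31g_mem_roComp] at h0 h1
  have h01 : Γ.Conn κ₀ κ₁ := h0.trans (pn_t31g_C1_conn_symm Γ h1)
  ext x
  rw [pn_t31g_mem_roComp, pn_t31g_mem_roComp]
  exact ⟨fun hx => (pn_t31g_C1_conn_symm Γ h01).trans hx, fun hx => h01.trans hx⟩

/-- the cells of a grid are disjoint (`Pot.ro_cell_unique`), so the regions of disjoint sets of cells are disjoint -/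
theorem pn_t31g_region_disj (g : DGrid m₁ m₂) {U U' : Finset (C3.Cell m₁ m₂)} (h : Disjoint U U') : Disjoint (g.region U) (g.region U') := by
  rw [Finset.disjoint_left]
  intro x hx hx'
  obtain ⟨κ, hκ, hxκ⟩ := (ro_mem_region g U x).1 hx
  obtain ⟨κ', hκ', hxκ'⟩ := (ro_mem_region g U' x).1 hx'
  have e := ro_cell_unique g hxκ hxκ'
  exact Finset.disjoint_left.1 h hκ (e ▸ hκ')

theorem pn_t31g_region_cover (Γ : CGeom m₁ m₂) (g : DGrid m₁ m₂) {x : ℤ × ℤ} (hx : x ∈ g.region Γ.T) : ∃ U ∈ comps Γ, x ∈ g.region U := by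
  obtain ⟨κ, hκ, hxκ⟩ := (ro_mem_region g Γ.T x).1 hx
  exact ⟨roComp Γ κ, Finset.mem_image_of_mem _ hκ,
    (ro_mem_region g _ x).2 ⟨κ, (pn_t31g_mem_roComp Γ κ κ).2 Relation.ReflTransGen.refl, hxκ⟩⟩

theorem pn_t31g_region_mono (g : DGrid m₁ m₂) {U U' : Finset (C3.Cell m₁ m₂)} (h : U ⊆ U') : g.region U ⊆ g.region U' :=
  Finset.biUnion_subset_biUnion_of_subset_left _ h

/-- **L-T31G-C2** (~150 l.).  The bonds of a polygon: `(polyG U Pn).cutB g = ∅`; the bonds of `Γ` (any geometry) never join two components: the two ends lie in the same cell or in two cells with `Γ.Adj`. -/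
theorem pn_t31g_poly_bonds (U Pn : Finset (C3.Cell m₁ m₂)) (g : DGrid m₁ m₂) :
    domBonds (g.region (polyG U Pn).T) ((polyG U Pn).cutB g) = domBonds (g.region U) ∅ := by
  have h : (polyG U Pn).cutB g = ∅ := by
    ext e
    simp [CGeom.cutB, polyG]
  rw [h]
  rfl

/-- the two ends of a bond of `Γ` lie in connected cells -/
theorem pn_t31g_C2_conn (Γ : CGeom m₁ m₂) (g : DGrid m₁ m₂) {e : Bond} (he : e ∈ domBonds (g.region Γ.T) (Γ.cutB g))
    {κ κ' : C3.Cell m₁ m₂} (h1 : e.1 ∈ g.cell κ) (h2 : e.snd ∈ g.cell κ') : Γ.Conn κ κ' := by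
  rw [ro_mem_domBonds, ro_mem_region, ro_mem_region] at he
  obtain ⟨⟨κ₁, hκ₁, h1'⟩, ⟨κ₂, hκ₂, h2'⟩, hc⟩ := he
  obtain rfl := ro_cell_unique' g h1 h1'
  obtain rfl := ro_cell_unique' g h2 h2'
  by_cases hne : κ = κ'
  · rw [hne]; exact Relation.ReflTransGen.refl
  · have hnot : e.snd ∉ g.cell κ := fun h3 => hne (ro_cell_unique' g h3 h2)
    refine ro_cg_conn_adj Γ ⟨hκ₁, hκ₂, ?_⟩
    rcases ro_bond_cells g h1 h2 hne with ⟨hd, ha, hb⟩ | ⟨hd, ha, hb⟩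
    · exact Or.inl ⟨ha, hb, fun hf => hc ⟨(κ, true), hf, hd, h1, hnot⟩⟩
    · exact Or.inr (Or.inl ⟨ha, hb, fun hf => hc ⟨(κ, false), hf, hd, h1, hnot⟩⟩)

theorem pn_t31g_bond_comp (Γ : CGeom m₁ m₂) (g : DGrid m₁ m₂) {e : Bond} (he : e ∈ domBonds (g.region Γ.T) (Γ.cutB g))
    {U : Finset (C3.Cell m₁ m₂)} (hU : U ∈ comps Γ) : e.1 ∈ g.region U ↔ e.snd ∈ g.region U := by
  obtain ⟨κ₀, h0, rfl⟩ := Finset.mem_image.1 hU
  have he' := he
  rw [ro_mem_domBonds, ro_mem_region, ro_mem_region] at he'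
  obtain ⟨⟨κ₁, hκ₁, h1⟩, ⟨κ₂, hκ₂, h2⟩, _⟩ := he'
  have hc := pn_t31g_C2_conn Γ g he h1 h2
  rw [ro_mem_region, ro_mem_region]
  constructor
  · rintro ⟨κ, hκ, hx⟩
    obtain rfl := ro_cell_unique' g hx h1
    exact ⟨κ₂, (ro_mem_comp Γ κ₀ κ₂).2 (ro_cg_conn_trans Γ ((ro_mem_comp Γ κ₀ κ).1 hκ) hc), h2⟩
  · rintro ⟨κ, hκ, hx⟩
    obtain rfl := ro_cell_unique' g hx h2
    exact ⟨κ₁, (ro_mem_comp Γ κ₀ κ₁).2 (ro_cg_conn_trans Γ ((ro_mem_comp Γ κ₀ κ).1 hκ) (ro_cg_conn_symm Γ hc)), h1⟩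

/-- under `NoDiag` a n.n. bond inside the region of a component is a bond of `Γ` (`Pot.ro_bonds_comp`; cite it from `Pot/RegOpt.lean` or reprove: a cut face has its two cells in different components) -/
theorem pn_t31g_bond_of_comp (Γ : CGeom m₁ m₂) (hΓ : Γ.NoDiag) (g : DGrid m₁ m₂) {U : Finset (C3.Cell m₁ m₂)} (hU : U ∈ comps Γ) {e : Bond}
    (he : e ∈ domBonds (g.region U) ∅) : e ∈ domBonds (g.region Γ.T) (Γ.cutB g) := by
  obtain ⟨κ₀, h0, rfl⟩ := Finset.mem_image.1 hU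
  exact (ro_bonds_comp' Γ hΓ g e).2 ⟨κ₀, h0, he⟩

/-! ### pull-backs of the basic tests -/

theorem pn_t31g_p1_uniq {m : ℕ} {f : Fin (m + 1) → ℤ} (hf : StrictMono f) {i i' : Fin m} {t : ℤ}
    (h1 : f i.castSucc ≤ t) (h2 : t < f i.succ) (h1' : f i'.castSucc ≤ t) (h2' : t < f i'.succ) : i = i' := by
  rcases lt_trichotomy i i' with h | h | h
  · exfalso
    have h3 : i.succ ≤ i'.castSucc := by
      rw [Fin.le_def]
      have : (i : ℕ) < i' := h
      simp only [Fin.val_succ, Fin.val_castSucc]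
      omega
    have := hf.monotone h3
    omega
  · exact h
  · exfalso
    have h3 : i'.succ ≤ i.castSucc := by
      rw [Fin.le_def]
      have : (i' : ℕ) < i := h
      simp only [Fin.val_succ, Fin.val_castSucc]
      omega
    have := hf.monotone h3
    omega

theorem pn_t31g_p1_cell_unique (g : DGrid m₁ m₂) {κ κ' : Fin m₁ × Fin m₂} {x : ℤ × ℤ} (h : x ∈ g.cell κ) (h' : x ∈ g.cell κ') : κ = κ' := by
  unfold DGrid.cell at h h'
  rw [Finset.mem_product, Finset.mem_Ico, Finset.mem_Ico] at h h'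
  exact Prod.ext (pn_t31g_p1_uniq g.mono₁ h.1.1 h.1.2 h'.1.1 h'.1.2) (pn_t31g_p1_uniq g.mono₂ h.2.1 h.2.2 h'.2.1 h'.2.2)

theorem pn_t31g_p1_pull (Γ : CGeom m₁ m₂) (g : DGrid m₁ m₂) {U : Finset (C3.Cell m₁ m₂)} (hU : U ∈ comps Γ) (f : (Γ.graph g).V → ℝ)
    (v : ((polyG U Γ.pin).graph g).V) :
    ∃ h : vpos (polyG U Γ.pin) g v ∈ g.region Γ.T, vpos (polyG U Γ.pin) g v ∈ g.region U ∧ pullV Γ U g f v = f (vmk Γ g _ h) := by
  have hv : vpos (polyG U Γ.pin) g v ∈ g.region U := v.2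
  have h : vpos (polyG U Γ.pin) g v ∈ g.region Γ.T := pn_t31g_region_mono g (pn_t31g_comps_sub Γ hU) hv
  refine ⟨h, hv, ?_⟩
  unfold pullV
  rw [dif_pos h]

/-- **L-T31G-P1** (~100 l.).  For `v ∈ g.region U`, `v ∈ g.cell κ` forces `κ ∈ U ⊆ Γ.T` (`Pot.ro_cell_unique`), and then `{κ} ∩ U = {κ} = {κ} ∩ Γ.T`. -/
theorem pn_t31g_pull_avg (Γ : CGeom m₁ m₂) (g : DGrid m₁ m₂) {U : Finset (C3.Cell m₁ m₂)} (hU : U ∈ comps Γ) (κ : C3.Cell m₁ m₂) :
    pullV Γ U g (Γ.avgRow g {κ}) = (polyG U Γ.pin).avgRow g {κ} := by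
  funext v
  obtain ⟨h, hv, e⟩ := pn_t31g_p1_pull Γ g hU (Γ.avgRow g {κ}) v
  rw [e]
  unfold CGeom.avgRow
  by_cases hx : vpos (polyG U Γ.pin) g v ∈ g.region {κ}
  · have h1 : vmk Γ g _ h ∈ Γ.sites g {κ} := hx
    have h2 : v ∈ (polyG U Γ.pin).sites g {κ} := hx
    rw [if_pos h1, if_pos h2]
    have hκ : κ ∈ U := by
      unfold DGrid.region at hx hv
      rw [Finset.mem_biUnion] at hx hv
      obtain ⟨κ₁, hκ₁, hc₁⟩ := hx
      obtain ⟨κ₂, hκ₂, hc₂⟩ := hv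
      rw [Finset.mem_singleton] at hκ₁
      rw [← hκ₁, pn_t31g_p1_cell_unique g hc₁ hc₂]
      exact hκ₂
    have e1 : ({κ} : Finset (C3.Cell m₁ m₂)) ∩ Γ.T = {κ} := Finset.inter_eq_left.2 (Finset.singleton_subset_iff.2 (pn_t31g_comps_sub Γ hU hκ))
    have e2 : ({κ} : Finset (C3.Cell m₁ m₂)) ∩ (polyG U Γ.pin).T = {κ} := Finset.inter_eq_left.2 (Finset.singleton_subset_iff.2 hκ)
    rw [e1, e2]
  · have h1 : vmk Γ g _ h ∉ Γ.sites g {κ} := hx
    have h2 : v ∉ (polyG U Γ.pin).sites g {κ} := hx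
    rw [if_neg h1, if_neg h2]

theorem pn_t31g_pull_cellTest (Γ : CGeom m₁ m₂) (g : DGrid m₁ m₂) {U : Finset (C3.Cell m₁ m₂)} (hU : U ∈ comps Γ) (t : C3.Cell m₁ m₂ → ℝ) :
    pullV Γ U g (Γ.cellTest g t) = (polyG U Γ.pin).cellTest g t := by
  funext v
  obtain ⟨h, -, e⟩ := pn_t31g_p1_pull Γ g hU (Γ.cellTest g t) v
  rw [e]
  unfold CGeom.cellTest
  refine Finset.sum_congr rfl fun κ _ => ?_
  obtain ⟨h', -, e'⟩ := pn_t31g_p1_pull Γ g hU (Γ.avgRow g {κ}) v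
  rw [← pn_t31g_pull_avg Γ g hU κ, e']

/-- the summand of `gradRow` of an ambient function, as a function of the bond -/
def pn_t31g_P2_F (u : ℤ × ℤ → ℝ) (x : ℤ × ℤ) (e : Bond) : ℝ :=
  (u e.snd - u e.1) * ((if e.snd = x then 1 else 0) - (if e.1 = x then 1 else 0))

theorem pn_t31g_P2_F_eqns_cite : True := by
  have := @pn_t31g_P2_F.eq_1
  trivial

theorem pn_t31g_P2_mem {D : Finset (ℤ × ℤ)} {cut : Set Bond} {e : Bond} :
    e ∈ domBonds D cut ↔ e.1 ∈ D ∧ e.snd ∈ D ∧ e ∉ cut := by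
  rw [domBonds, Finset.mem_filter, Finset.mem_product]
  simp

/-- `gRow` as a sum over bonds -/
theorem pn_t31g_P2_gRow (Γ : CGeom m₁ m₂) (g : DGrid m₁ m₂) (u : ℤ × ℤ → ℝ) (v : (Γ.graph g).V) :
    gRow Γ g u v = ∑ e ∈ domBonds (g.region Γ.T) (Γ.cutB g), pn_t31g_P2_F u (vpos Γ g v) e := by
  rw [Finset.sum_subtype (domBonds (g.region Γ.T) (Γ.cutB g)) (fun _ => Iff.rfl)]
  unfold gRow HLaw.gradRow
  refine Finset.sum_congr rfl fun e _ => ?_
  obtain ⟨x, hx⟩ := v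
  obtain ⟨e, he⟩ := e
  show (u e.snd - u e.1) * ((if (⟨e.snd, _⟩ : {v // v ∈ g.region Γ.T}) = ⟨x, hx⟩ then (1 : ℝ) else 0)
    - (if (⟨e.1, _⟩ : {v // v ∈ g.region Γ.T}) = ⟨x, hx⟩ then (1 : ℝ) else 0)) = pn_t31g_P2_F u x e
  simp only [Subtype.mk.injEq, pn_t31g_P2_F]

/-- **L-T31G-P2** (~150 l.).  The bonds of `Γ` at a site of `g.region U` are the n.n. bonds of `g.region U` at this site (`pn_t31g_bond_comp`, `pn_t31g_bond_of_comp`, `pn_t31g_poly_bonds`); reindex the two sums over edges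
(`Finset.sum_subtype`, `Finset.sum_filter`: only the edges with an end at the site contribute). -/
theorem pn_t31g_pull_gRow (Γ : CGeom m₁ m₂) (hΓ : Γ.NoDiag) (g : DGrid m₁ m₂) {U : Finset (C3.Cell m₁ m₂)} (hU : U ∈ comps Γ) (u : ℤ × ℤ → ℝ) :
    pullV Γ U g (gRow Γ g u) = gRow (polyG U Γ.pin) g u := by
  funext v
  have hv : vpos (polyG U Γ.pin) g v ∈ g.region U := v.2
  have hvT : vpos (polyG U Γ.pin) g v ∈ g.region Γ.T := pn_t31g_region_mono g (pn_t31g_comps_sub Γ hU) hv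
  unfold pullV
  rw [dif_pos hvT, pn_t31g_P2_gRow, pn_t31g_P2_gRow, pn_t31g_poly_bonds]
  have e1 : vpos Γ g (vmk Γ g _ hvT) = vpos (polyG U Γ.pin) g v := rfl
  rw [e1]
  symm
  refine Finset.sum_subset (fun e he => pn_t31g_bond_of_comp Γ hΓ g hU he) fun e he hn => ?_
  have hb := pn_t31g_bond_comp Γ g he hU
  have n1 : e.snd ≠ vpos (polyG U Γ.pin) g v := by
    intro h
    have h2 : e.snd ∈ g.region U := h ▸ hv
    exact hn (pn_t31g_P2_mem.2 ⟨hb.2 h2, h2, fun h => h⟩)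
  have n2 : e.1 ≠ vpos (polyG U Γ.pin) g v := by
    intro h
    have h2 : e.1 ∈ g.region U := h ▸ hv
    exact hn (pn_t31g_P2_mem.2 ⟨h2, hb.1 h2, fun h => h⟩)
  simp [pn_t31g_P2_F, n1, n2]

theorem pn_t31g_pull_add (Γ : CGeom m₁ m₂) (U : Finset (C3.Cell m₁ m₂)) (g : DGrid m₁ m₂) (f f' : (Γ.graph g).V → ℝ) :
    pullV Γ U g (f + f') = pullV Γ U g f + pullV Γ U g f' := by
  funext v
  by_cases h : vpos (polyG U Γ.pin) g v ∈ g.region Γ.T <;> simp [pullV, h]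

theorem pn_t31g_pull_sub (Γ : CGeom m₁ m₂) (U : Finset (C3.Cell m₁ m₂)) (g : DGrid m₁ m₂) (f f' : (Γ.graph g).V → ℝ) :
    pullV Γ U g (f - f') = pullV Γ U g f - pullV Γ U g f' := by
  funext v
  by_cases h : vpos (polyG U Γ.pin) g v ∈ g.region Γ.T <;> simp [pullV, h]

theorem pn_t31g_pull_smul (Γ : CGeom m₁ m₂) (U : Finset (C3.Cell m₁ m₂)) (g : DGrid m₁ m₂) (s : ℝ) (f : (Γ.graph g).V → ℝ) :
    pullV Γ U g (s • f) = s • pullV Γ U g f := by
  funext v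
  by_cases h : vpos (polyG U Γ.pin) g v ∈ g.region Γ.T <;> simp [pullV, h]

/-- integer point charges -/
theorem pn_t31g_pull_ptRow (Γ : CGeom m₁ m₂) (U : Finset (C3.Cell m₁ m₂)) (g : DGrid m₁ m₂) (q : (Γ.graph g).V → ℤ) :
    pullV Γ U g (C3.ptRow q) = C3.ptRow (pullV Γ U g q) := by
  funext v
  by_cases h : vpos (polyG U Γ.pin) g v ∈ g.region Γ.T <;> simp [pullV, C3.ptRow, h]

/-! ### the massless law is the product of its components -/

theorem pn_t31g_S0_memU (U Pn : Finset (C3.Cell m₁ m₂)) (g : DGrid m₁ m₂) (v : ((polyG U Pn).graph g).V) :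
    vpos (polyG U Pn) g v ∈ g.region U := Subtype.property (p := fun v => v ∈ g.region U) v

theorem pn_t31g_S0_memT (Γ : CGeom m₁ m₂) (g : DGrid m₁ m₂) {U : Finset (C3.Cell m₁ m₂)} (hU : U ∈ comps Γ)
    (v : ((polyG U Γ.pin).graph g).V) : vpos (polyG U Γ.pin) g v ∈ g.region Γ.T :=
  pn_t31g_region_mono g (pn_t31g_comps_sub Γ hU) (pn_t31g_S0_memU U Γ.pin g v)

theorem pn_t31g_S0_pull_apply (Γ : CGeom m₁ m₂) (g : DGrid m₁ m₂) {U : Finset (C3.Cell m₁ m₂)} (hU : U ∈ comps Γ) {α : Type} [Zero α]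
    (f : (Γ.graph g).V → α) (v : ((polyG U Γ.pin).graph g).V) :
    pullV Γ U g f v = f (vmk Γ g _ (pn_t31g_S0_memT Γ g hU v)) := by
  unfold pullV
  rw [dif_pos (pn_t31g_S0_memT Γ g hU v)]

theorem pn_t31g_S0_push_pos (Γ : CGeom m₁ m₂) (g : DGrid m₁ m₂) (U : Finset (C3.Cell m₁ m₂)) {α : Type} [Zero α]
    (f : ((polyG U Γ.pin).graph g).V → α) (v : (Γ.graph g).V) (h : vpos Γ g v ∈ g.region U) :
    pushV Γ U g f v = f (vmk (polyG U Γ.pin) g _ h) := by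
  unfold pushV
  rw [dif_pos h]

theorem pn_t31g_S0_push_neg (Γ : CGeom m₁ m₂) (g : DGrid m₁ m₂) (U : Finset (C3.Cell m₁ m₂)) {α : Type} [Zero α]
    (f : ((polyG U Γ.pin).graph g).V → α) (v : (Γ.graph g).V) (h : vpos Γ g v ∉ g.region U) :
    pushV Γ U g f v = 0 := by
  unfold pushV
  rw [dif_neg h]

/-- **L-T31G-S0** (~200 l.).  KIT for `S1-S4`: restriction and extension of heights.  (`coord` of the massless laws = the gradient; the `Fin 0` part is trivial: `Subsingleton`.) -/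
theorem pn_t31g_pull_mem (Γ : CGeom m₁ m₂) (g : DGrid m₁ m₂) {U : Finset (C3.Cell m₁ m₂)} (hU : U ∈ comps Γ) {h : (Γ.graph g).V → ℤ}
    (hh : h ∈ (C3.lawR Γ g C3.noRow).Λ) : pullV Γ U g h ∈ (plaw U Γ.pin g).Λ := by
  intro v hv
  show pullV Γ U g h v = 0
  unfold pullV
  split_ifs with hT
  · exact (show ∀ w ∈ Γ.sites g Γ.pin, h w = 0 from hh) _ hv
  · rfl

theorem pn_t31g_push_mem (Γ : CGeom m₁ m₂) (g : DGrid m₁ m₂) {U : Finset (C3.Cell m₁ m₂)} (hU : U ∈ comps Γ)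
    {h : ((polyG U Γ.pin).graph g).V → ℤ} (hh : h ∈ (plaw U Γ.pin g).Λ) : pushV Γ U g h ∈ latOn Γ g U := by
  refine AddSubgroup.mem_inf.2 ⟨?_, ?_⟩
  · intro v hv
    show pushV Γ U g h v = 0
    by_cases hv' : vpos Γ g v ∈ g.region U
    · rw [pn_t31g_S0_push_pos Γ g U h v hv']
      exact (show ∀ w ∈ (polyG U Γ.pin).sites g Γ.pin, h w = 0 from hh) _ hv
    · exact pn_t31g_S0_push_neg Γ g U h v hv'
  · intro v hv
    show pushV Γ U g h v = 0
    exact pn_t31g_S0_push_neg Γ g U h v hv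

theorem pn_t31g_pull_push (Γ : CGeom m₁ m₂) (g : DGrid m₁ m₂) {U : Finset (C3.Cell m₁ m₂)} (hU : U ∈ comps Γ) {α : Type} [Zero α]
    (h : ((polyG U Γ.pin).graph g).V → α) : pullV Γ U g (pushV Γ U g h) = h := by
  funext v
  rw [pn_t31g_S0_pull_apply Γ g hU,
    pn_t31g_S0_push_pos Γ g U h (vmk Γ g _ (pn_t31g_S0_memT Γ g hU v)) (pn_t31g_S0_memU U Γ.pin g v)]
  rfl

theorem pn_t31g_push_pull (Γ : CGeom m₁ m₂) (g : DGrid m₁ m₂) {U : Finset (C3.Cell m₁ m₂)} (hU : U ∈ comps Γ) {h : (Γ.graph g).V → ℤ}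
    (hh : h ∈ latOn Γ g U) : pushV Γ U g (pullV Γ U g h) = h := by
  funext v
  by_cases hv : vpos Γ g v ∈ g.region U
  · rw [pn_t31g_S0_push_pos Γ g U _ v hv, pn_t31g_S0_pull_apply Γ g hU]
    rfl
  · rw [pn_t31g_S0_push_neg Γ g U _ v hv]
    exact ((show ∀ w ∈ (Γ.sites g U)ᶜ, h w = 0 from (AddSubgroup.mem_inf.1 hh).2) v hv).symm

/-- a height is the sum of its parts -/
theorem pn_t31g_sum_push (Γ : CGeom m₁ m₂) (g : DGrid m₁ m₂) (h : (Γ.graph g).V → ℝ) :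
    h = ∑ U ∈ comps Γ, pushV Γ U g (pullV Γ U g h) := by
  funext v
  rw [Finset.sum_apply]
  obtain ⟨U, hU, hv⟩ := pn_t31g_region_cover Γ g (x := vpos Γ g v) (Subtype.property (p := fun v => v ∈ g.region Γ.T) v)
  rw [Finset.sum_eq_single U]
  · rw [pn_t31g_S0_push_pos Γ g U _ v hv, pn_t31g_S0_pull_apply Γ g hU]
    rfl
  · intro U' hU' hne
    refine pn_t31g_S0_push_neg Γ g U' _ v fun hv' => ?_
    exact Finset.disjoint_left.1 (pn_t31g_region_disj g (pn_t31g_comps_disj Γ hU' hU hne)) hv' hv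
  · intro h'
    exact absurd hU h'

/-- pairings -/
theorem pn_t31g_pair_push (Γ : CGeom m₁ m₂) (g : DGrid m₁ m₂) {U : Finset (C3.Cell m₁ m₂)} (hU : U ∈ comps Γ) (f : (Γ.graph g).V → ℝ)
    (h : ((polyG U Γ.pin).graph g).V → ℝ) : HLaw.pair f (pushV Γ U g h) = HLaw.pair (pullV Γ U g f) h := by
  unfold HLaw.pair
  obtain ⟨ι, hι⟩ : ∃ ι : ((polyG U Γ.pin).graph g).V → (Γ.graph g).V, ι = fun y => vmk Γ g _ (pn_t31g_S0_memT Γ g hU y) := ⟨_, rfl⟩
  have hinj : Function.Injective ι := by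
    intro y y' hyy
    rw [hι] at hyy
    have h1 : vpos (polyG U Γ.pin) g y = vpos (polyG U Γ.pin) g y' := congrArg (vpos Γ g) hyy
    exact Subtype.ext (p := fun v => v ∈ g.region U) h1
  rw [← Finset.sum_subset (Finset.subset_univ (Finset.univ.image ι)), Finset.sum_image (fun a _ b _ h => hinj h)]
  · refine Finset.sum_congr rfl fun y _ => ?_
    rw [pn_t31g_S0_pull_apply Γ g hU, hι,
      pn_t31g_S0_push_pos Γ g U h (vmk Γ g _ (pn_t31g_S0_memT Γ g hU y)) (pn_t31g_S0_memU U Γ.pin g y)]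
    rfl
  · intro x _ hx
    rw [pn_t31g_S0_push_neg Γ g U h x, mul_zero]
    intro hxU
    apply hx
    refine Finset.mem_image.2 ⟨vmk (polyG U Γ.pin) g _ hxU, Finset.mem_univ _, ?_⟩
    rw [hι]
    rfl

theorem pn_t31g_S1_toR_push (Γ : CGeom m₁ m₂) (U : Finset (C3.Cell m₁ m₂)) (g : DGrid m₁ m₂)
    (h : ((polyG U Γ.pin).graph g).V → ℤ) : toR (pushV Γ U g h) = pushV Γ U g (toR h) := by
  funext v
  by_cases hv : vpos Γ g v ∈ g.region U <;> simp [pushV, toR, hv]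

theorem pn_t31g_S1_coord (Γ : CGeom m₁ m₂) (g : DGrid m₁ m₂) {U : Finset (C3.Cell m₁ m₂)} (hU : U ∈ comps Γ)
    (h : ((polyG U Γ.pin).graph g).V → ℤ) (h0 : (plaw U Γ.pin g).coord h = 0) :
    (C3.lawR Γ g C3.noRow).coord (pushV Γ U g h) = 0 := by
  refine Prod.ext (funext fun e => ?_) (funext fun o => o.elim0)
  obtain ⟨e, he⟩ := e
  have hb := pn_t31g_bond_comp Γ g he hU
  show pushV Γ U g h (⟨e.snd, _⟩ : {v // v ∈ g.region Γ.T}) - pushV Γ U g h (⟨e.1, _⟩ : {v // v ∈ g.region Γ.T}) = 0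
  by_cases h1 : e.1 ∈ g.region U
  · have h2 := hb.1 h1
    have he' : e ∈ domBonds (g.region (polyG U Γ.pin).T) ((polyG U Γ.pin).cutB g) := by
      rw [pn_t31g_poly_bonds]
      exact pn_t31g_P2_mem.2 ⟨h1, h2, fun h => h⟩
    have h3 := congrFun (congrArg Prod.fst h0) (⟨e, he'⟩ : {e : Bond // e ∈ domBonds (g.region (polyG U Γ.pin).T) ((polyG U Γ.pin).cutB g)})
    have h4 : h (⟨e.snd, h2⟩ : {v // v ∈ g.region U}) - h (⟨e.1, h1⟩ : {v // v ∈ g.region U}) = 0 := h3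
    have a1 : pushV Γ U g h (⟨e.snd, domBonds_snd he⟩ : {v // v ∈ g.region Γ.T}) = h (⟨e.snd, h2⟩ : {v // v ∈ g.region U}) :=
      dif_pos h2
    have a2 : pushV Γ U g h (⟨e.1, domBonds_fst he⟩ : {v // v ∈ g.region Γ.T}) = h (⟨e.1, h1⟩ : {v // v ∈ g.region U}) :=
      dif_pos h1
    rw [a1, a2, h4]
  · have h2 : e.snd ∉ g.region U := fun h => h1 (hb.2 h)
    have a1 : pushV Γ U g h (⟨e.snd, domBonds_snd he⟩ : {v // v ∈ g.region Γ.T}) = 0 := dif_neg h2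
    have a2 : pushV Γ U g h (⟨e.1, domBonds_fst he⟩ : {v // v ∈ g.region Γ.T}) = 0 := dif_neg h1
    rw [a1, a2, sub_zero]

/-- **L-T31G-S1** (~120 l.).  `pn_t31_lift_exists`: if `h ∈ Λ_U` has zero gradient on the polygon then `pushV h ∈ Λ_Γ` has zero gradient on `Γ` (`pn_t31g_bond_comp`), so `X` of its image is `X 0 = 0`; `pn_t31g_pair_push`. -/
theorem pn_t31g_split_lift (Γ : CGeom m₁ m₂) (hΓ : Γ.NoDiag) (g : DGrid m₁ m₂) (β : ℝ) {U : Finset (C3.Cell m₁ m₂)} (hU : U ∈ comps Γ)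
    (f : (Γ.graph g).V → ℝ) (X : ((C3.lawR Γ g C3.noRow).sys β).L →+ ℝ) (hX : (C3.lawR Γ g C3.noRow).Lift β f X) :
    ∃ Y : (psys U Γ.pin g β).L →+ ℝ, (plaw U Γ.pin g).Lift β (pullV Γ U g f) Y := by
  refine pn_t31_lift_exists (plaw U Γ.pin g) β (pullV Γ U g f) fun h hh h0 => ?_
  have hm : pushV Γ U g h ∈ (C3.lawR Γ g C3.noRow).Λ := (pn_t31g_push_mem Γ g hU hh).1
  have hc := pn_t31g_S1_coord Γ g hU h h0
  have h1 := (pn_t31_lift_iff _ β f X).1 hX ⟨pushV Γ U g h, hm⟩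
  have h2 : prL (C3.lawR Γ g C3.noRow) β ⟨pushV Γ U g h, hm⟩ = 0 := (pn_t31_prL_eq_zero _ β _).2 hc
  rw [h2, map_zero] at h1
  have h3 : HLaw.pair f (toR (pushV Γ U g h)) = 0 := by
    have hpi : (2 * Real.pi) ≠ 0 := by positivity
    exact (mul_eq_zero.1 h1.symm).resolve_left hpi
  rw [pn_t31g_S1_toR_push, pn_t31g_pair_push Γ g hU] at h3
  exact h3

/-- the systems of the components -/
abbrev splitS (Γ : CGeom m₁ m₂) (g : DGrid m₁ m₂) (β : ℝ) : {U // U ∈ comps Γ} → LSys := fun U => psys U.1 Γ.pin g β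

theorem pn_t31g_split_ok (Γ : CGeom m₁ m₂) (g : DGrid m₁ m₂) (β : ℝ) (hβ : 0 < β) : ((C3.lawR Γ g C3.noRow).sys β).Ok := by
  have : IsEmpty (C3.lawR Γ g C3.noRow).O := inferInstanceAs (IsEmpty (Fin 0))
  exact HLaw.ok_of_isEmpty _ β hβ

theorem pn_t31g_split_okS (Γ : CGeom m₁ m₂) (g : DGrid m₁ m₂) (β : ℝ) (hβ : 0 < β) (U : {U // U ∈ comps Γ}) : (splitS Γ g β U).Ok :=
  pn_t31g_split_ok (polyG U.1 Γ.pin) g β hβ

/-- the bond of `Γ` carried by a bond of a component -/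
def splitUp (Γ : CGeom m₁ m₂) (hΓ : Γ.NoDiag) (g : DGrid m₁ m₂) (U : {U // U ∈ comps Γ}) (e : ((polyG U.1 Γ.pin).graph g).E) :
    (Γ.graph g).E :=
  (⟨e.1, pn_t31g_bond_of_comp Γ hΓ g U.2 (pn_t31g_poly_bonds U.1 Γ.pin g ▸ e.2)⟩ :
    {e : Bond // e ∈ domBonds (g.region Γ.T) (Γ.cutB g)})

theorem pn_t31g_split_comp_unique (Γ : CGeom m₁ m₂) (g : DGrid m₁ m₂) {U U' : Finset (C3.Cell m₁ m₂)} (hU : U ∈ comps Γ) (hU' : U' ∈ comps Γ)
    {x : ℤ × ℤ} (hx : x ∈ g.region U) (hx' : x ∈ g.region U') : U = U' := by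
  by_contra hne
  exact Finset.disjoint_left.1 (pn_t31g_region_disj g (pn_t31g_comps_disj Γ hU hU' hne)) hx hx'

/-- the embedding of the bonds of the components -/
def splitE (Γ : CGeom m₁ m₂) (hΓ : Γ.NoDiag) (g : DGrid m₁ m₂) (β : ℝ) :
    (Free.pi (splitS Γ g β)).E ↪ ((C3.lawR Γ g C3.noRow).sys β).E where
  toFun x := splitUp Γ hΓ g x.1 x.2
  inj' := by
    rintro ⟨U, e⟩ ⟨U', e'⟩ h
    have h1 : e.1 = e'.1 := congrArg Subtype.val h
    have hU : U = U' := by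
      apply Subtype.ext
      have a1 : e.1.1 ∈ g.region U.1 := domBonds_fst e.2
      have a2 : e'.1.1 ∈ g.region U'.1 := domBonds_fst e'.2
      rw [← h1] at a2
      exact pn_t31g_split_comp_unique Γ g U.2 U'.2 a1 a2
    subst hU
    have : e = e' := Subtype.ext h1
    rw [this]

theorem pn_t31g_split_pull_at (Γ : CGeom m₁ m₂) (U : Finset (C3.Cell m₁ m₂)) (g : DGrid m₁ m₂) {α : Type} [Zero α] (f : (Γ.graph g).V → α)
    (x : ℤ × ℤ) (hx : x ∈ g.region U) (hx' : x ∈ g.region Γ.T) : pullV Γ U g f (vmk (polyG U Γ.pin) g x hx) = f (vmk Γ g x hx') :=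
  dif_pos hx'

/-- the gradient of a restricted height -/
theorem pn_t31g_split_coord_pull (Γ : CGeom m₁ m₂) (hΓ : Γ.NoDiag) (g : DGrid m₁ m₂) (β : ℝ) (U : {U // U ∈ comps Γ}) (h : (Γ.graph g).V → ℤ) :
    (plaw U.1 Γ.pin g).coordA β (pullV Γ U.1 g h)
      = ((fun e => ((C3.lawR Γ g C3.noRow).coordA β h).1 (splitUp Γ hΓ g U e), fun o => Fin.elim0 o) : (splitS Γ g β U).Amb) := by
  refine Prod.ext (funext fun e => ?_) (funext fun o => Fin.elim0 o)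
  have a1 := pn_t31g_split_pull_at Γ U.1 g h e.1.snd (domBonds_snd e.2) (domBonds_snd (splitUp Γ hΓ g U e).2)
  have a2 := pn_t31g_split_pull_at Γ U.1 g h e.1.1 (domBonds_fst e.2) (domBonds_fst (splitUp Γ hΓ g U e).2)
  show pullV Γ U.1 g h (vmk (polyG U.1 Γ.pin) g e.1.snd (domBonds_snd e.2)) - pullV Γ U.1 g h (vmk (polyG U.1 Γ.pin) g e.1.1 (domBonds_fst e.2)) = _
  rw [a1, a2]
  rfl

/-- the refinement "components → geometry" -/
def splitRef (Γ : CGeom m₁ m₂) (hΓ : Γ.NoDiag) (g : DGrid m₁ m₂) (β : ℝ) :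
    LSys.Ref (Free.pi (splitS Γ g β)) ((C3.lawR Γ g C3.noRow).sys β) where
  iE := splitE Γ hΓ g β
  iO := ⟨fun x => Fin.elim0 x.2, fun x => Fin.elim0 x.2⟩
  hb := fun _ => rfl
  map_mem := by
    intro z hz U
    obtain ⟨h, hh, rfl⟩ := AddSubgroup.mem_map.1 hz
    refine AddSubgroup.mem_map.2 ⟨pullV Γ U.1 g h, pn_t31g_pull_mem Γ g U.2 hh, ?_⟩
    refine (pn_t31g_split_coord_pull Γ hΓ g β U h).trans ?_
    exact Prod.ext rfl (funext fun o => Fin.elim0 o)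

theorem pn_t31g_split_pull_toR (Γ : CGeom m₁ m₂) (U : Finset (C3.Cell m₁ m₂)) (g : DGrid m₁ m₂) (h : (Γ.graph g).V → ℤ) :
    pullV Γ U g (toR h) = toR (pullV Γ U g h) := by
  funext v
  by_cases hv : vpos (polyG U Γ.pin) g v ∈ g.region Γ.T <;> simp [pullV, toR, hv]

theorem pn_t31g_split_pair_sum {G : HGraph} (f : G.V → ℝ) {ι : Type} (s : Finset ι) (u : ι → G.V → ℝ) :
    HLaw.pair f (∑ i ∈ s, u i) = ∑ i ∈ s, HLaw.pair f (u i) := by
  simp only [HLaw.pair, Finset.sum_apply, Finset.mul_sum]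
  exact Finset.sum_comm

/-- a pairing is the sum of the pairings on the components -/
theorem pn_t31g_split_pair (Γ : CGeom m₁ m₂) (g : DGrid m₁ m₂) (f : (Γ.graph g).V → ℝ) (h : (Γ.graph g).V → ℤ) :
    HLaw.pair f (toR h) = ∑ U ∈ comps Γ, HLaw.pair (pullV Γ U g f) (toR (pullV Γ U g h)) := by
  conv_lhs => rw [pn_t31g_sum_push Γ g (toR h)]
  rw [pn_t31g_split_pair_sum]
  refine Finset.sum_congr rfl fun U hU => ?_
  rw [pn_t31g_pair_push Γ g hU, pn_t31g_split_pull_toR]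

/-- the sum of the tests of the components -/
def splitZ (Γ : CGeom m₁ m₂) (g : DGrid m₁ m₂) (β : ℝ) (Y : ∀ U : Finset (C3.Cell m₁ m₂), (psys U Γ.pin g β).L →+ ℝ) :
    (Free.pi (splitS Γ g β)).L →+ ℝ := ∑ U : {U // U ∈ comps Γ}, (Y U.1).comp (Free.piPr (splitS Γ g β) U)

theorem pn_t31g_split_Z_apply (Γ : CGeom m₁ m₂) (g : DGrid m₁ m₂) (β : ℝ) (Y : ∀ U : Finset (C3.Cell m₁ m₂), (psys U Γ.pin g β).L →+ ℝ)
    (z : (Free.pi (splitS Γ g β)).L) : splitZ Γ g β Y z = ∑ U : {U // U ∈ comps Γ}, Y U.1 (Free.piPr (splitS Γ g β) U z) := by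
  simp only [splitZ, AddMonoidHom.finsetSum_apply, AddMonoidHom.comp_apply]

theorem pn_t31g_split_mgf (Γ : CGeom m₁ m₂) (g : DGrid m₁ m₂) (β : ℝ) (hβ : 0 < β) (Y : ∀ U : Finset (C3.Cell m₁ m₂), (psys U Γ.pin g β).L →+ ℝ) :
    lLap (Free.pi (splitS Γ g β)) (splitZ Γ g β Y) = ∑ U ∈ comps Γ, lLap (psys U Γ.pin g β) (Y U) := by
  unfold lLap
  simp only [pn_t31g_split_Z_apply]
  rw [Free.pi_mgf (splitS Γ g β) (pn_t31g_split_okS Γ g β hβ) fun U => Y U.1, Real.log_prod]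
  · exact Finset.sum_coe_sort (comps Γ) fun U => Real.log ((psys U Γ.pin g β).E0 fun z => Real.exp (Y U z))
  · intro U _
    rw [Rsd.cs_E0_exp]
    exact (div_pos (lsys_pos _ (pn_t31g_split_okS Γ g β hβ U) _ _) (Rsd.cs_w_pos (pn_t31g_split_okS Γ g β hβ U) _)).ne'

theorem pn_t31g_split_E0_pos {S : LSys} (hS : S.Ok) (X : S.L →+ ℝ) : 0 < S.E0 fun z => Real.exp (X z) := by
  rw [Rsd.cs_E0_exp]
  exact div_pos (lsys_pos _ hS _ _) (Rsd.cs_w_pos hS _)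

/-- **L-T31G-S2** (~300 l.).  `r : LSys.Ref (Free.pi fun U : {U // U ∈ comps Γ} => psys U Γ.pin g β) ((lawR Γ g noRow).sys β)` as in `Free.frCutRef`: `iE ⟨U, e⟩ = e` (`pn_t31g_bond_of_comp`, `pn_t31g_poly_bonds`; injective by
`pn_t31g_region_disj`), `map_mem`: the restriction of a gradient is the gradient of `pullV h`.   `(∑_U Y U ∘ piPr U) ∘ r.psi` is a lift of `f` (`pn_t31g_sum_push`, `pn_t31g_pair_push`), hence `= X` (`pn_t31_lift_unique`).
`lsys_mgf_mono`, `Free.pi_mgf`, `Free.pi_ok`, `HLaw.ok_of_isEmpty`, `Real.log_prod`, `Finset.sum_coe_sort`. -/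
theorem pn_t31g_split_le (Γ : CGeom m₁ m₂) (hΓ : Γ.NoDiag) (g : DGrid m₁ m₂) (β : ℝ) (hβ : 0 < β)
    (f : (Γ.graph g).V → ℝ) (X : ((C3.lawR Γ g C3.noRow).sys β).L →+ ℝ) (hX : (C3.lawR Γ g C3.noRow).Lift β f X)
    (Y : ∀ U : Finset (C3.Cell m₁ m₂), (psys U Γ.pin g β).L →+ ℝ) (hY : ∀ U ∈ comps Γ, (plaw U Γ.pin g).Lift β (pullV Γ U g f) (Y U)) :
    lLap ((C3.lawR Γ g C3.noRow).sys β) X ≤ ∑ U ∈ comps Γ, lLap (psys U Γ.pin g β) (Y U) := by
  have hZ : (splitZ Γ g β Y).comp (splitRef Γ hΓ g β).psi = X := by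
    refine pn_t31_lift_unique _ β (f := f) ?_ hX
    rw [pn_t31_lift_iff]
    intro h
    rw [AddMonoidHom.comp_apply, pn_t31g_split_Z_apply, pn_t31g_split_pair, Finset.mul_sum,
      ← Finset.sum_coe_sort (comps Γ) fun U => 2 * Real.pi * HLaw.pair (pullV Γ U g f) (toR (pullV Γ U g (h : (Γ.graph g).V → ℤ)))]
    refine Finset.sum_congr rfl fun U _ => ?_
    have e1 : Free.piPr (splitS Γ g β) U ((splitRef Γ hΓ g β).psi (prL (C3.lawR Γ g C3.noRow) β h))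
        = prL (plaw U.1 Γ.pin g) β ⟨pullV Γ U.1 g h, pn_t31g_pull_mem Γ g U.2 h.2⟩ := by
      apply Subtype.ext
      refine Eq.trans ?_ (pn_t31g_split_coord_pull Γ hΓ g β U h).symm
      exact Prod.ext rfl (funext fun o => Fin.elim0 o)
    rw [e1]
    exact (pn_t31_lift_iff _ β _ _).1 (hY U.1 U.2) _
  have h := lsys_mgf_mono (splitRef Γ hΓ g β) (Free.pi_ok _ (pn_t31g_split_okS Γ g β hβ)) (pn_t31g_split_ok Γ g β hβ) (splitZ Γ g β Y)
  rw [← pn_t31g_split_mgf Γ g β hβ Y]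
  unfold lLap
  refine Real.log_le_log (pn_t31g_split_E0_pos (pn_t31g_split_ok Γ g β hβ) X) ?_
  rw [← hZ]
  exact h

/-! the opposite refinement -/

theorem pn_t31g_split_mem_domBonds {D : Finset (ℤ × ℤ)} {cut : Set Bond} {e : Bond} (h1 : e.1 ∈ D) (h2 : e.snd ∈ D) (h3 : e ∉ cut) :
    e ∈ domBonds D cut := by
  unfold domBonds
  exact Finset.mem_filter.2 ⟨Finset.mem_product.2 ⟨h1, Finset.mem_univ _⟩, h2, h3⟩

theorem pn_t31g_split_exists_comp (Γ : CGeom m₁ m₂) (g : DGrid m₁ m₂) (e : (Γ.graph g).E) :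
    ∃ U : {U // U ∈ comps Γ}, e.1 ∈ domBonds (g.region (polyG U.1 Γ.pin).T) ((polyG U.1 Γ.pin).cutB g) := by
  obtain ⟨U, hU, hx⟩ := pn_t31g_region_cover Γ g (domBonds_fst e.2)
  refine ⟨⟨U, hU⟩, ?_⟩
  rw [pn_t31g_poly_bonds]
  exact pn_t31g_split_mem_domBonds hx ((pn_t31g_bond_comp Γ g e.2 hU).1 hx) fun h => h

/-- a bond of `Γ` as a bond of its component -/
def splitDn (Γ : CGeom m₁ m₂) (g : DGrid m₁ m₂) (e : (Γ.graph g).E) : Σ U : {U // U ∈ comps Γ}, ((polyG U.1 Γ.pin).graph g).E :=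
  ⟨(pn_t31g_split_exists_comp Γ g e).choose,
    (⟨e.1, (pn_t31g_split_exists_comp Γ g e).choose_spec⟩ : {e' : Bond // e' ∈ domBonds _ _})⟩

theorem pn_t31g_split_dn_val (Γ : CGeom m₁ m₂) (g : DGrid m₁ m₂) (e : (Γ.graph g).E) : (splitDn Γ g e).2.1 = e.1 := rfl

def splitE' (Γ : CGeom m₁ m₂) (g : DGrid m₁ m₂) (β : ℝ) :
    ((C3.lawR Γ g C3.noRow).sys β).E ↪ (Free.pi (splitS Γ g β)).E where
  toFun e := splitDn Γ g e
  inj' := by
    intro e e' h
    have h1 : (splitDn Γ g e).2.1 = (splitDn Γ g e').2.1 :=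
      congrArg (fun x : Σ U : {U // U ∈ comps Γ}, ((polyG U.1 Γ.pin).graph g).E => (x.2.1 : Bond)) h
    exact Subtype.ext h1

/-- the glued height -/
def splitGlue (Γ : CGeom m₁ m₂) (g : DGrid m₁ m₂) {α : Type} [AddCommMonoid α]
    (k : ∀ U : {U // U ∈ comps Γ}, ((polyG U.1 Γ.pin).graph g).V → α) : (Γ.graph g).V → α :=
  ∑ U : {U // U ∈ comps Γ}, pushV Γ U.1 g (k U)

theorem pn_t31g_split_glue_at (Γ : CGeom m₁ m₂) (g : DGrid m₁ m₂) {α : Type} [AddCommMonoid α]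
    (k : ∀ U : {U // U ∈ comps Γ}, ((polyG U.1 Γ.pin).graph g).V → α) (U₀ : {U // U ∈ comps Γ}) (x : ℤ × ℤ) (hx : x ∈ g.region U₀.1)
    (hx' : x ∈ g.region Γ.T) : splitGlue Γ g k (vmk Γ g x hx') = k U₀ (vmk (polyG U₀.1 Γ.pin) g x hx) := by
  unfold splitGlue
  rw [Finset.sum_apply, Finset.sum_eq_single U₀]
  · exact dif_pos hx
  · intro U _ hne
    refine dif_neg fun hxU => hne (Subtype.ext ?_)
    exact pn_t31g_split_comp_unique Γ g U.2 U₀.2 hxU hx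
  · intro h
    exact absurd (Finset.mem_univ _) h

theorem pn_t31g_split_glue_mem (Γ : CGeom m₁ m₂) (g : DGrid m₁ m₂) (k : ∀ U : {U // U ∈ comps Γ}, ((polyG U.1 Γ.pin).graph g).V → ℤ)
    (hk : ∀ U, k U ∈ (plaw U.1 Γ.pin g).Λ) : splitGlue Γ g k ∈ (C3.lawR Γ g C3.noRow).Λ :=
  AddSubgroup.sum_mem _ fun U _ => (pn_t31g_push_mem Γ g U.2 (hk U)).1

theorem pn_t31g_split_coord_glue (Γ : CGeom m₁ m₂) (g : DGrid m₁ m₂) (β : ℝ) (k : ∀ U : {U // U ∈ comps Γ}, ((polyG U.1 Γ.pin).graph g).V → ℤ) :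
    (C3.lawR Γ g C3.noRow).coordA β (splitGlue Γ g k)
      = ((fun e => ((plaw (splitDn Γ g e).1.1 Γ.pin g).coordA β (k (splitDn Γ g e).1)).1 (splitDn Γ g e).2, fun o => Fin.elim0 o) :
          ((C3.lawR Γ g C3.noRow).sys β).Amb) := by
  refine Prod.ext (funext fun e => ?_) (funext fun o => Fin.elim0 o)
  have a1 := pn_t31g_split_glue_at Γ g k (splitDn Γ g e).1 e.1.snd (domBonds_snd (splitDn Γ g e).2.2) (domBonds_snd e.2)
  have a2 := pn_t31g_split_glue_at Γ g k (splitDn Γ g e).1 e.1.1 (domBonds_fst (splitDn Γ g e).2.2) (domBonds_fst e.2)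
  show splitGlue Γ g k (vmk Γ g e.1.snd (domBonds_snd e.2)) - splitGlue Γ g k (vmk Γ g e.1.1 (domBonds_fst e.2)) = _
  rw [a1, a2]
  rfl

theorem pn_t31g_split_exists_k (Γ : CGeom m₁ m₂) (g : DGrid m₁ m₂) (β : ℝ) (z : (Free.pi (splitS Γ g β)).Amb) (hz : z ∈ (Free.pi (splitS Γ g β)).L) :
    ∃ k : ∀ U : {U // U ∈ comps Γ}, ((polyG U.1 Γ.pin).graph g).V → ℤ, (∀ U, k U ∈ (plaw U.1 Γ.pin g).Λ) ∧
      ∀ U, (plaw U.1 Γ.pin g).coordA β (k U) = ((fun e => z.1 ⟨U, e⟩, fun o => z.2 ⟨U, o⟩) : (splitS Γ g β U).Amb) := by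
  choose k hk hkz using fun U => AddSubgroup.mem_map.1 (hz U)
  exact ⟨k, hk, hkz⟩

/-- the refinement "geometry → components" -/
def splitRef' (Γ : CGeom m₁ m₂) (g : DGrid m₁ m₂) (β : ℝ) :
    LSys.Ref ((C3.lawR Γ g C3.noRow).sys β) (Free.pi (splitS Γ g β)) where
  iE := splitE' Γ g β
  iO := ⟨fun o => Fin.elim0 o, fun o => Fin.elim0 o⟩
  hb := fun _ => rfl
  map_mem := by
    intro z hz
    obtain ⟨k, hk, hkz⟩ := pn_t31g_split_exists_k Γ g β z hz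
    refine AddSubgroup.mem_map.2 ⟨splitGlue Γ g k, pn_t31g_split_glue_mem Γ g k hk, ?_⟩
    refine (pn_t31g_split_coord_glue Γ g β k).trans ?_
    refine Prod.ext (funext fun e => ?_) (funext fun o => Fin.elim0 o)
    show ((plaw (splitDn Γ g e).1.1 Γ.pin g).coordA β (k (splitDn Γ g e).1)).1 (splitDn Γ g e).2 = z.1 (splitDn Γ g e)
    rw [hkz]
    rfl

theorem pn_t31g_split_push_toR (Γ : CGeom m₁ m₂) (U : Finset (C3.Cell m₁ m₂)) (g : DGrid m₁ m₂) (h : ((polyG U Γ.pin).graph g).V → ℤ) :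
    pushV Γ U g (toR h) = toR (pushV Γ U g h) := by
  funext v
  by_cases hv : vpos Γ g v ∈ g.region U <;> simp [pushV, toR, hv]

theorem pn_t31g_split_glue_toR (Γ : CGeom m₁ m₂) (g : DGrid m₁ m₂) (k : ∀ U : {U // U ∈ comps Γ}, ((polyG U.1 Γ.pin).graph g).V → ℤ) :
    toR (splitGlue Γ g k) = ∑ U : {U // U ∈ comps Γ}, pushV Γ U.1 g (toR (k U)) := by
  funext v
  simp only [splitGlue, toR, Finset.sum_apply, Int.cast_sum]
  refine Finset.sum_congr rfl fun U _ => ?_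
  exact (congrFun (pn_t31g_split_push_toR Γ U.1 g (k U)) v).symm

/-- **L-T31G-S3** (~300 l.).  The opposite `r' : LSys.Ref ((lawR Γ g noRow).sys β) (Free.pi ..)`: `iE e = ⟨U, e⟩`, `U` = the component of the bond (`pn_t31g_region_cover`, `pn_t31g_bond_comp`; choose), `map_mem`: glue the heights `∑_U pushV h_U`.
`X ∘ r'.psi = ∑_U Y U ∘ piPr U` (evaluate on the glued height). -/
theorem pn_t31g_split_ge (Γ : CGeom m₁ m₂) (hΓ : Γ.NoDiag) (g : DGrid m₁ m₂) (β : ℝ) (hβ : 0 < β)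
    (f : (Γ.graph g).V → ℝ) (X : ((C3.lawR Γ g C3.noRow).sys β).L →+ ℝ) (hX : (C3.lawR Γ g C3.noRow).Lift β f X)
    (Y : ∀ U : Finset (C3.Cell m₁ m₂), (psys U Γ.pin g β).L →+ ℝ) (hY : ∀ U ∈ comps Γ, (plaw U Γ.pin g).Lift β (pullV Γ U g f) (Y U)) :
    ∑ U ∈ comps Γ, lLap (psys U Γ.pin g β) (Y U) ≤ lLap ((C3.lawR Γ g C3.noRow).sys β) X := by
  have hZ : X.comp (splitRef' Γ g β).psi = splitZ Γ g β Y := by
    ext z
    obtain ⟨k, hk, hkz⟩ := pn_t31g_split_exists_k Γ g β z z.2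
    have e1 : (splitRef' Γ g β).psi z = prL (C3.lawR Γ g C3.noRow) β ⟨splitGlue Γ g k, pn_t31g_split_glue_mem Γ g k hk⟩ := by
      apply Subtype.ext
      refine Eq.trans ?_ (pn_t31g_split_coord_glue Γ g β k).symm
      refine Prod.ext (funext fun e => ?_) (funext fun o => Fin.elim0 o)
      show (z : (Free.pi (splitS Γ g β)).Amb).1 (splitDn Γ g e)
        = ((plaw (splitDn Γ g e).1.1 Γ.pin g).coordA β (k (splitDn Γ g e).1)).1 (splitDn Γ g e).2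
      rw [hkz]
      rfl
    rw [AddMonoidHom.comp_apply, e1, (pn_t31_lift_iff _ β _ _).1 hX, pn_t31g_split_Z_apply]
    show 2 * Real.pi * HLaw.pair f (toR (splitGlue Γ g k)) = _
    rw [pn_t31g_split_glue_toR, pn_t31g_split_pair_sum, Finset.mul_sum]
    refine Finset.sum_congr rfl fun U _ => ?_
    have e2 : Free.piPr (splitS Γ g β) U z = prL (plaw U.1 Γ.pin g) β ⟨k U, hk U⟩ := Subtype.ext (hkz U).symm
    rw [e2, pn_t31g_pair_push Γ g U.2]
    exact ((pn_t31_lift_iff _ β _ _).1 (hY U.1 U.2) ⟨k U, hk U⟩).symm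
  have h := lsys_mgf_mono (splitRef' Γ g β) (pn_t31g_split_ok Γ g β hβ) (Free.pi_ok _ (pn_t31g_split_okS Γ g β hβ)) X
  rw [← pn_t31g_split_mgf Γ g β hβ Y]
  unfold lLap
  refine Real.log_le_log (pn_t31g_split_E0_pos (Free.pi_ok _ (pn_t31g_split_okS Γ g β hβ)) _) ?_
  rw [← hZ]
  exact h


theorem pn_t31g_S4_mem_rspan {G : HGraph} (H : HLaw G) (P : Set G.V) (hΛ : H.Λ = HLaw.pinned P) (u : G.V → ℝ) :
    u ∈ H.rspan ↔ ∀ x ∈ P, u x = 0 := by
  constructor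
  · intro hu
    unfold HLaw.rspan at hu
    induction hu using Submodule.span_induction with
    | mem y hy =>
      obtain ⟨h, hh, rfl⟩ := hy
      intro x hx
      rw [hΛ] at hh
      have : h x = 0 := hh x hx
      simp [this]
    | zero => intro x _; rfl
    | add y z _ _ hy hz => intro x hx; simp [hy x hx, hz x hx]
    | smul t y _ hy => intro x hx; simp [hy x hx]
  · intro hu
    have e : u = ∑ x, u x • (fun v => (((Pi.single x (1 : ℤ) : G.V → ℤ) v : ℤ) : ℝ)) := by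
      funext v
      simp only [Finset.sum_apply, Pi.smul_apply, smul_eq_mul]
      rw [Finset.sum_eq_single v]
      · simp
      · intro x _ hx
        simp [Ne.symm hx]
      · intro h; exact absurd (Finset.mem_univ v) h
    rw [e]
    refine Submodule.sum_mem _ fun x _ => ?_
    by_cases hx : x ∈ P
    · rw [hu x hx, zero_smul]; exact Submodule.zero_mem _
    · refine Submodule.smul_mem _ _ (Submodule.subset_span ⟨Pi.single x 1, ?_, rfl⟩)
      rw [hΛ]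
      intro y hy
      have : y ≠ x := fun h => hx (h ▸ hy)
      simp [this]

theorem pn_t31g_S4_push_rspan (Γ : CGeom m₁ m₂) (g : DGrid m₁ m₂) (U : Finset (C3.Cell m₁ m₂))
    {v : ((polyG U Γ.pin).graph g).V → ℝ} (hv : v ∈ (plaw U Γ.pin g).rspan) : pushV Γ U g v ∈ (C3.lawR Γ g C3.noRow).rspan := by
  rw [pn_t31g_S4_mem_rspan _ (Γ.sites g Γ.pin) rfl]
  rw [pn_t31g_S4_mem_rspan (plaw U Γ.pin g) ((polyG U Γ.pin).sites g Γ.pin) rfl] at hv
  intro x hx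
  by_cases h : vpos Γ g x ∈ g.region U
  · have h1 : pushV Γ U g v x = v (vmk (polyG U Γ.pin) g _ h) := dif_pos h
    rw [h1]
    exact hv _ hx
  · exact dif_neg h

theorem pn_t31g_S4_pull_rspan (Γ : CGeom m₁ m₂) (g : DGrid m₁ m₂) (U : Finset (C3.Cell m₁ m₂))
    {u : (Γ.graph g).V → ℝ} (hu : u ∈ (C3.lawR Γ g C3.noRow).rspan) : pullV Γ U g u ∈ (plaw U Γ.pin g).rspan := by
  rw [pn_t31g_S4_mem_rspan _ (Γ.sites g Γ.pin) rfl] at hu
  rw [pn_t31g_S4_mem_rspan (plaw U Γ.pin g) ((polyG U Γ.pin).sites g Γ.pin) rfl]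
  intro x hx
  by_cases h : vpos (polyG U Γ.pin) g x ∈ g.region Γ.T
  · have h1 : pullV Γ U g u x = u (vmk Γ g _ h) := dif_pos h
    rw [h1]
    exact hu _ hx
  · exact dif_neg h

/-- the edge of `Γ` of an edge of a component -/
theorem pn_t31g_S4_edge_mem (Γ : CGeom m₁ m₂) (hΓ : Γ.NoDiag) (g : DGrid m₁ m₂) {U : Finset (C3.Cell m₁ m₂)} (hU : U ∈ comps Γ)
    (e : ((polyG U Γ.pin).graph g).E) :
    domBond (D := g.region (polyG U Γ.pin).T) (cut := (polyG U Γ.pin).cutB g) e ∈ domBonds (g.region Γ.T) (Γ.cutB g) :=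
  pn_t31g_bond_of_comp Γ hΓ g hU (pn_t31g_poly_bonds U Γ.pin g ▸ e.2)

/-- the gradient part of the form splits -/
theorem pn_t31g_S4_grad (Γ : CGeom m₁ m₂) (hΓ : Γ.NoDiag) (g : DGrid m₁ m₂) {U : Finset (C3.Cell m₁ m₂)} (hU : U ∈ comps Γ)
    (v : ((polyG U Γ.pin).graph g).V → ℝ) (u : (Γ.graph g).V → ℝ) :
    ∑ e : (Γ.graph g).E, plGrad (pushV Γ U g v) e * plGrad u e
      = ∑ e : ((polyG U Γ.pin).graph g).E, plGrad v e * plGrad (pullV Γ U g u) e := by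
  symm
  have hsub : g.region U ⊆ g.region Γ.T := pn_t31g_region_mono g (pn_t31g_comps_sub Γ hU)
  refine Finset.sum_of_injOn (fun e => (⟨domBond (D := g.region (polyG U Γ.pin).T) (cut := (polyG U Γ.pin).cutB g) e,
    pn_t31g_S4_edge_mem Γ hΓ g hU e⟩ : (Γ.graph g).E)) ?_ (fun _ _ => Finset.mem_coe.2 (Finset.mem_univ _)) ?_ ?_
  · intro e _ e' _ h
    exact Subtype.ext (congrArg (fun z : (Γ.graph g).E => domBond (D := g.region Γ.T) (cut := Γ.cutB g) z) h)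
  · intro e _ he
    have h1 : (e.1.1 ∈ g.region U ↔ e.1.snd ∈ g.region U) := pn_t31g_bond_comp Γ g e.2 hU
    have h2 : e.1.1 ∉ g.region U := by
      intro h3
      refine he ⟨⟨e.1, ?_⟩, Finset.mem_coe.2 (Finset.mem_univ _), rfl⟩
      rw [pn_t31g_poly_bonds]
      simp only [domBonds, Finset.mem_filter, Finset.mem_product, Finset.mem_univ, and_true, Set.mem_empty_iff_false, not_false_eq_true]
      exact ⟨h3, h1.1 h3⟩
    have h3 : e.1.snd ∉ g.region U := fun h => h2 (h1.2 h)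
    have h4 : pushV Γ U g v ((Γ.graph g).tgt e) = 0 := dif_neg h3
    have h5 : pushV Γ U g v ((Γ.graph g).src e) = 0 := dif_neg h2
    unfold plGrad
    rw [h4, h5]
    ring
  · intro e _
    have e1 : e.1.1 ∈ g.region U := domBonds_fst e.2
    have e2 : e.1.snd ∈ g.region U := domBonds_snd e.2
    have h4 : pushV Γ U g v ((Γ.graph g).tgt ⟨e.1, pn_t31g_S4_edge_mem Γ hΓ g hU e⟩) = v (((polyG U Γ.pin).graph g).tgt e) := dif_pos e2
    have h5 : pushV Γ U g v ((Γ.graph g).src ⟨e.1, pn_t31g_S4_edge_mem Γ hΓ g hU e⟩) = v (((polyG U Γ.pin).graph g).src e) := dif_pos e1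
    have h6 : pullV Γ U g u (((polyG U Γ.pin).graph g).tgt e) = u ((Γ.graph g).tgt ⟨e.1, pn_t31g_S4_edge_mem Γ hΓ g hU e⟩) := dif_pos (hsub e2)
    have h7 : pullV Γ U g u (((polyG U Γ.pin).graph g).src e) = u ((Γ.graph g).src ⟨e.1, pn_t31g_S4_edge_mem Γ hΓ g hU e⟩) := dif_pos (hsub e1)
    unfold plGrad
    rw [h6, h7]
    exact congrArg₂ (· * ·) (congrArg₂ (· - ·) h4.symm h5.symm) rfl

theorem pn_t31g_S4_B (Γ : CGeom m₁ m₂) (hΓ : Γ.NoDiag) (g : DGrid m₁ m₂) {U : Finset (C3.Cell m₁ m₂)} (hU : U ∈ comps Γ) (a : ℝ)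
    (v : ((polyG U Γ.pin).graph g).V → ℝ) (u : (Γ.graph g).V → ℝ) :
    plB (C3.lawR Γ g C3.noRow) a (pushV Γ U g v) u = plB (plaw U Γ.pin g) a v (pullV Γ U g u) := by
  have i1 : IsEmpty (C3.lawR Γ g C3.noRow).O := inferInstanceAs (IsEmpty (Fin 0))
  have i2 : IsEmpty (plaw U Γ.pin g).O := inferInstanceAs (IsEmpty (Fin 0))
  have h1 : ∀ F : (C3.lawR Γ g C3.noRow).O → ℝ, ∑ o, F o = 0 := fun F => Fintype.sum_empty F
  have h2 : ∀ F : (plaw U Γ.pin g).O → ℝ, ∑ o, F o = 0 := fun F => Fintype.sum_empty F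
  unfold plB
  rw [h1, h2, pn_t31g_S4_grad Γ hΓ g hU]

theorem pn_t31g_S4_adm (Γ : CGeom m₁ m₂) (hΓ : Γ.NoDiag) (g : DGrid m₁ m₂) {U : Finset (C3.Cell m₁ m₂)} (hU : U ∈ comps Γ)
    {f : (Γ.graph g).V → ℝ} (hf : plAdm (C3.lawR Γ g C3.noRow) f) : plAdm (plaw U Γ.pin g) (pullV Γ U g f) := by
  intro v hv h1 _
  rw [← pn_t31g_pair_push Γ g hU]
  have h3 : (C3.lawR Γ g C3.noRow).form 1 (pushV Γ U g v) = 0 := by
    rw [pl_form_eq, pn_t31g_S4_B Γ hΓ g hU]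
    have i2 : IsEmpty (plaw U Γ.pin g).O := inferInstanceAs (IsEmpty (Fin 0))
    have h2 : ∀ F : (plaw U Γ.pin g).O → ℝ, ∑ o, F o = 0 := fun F => Fintype.sum_empty F
    have h3 : ∑ e, plGrad v e * plGrad (pullV Γ U g (pushV Γ U g v)) e = 0 :=
      Finset.sum_eq_zero fun e _ => by rw [h1 e, zero_mul]
    unfold plB
    rw [h2, h3]
    simp
  obtain ⟨h4, h5⟩ := (pl_form_eq_zero_iff (C3.lawR Γ g C3.noRow) one_pos _).1 h3
  exact hf _ (pn_t31g_S4_push_rspan Γ g U hv) h4 h5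

theorem pn_t31g_S4_B_sum {G : HGraph} (H : HLaw G) (a : ℝ) {ι : Type} (s : Finset ι) (w : ι → G.V → ℝ) (u : G.V → ℝ) :
    plB H a (∑ i ∈ s, w i) u = ∑ i ∈ s, plB H a (w i) u := by
  induction s using Finset.induction_on with
  | empty => simp [pl_B_zero_left]
  | insert i s hi ih => rw [Finset.sum_insert hi, Finset.sum_insert hi, pl_B_add_left, ih]

theorem pn_t31g_S4_pair_sum {G : HGraph} (f : G.V → ℝ) {ι : Type} (s : Finset ι) (w : ι → G.V → ℝ) :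
    HLaw.pair f (∑ i ∈ s, w i) = ∑ i ∈ s, HLaw.pair f (w i) := by
  induction s using Finset.induction_on with
  | empty => simp [pl_pair_zero_right]
  | insert i s hi ih => rw [Finset.sum_insert hi, Finset.sum_insert hi, pl_pair_add_right, ih]

/-- **L-T31G-S4** (~250 l.).  Reference side.  `pullV f` is admissible on every component (test with `pushV`); `v_U` optimisers (`pl_opt_exists`); `v = ∑_U pushV v_U` is an optimiser of `f`
(`plB` splits over the components: every edge of `Γ` lies in exactly one component); `pl_gVar_eq_pair`, `pn_t31g_pair_push`. -/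
theorem pn_t31g_split_gVar (Γ : CGeom m₁ m₂) (hΓ : Γ.NoDiag) (g : DGrid m₁ m₂) {a : ℝ} (ha : 0 < a) (f : (Γ.graph g).V → ℝ)
    (hf : plAdm (C3.lawR Γ g C3.noRow) f) :
    (C3.lawR Γ g C3.noRow).gVar a f = ∑ U ∈ comps Γ, (plaw U Γ.pin g).gVar a (pullV Γ U g f) := by
  have hex : ∀ U : Finset (C3.Cell m₁ m₂), ∃ v, U ∈ comps Γ → plIsOpt (plaw U Γ.pin g) a (pullV Γ U g f) v := fun U => by
    by_cases hU : U ∈ comps Γ
    · obtain ⟨v, hv⟩ := pl_opt_exists (plaw U Γ.pin g) ha (pn_t31g_S4_adm Γ hΓ g hU hf)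
      exact ⟨v, fun _ => hv⟩
    · exact ⟨0, fun h => absurd h hU⟩
  choose v hv using hex
  have hopt : plIsOpt (C3.lawR Γ g C3.noRow) a f (∑ U ∈ comps Γ, pushV Γ U g (v U)) := by
    refine ⟨Submodule.sum_mem _ fun U hU => pn_t31g_S4_push_rspan Γ g U (hv U hU).1, fun u hu => ?_⟩
    rw [pn_t31g_S4_B_sum]
    conv_rhs => rw [pn_t31g_sum_push Γ g u, pn_t31g_S4_pair_sum]
    refine Finset.sum_congr rfl fun U hU => ?_
    rw [pn_t31g_S4_B Γ hΓ g hU, (hv U hU).2 _ (pn_t31g_S4_pull_rspan Γ g U hu), pn_t31g_pair_push Γ g hU]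
  rw [pl_gVar_eq_pair _ ha hopt, pn_t31g_S4_pair_sum]
  refine Finset.sum_congr rfl fun U hU => ?_
  rw [pl_gVar_eq_pair _ ha (hv U hU), pn_t31g_pair_push Γ g hU]

/-- the ambient extension by zero of a function on the vertices of the polygon -/
def pn_t31g_S5_amb (Γ : CGeom m₁ m₂) (U : Finset (C3.Cell m₁ m₂)) (g : DGrid m₁ m₂) {α : Type} [Zero α]
    (h : ((polyG U Γ.pin).graph g).V → α) : ℤ × ℤ → α :=
  fun x => if hx : x ∈ g.region U then h (vmk (polyG U Γ.pin) g x hx) else 0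

theorem pn_t31g_S5_amb_poly (Γ : CGeom m₁ m₂) (U : Finset (C3.Cell m₁ m₂)) (g : DGrid m₁ m₂) {α : Type} [Zero α]
    (h : ((polyG U Γ.pin).graph g).V → α) (v : ((polyG U Γ.pin).graph g).V) :
    h v = pn_t31g_S5_amb Γ U g h (vpos (polyG U Γ.pin) g v) := by
  have hv : vpos (polyG U Γ.pin) g v ∈ g.region U := v.2
  unfold pn_t31g_S5_amb
  rw [dif_pos hv]
  rfl

theorem pn_t31g_S5_amb_push (Γ : CGeom m₁ m₂) (U : Finset (C3.Cell m₁ m₂)) (g : DGrid m₁ m₂) {α : Type} [Zero α]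
    (h : ((polyG U Γ.pin).graph g).V → α) (v : (Γ.graph g).V) :
    pushV Γ U g h v = pn_t31g_S5_amb Γ U g h (vpos Γ g v) := rfl

theorem pn_t31g_S5_amb_off (Γ : CGeom m₁ m₂) (U : Finset (C3.Cell m₁ m₂)) (g : DGrid m₁ m₂) {α : Type} [Zero α]
    (h : ((polyG U Γ.pin).graph g).V → α) {x : ℤ × ℤ} (hx : x ∉ g.region U) : pn_t31g_S5_amb Γ U g h x = 0 := dif_neg hx

/-- the weight of a massless law on a n.n. graph through an ambient height -/
theorem pn_t31g_S5_W (D : Finset (ℤ × ℤ)) (cut : Set Bond) (H : HLaw (domG D cut)) (hO : IsEmpty H.O) (β : ℝ) (k : (domG D cut).V → ℤ)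
    (a : ℤ × ℤ → ℤ) (hk : ∀ v, k v = a (domPos v)) :
    (H.sys β).W (H.coordA β k) = ∏ e ∈ domBonds D cut, bes β (a e.snd - a e.1) := by
  unfold LSys.W
  have e1 : ∑ o, (H.coordA β k).2 o ^ 2 = 0 := Finset.sum_eq_zero fun o _ => (hO.false o).elim
  rw [e1, neg_zero, zero_div, Real.exp_zero, mul_one]
  rw [← Finset.prod_coe_sort (domBonds D cut) fun e => bes β (a e.snd - a e.1)]
  refine Finset.prod_congr ?_ fun e _ => ?_
  · ext e
    exact ⟨fun _ => Finset.mem_attach _ _, fun _ => Finset.mem_univ _⟩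
  · show bes β (k ((domG D cut).tgt e) - k ((domG D cut).src e)) = _
    rw [hk, hk]
    rfl

/-- the gradient of a massless law on a n.n. graph vanishes iff the ambient gradient vanishes on all bonds -/
theorem pn_t31g_S5_coord0 (D : Finset (ℤ × ℤ)) (cut : Set Bond) (H : HLaw (domG D cut)) (hO : IsEmpty H.O) (k : (domG D cut).V → ℤ)
    (a : ℤ × ℤ → ℤ) (hk : ∀ v, k v = a (domPos v)) :
    H.coord k = 0 ↔ ∀ e ∈ domBonds D cut, a e.snd - a e.1 = 0 := by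
  constructor
  · intro h e he
    have := congrFun (congrArg Prod.fst h) (⟨e, he⟩ : (domG D cut).E)
    have h2 : k ((domG D cut).tgt ⟨e, he⟩) - k ((domG D cut).src ⟨e, he⟩) = 0 := this
    rw [hk, hk] at h2
    exact h2
  · intro h
    refine Prod.ext ?_ ?_
    · funext e
      show k ((domG D cut).tgt e) - k ((domG D cut).src e) = 0
      rw [hk, hk]
      exact h e.1 e.2
    · funext o
      exact (hO.false o).elim

theorem pn_t31g_S5_mem_bonds {D : Finset (ℤ × ℤ)} {e : Bond} : e ∈ domBonds D ∅ ↔ e.1 ∈ D ∧ e.snd ∈ D := by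
  simp [domBonds, Finset.mem_filter, Finset.mem_product]

/-- the bonds of `Γ` with first end in the region of a component are the n.n. bonds of this region -/
theorem pn_t31g_S5_filter (Γ : CGeom m₁ m₂) (hΓ : Γ.NoDiag) (g : DGrid m₁ m₂) {U : Finset (C3.Cell m₁ m₂)} (hU : U ∈ comps Γ) :
    (domBonds (g.region Γ.T) (Γ.cutB g)).filter (fun e => e.1 ∈ g.region U) = domBonds (g.region U) ∅ := by
  ext e
  rw [Finset.mem_filter]
  constructor
  · rintro ⟨he, h1⟩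
    have h2 := (pn_t31g_bond_comp Γ g he hU).1 h1
    exact pn_t31g_S5_mem_bonds.2 ⟨h1, h2⟩
  · intro he
    exact ⟨pn_t31g_bond_of_comp Γ hΓ g hU he, domBonds_fst he⟩

/-- splitting of a product over the bonds of `Γ` for an ambient height which vanishes off the region of a component -/
theorem pn_t31g_S5_prod (Γ : CGeom m₁ m₂) (hΓ : Γ.NoDiag) (g : DGrid m₁ m₂) (β : ℝ) {U : Finset (C3.Cell m₁ m₂)} (hU : U ∈ comps Γ)
    (a : ℤ × ℤ → ℤ) (ha : ∀ x, x ∉ g.region U → a x = 0) :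
    ∏ e ∈ domBonds (g.region Γ.T) (Γ.cutB g), bes β (a e.snd - a e.1)
      = bes β 0 ^ ((domBonds (g.region Γ.T) (Γ.cutB g)).filter (fun e => ¬ e.1 ∈ g.region U)).card
        * ∏ e ∈ domBonds (g.region U) ∅, bes β (a e.snd - a e.1) := by
  rw [← Finset.prod_filter_mul_prod_filter_not (domBonds (g.region Γ.T) (Γ.cutB g)) (fun e => e.1 ∈ g.region U),
    pn_t31g_S5_filter Γ hΓ g hU, mul_comm]
  congr 1
  rw [← Finset.prod_const]
  refine Finset.prod_congr rfl fun e he => ?_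
  obtain ⟨he1, he2⟩ := Finset.mem_filter.1 he
  have he3 : e.snd ∉ g.region U := fun h => he2 ((pn_t31g_bond_comp Γ g he1 hU).2 h)
  rw [ha _ he2, ha _ he3, sub_zero]

theorem pn_t31g_S5_push_add (Γ : CGeom m₁ m₂) (U : Finset (C3.Cell m₁ m₂)) (g : DGrid m₁ m₂)
    (h h' : ((polyG U Γ.pin).graph g).V → ℤ) : pushV Γ U g (h + h') = pushV Γ U g h + pushV Γ U g h' := by
  funext v
  by_cases hv : vpos Γ g v ∈ g.region U <;> simp [pushV, hv]

theorem pn_t31g_S5_push_toR (Γ : CGeom m₁ m₂) (U : Finset (C3.Cell m₁ m₂)) (g : DGrid m₁ m₂)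
    (h : ((polyG U Γ.pin).graph g).V → ℤ) : toR (pushV Γ U g h) = pushV Γ U g (toR h) := by
  funext v
  by_cases hv : vpos Γ g v ∈ g.region U <;> simp [pushV, toR, hv]

/-- extension by zero as a homomorphism of the constraint lattices -/
def pn_t31g_S5_push (Γ : CGeom m₁ m₂) (g : DGrid m₁ m₂) {U : Finset (C3.Cell m₁ m₂)} (hU : U ∈ comps Γ) :
    (plaw U Γ.pin g).Λ →+ (glaw (latOn Γ g U) (noB (G := Γ.graph g))).Λ where
  toFun h := ⟨pushV Γ U g (h : ((polyG U Γ.pin).graph g).V → ℤ), pn_t31g_push_mem Γ g hU h.2⟩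
  map_zero' := by
    refine Subtype.ext ?_
    funext v
    by_cases hv : vpos Γ g v ∈ g.region U <;> simp [pushV, hv]
  map_add' h h' := Subtype.ext (pn_t31g_S5_push_add Γ U g h h')

theorem pn_t31g_S5_push_surj (Γ : CGeom m₁ m₂) (g : DGrid m₁ m₂) {U : Finset (C3.Cell m₁ m₂)} (hU : U ∈ comps Γ) :
    Function.Surjective (pn_t31g_S5_push Γ g hU) := by
  intro h
  have hh : (h : (Γ.graph g).V → ℤ) ∈ latOn Γ g U := h.2
  refine ⟨⟨pullV Γ U g (h : (Γ.graph g).V → ℤ), pn_t31g_pull_mem Γ g hU hh.1⟩, Subtype.ext ?_⟩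
  exact pn_t31g_push_pull Γ g hU hh

/-- **L-T31G-S5** (~250 l.).  The heights of `Γ` living on `U`  ↔  the polygon `U`: `e ⟨∇_U h⟩ = ⟨∇_Γ (pushV h)⟩` (well defined and bijective: `pn_t31_equiv_of_ker`-style, kernels correspond), weight constant
`c = bes β 0 ^ #{edges of Γ outside U}` (`bes_pos`): split `∏_e` over the edges of `Γ` inside / outside `g.region U`. -/
theorem pn_t31g_wiso_comp (Γ : CGeom m₁ m₂) (hΓ : Γ.NoDiag) (g : DGrid m₁ m₂) (β : ℝ) (hβ : 0 < β) {U : Finset (C3.Cell m₁ m₂)} (hU : U ∈ comps Γ) :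
    ∃ i : WIso (psys U Γ.pin g β) ((glaw (latOn Γ g U) (noB (G := Γ.graph g))).sys β),
      ∀ (f : (Γ.graph g).V → ℝ) (X : ((glaw (latOn Γ g U) (noB (G := Γ.graph g))).sys β).L →+ ℝ),
        (glaw (latOn Γ g U) (noB (G := Γ.graph g))).Lift β f X → (plaw U Γ.pin g).Lift β (pullV Γ U g f) (X.comp i.e.toAddMonoidHom) := by
  have i1 : IsEmpty (plaw U Γ.pin g).O := inferInstanceAs (IsEmpty (Fin 0))
  have i2 : IsEmpty (glaw (latOn Γ g U) (noB (G := Γ.graph g))).O := inferInstanceAs (IsEmpty (Fin 0))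
  -- the ambient description of the two gradients
  have hpoly := pn_t31g_poly_bonds U Γ.pin g
  have k1 : ∀ h : ((polyG U Γ.pin).graph g).V → ℤ, (plaw U Γ.pin g).coord h = 0
      ↔ ∀ e ∈ domBonds (g.region U) ∅, pn_t31g_S5_amb Γ U g h e.snd - pn_t31g_S5_amb Γ U g h e.1 = 0 := by
    intro h
    rw [← hpoly]
    exact pn_t31g_S5_coord0 _ _ (plaw U Γ.pin g) i1 h _ (pn_t31g_S5_amb_poly Γ U g h)
  have k2 : ∀ h : ((polyG U Γ.pin).graph g).V → ℤ, (glaw (latOn Γ g U) (noB (G := Γ.graph g))).coord (pushV Γ U g h) = 0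
      ↔ ∀ e ∈ domBonds (g.region Γ.T) (Γ.cutB g), pn_t31g_S5_amb Γ U g h e.snd - pn_t31g_S5_amb Γ U g h e.1 = 0 := by
    intro h
    exact pn_t31g_S5_coord0 _ _ (glaw (latOn Γ g U) (noB (G := Γ.graph g))) i2 _ _ (pn_t31g_S5_amb_push Γ U g h)
  obtain ⟨e, he⟩ := pn_t31_equiv_of_ker (prL (plaw U Γ.pin g) β)
    ((prL (glaw (latOn Γ g U) (noB (G := Γ.graph g))) β).comp (pn_t31g_S5_push Γ g hU))
    (pn_t31_prL_surj _ β) ((pn_t31_prL_surj _ β).comp (pn_t31g_S5_push_surj Γ g hU)) (by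
      intro h
      rw [pn_t31_prL_eq_zero, AddMonoidHom.comp_apply, pn_t31_prL_eq_zero]
      show _ ↔ (glaw (latOn Γ g U) (noB (G := Γ.graph g))).coord (pushV Γ U g h) = 0
      rw [k1, k2]
      constructor
      · intro h0 b hb
        by_cases hb1 : b.1 ∈ g.region U
        · refine h0 b ?_
          rw [← pn_t31g_S5_filter Γ hΓ g hU]
          exact Finset.mem_filter.2 ⟨hb, hb1⟩
        · have hb2 : b.snd ∉ g.region U := fun hh => hb1 ((pn_t31g_bond_comp Γ g hb hU).2 hh)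
          rw [pn_t31g_S5_amb_off Γ U g _ hb1, pn_t31g_S5_amb_off Γ U g _ hb2, sub_zero]
      · intro h0 b hb
        exact h0 b (pn_t31g_bond_of_comp Γ hΓ g hU hb))
  have hW : ∀ z : ((plaw U Γ.pin g).sys β).L, ((glaw (latOn Γ g U) (noB (G := Γ.graph g))).sys β).W ((e z : _) : _)
      = bes β 0 ^ ((domBonds (g.region Γ.T) (Γ.cutB g)).filter (fun e => ¬ e.1 ∈ g.region U)).card
        * ((plaw U Γ.pin g).sys β).W (z : _) := by
    intro z
    obtain ⟨h, rfl⟩ := pn_t31_prL_surj _ β z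
    rw [he]
    show ((glaw (latOn Γ g U) (noB (G := Γ.graph g))).sys β).W ((glaw (latOn Γ g U) (noB (G := Γ.graph g))).coordA β (pushV Γ U g h))
      = _ * ((plaw U Γ.pin g).sys β).W ((plaw U Γ.pin g).coordA β h)
    have w2 := pn_t31g_S5_W _ _ (glaw (latOn Γ g U) (noB (G := Γ.graph g))) i2 β _ _ (pn_t31g_S5_amb_push Γ U g h)
    have w1 := pn_t31g_S5_W _ _ (plaw U Γ.pin g) i1 β _ _ (pn_t31g_S5_amb_poly Γ U g h)
    rw [hpoly] at w1
    refine w2.trans (Eq.trans ?_ (congrArg (fun t => bes β 0 ^ ((domBonds (g.region Γ.T) (Γ.cutB g)).filter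
      (fun e => ¬ e.1 ∈ g.region U)).card * t) w1.symm))
    exact pn_t31g_S5_prod Γ hΓ g β hU _ fun x hx => pn_t31g_S5_amb_off Γ U g _ hx
  refine ⟨⟨e, bes β 0 ^ ((domBonds (g.region Γ.T) (Γ.cutB g)).filter (fun e => ¬ e.1 ∈ g.region U)).card,
    pow_pos (bes_pos β hβ 0) _, hW⟩, ?_⟩
  · intro f X hX
    rw [pn_t31_lift_iff] at hX ⊢
    intro h
    show X (e (prL (plaw U Γ.pin g) β h)) = _
    rw [he, AddMonoidHom.comp_apply, hX]
    congr 1
    show HLaw.pair f (toR (pushV Γ U g h)) = _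
    rw [pn_t31g_S5_push_toR, pn_t31g_pair_push Γ g hU]

end

end Claimed.Agent.R285.Pins
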