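import Claimed.Agent.R285.Pins.ShiftFin
import Claimed.Agent.R285.Pins.ShiftGeo
import Claimed.Agent.R285.Pins.PotGeo
import Claimed.Agent.R285.Pins.T31Geo
import Claimed.Agent.R285.Pot.StripChart
import Claimed.Agent.R285.Pot.LogCut
import Claimed.Agent.R285.Sec.Grid

/-!
# ROW 285, PINS / CORE-LIM, PART (B1): FINITE FACTS for the concrete band law (one grid, no limit)      (architect helper249).   PAPER-FREE.

Definitions: `Pins/ShiftDefs.lean`.   Part (A) (`psh_law_lam`, `psh_ctx`, `psh_anc`, `psh_rep`, `psh_fin`): `Pins/ShiftFin.lean` (cite them, they are being proved by helper164/74/85).   Consumer: `Pins/ShiftLim.lean`.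
Every `sorry` is a LEAF `L-SH-*` (name in the docstring).   Statements frozen (tell helper249 at once if one looks false or awkward); prove IN PLACE, helpers directly above the statement, prefix `psh_<leaf>_`.
NEVER copy your whole file over a freshly pulled one: edit the pulled file.

GEOMETRY REMINDER.  `g'` = fine grid, sides in `[ν, Kν]`;  a MEDIUM cell `κ` is the union of the `s × s` fine cells `κ'` with `S23.coarse s κ' = κ`;  medium grid `shMed s g'`, `S23.Refines s g' (shMed s g')` (`psh_med_refines`), sides in `[sν, K s ν]`.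
The graph `shG s Γ g' = domG (g'.region (S23.fine s Γ.T)) ((shGeo s Γ).cutB g')`; the medium chart of the same graph: `S23.region_fine`, `S23.crossB_fineF`, `S23.cutB_eq`.
-/

set_option autoImplicit false

namespace Claimed.Agent.R285.Pins

open Pot
open scoped Classical ENNReal

noncomputable section

variable {n₁ n₂ : ℕ}

/-! ## 0. Small facts -/

/-- the cells of `Γ.T` at index distance `≤ 2J+5` from the pin: the shifts vanish there -/
def shNr (Γ : CGeom n₁ n₂) (J : ℕ) : Finset (Fin n₁ × Fin n₂) := Γ.T.filter fun κ => κ ∈ shBall Γ.pin (2 * J + 5)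

theorem psh_ref_forced : True := by
  have := @shNr.eq_1
  trivial

theorem psh_law_eq_pin (s : ℕ) (Γ : CGeom n₁ n₂) (J : ℕ) (lam : ℝ) (g' : DGrid (s * n₁) (s * n₂)) :
    shLaw s Γ J lam g' = plPin (shLaw s Γ J lam g') ∅ := pl_law_eq_pin _ (psh_law_lam s Γ J lam g')

theorem psh_proper (s : ℕ) (hs : 1 ≤ s) (Γ : CGeom n₁ n₂) (J : ℕ) (hconf : ShConf Γ J) (lam : ℝ) (hlam : 0 < lam)
    (g' : DGrid (s * n₁) (s * n₂)) : (shLaw s Γ J lam g').Proper :=
  pn_cl_ctx_proper _ ∅ 1 (psh_ctx s hs Γ J hconf lam hlam g' 1 one_pos) (psh_law_lam s Γ J lam g')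

theorem psh_ok (s : ℕ) (hs : 1 ≤ s) (Γ : CGeom n₁ n₂) (J : ℕ) (hconf : ShConf Γ J) (lam : ℝ) (hlam : 0 < lam)
    (g' : DGrid (s * n₁) (s * n₂)) (b : ℝ) (hb : 0 < b) : ((shLaw s Γ J lam g').sys b).Ok :=
  pn_cl_ctx_ok _ ∅ b (psh_ctx s hs Γ J hconf lam hlam g' b hb) (psh_law_lam s Γ J lam g')

/-- every test has a lift under the band law (`Proper`) -/
theorem psh_lift_exists (s : ℕ) (hs : 1 ≤ s) (Γ : CGeom n₁ n₂) (J : ℕ) (hconf : ShConf Γ J) (lam : ℝ) (hlam : 0 < lam)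
    (g' : DGrid (s * n₁) (s * n₂)) (b : ℝ) (f : (shG s Γ g').V → ℝ) : ∃ X : ((shLaw s Γ J lam g').sys b).L →+ ℝ, (shLaw s Γ J lam g').Lift b f X :=
  ⟨_, pn_br_lift_lf (shLaw s Γ J lam g') (psh_proper s hs Γ J hconf lam hlam g') b f⟩

/-- every test is admissible for the reference of the band law -/
theorem psh_adm (s : ℕ) (hs : 1 ≤ s) (Γ : CGeom n₁ n₂) (J : ℕ) (hconf : ShConf Γ J) (lam : ℝ) (hlam : 0 < lam)
    (g' : DGrid (s * n₁) (s * n₂)) (f : (shG s Γ g').V → ℝ) : plAdm (shLaw s Γ J lam g') f := by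
  obtain ⟨X, hX⟩ := psh_lift_exists s hs Γ J hconf lam hlam g' 1 f
  exact pn_t31_lift_adm _ 1 (psh_ok s hs Γ J hconf lam hlam g' 1 one_pos) hX

theorem psh_med_refines (s : ℕ) (hs : 1 ≤ s) (g' : DGrid (s * n₁) (s * n₂)) : S23.Refines s g' (shMed s g') := psg_refines s hs g'

/-- **L-SH-M** (~40 l.).  The medium grid of a refinement (`DGrid` extensionality: `cases`, `funext`; `psg_med_x₁`, `psg_med_x₂` or `psg_refines`). -/
theorem psh_med_eq (s : ℕ) (hs : 1 ≤ s) (g' : DGrid (s * n₁) (s * n₂)) (g : DGrid n₁ n₂) (h : S23.Refines s g' g) : shMed s g' = g := by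
  have e1 : (shMed s g').x₁ = g.x₁ := by
    funext i
    have hi : s * i.1 < s * n₁ + 1 := by
      have := Nat.mul_le_mul_left s (Nat.le_of_lt_succ i.2)
      omega
    rw [psg_med_x₁ s hs g' i ⟨s * i.1, hi⟩ rfl]
    exact h.1 i ⟨s * i.1, hi⟩ rfl
  have e2 : (shMed s g').x₂ = g.x₂ := by
    funext j
    have hj : s * j.1 < s * n₂ + 1 := by
      have := Nat.mul_le_mul_left s (Nat.le_of_lt_succ j.2)
      omega
    rw [psg_med_x₂ s hs g' j ⟨s * j.1, hj⟩ rfl]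
    exact h.2 j ⟨s * j.1, hj⟩ rfl
  generalize shMed s g' = m at e1 e2
  cases m
  cases g
  simp only at e1 e2
  subst e1
  subst e2
  rfl

/-- **L-SH-G** (~60 l.).  The gradient test is the lift of the gradient row (ANY geometry, ANY rows): `pn_t31_lift_flow` with `w e = C2.gd u (domBond e)`; `gRow Γ g u = plDiv w` by unfolding (`HLaw.gradRow`, `amb`, `domFn`, `C2.gd`). -/
theorem psh_lift_grad {m₁ m₂ : ℕ} (Γ : CGeom m₁ m₂) {N : ℕ} (row : Fin N → C3.Cell m₁ m₂ → ℝ) (g : DGrid m₁ m₂) (β : ℝ) (u : ℤ × ℤ → ℝ) :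
    (C3.lawR Γ g row).Lift β (gRow Γ g u) (C3.gradT Γ row g β u) := by
  have h := pn_t31_lift_flow (C3.lawR Γ g row) β
    (fun e => C2.gd u (domBond (D := g.region Γ.T) (cut := Γ.cutB g) e))
  have e : gRow Γ g u
      = plDiv (G := Γ.graph g) (fun e => C2.gd u (domBond (D := g.region Γ.T) (cut := Γ.cutB g) e)) := by
    funext x
    rfl
  rw [e]
  exact h

/-! ## 1. The Gaussian reference of the band law -/

/-- **L-SH-R1** (~120 l. for the two).  The average over a medium cell is a combination of the averages over its fine cells.   A vertex lies in exactly one fine cell `κ'` (`Pot.ro_cell_unique`), `κ' ∈ S23.fine s Γ.T`;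
`κ' ∈ S23.fine s {κ} ↔ S23.coarse s κ' = κ`;   `S23.fine s {κ} ∩ S23.fine s Γ.T = S23.fine s {κ}` as `κ ∈ Γ.T`. -/
theorem psh_avg_cellTest (s : ℕ) (hs : 1 ≤ s) (Γ : CGeom n₁ n₂) (g' : DGrid (s * n₁) (s * n₂)) (κ : Fin n₁ × Fin n₂) (hκ : κ ∈ Γ.T) :
    shAvg s Γ g' κ = (shGeo s Γ).cellTest g' (shCoef s g' κ) := by
  funext x
  have hr := psg_refines s hs g'
  have hreg : g'.region (S23.fine s {κ}) = (shMed s g').cell κ := by
    rw [Sec.region_fine hr]
    simp [DGrid.region]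
  rw [psg_avg s hs Γ g' κ]
  unfold CGeom.cellTest
  simp only [psg_avg_cell]
  have hx : psgPos x ∈ g'.region (shGeo s Γ).T := psg_pos_mem x
  rw [DGrid.region, Finset.mem_biUnion] at hx
  obtain ⟨κ0, -, h0⟩ := hx
  have hiff : psgPos x ∈ (shMed s g').cell κ ↔ S23.coarse s κ0 = κ := by
    rw [← hreg, DGrid.region, Finset.mem_biUnion]
    constructor
    · rintro ⟨κ', h1, h2⟩
      rw [pn_an_cell_unique _ h0 h2]
      simpa [S23.fine] using h1
    · intro h
      exact ⟨κ0, by simp [S23.fine, h], h0⟩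
  rw [Finset.sum_eq_single κ0]
  · unfold anRho shCoef
    rw [if_pos h0, hreg]
    have hc : ((g'.cell κ0).card : ℝ) ≠ 0 := by
      have : 0 < (g'.cell κ0).card := Finset.card_pos.2 ⟨_, h0⟩
      positivity
    by_cases h : S23.coarse s κ0 = κ
    · rw [if_pos (hiff.2 h), if_pos h, div_mul_eq_mul_div, mul_inv_cancel₀ hc, one_div]
    · rw [if_neg (fun h' => h (hiff.1 h')), if_neg h, zero_mul]
  · intro κ' _ hne
    unfold anRho
    rw [if_neg (fun h => hne (pn_an_cell_unique _ h h0)), mul_zero]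
  · intro h
    exact absurd (Finset.mem_univ _) h

theorem psh_coef_le (s : ℕ) (g' : DGrid (s * n₁) (s * n₂)) (κ : Fin n₁ × Fin n₂) (κ' : C3.Cell (s * n₁) (s * n₂)) : |shCoef s g' κ κ'| ≤ 1 := by
  unfold shCoef
  split_ifs with h
  · rw [abs_of_nonneg (by positivity)]
    refine div_le_one_of_le₀ ?_ (by positivity)
    have : g'.cell κ' ⊆ g'.region (S23.fine s {κ}) := by
      intro z hz
      rw [DGrid.region, Finset.mem_biUnion]
      exact ⟨κ', by simp [S23.fine, h], hz⟩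
    exact_mod_cast Finset.card_le_card this
  · simp

/-- **L-SH-R2** (~80 l.).  Upper bound of the prior variance of a medium cell, uniform in `lam ≥ 1`, `s`, `ν`.   `psh_rep` gives `σ_o` and a flow `t` with `2π (ρ_κ - ∑ σ_o B_o) = div t` (`clRep`, `FlowLe`, `IsFlow` with `U = ∅`, `rhT`):
`plRep (shLaw ..) (shAvg ..) (t / 2π) σ`;   `pl_gVar_le_flow`;   `K²/lam ≤ K²`. -/
theorem psh_gVar_le (K s : ℕ) (hs : 1 ≤ s) (Γ : CGeom n₁ n₂) (J : ℕ) (hconf : ShConf Γ J) (lam : ℝ) (hlam : 1 ≤ lam) (g' : DGrid (s * n₁) (s * n₂)) (ν : ℕ)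
    (hν : 1 ≤ ν) (h1 : g'.SideGe ν) (h2 : g'.SideLe (K * ν)) {a : ℝ} (ha : 0 < a) (κ : Fin n₁ × Fin n₂) (hκ : κ ∈ Γ.T) :
    (shLaw s Γ J lam g').gVar a (shAvg s Γ g' κ) ≤ a * (((n₁ * n₂ : ℕ) : ℝ) * (((n₁ * n₂ : ℕ) : ℝ) * (24 * (K : ℝ)))) + (K : ℝ) ^ 2 := by
  have hlam0 : 0 < lam := lt_of_lt_of_le one_pos hlam
  obtain ⟨σ, hσ, t, ht, htR, -⟩ := psh_rep K s hs Γ J hconf lam hlam0 g' ν hν h1 h2 κ hκ
  have hπ : (0 : ℝ) < 2 * Real.pi := by positivity
  have hrep : plRep (shLaw s Γ J lam g') (shAvg s Γ g' κ) (fun e => t e / (2 * Real.pi)) σ := by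
    intro u _
    have h := ht u (fun x hx => absurd hx (Set.notMem_empty x))
    have e1 : ∑ x, (rhT (shAvg s Γ g' κ) x - ∑ o, σ o * rhT ((shLaw s Γ J lam g').B o) x) * u x
        = 2 * Real.pi * (HLaw.pair (shAvg s Γ g' κ) u - ∑ o, σ o * (shLaw s Γ J lam g').obs u o) := by
      simp only [rhT, HLaw.pair, HLaw.obs, Finset.mul_sum, sub_mul, Finset.sum_mul, Finset.sum_sub_distrib, mul_sub]
      congr 1
      · exact Finset.sum_congr rfl fun x _ => by ring
      · rw [Finset.sum_comm]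
        exact Finset.sum_congr rfl fun o _ => Finset.sum_congr rfl fun x _ => by ring
    rw [e1] at h
    have e2 : ∑ e, t e / (2 * Real.pi) * plGrad u e = (∑ e, t e * (u ((shG s Γ g').tgt e) - u ((shG s Γ g').src e))) / (2 * Real.pi) := by
      rw [Finset.sum_div]
      exact Finset.sum_congr rfl fun e _ => by simp only [plGrad]; ring
    rw [e2, ← h]
    field_simp
    ring
  have h3 := pl_gVar_le_flow (shLaw s Γ J lam g') ha hrep
  have e3 : ∑ e, (t e / (2 * Real.pi)) ^ 2 = (∑ e, t e ^ 2) / (2 * Real.pi) ^ 2 := by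
    rw [Finset.sum_div]
    exact Finset.sum_congr rfl fun e _ => by rw [div_pow]
  have h4 : ∑ e, (t e / (2 * Real.pi)) ^ 2 ≤ ((n₁ * n₂ : ℕ) : ℝ) * (((n₁ * n₂ : ℕ) : ℝ) * (24 * (K : ℝ))) := by
    rw [e3, div_le_iff₀ (by positivity)]
    linarith
  have h5 : (K : ℝ) ^ 2 / lam ≤ (K : ℝ) ^ 2 := div_le_self (by positivity) hlam
  have h6 := mul_le_mul_of_nonneg_left h4 ha.le
  linarith

/-- `anRho` of a non-empty set of sites of the graph is a probability -/
theorem psh_R3_rho_sum {D : Finset (ℤ × ℤ)} {cut : Set Bond} (W : Finset (ℤ × ℤ)) (hW : W ⊆ D) (h0 : W.Nonempty) :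
    ∑ x : (domG D cut).V, anRho W x = 1 := by
  have e : ∑ x : (domG D cut).V, anRho W x = ∑ z ∈ D, (if z ∈ W then (W.card : ℝ)⁻¹ else 0) :=
    pn_br_sumV (D := D) (cut := cut) (fun z => if z ∈ W then (W.card : ℝ)⁻¹ else 0)
  have e2 : D.filter (fun z => z ∈ W) = W := by
    ext z
    rw [Finset.mem_filter]
    exact ⟨fun h => h.2, fun h => ⟨hW h, h⟩⟩
  rw [e, ← Finset.sum_filter, e2, Finset.sum_const, nsmul_eq_mul]
  have : (0 : ℝ) < W.card := by exact_mod_cast h0.card_pos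
  field_simp

/-- one coordinate: the lines of a grid with sides `≥ σ` -/
theorem psh_R3_1d {N : ℕ} (y : Fin (N + 1) → ℤ) (σ : ℤ) (h : ∀ i : Fin N, σ ≤ y i.succ - y i.castSucc) (a b : Fin (N + 1)) (r : ℕ)
    (hab : a.1 + r ≤ b.1) (hσ : 0 ≤ σ) : (r : ℤ) * σ ≤ y b - y a := by
  have h1 := psg_1d_ge y σ h a.1 (b.1 - a.1) (by have := b.2; omega)
  have e1 : (⟨a.1 + (b.1 - a.1), by have := b.2; omega⟩ : Fin (N + 1)) = b := Fin.ext (by show a.1 + (b.1 - a.1) = b.1; omega)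
  have e2 : (⟨a.1, by have := a.2; omega⟩ : Fin (N + 1)) = a := rfl
  rw [e1, e2] at h1
  have h2 : (r : ℤ) ≤ ((b.1 - a.1 : ℕ) : ℤ) := by exact_mod_cast (by omega : r ≤ b.1 - a.1)
  exact (mul_le_mul_of_nonneg_right h2 hσ).trans h1

/-- two cells at index distance `≥ j + 2` in a grid with sides `≥ σ`: the points of the second are at distance `≥ (j+1) σ` from the lower left corner of the first -/
theorem psh_R3_far (g : DGrid n₁ n₂) (σ : ℕ) (hg : g.SideGe σ) (j : ℕ) (κ κb : Fin n₁ × Fin n₂) (hfar : ¬ shLe (j + 1) κ κb)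
    (x : ℤ × ℤ) (hx : x ∈ g.cell κb) : (((j + 1) * σ : ℕ) : ℤ) ≤ roDist x (g.x₁ κ.1.castSucc, g.x₂ κ.2.castSucc) := by
  rw [Sec.sec_gr_mem_cell] at hx
  have hσ : (0 : ℤ) ≤ (σ : ℤ) := Int.natCast_nonneg σ
  unfold roDist
  unfold shLe at hfar
  push_cast
  rw [le_max_iff]
  by_cases c1 : κ.1.1 ≤ κb.1.1 + (j + 1)
  · by_cases c2 : κb.1.1 ≤ κ.1.1 + (j + 1)
    · right
      by_cases c3 : κ.2.1 ≤ κb.2.1 + (j + 1)
      · have c4 : ¬ κb.2.1 ≤ κ.2.1 + (j + 1) := fun c4 => hfar ⟨c1, c2, c3, c4⟩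
        have := psh_R3_1d g.x₂ σ hg.2 κ.2.castSucc κb.2.castSucc (j + 1) (by simp only [Fin.val_castSucc]; omega) hσ
        push_cast at this
        refine le_trans ?_ (le_abs_self _)
        show ((j : ℤ) + 1) * σ ≤ x.2 - g.x₂ κ.2.castSucc
        linarith [hx.2.1]
      · have := psh_R3_1d g.x₂ σ hg.2 κb.2.succ κ.2.castSucc (j + 1) (by simp only [Fin.val_castSucc, Fin.val_succ]; omega) hσ
        push_cast at this
        refine le_trans ?_ (neg_le_abs _)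
        show ((j : ℤ) + 1) * σ ≤ -(x.2 - g.x₂ κ.2.castSucc)
        linarith [hx.2.2]
    · left
      have := psh_R3_1d g.x₁ σ hg.1 κ.1.castSucc κb.1.castSucc (j + 1) (by simp only [Fin.val_castSucc]; omega) hσ
      push_cast at this
      refine le_trans ?_ (le_abs_self _)
      show ((j : ℤ) + 1) * σ ≤ x.1 - g.x₁ κ.1.castSucc
      linarith [hx.1.1]
  · left
    have := psh_R3_1d g.x₁ σ hg.1 κb.1.succ κ.1.castSucc (j + 1) (by simp only [Fin.val_castSucc, Fin.val_succ]; omega) hσ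
    push_cast at this
    refine le_trans ?_ (neg_le_abs _)
    show ((j : ℤ) + 1) * σ ≤ -(x.1 - g.x₁ κ.1.castSucc)
    linarith [hx.1.2]

/-- the points of a cell with sides `≤ τ` are at distance `≤ τ` from its lower left corner -/
theorem psh_R3_near (g : DGrid n₁ n₂) (τ : ℕ) (hg : g.SideLe τ) (κ : Fin n₁ × Fin n₂) (x : ℤ × ℤ) (hx : x ∈ g.cell κ) :
    roDist x (g.x₁ κ.1.castSucc, g.x₂ κ.2.castSucc) ≤ (τ : ℤ) := by
  rw [Sec.sec_gr_mem_cell] at hx
  have h1 := hg.1 κ.1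
  have h2 := hg.2 κ.2
  unfold roDist
  rw [max_le_iff, abs_le, abs_le]
  refine ⟨⟨?_, ?_⟩, ⟨?_, ?_⟩⟩
  · show -(τ : ℤ) ≤ x.1 - g.x₁ κ.1.castSucc
    linarith [hx.1.1]
  · show x.1 - g.x₁ κ.1.castSucc ≤ (τ : ℤ)
    linarith [hx.1.2]
  · show -(τ : ℤ) ≤ x.2 - g.x₂ κ.2.castSucc
    linarith [hx.2.1]
  · show x.2 - g.x₂ κ.2.castSucc ≤ (τ : ℤ)
    linarith [hx.2.2]

/-- a `B`- or `I`-cell is at index distance `≥ J + 2` from every band cell -/
theorem psh_R3_idx (Γ : CGeom n₁ n₂) (J : ℕ) (κ κb : Fin n₁ × Fin n₂) (hκ : κ ∈ shCB Γ J ∨ κ ∈ shCI Γ) (hb : κb ∈ shKb Γ J) :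
    ¬ shLe (J + 1) κ κb := by
  intro hle
  unfold shKb at hb
  rw [Finset.mem_filter, psg_ball_mem, psg_ball_mem] at hb
  obtain ⟨-, ⟨p0, hp0, hle0⟩, hnot⟩ := hb
  rcases hκ with hκ | hκ
  · unfold shCB at hκ
    rw [Finset.mem_filter, psg_ball_mem, psg_ball_mem] at hκ
    refine hκ.2.2 ⟨p0, hp0, ?_⟩
    unfold shLe at *
    omega
  · unfold shCI at hκ
    rw [Finset.mem_filter] at hκ
    refine hnot ⟨κ, hκ.2, ?_⟩
    unfold shLe at *
    omega

/-- **L-SH-R3** (~250 l.).  Lower bound of the prior variance of a `B`- or `I`-cell (POT-C).   If `J + 1 ≤ K` the left side is `≤ 0 ≤ gVar` (`pl_gVar_nonneg`).   Otherwise `Pot.pot_prior_var` (rewrite the law by `psh_law_eq_pin`) with `P = ∅`,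
`o` = the lower left corner of the medium cell `κ`, `r₁ = K s ν`, `r₂ = (J+1) s ν`:  the cell has sides `≤ K s ν`;  a row `B_o ≠ 0` is carried by a fine cell of a band cell `κ_b`, and the index distance of `κ` and `κ_b` is `≥ J + 2`
(`κ ∈ p`, `d(κ_b, p) = J+2`;   resp. `d(κ, p) = 2J+4`, `d(κ_b,p) = J+2`, triangle inequality for `shLe`), so at least `J+1` full medium cells (sides `≥ sν`) lie between them in one coordinate;   `∑ shAvg = 1`;   `psh_adm`;
`((J+1)sν + 1)/(Ksν + 1) ≥ (J+1)/(K+1)` and `Real.log` is monotone. -/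
theorem psh_gVar_ge (K s : ℕ) (hs : 1 ≤ s) (Γ : CGeom n₁ n₂) (J : ℕ) (hconf : ShConf Γ J) (lam : ℝ) (hlam : 0 < lam) (g' : DGrid (s * n₁) (s * n₂)) (ν : ℕ)
    (hν : 1 ≤ ν) (h1 : g'.SideGe ν) (h2 : g'.SideLe (K * ν)) {a : ℝ} (ha : 0 < a) (κ : Fin n₁ × Fin n₂) (hκ : κ ∈ shCB Γ J ∨ κ ∈ shCI Γ) :
    a / 8 * Real.log (((J : ℝ) + 1) / ((K : ℝ) + 1)) ≤ (shLaw s Γ J lam g').gVar a (shAvg s Γ g' κ) := by
  by_cases hJK : J + 1 ≤ K
  · have h0 := pl_gVar_nonneg (shLaw s Γ J lam g') ha (shAvg s Γ g' κ)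
    have hl : Real.log (((J : ℝ) + 1) / ((K : ℝ) + 1)) ≤ 0 := by
      apply Real.log_nonpos (by positivity)
      rw [div_le_one (by positivity)]
      have : ((J + 1 : ℕ) : ℝ) ≤ (K : ℝ) := by exact_mod_cast hJK
      push_cast at this
      linarith
    have : a / 8 * Real.log (((J : ℝ) + 1) / ((K : ℝ) + 1)) ≤ 0 := mul_nonpos_of_nonneg_of_nonpos (by positivity) hl
    linarith
  · have hκT : κ ∈ Γ.T := by
      rcases hκ with hκ | hκ
      · exact (Finset.mem_filter.1 hκ).1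
      · exact (Finset.mem_filter.1 hκ).1
    have hσ : 1 ≤ s * ν := Nat.mul_pos hs hν
    have hge := psg_med_ge s hs g' ν h1
    have hle := psg_med_le s hs g' K ν h2
    have hr : K * (s * ν) < (J + 1) * (s * ν) := Nat.mul_lt_mul_of_pos_right (by omega) hσ
    have hadm := psh_adm s hs Γ J hconf lam hlam g' (shAvg s Γ g' κ)
    rw [psh_law_eq_pin] at hadm ⊢
    have hcellsub : (shMed s g').cell κ ⊆ psgD s Γ g' := by
      rw [(psg_chart_med s hs Γ g').dom]
      intro x hx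
      rw [DGrid.region, Finset.mem_biUnion]
      exact ⟨κ, hκT, hx⟩
    have hne : ((shMed s g').cell κ).Nonempty := by
      refine ⟨((shMed s g').x₁ κ.1.castSucc, (shMed s g').x₂ κ.2.castSucc), ?_⟩
      rw [Sec.sec_gr_mem_cell]
      exact ⟨⟨le_rfl, (shMed s g').mono₁ Fin.castSucc_lt_succ⟩, ⟨le_rfl, (shMed s g').mono₂ Fin.castSucc_lt_succ⟩⟩
    have key := pot_prior_var (D := psgD s Γ g') (cut := psgC s Γ g') (shLaw s Γ J lam g') ∅ a ha (K * (s * ν)) ((J + 1) * (s * ν)) hr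
      ((shMed s g').x₁ κ.1.castSucc, (shMed s g').x₂ κ.2.castSucc) (shAvg s Γ g' κ) hadm
      (by
        intro v hv
        rw [psg_avg s hs] at hv
        unfold anRho at hv
        by_cases hx : domPos v ∈ (shMed s g').cell κ
        · exact psh_R3_near (shMed s g') _ hle κ _ hx
        · rw [if_neg hx] at hv
          exact absurd rfl hv)
      (by
        rw [psg_avg s hs]
        exact psh_R3_rho_sum _ hcellsub hne)
      (fun v hv => absurd hv (Set.notMem_empty v))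
      (by
        intro o' v hv
        have e := psg_row s Γ J lam g' o' v
        have hv' : psgRho s Γ J lam o' * anRho (D := psgD s Γ g') (cut := psgC s Γ g') (g'.cell (finProdFinEquiv.symm o')) v ≠ 0 :=
          fun h0 => hv (e.trans h0)
        have hv1 : psgRho s Γ J lam o' ≠ 0 := left_ne_zero_of_mul hv'
        have hv2 := right_ne_zero_of_mul hv'
        have hb : S23.coarse s (finProdFinEquiv.symm o') ∈ shKb Γ J := by
          unfold psgRho at hv1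
          by_contra hb
          rw [if_neg hb] at hv1
          exact hv1 rfl
        have hx : domPos v ∈ g'.cell (finProdFinEquiv.symm o') := by
          unfold anRho at hv2
          by_contra hx
          rw [if_neg hx] at hv2
          exact hv2 rfl
        exact psh_R3_far (shMed s g') (s * ν) hge J κ _ (psh_R3_idx Γ J κ _ hκ hb) _ (Sec.sec_gr_cell_sub (psg_refines s hs g') _ hx))
    refine le_trans ?_ key
    refine mul_le_mul_of_nonneg_left ?_ (by positivity)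
    apply Real.log_le_log (by positivity)
    rw [div_le_div_iff₀ (by positivity) (by positivity)]
    have hσ' : (1 : ℝ) ≤ ((s * ν : ℕ) : ℝ) := by exact_mod_cast hσ
    push_cast at hσ' ⊢
    nlinarith [mul_nonneg (by positivity : (0 : ℝ) ≤ (J : ℝ) + 1) (sub_nonneg.2 hσ'), (by positivity : (0 : ℝ) ≤ (K : ℝ))]

theorem psh_lay (Γ : CGeom n₁ n₂) (J : ℕ) : PsLay (shFree Γ) (shIn Γ J) (shKb Γ J) (shOut Γ J) := pn_pg_lay_sh Γ J

/-- admissibility only depends on the Gram matrix of the rows -/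
theorem psh_R4_adm {G : HGraph} {H H' : HLaw G} (h : psEqv H H') (P : Set G.V) {f : G.V → ℝ} (hf : plAdm (plPin H P) f) :
    plAdm (plPin H' P) f := by
  intro v hv hg ho
  have hv' : v ∈ (plPin H P).rspan := (pl_mem_rspan_pin H P v).2 ((pl_mem_rspan_pin H' P v).1 hv)
  refine hf v hv' hg ?_
  have e := ps_eqv_obs (ps_eqv_pin h P) v v
  have z : ∑ o, (plPin H' P).obs v o * (plPin H' P).obs v o = 0 :=
    Finset.sum_eq_zero fun o _ => by rw [ho o, mul_zero]
  rw [z] at e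
  intro o
  exact mul_self_eq_zero.1 ((Finset.sum_eq_zero_iff_of_nonneg fun o _ => mul_self_nonneg _).1 e o (Finset.mem_univ o))

theorem psh_R4_cov {G : HGraph} {H H' : HLaw G} (h : psEqv H H') (a : ℝ) (P : Set G.V) (f f' : G.V → ℝ) :
    plCov (plPin H P) a f f' = plCov (plPin H' P) a f f' := by
  unfold plCov
  rw [ps_eqv_gVar h, ps_eqv_gVar h]

/-- the support of the average over a medium cell, in the medium chart -/
theorem psh_R4_supp (s : ℕ) (hs : 1 ≤ s) (Γ : CGeom n₁ n₂) (g' : DGrid (s * n₁) (s * n₂)) (κ : Fin n₁ × Fin n₂)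
    {A : Finset (Fin n₁ × Fin n₂)} (hκ : κ ∈ A) (x : (shG s Γ g').V) (hx : shAvg s Γ g' κ x ≠ 0) :
    x ∈ psSitesD (D := g'.region (S23.refine s (shFree Γ)).T) (cut := (S23.refine s (shFree Γ)).cutB g') (shMed s g') A := by
  rw [pn_pg_sites' (psh_med_refines s hs g') (shFree Γ) A]
  have h1 : x ∈ (shGeo s Γ).sites g' (S23.fine s {κ}) := by
    by_contra hn
    apply hx
    unfold shAvg CGeom.avgRow
    rw [if_neg hn]
  have h2 : S23.fine s {κ} ⊆ S23.fine s A := by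
    intro κ' h
    unfold S23.fine at h ⊢
    simp only [Finset.mem_filter, Finset.mem_univ, true_and, Finset.mem_singleton] at h ⊢
    rw [h]; exact hκ
  exact pn_pg_sites_mono (shGeo s Γ) g' h2 h1

/-- **L-SH-R4** (~200 l., GLUE on `Pins/PotGeo.lean` of helper53).  Cross covariance through the band (POT-D).   `Pot.ps_band_cov_chart` in the MEDIUM chart `pn_pg_chart' (psh_med_refines ..) (shFree Γ)`, layers `psh_lay`,
`ν_ps = s ν` (`pn_pg_med_side` / `psg_med_ge`), `H = C3.lawR (shGeo s Γ) g' C3.noRow` (no rows), boxes `pgBoxes g' (S23.fine s (shKb Γ J))` (`pn_pg_part`, `s_ps = K ν`), `w = √lam / s`, `lam_ps = lam / K²`, `Lam_ps = lam`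
(`ν² ≤ |b| ≤ K² ν²`: `pn_pg_card_ge/le`, `pn_pg_box_set`;  `w² ν_ps² = lam ν²`), `P = ∅`.   The band law has the same Gram matrix: `pn_pg_band_eqv s (shFree Γ) g'`, `ps_eqv_gVar` (with `psh_law_eq_pin`; `plCov` is defined through `gVar`; `plAdm` transfers the same way or use `psh_adm` + `ps_eqv_*`).
Supports: `psg_sites`, `psg_hfs`, `pn_pg_sites'`;  `shCI ⊆ shIn`, `shCB ⊆ shOut`.   `pl_cov_comm`. -/
theorem psh_cov_ref (K s : ℕ) (hs : 1 ≤ s) (Γ : CGeom n₁ n₂) (J : ℕ) (hconf : ShConf Γ J) (lam : ℝ) (hlam : 0 < lam) (g' : DGrid (s * n₁) (s * n₂)) (ν : ℕ)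
    (hν : 3 ≤ ν) (h1 : g'.SideGe ν) (h2 : g'.SideLe (K * ν)) {a : ℝ} (ha : 0 < a) (κ κ' : Fin n₁ × Fin n₂) (hκ : κ ∈ shCB Γ J) (hκ' : κ' ∈ shCI Γ) :
    |plCov (shLaw s Γ J lam g') a (shAvg s Γ g' κ) (shAvg s Γ g' κ')|
      ≤ 2 * ((18 / a + 18 * lam * (K : ℝ) ^ 2 / (s : ℝ) ^ 2) * (2 * (K : ℝ) ^ 2 / lam + 2 * a * (K : ℝ) ^ 2 / (s : ℝ) ^ 2))
        * ((shLaw s Γ J lam g').gVar a (shAvg s Γ g' κ) + (shLaw s Γ J lam g').gVar a (shAvg s Γ g' κ')) := by
  have href := psh_med_refines s hs g'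
  -- `K ≥ 1`
  have hK : 1 ≤ K := by
    have hn : 0 < s * n₁ := Nat.mul_pos hs κ.1.pos
    have a1 := h1.1 ⟨0, hn⟩
    have a2 := h2.1 ⟨0, hn⟩
    rcases Nat.eq_zero_or_pos K with h0 | h0
    · subst h0
      simp only [Nat.zero_mul, Nat.cast_zero] at a2
      have : (3 : ℤ) ≤ ν := by exact_mod_cast hν
      omega
    · exact h0
  have hKr : (0 : ℝ) < K := by exact_mod_cast hK
  have hsr : (0 : ℝ) < s := by exact_mod_cast hs
  have hνr : (0 : ℝ) < ν := by
    have : 0 < ν := by omega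
    exact_mod_cast this
  have h3 : 3 ≤ s * ν := le_trans hν (Nat.le_mul_of_pos_left ν hs)
  have hband : shKb Γ J ⊆ (shFree Γ).T := (psh_lay Γ J).band
  have heq := pn_pg_band_eqv s (shFree Γ) g' hband lam
  -- layers
  have hin : κ' ∈ shIn Γ J := by
    unfold shCI at hκ'
    exact pn_pg_sub_ball Γ.pin (J + 1) (Finset.mem_filter.1 hκ').2
  have hout : κ ∈ shOut Γ J := by
    unfold shCB at hκ
    unfold shOut
    refine Finset.mem_filter.2 ⟨Finset.mem_univ _, fun h => (Finset.mem_filter.1 hκ).2.2 ?_⟩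
    exact pn_pg_ball_mono Γ.pin (by omega) h
  have hadm : ∀ f : (shG s Γ g').V → ℝ, plAdm (plPin (shLaw s Γ J lam g') ∅) f := by
    intro f
    rw [← psh_law_eq_pin]
    exact psh_adm s hs Γ J hconf lam hlam g' f
  have main := ps_band_cov_chart (pn_pg_chart' href (shFree Γ)) (psh_lay Γ J) h3 (psg_med_ge s hs g' ν h1)
    (C3.lawR (S23.refine s (shFree Γ)) g' C3.noRow) (fun o => Fin.elim0 o) ha
    (pgBoxes g' (S23.fine s (shKb Γ J))) (fun _ => Real.sqrt lam / s) (K * ν) (pn_pg_part href (shKb Γ J) h2)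
    (lam := lam / (K : ℝ) ^ 2) (Lam := lam) (by positivity) hlam.le
    (by
      intro i
      have e1 : (Real.sqrt lam / s) ^ 2 * ((s * ν : ℕ) : ℝ) ^ 2 = lam * (ν : ℝ) ^ 2 := by
        rw [div_pow, Real.sq_sqrt hlam.le]
        push_cast
        field_simp
      have e2 : (pgBoxes g' (S23.fine s (shKb Γ J)) i).set = g'.cell ((S23.fine s (shKb Γ J)).equivFin.symm i).1 := by
        unfold pgBoxes
        rw [pn_pg_box_set]
      rw [e1, e2]
      have c1 := pn_pg_card_ge g' ((S23.fine s (shKb Γ J)).equivFin.symm i).1 h1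
      have c2 := pn_pg_card_le g' ((S23.fine s (shKb Γ J)).equivFin.symm i).1 h2
      constructor
      · rw [div_mul_eq_mul_div, div_le_iff₀ (by positivity)]
        push_cast at c2
        calc lam * _ ≤ lam * (((K : ℝ) * ν) ^ 2) := mul_le_mul_of_nonneg_left c2 hlam.le
          _ = _ := by ring
      · exact mul_le_mul_of_nonneg_left c1 hlam.le)
    ∅ (f := shAvg s Γ g' κ') (f' := shAvg s Γ g' κ) (psh_R4_adm heq ∅ (hadm _)) (psh_R4_adm heq ∅ (hadm _))
    (fun x hx => psh_R4_supp s hs Γ g' κ' hin x hx) (fun x hx => psh_R4_supp s hs Γ g' κ hout x hx)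
  have c1 : ∀ f f' : (shG s Γ g').V → ℝ, plCov (shLaw s Γ J lam g') a f f' = _ := fun f f' =>
    (congrArg (fun H => plCov H a f f') (psh_law_eq_pin s Γ J lam g')).trans (psh_R4_cov heq a ∅ f f')
  have c2 : ∀ f : (shG s Γ g').V → ℝ, (shLaw s Γ J lam g').gVar a f = _ := fun f =>
    (congrArg (fun H : HLaw (shG s Γ g') => H.gVar a f) (psh_law_eq_pin s Γ J lam g')).trans (ps_eqv_gVar heq a ∅ f)
  have main2 : |plCov (shLaw s Γ J lam g') a (shAvg s Γ g' κ') (shAvg s Γ g' κ)|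
      ≤ 2 * ((18 / a + 18 * lam * ((K * ν : ℕ) : ℝ) ^ 2 / ((s * ν : ℕ) : ℝ) ^ 2) * (2 / (lam / (K : ℝ) ^ 2) + 2 * a * ((K * ν : ℕ) : ℝ) ^ 2 / ((s * ν : ℕ) : ℝ) ^ 2))
        * ((shLaw s Γ J lam g').gVar a (shAvg s Γ g' κ') + (shLaw s Γ J lam g').gVar a (shAvg s Γ g' κ)) := by
    rw [c1, c2, c2]
    exact main
  rw [pl_cov_comm _ ha]
  refine le_trans main2 (le_of_eq ?_)
  have e3 : ((K * ν : ℕ) : ℝ) ^ 2 / ((s * ν : ℕ) : ℝ) ^ 2 = (K : ℝ) ^ 2 / (s : ℝ) ^ 2 := by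
    push_cast
    field_simp
  have e4 : 18 * lam * ((K * ν : ℕ) : ℝ) ^ 2 / ((s * ν : ℕ) : ℝ) ^ 2 = 18 * lam * (K : ℝ) ^ 2 / (s : ℝ) ^ 2 := by
    rw [mul_div_assoc, e3, mul_div_assoc]
  have e5 : 2 * a * ((K * ν : ℕ) : ℝ) ^ 2 / ((s * ν : ℕ) : ℝ) ^ 2 = 2 * a * (K : ℝ) ^ 2 / (s : ℝ) ^ 2 := by
    rw [mul_div_assoc, e3, mul_div_assoc]
  have e6 : 2 / (lam / (K : ℝ) ^ 2) = 2 * (K : ℝ) ^ 2 / lam := by
    field_simp
  rw [e4, e5, e6]
  ring

/-- the rows of the band law do not see a shift which vanishes on the band -/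
theorem psh_R5_obs (s : ℕ) (Γ : CGeom n₁ n₂) (J : ℕ) (lam : ℝ) (g' : DGrid (s * n₁) (s * n₂)) (u : ℤ × ℤ → ℝ)
    (hu : ∀ x ∈ g'.region (S23.fine s (shKb Γ J)), u x = 0) (o : (shLaw s Γ J lam g').O) :
    (shLaw s Γ J lam g').obs (amb (shGeo s Γ) g' u) o = 0 := by
  unfold HLaw.obs
  refine Finset.sum_eq_zero fun x _ => ?_
  show (∑ κ, shRow s (shKb Γ J) lam o κ * (shGeo s Γ).avgRow g' {κ} x) * amb (shGeo s Γ) g' u x = 0
  rw [Finset.sum_mul]
  refine Finset.sum_eq_zero fun κ _ => ?_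
  by_cases h1 : S23.coarse s κ ∈ shKb Γ J
  swap
  · have : shRow s (shKb Γ J) lam o κ = 0 := by
      unfold shRow
      rw [if_neg fun h => h1 h.2]
    rw [this, zero_mul, zero_mul]
  by_cases h2 : x ∈ (shGeo s Γ).sites g' {κ}
  swap
  · have : (shGeo s Γ).avgRow g' {κ} x = 0 := by
      unfold CGeom.avgRow
      rw [if_neg h2]
    rw [this, mul_zero, zero_mul]
  have h3 : domPos (D := g'.region (shGeo s Γ).T) (cut := (shGeo s Γ).cutB g') x ∈ g'.region {κ} := h2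
  have h4 : domPos (D := g'.region (shGeo s Γ).T) (cut := (shGeo s Γ).cutB g') x ∈ g'.region (S23.fine s (shKb Γ J)) := by
    rw [DGrid.region, Finset.singleton_biUnion] at h3
    exact Finset.mem_biUnion.2 ⟨κ, (psh_mem_fine s _ κ).2 h1, h3⟩
  have h5 : amb (shGeo s Γ) g' u x = 0 := hu _ h4
  rw [h5, mul_zero]

/-- **L-SH-R5** (~150 l.).  The reference variance of the gradient test of a shift which vanishes on the band.   `v = a • amb u` is the optimiser: `plIsOpt` (`rspan = ⊤`: `psh_law_lam`, `pl_mem_rspan_pin`; the rows do not see `u`; `pl_pair_div` / unfold `gradRow`);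
`pl_gVar_eq_form`;   `form a (a • u) = a ∑_e (∇_e u)²`. -/
theorem psh_gVar_grad (s : ℕ) (Γ : CGeom n₁ n₂) (J : ℕ) (lam : ℝ) (g' : DGrid (s * n₁) (s * n₂)) {a : ℝ} (ha : 0 < a) (u : ℤ × ℤ → ℝ)
    (hu : ∀ x ∈ g'.region (S23.fine s (shKb Γ J)), u x = 0) :
    (shLaw s Γ J lam g').gVar a (gRow (shGeo s Γ) g' u) = a * C3.dirT (shGeo s Γ) g' u := by
  have hobs := psh_R5_obs s Γ J lam g' u hu
  have hobs' : ∀ o, (shLaw s Γ J lam g').obs (a • amb (shGeo s Γ) g' u) o = 0 := by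
    intro o
    have := hobs o
    unfold HLaw.obs at this ⊢
    simp only [Pi.smul_apply, smul_eq_mul]
    calc ∑ x, (shLaw s Γ J lam g').B o x * (a * amb (shGeo s Γ) g' u x)
        = a * ∑ x, (shLaw s Γ J lam g').B o x * amb (shGeo s Γ) g' u x := by
          rw [Finset.mul_sum]
          exact Finset.sum_congr rfl fun x _ => by ring
      _ = 0 := by rw [this, mul_zero]
  have hgr : ∀ e, plGrad (a • amb (shGeo s Γ) g' u) e = a * plGrad (amb (shGeo s Γ) g' u) e := by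
    intro e
    simp only [plGrad, Pi.smul_apply, smul_eq_mul]
    ring
  have hmem : a • amb (shGeo s Γ) g' u ∈ (shLaw s Γ J lam g').rspan := by
    have e : (shLaw s Γ J lam g').rspan = (plPin (shLaw s Γ J lam g') ∅).rspan := by
      rw [← psh_law_eq_pin s Γ J lam g']
    rw [e, pl_mem_rspan_pin]
    exact fun x hx => absurd hx (Set.notMem_empty x)
  have hopt : plIsOpt (shLaw s Γ J lam g') a (gRow (shGeo s Γ) g' u) (a • amb (shGeo s Γ) g' u) := by
    refine ⟨hmem, fun w _ => ?_⟩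
    have e1 : gRow (shGeo s Γ) g' u = plDiv (plGrad (amb (shGeo s Γ) g' u)) := rfl
    rw [e1, pl_pair_div]
    unfold plB
    simp only [hobs', hgr, zero_mul, Finset.sum_const_zero, add_zero]
    rw [Finset.mul_sum]
    refine Finset.sum_congr rfl fun e _ => ?_
    field_simp
  rw [pl_gVar_eq_form _ ha hopt, pl_form_expand]
  simp only [hobs', hgr]
  have e2 : C3.dirT (shGeo s Γ) g' u = ∑ e, plGrad (amb (shGeo s Γ) g' u) e ^ 2 := rfl
  rw [e2, Finset.mul_sum, Finset.mul_sum]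
  simp only [ne_eq, OfNat.ofNat_ne_zero, not_false_eq_true, zero_pow, Finset.sum_const_zero, add_zero]
  refine Finset.sum_congr rfl fun e _ => ?_
  field_simp

/-! ## 2. The finite exits of the exploration for shifts and for pins -/

/-- **L-SH-X0** (~150 l.).  The gradient row of a shift which vanishes on the cells of `shNr Γ J` is carried by the target.   A vertex `x ∉ shSites (shTg Γ J)` lies in a medium cell `κ ∈ Γ.T` with `κ ∈ shBall Γ.pin (2J+4)`; the two ends of a bond lie in medium cells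
at index distance `≤ 1` (`pn_an_bond_adj` in the medium chart, or directly), both in `Γ.T`, so in `shNr Γ J`. -/
theorem psh_grad_supp (s : ℕ) (hs : 1 ≤ s) (Γ : CGeom n₁ n₂) (J : ℕ) (g' : DGrid (s * n₁) (s * n₂)) (u : ℤ × ℤ → ℝ)
    (hu : ∀ x ∈ g'.region (S23.fine s (shNr Γ J)), u x = 0) (x : (shG s Γ g').V) (hx : x ∉ shSites s Γ g' (shTg Γ J)) :
    gRow (shGeo s Γ) g' u x = 0 := by
  have hr := psg_refines s hs g'
  have hc := psg_chart_med s hs Γ g'
  obtain ⟨κ, hκT, hκ⟩ := psg_cell_ex s hs Γ g' x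
  have hκB : κ ∈ shBall Γ.pin (2 * J + 4) := by
    by_contra h
    exact hx ((psg_sites s hs Γ g' _ x).2 ⟨κ, Finset.mem_filter.2 ⟨hκT, h⟩, hκ⟩)
  have key : ∀ y : (shG s Γ g').V, (y = x ∨ gAdj (shG s Γ g') x y) → amb (shGeo s Γ) g' u y = 0 := by
    intro y hy
    obtain ⟨κ', hκ'T, hκ'⟩ := psg_cell_ex s hs Γ g' y
    have hB : κ' ∈ shBall Γ.pin (2 * J + 5) := by
      rcases hy with rfl | hy
      · rw [pn_an_cell_unique _ hκ' hκ]
        exact psg_ball_mono _ (by omega) hκB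
      · rcases pn_an_bond_adj hc hy hκ hκ' with e | e
        · subst e
          exact psg_ball_mono _ (by omega) hκB
        · exact psg_ball_step _ _ hκB (psg_adj_nb e)
    show u (psgPos y) = 0
    apply hu
    rw [Sec.region_fine hr, DGrid.region, Finset.mem_biUnion]
    exact ⟨κ', Finset.mem_filter.2 ⟨hκ'T, hB⟩, hκ'⟩
  unfold gRow HLaw.gradRow
  refine Finset.sum_eq_zero fun e _ => ?_
  by_cases h1 : (shG s Γ g').tgt e = x
  · rw [key _ (Or.inl h1), key ((shG s Γ g').src e) (Or.inr ⟨e, Or.inr ⟨rfl, h1⟩⟩)]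
    simp
  · by_cases h2 : (shG s Γ g').src e = x
    · rw [key _ (Or.inl h2), key ((shG s Γ g').tgt e) (Or.inr ⟨e, Or.inl ⟨h2, rfl⟩⟩)]
      simp
    · rw [if_neg h1, if_neg h2]
      simp

/-- the pinned band law has more precision than the pinned law without rows (same graph, same lattice, more rows) -/
def psh_pin_le_ref (s : ℕ) (Γ : CGeom n₁ n₂) (J : ℕ) (lam : ℝ) (g' : DGrid (s * n₁) (s * n₂)) (b : ℝ) :
    LSys.Ref ((C3.lawR (S23.refine s Γ) g' C3.noRow).sys b) (((shLaw s Γ J lam g').addPin (shSites s Γ g' Γ.pin)).sys b) where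
  iE := Function.Embedding.refl _
  iO := ⟨fun o : Fin 0 => o.elim0, fun o => o.elim0⟩
  hb := fun _ => rfl
  map_mem := by
    rintro z ⟨h, hh, rfl⟩
    refine ⟨h, hh.2, ?_⟩
    refine Prod.ext rfl ?_
    funext (o : Fin 0)
    exact o.elim0

theorem psh_pin_le_forced : True := by
  have := @psh_pin_le_ref.eq_1
  trivial

/-- **L-SH-X1a** (~200 l.).  Removing the rows increases the variance.   The graphs of `shGeo s Γ` and of `S23.refine s Γ` are the same (`rfl`);  `((shLaw ..).addPin (shSites .. Γ.pin)).Λ = (C3.lawR (S23.refine s Γ) g' C3.noRow).Λ` (`psh_law_lam`, `pl_pinned_inf`);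
`refRows` (`N = 0`) + `lsys_var_mono`;   `HLaw.ok_of_isEmpty`, `pn_br_addPin_ok`;   `XA = (gradT ..).comp r.psi` by `pn_t31_lift_unique` (`psh_lift_grad`), or evaluate both `C2.flowS`. -/
theorem psh_pin_le (s : ℕ) (hs : 1 ≤ s) (Γ : CGeom n₁ n₂) (J : ℕ) (hconf : ShConf Γ J) (lam : ℝ) (hlam : 0 < lam) (g' : DGrid (s * n₁) (s * n₂)) (b : ℝ) (hb : 0 < b)
    (u : ℤ × ℤ → ℝ) (XA : (((shLaw s Γ J lam g').addPin (shSites s Γ g' Γ.pin)).sys b).L →+ ℝ)
    (hXA : ((shLaw s Γ J lam g').addPin (shSites s Γ g' Γ.pin)).Lift b (gRow (shGeo s Γ) g' u) XA) :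
    (((shLaw s Γ J lam g').addPin (shSites s Γ g' Γ.pin)).sys b).V0 XA
      ≤ ((C3.lawR (S23.refine s Γ) g' C3.noRow).sys b).V0 (C3.gradT (S23.refine s Γ) C3.noRow g' b u) := by
  have hS : ((C3.lawR (S23.refine s Γ) g' C3.noRow).sys b).Ok := by
    have : IsEmpty (C3.lawR (S23.refine s Γ) g' C3.noRow).O := (inferInstance : IsEmpty (Fin 0))
    exact HLaw.ok_of_isEmpty _ b hb
  have hS' : (((shLaw s Γ J lam g').addPin (shSites s Γ g' Γ.pin)).sys b).Ok :=
    pn_br_addPin_ok _ b (psh_ok s hs Γ J hconf lam hlam g' b hb) _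
  have hl : ((shLaw s Γ J lam g').addPin (shSites s Γ g' Γ.pin)).Lift b (gRow (shGeo s Γ) g' u)
      ((C3.gradT (S23.refine s Γ) C3.noRow g' b u).comp (psh_pin_le_ref s Γ J lam g' b).psi) := by
    intro h hh
    exact psh_lift_grad (S23.refine s Γ) C3.noRow g' b u h hh.2
  rw [pn_t31_lift_unique _ b hXA hl]
  exact lsys_var_mono (psh_pin_le_ref s Γ J lam g' b) hS hS' _

/-- **L-SH-X1** (~120 l., GLUE).  **(K1) for the band law.**   `pn_rch_X1_lift` with `H = shLaw ..`, `P = ∅` (`psh_law_lam`), `psh_proper`, `psh_ok`, `A = shSites .. Γ.pin`, `Sf = shSites .. (shTg Γ J)`, `f₀ = gRow ..` (`psh_grad_supp`),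
`𝒰 = clFar _ (shSites .. (shFarC Γ J))`, `w = shW K lam s`, `t₁ = shT1 lam s ν` (`psh_anc`, `pn_rch_far_of_aconn`), `ϑ = 1`, `X = gradT ..` (`psh_lift_grad`), `XA` = any lift (`pn_t31_lift_flow` for the pinned law / `pn_br_lift_lf`), `Vp` from `psh_pin_le`;
the bad event is `shBad` by definition. -/
theorem psh_X1 (K s : ℕ) (hs : 1 ≤ s) (Γ : CGeom n₁ n₂) (J : ℕ) (hconf : ShConf Γ J) (lam : ℝ) (hlam : 0 < lam) (g' : DGrid (s * n₁) (s * n₂)) (ν : ℕ)
    (hν : 1 ≤ ν) (h1 : g'.SideGe ν) (h2 : g'.SideLe (K * ν)) (b : ℝ) (hb : 0 < b) (η : ℝ) (hη : 4 * η ≤ b) (u : ℤ × ℤ → ℝ)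
    (hu : ∀ x ∈ g'.region (S23.fine s (shNr Γ J)), u x = 0) (m4 : ℝ)
    (hm4 : 48 * ((shLaw s Γ J lam g').sys b).E0 (fun z => Real.exp (C3.gradT (shGeo s Γ) (shRow s (shKb Γ J) lam) g' b u z)) ≤ m4) :
    ((shLaw s Γ J lam g').sys b).V0 (C3.gradT (shGeo s Γ) (shRow s (shKb Γ J) lam) g' b u)
      ≤ ((C3.lawR (S23.refine s Γ) g' C3.noRow).sys b).V0 (C3.gradT (S23.refine s Γ) C3.noRow g' b u)
        + Real.sqrt m4 * (Real.sqrt (Real.exp (4 * η) - 1) + Real.sqrt (shBad K s Γ J lam g' b η)) := by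
  obtain ⟨hanc, hpin⟩ := psh_anc K s hs Γ J lam hlam.le g' ν hν h1 h2
  have hP := psh_proper s hs Γ J hconf lam hlam g'
  have hXA := pn_br_lift_lf ((shLaw s Γ J lam g').addPin (shSites s Γ g' Γ.pin))
    (pn_br_addPin_proper _ hP (shSites s Γ g' Γ.pin)) b (gRow (shGeo s Γ) g' u)
  exact pn_rch_X1_lift (shLaw s Γ J lam g') ∅ (psh_law_lam s Γ J lam g') hP b hb
    (psh_ok s hs Γ J hconf lam hlam g' b hb) (shSites s Γ g' Γ.pin) (shSites s Γ g' (shTg Γ J)) (gRow (shGeo s Γ) g' u)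
    (fun x hx => psh_grad_supp s hs Γ J g' u hu x hx)
    (clFar _ (shSites s Γ g' (shFarC Γ J))) (shW K lam s) (shT1 lam s ν) hanc
    (fun U hU => pn_rch_far_of_aconn _ _ U hpin hU) η hη _ m4 1 one_pos
    (C3.gradT (shGeo s Γ) (shRow s (shKb Γ J) lam) g' b u) (psh_lift_grad (shGeo s Γ) (shRow s (shKb Γ J) lam) g' b u)
    _ hXA (psh_pin_le s hs Γ J hconf lam hlam g' b hb u _ hXA) (by
      simp only [inv_one, one_pow, mul_one, one_mul]
      exact hm4)

/-- **L-SH-X2** (~120 l., GLUE).  **(K2) for the band law.**   `pn_rch_dPin` with the same data and `T = shSites .. A`;  the event for `A` is contained in the event for `shTg Γ J` (`pn_cl_I_mono`, `rhN`, `rhInd`);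
`rhN .. ≤ 1 < ∞` (`pn_rch_N_ind_le_one`), `ENNReal.ofReal_toReal`. -/
theorem psh_dPin_fin (K s : ℕ) (hs : 1 ≤ s) (Γ : CGeom n₁ n₂) (J : ℕ) (hconf : ShConf Γ J) (lam : ℝ) (hlam : 0 < lam) (g' : DGrid (s * n₁) (s * n₂)) (ν : ℕ)
    (hν : 1 ≤ ν) (h1 : g'.SideGe ν) (h2 : g'.SideLe (K * ν)) (b : ℝ) (hb : 0 < b) (η : ℝ) (hη : 4 * η ≤ b) (A : Finset (Fin n₁ × Fin n₂)) (hA : A ⊆ shTg Γ J)
    (p : ℝ) (hp : p < 1) (hbad : shBad K s Γ J lam g' b η ≤ p) :
    (shLaw s Γ J lam g').dPin b (shSites s Γ g' A) (shSites s Γ g' Γ.pin) ≤ η - Real.log (1 - p) := by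
  obtain ⟨hanc, hpin⟩ := psh_anc K s hs Γ J lam hlam.le g' ν hν h1 h2
  have hp0 : 0 ≤ p := le_trans ENNReal.toReal_nonneg hbad
  refine pn_rch_dPin (shLaw s Γ J lam g') ∅ (psh_law_lam s Γ J lam g') (psh_proper s hs Γ J hconf lam hlam g') b hb
    (psh_ok s hs Γ J hconf lam hlam g' b hb) (shSites s Γ g' Γ.pin) (shSites s Γ g' A)
    (clFar _ (shSites s Γ g' (shFarC Γ J))) (shW K lam s) (shT1 lam s ν) hanc
    (fun U hU => pn_rch_far_of_aconn _ _ U hpin hU) η hη p hp0 hp ?_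
  have hsub : shSites s Γ g' A ⊆ shSites s Γ g' (shTg Γ J) := psh_sites_mono s hs Γ g' fun κ hκ _ => hA hκ
  have hmono : rhN (shLaw s Γ J lam g') b ∅ (fun h ω =>
      rhInd (η < rhEps (b * shW K lam s) (shLaw s Γ J lam g') (rhU (shG s Γ g') (shSites s Γ g' Γ.pin) h ω)
        ∨ (vis (shG s Γ g') ω (shSites s Γ g' Γ.pin) ∩ shSites s Γ g' A).Nonempty))
      ≤ rhN (shLaw s Γ J lam g') b ∅ (fun h ω =>
      rhInd (η < rhEps (b * shW K lam s) (shLaw s Γ J lam g') (rhU (shG s Γ g') (shSites s Γ g' Γ.pin) h ω)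
        ∨ (vis (shG s Γ g') ω (shSites s Γ g' Γ.pin) ∩ shSites s Γ g' (shTg Γ J)).Nonempty)) := by
    unfold rhN
    refine ENNReal.div_le_div_right (pn_cl_I_mono _ b ∅ _ _ fun h ω _ _ => ?_) _
    unfold rhInd
    split_ifs with c1 c2
    · exact le_rfl
    · exact absurd (c1.imp id fun hn => hn.mono (Set.inter_subset_inter_right _ hsub)) c2
    · exact zero_le
    · exact le_rfl
  refine hmono.trans ?_
  have hfin : rhN (shLaw s Γ J lam g') b ∅ (fun h ω =>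
      rhInd (η < rhEps (b * shW K lam s) (shLaw s Γ J lam g') (rhU (shG s Γ g') (shSites s Γ g' Γ.pin) h ω)
        ∨ (vis (shG s Γ g') ω (shSites s Γ g' Γ.pin) ∩ shSites s Γ g' (shTg Γ J)).Nonempty)) ≠ ∞ :=
    ne_top_of_le_ne_top ENNReal.one_ne_top (pn_rch_N_ind_le_one _ b ∅ _)
  rw [← ENNReal.ofReal_toReal hfin]
  exact ENNReal.ofReal_le_ofReal hbad

end

end Claimed.Agent.R285.Pins
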