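import Claimed.Agent.R285.Pins.FkDefs

/-!
# ROW 285, PINS-SIGN/TILT ([C]L3.7, (3.19)-(3.23); 30-pins.tex l.532-707).  DEFINITIONS ONLY (architect helper64; chief of PINS helper235).

Vocabulary of `Pins/FkDefs.lean` (helper85): ONE finite graph, base FK-height integral `ext G β P F ∈ ℝ≥0∞`, cluster sign groups `Sg`, `SgOn`, clusters are never a type.

* band: a finite family of rows `d i : G.V → ℝ` (cell averages, acting on the INTEGER height through `lin`) with weights `a i ≥ 0` (`a i = (2π)² λ |d_i|`);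
  `bq a d h = ∑ a_i ⟨d_i,h⟩²`, `bW a d h = exp(-bq/2)` (the UNNORMALISED band weight `W_{ℓ,λ}`), `bZ` its integral, `bE Φ = E_W Φ ∈ ℝ≥0∞`.
* macroscopic clusters: a class `𝒰 : Set (Set G.V)` of vertex sets ("diameter at least r", "meets A and B", ...); `Mac 𝒰 ω` = union of the clusters of `ω` which belong to `𝒰`.
  Every signless selection of clusters used in [C]s3 is of this form.
* `mAvg 𝒰 Φ h ω` = average of `Φ(·,ω)` over independent fair signs of the clusters in `𝒰` ("macroscopic sign resampling").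
* `sgTV` = unnormalised total variation between the band law and its resampled version (divide by `bZ`).
* `bRow a d c = ∑ a_i c_i d_i`; for an explored part `u` the remaining linear tilt is `L(k) = - lin (bRow a d (bVal d u)) k`, because `bq (u+k) = bq u + 2 lin (bRow a d (bVal d u)) k + bq k`.
* `bEps c₀ a d c = c₀ ∑ a_i c_i²` = `ε²` of [C] (`c₀ = C₀ λ ℓ² / (2π)²`).
-/

set_option autoImplicit false

namespace Claimed.Agent.R285.Pins

open scoped Classical ENNReal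

noncomputable section

variable (G : HGraph) {ι : Type} [Fintype ι]

/-- the quadratic band energy `∑_i a_i ⟨d_i,h⟩²` -/
def bq (a : ι → ℝ) (d : ι → G.V → ℝ) (h : G.V → ℤ) : ℝ := ∑ i, a i * lin (d i) h ^ 2

/-- the band weight `exp(-½ ∑_i a_i ⟨d_i,h⟩²)` -/
def bW (a : ι → ℝ) (d : ι → G.V → ℝ) (h : G.V → ℤ) : ℝ := Real.exp (-(bq G a d h) / 2)

/-- the band weight in `ℝ≥0∞` -/
def bWe (a : ι → ℝ) (d : ι → G.V → ℝ) (h : G.V → ℤ) : ℝ≥0∞ := ENNReal.ofReal (bW G a d h)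

/-- unnormalised band integral -/
def bI (β : G.E → ℝ) (P : Set G.V) (a : ι → ℝ) (d : ι → G.V → ℝ) (Φ : (G.V → ℤ) → (G.E → Bool) → ℝ≥0∞) : ℝ≥0∞ :=
  ext G β P fun h ω => bWe G a d h * Φ h ω

/-- the band partition sum -/
def bZ (β : G.E → ℝ) (P : Set G.V) (a : ι → ℝ) (d : ι → G.V → ℝ) : ℝ≥0∞ := bI G β P a d fun _ _ => 1

/-- expectation under the band law -/
def bE (β : G.E → ℝ) (P : Set G.V) (a : ι → ℝ) (d : ι → G.V → ℝ) (Φ : (G.V → ℤ) → (G.E → Bool) → ℝ≥0∞) : ℝ≥0∞ :=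
  bI G β P a d Φ / bZ G β P a d

/-- the cell values of a height -/
def bVal (d : ι → G.V → ℝ) (h : G.V → ℤ) : ι → ℝ := fun i => lin (d i) h

/-- the row `∑_i a_i c_i d_i` -/
def bRow (a : ι → ℝ) (d : ι → G.V → ℝ) (c : ι → ℝ) : G.V → ℝ := fun y => ∑ i, a i * c i * d i y

/-- `ε² = c₀ ∑_i a_i c_i²` -/
def bEps (c₀ : ℝ) (a : ι → ℝ) (c : ι → ℝ) : ℝ := c₀ * ∑ i, a i * c i ^ 2

/-- the union of the clusters which belong to the class `𝒰` -/
def Mac (𝒰 : Set (Set G.V)) (ω : G.E → Bool) : Set G.V := {x | clu G ω x ∈ 𝒰}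

/-- number of sites of the cluster of `x` -/
def csz (ω : G.E → Bool) (x : G.V) : ℝ := ((Finset.univ.filter fun y => conn G ω x y).card : ℝ)

/-- the cell values of the cluster of `x`: `S_{C_x}(d_i)` -/
def cVal (d : ι → G.V → ℝ) (ω : G.E → Bool) (h : G.V → ℤ) (x : G.V) : ι → ℝ := bVal G d (resZ G (clu G ω x) h)

/-- resampling of the signs of the clusters in `𝒰` -/
def mAvg (𝒰 : Set (Set G.V)) (Φ : (G.V → ℤ) → (G.E → Bool) → ℝ≥0∞) (h : G.V → ℤ) (ω : G.E → Bool) : ℝ≥0∞ :=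
  sgAvg (SgOn G ω (Mac G 𝒰 ω)) (fun h' => Φ h' ω) h

/-- a sum over the clusters in `𝒰` of a cluster functional, written as a site sum: `∑_{C ∈ 𝒰} J(C) = ∑_x 1[C_x ∈ 𝒰] J(C_x)/|C_x|` -/
def cSum (𝒰 : Set (Set G.V)) (J : G.V → (G.V → ℤ) → (G.E → Bool) → ℝ≥0∞) (h : G.V → ℤ) (ω : G.E → Bool) : ℝ≥0∞ :=
  ∑ x, if x ∈ Mac G 𝒰 ω then ENNReal.ofReal (csz G ω x)⁻¹ * J x h ω else 0

/-- `∑_{C ∈ 𝒰} ∑_{C' ≠ C} (∑_i a_i S_C(d_i) S_{C'}(d_i))²` -/
def bX (a : ι → ℝ) (d : ι → G.V → ℝ) (𝒰 : Set (Set G.V)) (h : G.V → ℤ) (ω : G.E → Bool) : ℝ :=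
  ∑ x, if x ∈ Mac G 𝒰 ω then (csz G ω x)⁻¹ *
    cq G ω (resF G (clu G ω x)ᶜ (bRow G a d (cVal G d ω h x))) (resF G (clu G ω x)ᶜ (bRow G a d (cVal G d ω h x))) h else 0

/-- unnormalised total variation between the band law and the band law with resampled signs of the clusters in `𝒰` -/
def sgTV (β : G.E → ℝ) (P : Set G.V) (a : ι → ℝ) (d : ι → G.V → ℝ) (𝒰 : Set (Set G.V)) : ℝ≥0∞ :=
  ext G β P fun h ω => sgAvg (SgOn G ω (Mac G 𝒰 ω)) (fun h' => ENNReal.ofReal |bW G a d h' - bW G a d h|) h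

/-- `∑_{C ∈ 𝒰, |S_C(u)| ≤ t} ε_C²` integrated against the BASE measure (`ε_C² = c₀ ∑ a_i S_C(d_i)²`) -/
def sgE2 (β : G.E → ℝ) (P : Set G.V) (a : ι → ℝ) (d : ι → G.V → ℝ) (𝒰 : Set (Set G.V)) (c₀ : ℝ) (u : G.V → ℝ) (t : ℝ) : ℝ≥0∞ :=
  ext G β P (cSum G 𝒰 fun x h ω =>
    if lin u (resZ G (clu G ω x) h) ^ 2 ≤ t ^ 2 then ENNReal.ofReal (bEps c₀ a (cVal G d ω h x)) else 0)

/-- **anchoring hypothesis** (= [C]L3.4 (3.10) + reference moments, to be produced by PINS-ANCHOR): after exposure of a set `U ∈ 𝒰` the second moment of `∑ a_i c_i ⟨d_i,k⟩` under every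
centred posterior of the BASE measure is at most `c₀ ∑ a_i c_i²`; the coefficients vanish on the cells which `U` does not touch. -/
def Anch (β : G.E → ℝ) (P : Set G.V) (a : ι → ℝ) (d : ι → G.V → ℝ) (𝒰 : Set (Set G.V)) (c₀ : ℝ) : Prop :=
  ∀ U ∈ 𝒰, ∀ β' : G.E → ℝ, (∀ e, 0 < β' e ∧ β' e ≤ β e) → (∀ e, ¬ bdry G U e → β' e = β e) →
    ∀ c : ι → ℝ, (∀ i, (∀ v ∈ U, d i v = 0) → c i = 0) →
      ext G β' (P ∪ U) (fun k _ => ENNReal.ofReal (lin (bRow G a d c) k ^ 2))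
        ≤ ENNReal.ofReal (bEps c₀ a c) * ext G β' (P ∪ U) fun _ _ => 1

end

end Claimed.Agent.R285.Pins
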