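import Claimed.Agent.R285.Free.Sys
import Claimed.Agent.R285.Pins.T32Prob

/-!
# ROW 285, PINS, package T31 = [C] Theorem 3.1 (architect helper217).  FILE 1: ABSTRACT LAYER on `LSys`.   PAPER-FREE.

Plan of the package: header of `Pins/T31.lean`.  Every `sorry` of this file is a LEAF (`L-T31-*`, name in the docstring).  Statements are frozen (tell helper217 if one looks false); prove IN PLACE, helper lemmas directly above your theorem,
prefix `pn_t31_<leaf>_`.  Tools: `Rsd/CalcKit.lean` (`LSys.Dom`, `rd_E0_*`, `rd_Zf_*`, `rd_char_bound`, `rd_cos_bound`), `Free/Sys.lean` (`mgf_holder`, `var_add`, `E0_exp_series`, `phi_series`), `Base/Height.lean` (`lsys_*`),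
`Pins/T32Prob.lean` (`T32.pn_ps_real_to_complex`).

CONTENT.
* `WIso`   : additive bijection of the lattices multiplying the weight by a constant (dropping coordinates which vanish on the lattice, relabelling): all normalised quantities agree.
* `obsS`, `pn_t31_centre`, `pn_t31_dual` : an observation centre is a real tilt; DUALITY BOUND `E_{S'} e^{X∘ψ + s·y} ≤ e^{|s|²/2} E_S e^X` when `S'` = `S` + new Gaussian coordinates `y`.
* `RowA`   : `S'` = `S` + ONE Gaussian coordinate `y` which is a test of `S` (it sees no released constant).   `pn_t31_rowA_lim`: Gaussian limits pass from `S` to `S'` (1-d Fourier + power series), with the limit of `w'/w`.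
* `RowB`   : `S'` = `S` + ONE Gaussian coordinate which confines one released constant (`L' ≃ L × ℤ`).   `pn_t31_rowB`: exact Poisson bound, uniform in the test;  `pn_t31_rowB_lim`.
* `pn_t31_lap_var`, `pn_t31_lap_phi` : Laplace limits give variances and characteristic coefficients.      * `pn_t31_approx` : stability of Laplace limits (convexity).
-/

set_option autoImplicit false

namespace Claimed.Agent.R285.Pins

open Filter Topology MeasureTheory

noncomputable section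

/-- centred log-Laplace transform of a test -/
def lLap (S : LSys) (X : S.L →+ ℝ) : ℝ := Real.log (S.E0 fun z => Real.exp (X z))

/-! ## 1. Weight-proportional isomorphisms -/

/-- an additive bijection of the lattices which multiplies the weight by a positive constant -/
structure WIso (S S' : LSys) where
  e : S.L ≃+ S'.L
  c : ℝ
  hc : 0 < c
  hW : ∀ z : S.L, S'.W ((e z : S'.L) : S'.Amb) = c * S.W (z : S.Amb)

theorem pn_t31_wiso_Zf {S S' : LSys} (i : WIso S S') (F : S'.L → ℝ) :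
    S'.Zf 0 F = i.c * S.Zf 0 fun z => F (i.e z) := by
  unfold LSys.Zf
  rw [← i.e.toEquiv.tsum_eq, ← tsum_mul_left]
  refine tsum_congr fun z => ?_
  simp only [AddEquiv.toEquiv_eq_coe, EquivLike.coe_coe, add_zero]
  rw [i.hW]
  ring

/-- **L-T31-W** (~60 l. for the five statements).  `rd_E0_eq`; `Zf 0 F = ∑' z, F z * W (z + 0)`; reindex by `i.e.toEquiv.tsum_eq`; `tsum_mul_left`; cancel `c`. -/
theorem pn_t31_wiso_E0 {S S' : LSys} (i : WIso S S') (F : S'.L → ℝ) : S'.E0 F = S.E0 fun z => F (i.e z) := by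
  rw [rd_E0_eq, rd_E0_eq, LSys.w, LSys.w, pn_t31_wiso_Zf i F, pn_t31_wiso_Zf i fun _ => 1,
    mul_div_mul_left _ _ i.hc.ne']

theorem pn_t31_wiso_w {S S' : LSys} (i : WIso S S') : S'.w 0 = i.c * S.w 0 := by
  rw [LSys.w, LSys.w, pn_t31_wiso_Zf i fun _ => 1]

theorem pn_t31_wiso_V0 {S S' : LSys} (i : WIso S S') (X : S'.L →+ ℝ) : S'.V0 X = S.V0 (X.comp i.e.toAddMonoidHom) := by
  rw [rd_V0_eq, rd_V0_eq, pn_t31_wiso_E0 i]
  rfl

theorem pn_t31_wiso_phi {S S' : LSys} (i : WIso S S') (X : S'.L →+ ℝ) : S'.phi X = S.phi (X.comp i.e.toAddMonoidHom) := by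
  rw [LSys.phi, LSys.phi, pn_t31_wiso_E0 i]
  rfl

theorem pn_t31_wiso_lLap {S S' : LSys} (i : WIso S S') (X : S'.L →+ ℝ) : lLap S' X = lLap S (X.comp i.e.toAddMonoidHom) := by
  rw [lLap, lLap, pn_t31_wiso_E0 i]
  rfl

/-! ## 2. Centres are tilts; the duality bound -/

/-- the linear statistic `z ↦ ∑_o s_o z_o` of the Gaussian coordinates -/
def obsS (S : LSys) (s : S.O → ℝ) : S.L →+ ℝ where
  toFun z := ∑ o, s o * (z : S.Amb).2 o
  map_zero' := by simp
  map_add' x y := by simp [mul_add, Finset.sum_add_distrib]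

/-- **L-T31-C** (~50 l.).  Termwise: `W (z + (0,-c)) = W z * exp (∑ c_o z_o - |c|²/2)` (only the Gaussian factor changes; `(x - c)² = x² - 2 c x + c²`, `Finset.sum_add_distrib`, `Real.exp_add`); `tsum_mul_left`. -/
theorem pn_t31_centre (S : LSys) (c : S.O → ℝ) (X : S.L →+ ℝ) :
    S.wT ((0, fun o => - c o) : S.Amb) X = Real.exp (-(∑ o, c o ^ 2) / 2) * S.wT 0 (X + obsS S c) := by
  unfold LSys.wT LSys.Zf
  rw [← tsum_mul_left]
  refine tsum_congr fun z => ?_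
  have e1 : (X + obsS S c) z = X z + ∑ o, c o * (z : S.Amb).2 o := rfl
  simp only
  rw [e1, add_zero]
  unfold LSys.W
  have e2 : ∀ e, ((z : S.Amb) + ((0, fun o => - c o) : S.Amb)).1 e = (z : S.Amb).1 e := by
    intro e
    simp
  have e3 : ∑ o, ((z : S.Amb) + ((0, fun o => - c o) : S.Amb)).2 o ^ 2
      = ∑ o, (z : S.Amb).2 o ^ 2 - 2 * ∑ o, c o * (z : S.Amb).2 o + ∑ o, c o ^ 2 := by
    rw [Finset.mul_sum, ← Finset.sum_sub_distrib, ← Finset.sum_add_distrib]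
    refine Finset.sum_congr rfl fun o _ => ?_
    simp only [Prod.snd_add, Pi.add_apply]
    ring
  simp only [e2]
  rw [e3]
  have e4 : Real.exp (-(∑ o, (z : S.Amb).2 o ^ 2 - 2 * ∑ o, c o * (z : S.Amb).2 o + ∑ o, c o ^ 2) / 2)
      = Real.exp (-(∑ o, c o ^ 2) / 2) * Real.exp (∑ o, c o * (z : S.Amb).2 o) * Real.exp (-(∑ o, (z : S.Amb).2 o ^ 2) / 2) := by
    rw [← Real.exp_add, ← Real.exp_add]
    congr 1
    ring
  rw [e4, Real.exp_add]
  ring

/-- **L-T31-D** (~60 l.).  `pn_t31_centre` for `S'` read backwards: `wT' 0 (X∘ψ + obsS s) = e^{|s|²/2} wT' (0,-s) (X∘ψ)`; `lsys_ratio_mono r hS hS' (0,-s) X`; `r.res (0,-s) = 0` by `hs`; `rd_E0_exp`. -/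
theorem pn_t31_dual {S S' : LSys} (r : LSys.Ref S S') (hS : S.Ok) (hS' : S'.Ok) (s : S'.O → ℝ) (hs : ∀ o, s (r.iO o) = 0)
    (X : S.L →+ ℝ) : lLap S' (X.comp r.psi + obsS S' s) ≤ (∑ o, s o ^ 2) / 2 + lLap S X := by
  have h1 := pn_t31_centre S' s (X.comp r.psi)
  have h2 := lsys_ratio_mono r hS hS' ((0, fun o => - s o) : S'.Amb) X
  have h3 : r.res ((0, fun o => - s o) : S'.Amb) = 0 := by
    refine Prod.ext rfl ?_
    funext o
    show - s (r.iO o) = 0
    rw [hs, neg_zero]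
  rw [h3, h1] at h2
  unfold lLap
  rw [rd_E0_exp, rd_E0_exp]
  have hw' : 0 < S'.w 0 := rd_w_pos hS' 0
  have hp' : 0 < S'.wT 0 (X.comp r.psi + obsS S' s) / S'.w 0 := div_pos (lsys_pos S' hS' 0 _) hw'
  have hp : 0 < S.wT 0 X / S.w 0 := div_pos (lsys_pos S hS 0 _) (rd_w_pos hS 0)
  have h4 : Real.log (Real.exp (-(∑ o, s o ^ 2) / 2) * (S'.wT 0 (X.comp r.psi + obsS S' s) / S'.w 0))
      ≤ Real.log (S.wT 0 X / S.w 0) := by
    refine Real.log_le_log (mul_pos (Real.exp_pos _) hp') ?_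
    rw [← mul_div_assoc]
    exact h2
  rw [Real.log_mul (Real.exp_pos _).ne' hp'.ne', Real.log_exp] at h4
  linarith

/-! ## 3. ROW-A: one more Gaussian coordinate which is a test -/

/-- `S'` is `S` with one more Gaussian coordinate `y`, a test of `S` -/
structure RowA (S S' : LSys) where
  e : S.L ≃+ S'.L
  y : S.L →+ ℝ
  hW : ∀ z : S.L, S'.W ((e z : S'.L) : S'.Amb) = S.W (z : S.Amb) * Real.exp (-(y z) ^ 2 / 2)

/-- reindexing of `Zf` along `RowA.e`. -/
theorem pn_t31_A1_Zf {S S' : LSys} (r : RowA S S') (F : S'.L → ℝ) :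
    S'.Zf 0 F = S.Zf 0 fun z => F (r.e z) * Real.exp (-(r.y z) ^ 2 / 2) := by
  unfold LSys.Zf
  rw [← r.e.toEquiv.tsum_eq]
  refine tsum_congr fun z => ?_
  simp only [AddEquiv.toEquiv_eq_coe, EquivLike.coe_coe, add_zero]
  rw [r.hW]
  ring

theorem pn_t31_A1_pos {S : LSys} (hS : S.Ok) (y : S.L →+ ℝ) : 0 < S.E0 fun z => Real.exp (-(y z) ^ 2 / 2) := by
  rw [rd_E0_eq]
  refine div_pos ?_ (rd_w_pos hS 0)
  have hd : S.Dom fun z => Real.exp (-(y z) ^ 2 / 2) := rd_dom_bdd 1 fun z => by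
    rw [abs_of_pos (Real.exp_pos _)]
    exact Real.exp_le_one_iff.2 (by have := sq_nonneg (y z); linarith)
  exact (rd_dom_summable hS hd 0).tsum_pos (fun z => (mul_pos (Real.exp_pos _) (rd_W_pos hS _)).le) 0
    (mul_pos (Real.exp_pos _) (rd_W_pos hS _))

/-- **L-T31-A1** (~60 l.).  Reindex the `tsum`s by `r.e` (as in `pn_t31_wiso_E0`). -/
theorem pn_t31_rowA_w {S S' : LSys} (r : RowA S S') (hS : S.Ok) :
    S'.w 0 = S.w 0 * S.E0 fun z => Real.exp (-(r.y z) ^ 2 / 2) := by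
  rw [rd_E0_eq, mul_div_cancel₀ _ (rd_w_pos hS 0).ne', LSys.w, pn_t31_A1_Zf r]
  simp

theorem pn_t31_rowA_E0 {S S' : LSys} (r : RowA S S') (hS : S.Ok) (F : S'.L → ℝ) :
    S'.E0 F * (S.E0 fun z => Real.exp (-(r.y z) ^ 2 / 2)) = S.E0 fun z => F (r.e z) * Real.exp (-(r.y z) ^ 2 / 2) := by
  have hp := pn_t31_A1_pos hS r.y
  have hw := rd_w_pos hS 0
  rw [rd_E0_eq F, pn_t31_rowA_w r hS, pn_t31_A1_Zf r, rd_E0_eq (fun z => F (r.e z) * Real.exp (-(r.y z) ^ 2 / 2))]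
  obtain ⟨a, ha⟩ : ∃ a, a = S.E0 fun z => Real.exp (-(r.y z) ^ 2 / 2) := ⟨_, rfl⟩
  rw [← ha] at hp ⊢
  rw [div_mul_eq_mul_div, mul_div_mul_right _ _ hp.ne']

/-- integrability of the Gaussian with a cosine -/
theorem pn_t31_A4_integrable (β κ : ℝ) (hβ : 0 < β) :
    Integrable fun ξ : ℝ => Real.cos (ξ * κ) * Real.exp (-β * ξ ^ 2) := by
  refine (integrable_exp_neg_mul_sq hβ).mono' ?_ ?_
  · exact (Continuous.aestronglyMeasurable (by fun_prop))
  · refine Eventually.of_forall fun ξ => ?_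
    rw [norm_mul, Real.norm_eq_abs, Real.norm_eq_abs, abs_of_pos (Real.exp_pos _)]
    exact mul_le_of_le_one_left (Real.exp_pos _).le (Real.abs_cos_le_one _)

/-- the real Fourier transform of a Gaussian -/
theorem pn_t31_A4_cos_gauss (β κ : ℝ) (hβ : 0 < β) :
    ∫ ξ : ℝ, Real.cos (ξ * κ) * Real.exp (-β * ξ ^ 2) = Real.sqrt (Real.pi / β) * Real.exp (-κ ^ 2 / (4 * β)) := by
  have h := fourierIntegral_gaussian (b := (β : ℂ)) (by simpa using hβ) (κ : ℂ)
  have hint : Integrable fun x : ℝ => Complex.exp (Complex.I * κ * x) * Complex.exp (-(β : ℂ) * x ^ 2) := by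
    have := integrable_cexp_quadratic (b := (β : ℂ)) (by simpa using hβ) (Complex.I * κ) 0
    refine this.congr (Eventually.of_forall fun x => ?_)
    simp only [add_zero]
    rw [← Complex.exp_add, add_comm]
  have h1 : ∀ x : ℝ, (Complex.exp (Complex.I * κ * x) * Complex.exp (-(β : ℂ) * x ^ 2)).re
      = Real.cos (x * κ) * Real.exp (-β * x ^ 2) := by
    intro x
    have e1 : Complex.exp (-(β : ℂ) * x ^ 2) = ((Real.exp (-β * x ^ 2) : ℝ) : ℂ) := by
      push_cast; rfl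
    have e2 : Complex.I * κ * x = ((x * κ : ℝ) : ℂ) * Complex.I := by push_cast; ring
    rw [e1, e2, Complex.re_mul_ofReal, Complex.exp_ofReal_mul_I_re]
  have h2 : ∫ ξ : ℝ, Real.cos (ξ * κ) * Real.exp (-β * ξ ^ 2)
      = (∫ x : ℝ, Complex.exp (Complex.I * κ * x) * Complex.exp (-(β : ℂ) * x ^ 2)).re := by
    rw [← Complex.reCLM_apply, ← ContinuousLinearMap.integral_comp_comm _ hint]
    refine integral_congr_ae (Eventually.of_forall fun x => ?_)
    exact (h1 x).symm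
  rw [h2, h]
  have e3 : ((Real.pi : ℂ) / β) ^ (1 / 2 : ℂ) = ((Real.sqrt (Real.pi / β) : ℝ) : ℂ) := by
    rw [Real.sqrt_eq_rpow, Complex.ofReal_cpow (div_pos Real.pi_pos hβ).le]
    push_cast; rfl
  have e4 : Complex.exp (-(κ : ℂ) ^ 2 / (4 * β)) = ((Real.exp (-κ ^ 2 / (4 * β)) : ℝ) : ℂ) := by
    push_cast; rfl
  rw [e3, e4, ← Complex.ofReal_mul, Complex.ofReal_re]

/-- **L-T31-A2** (~150 l.).  Fourier representation of the Gaussian weight under the sum.  `exp (-y²/2) = ∫ cos (ξ y) exp (-ξ²/2) dξ / √(2π)` (`fourierIntegral_gaussian` / `integral_cexp_quadratic`, real part);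
exchange `∑'` and `∫` (`integral_tsum` or `hasSum_integral_of_summable_integral_norm`; norm of the term `≤ e^{X z} W z e^{-ξ²/2}`, `lsys_summable`, `rd_countable`). -/
theorem pn_t31_rowA_fourier (S : LSys) (hS : S.Ok) (X y : S.L →+ ℝ) :
    (S.E0 fun z => Real.exp (X z) * Real.exp (-(y z) ^ 2 / 2))
      = (Real.sqrt (2 * Real.pi))⁻¹ * ∫ ξ : ℝ, (S.E0 fun z => Real.exp (X z) * Real.cos (ξ * y z)) * Real.exp (-ξ ^ 2 / 2) := by
  have : Countable S.L := rd_countable hS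
  have hs : Real.sqrt (2 * Real.pi) ≠ 0 := (Real.sqrt_pos.2 (by positivity)).ne'
  have hhalf : (0 : ℝ) < 1 / 2 := by norm_num
  have hpi : Real.pi / (1 / 2) = 2 * Real.pi := by ring
  set F : S.L → ℝ → ℝ := fun z ξ =>
    (Real.exp (X z) * S.W ((z : S.Amb) + 0)) * (Real.cos (ξ * y z) * Real.exp (-(1 / 2) * ξ ^ 2)) with hF
  have hc0 : ∀ z : S.L, 0 ≤ Real.exp (X z) * S.W ((z : S.Amb) + 0) := fun z =>
    (mul_pos (Real.exp_pos _) (rd_W_pos hS _)).le
  have hFint : ∀ z, Integrable (F z) := fun z => (pn_t31_A4_integrable (1 / 2) (y z) hhalf).const_mul _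
  have hFval : ∀ z, ∫ ξ, F z ξ = Real.sqrt (2 * Real.pi)
      * ((Real.exp (X z) * Real.exp (-(y z) ^ 2 / 2)) * S.W ((z : S.Amb) + 0)) := by
    intro z
    simp only [hF]
    rw [integral_const_mul, pn_t31_A4_cos_gauss _ _ hhalf, hpi]
    have : -(y z) ^ 2 / (4 * (1 / 2)) = -(y z) ^ 2 / 2 := by ring
    rw [this]; ring
  have hFnorm : ∀ z, ∫ ξ, ‖F z ξ‖ ≤ (Real.exp (X z) * S.W ((z : S.Amb) + 0)) * Real.sqrt (2 * Real.pi) := by
    intro z
    have h1 : ∫ ξ : ℝ, (Real.exp (X z) * S.W ((z : S.Amb) + 0)) * Real.exp (-(1 / 2) * ξ ^ 2)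
        = (Real.exp (X z) * S.W ((z : S.Amb) + 0)) * Real.sqrt (2 * Real.pi) := by
      rw [integral_const_mul, integral_gaussian, hpi]
    rw [← h1]
    refine integral_mono (hFint z).norm ((integrable_exp_neg_mul_sq hhalf).const_mul _) fun ξ => ?_
    simp only [hF]
    rw [Real.norm_eq_abs, abs_mul, abs_mul (Real.cos _), abs_of_nonneg (hc0 z), abs_of_pos (Real.exp_pos _)]
    exact mul_le_mul_of_nonneg_left (mul_le_of_le_one_left (Real.exp_pos _).le (Real.abs_cos_le_one _)) (hc0 z)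
  have hFsum : Summable fun z => ∫ ξ, ‖F z ξ‖ :=
    Summable.of_nonneg_of_le (fun z => integral_nonneg fun ξ => norm_nonneg _) hFnorm
      ((lsys_summable S hS 0 X).mul_right _)
  have hmain := (hasSum_integral_of_summable_integral_norm hFint hFsum).tsum_eq
  simp only [hFval] at hmain
  rw [tsum_mul_left] at hmain
  -- rewrite both sides
  have hR : ∀ ξ : ℝ, (S.E0 fun z => Real.exp (X z) * Real.cos (ξ * y z)) * Real.exp (-ξ ^ 2 / 2)
      = (S.w 0)⁻¹ * ∑' z, F z ξ := by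
    intro ξ
    rw [rd_E0_eq]
    unfold LSys.Zf
    simp only [hF]
    rw [div_eq_mul_inv, mul_comm (∑' z : S.L, _) _, mul_assoc, ← tsum_mul_right]
    congr 1
    refine tsum_congr fun z => ?_
    have : -(1 / 2) * ξ ^ 2 = -ξ ^ 2 / 2 := by ring
    rw [this]; ring
  simp only [hR]
  rw [integral_const_mul, ← hmain, rd_E0_eq]
  unfold LSys.Zf
  field_simp

/-- entire functions, uniformly bounded on discs, which tend to `0` on the real axis tend to `0` everywhere -/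
theorem pn_t31_A3_vitali (D : ℕ → ℂ → ℂ) (hd : ∀ k, Differentiable ℂ (D k))
    (hb : ∀ R : ℝ, 0 < R → ∃ C : ℝ, ∀ k (z : ℂ), ‖z‖ ≤ R → ‖D k z‖ ≤ C)
    (h0 : ∀ s : ℝ, Tendsto (fun k => D k (s : ℂ)) atTop (𝓝 0)) (z : ℂ) :
    Tendsto (fun k => D k z) atTop (𝓝 0) := by
  set d : ℕ → ℕ → ℂ := fun k n => ((n.factorial : ℂ))⁻¹ * iteratedDeriv n (D k) 0 with hdd
  have hsum : ∀ k (w : ℂ), HasSum (fun n => d k n * w ^ n) (D k w) := by
    intro k w
    have h := Complex.hasSum_taylorSeries_of_entire (hd k) 0 w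
    have e : (fun n : ℕ => ((n.factorial : ℂ))⁻¹ • (w - 0) ^ n • iteratedDeriv n (D k) 0) = fun n => d k n * w ^ n := by
      funext n
      simp only [hdd, smul_eq_mul, sub_zero]
      ring
    rwa [e] at h
  -- Cauchy estimates
  have hcau : ∀ R : ℝ, 0 < R → ∃ C : ℝ, ∀ k n, ‖d k n‖ * R ^ n ≤ C := by
    intro R hR
    obtain ⟨C, hC⟩ := hb R hR
    refine ⟨C, fun k n => ?_⟩
    have h := Complex.norm_iteratedDeriv_le_of_forall_mem_sphere_norm_le (c := 0) (R := R) (C := C) (f := D k) n hR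
      (hd k).diffContOnCl (fun w hw => hC k w (by rw [mem_sphere_zero_iff_norm] at hw; exact hw.le))
    have hn : (0 : ℝ) < (n.factorial : ℝ) := by positivity
    have hRn : 0 < R ^ n := pow_pos hR n
    simp only [hdd]
    rw [norm_mul, norm_inv, Complex.norm_natCast]
    calc ((n.factorial : ℝ))⁻¹ * ‖iteratedDeriv n (D k) 0‖ * R ^ n
        ≤ ((n.factorial : ℝ))⁻¹ * ((n.factorial : ℝ) * C / R ^ n) * R ^ n := by gcongr
      _ = C := by field_simp
  -- real and imaginary parts of the coefficients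
  have hre : Tendsto (fun k => ∑' n, (((d k n).re : ℝ) : ℂ) * z ^ n) atTop (𝓝 0) := by
    refine T32.pn_ps_real_to_complex (fun k n => (d k n).re) ?_ ?_ z
    · intro R hR
      obtain ⟨C, hC⟩ := hcau R hR
      exact ⟨C, fun k n => (mul_le_mul_of_nonneg_right (Complex.abs_re_le_norm _) (pow_pos hR n).le).trans (hC k n)⟩
    · intro s
      have h1 : Tendsto (fun k => (D k (s : ℂ)).re) atTop (𝓝 0) := by
        have := (Complex.continuous_re.tendsto 0).comp (h0 s)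
        rwa [Complex.zero_re] at this
      refine h1.congr fun k => ?_
      have h2 := Complex.hasSum_re (hsum k (s : ℂ))
      have e : (fun n => (d k n * (s : ℂ) ^ n).re) = fun n => (d k n).re * s ^ n := by
        funext n
        rw [← Complex.ofReal_pow, Complex.re_mul_ofReal]
      rw [e] at h2
      exact h2.tsum_eq.symm
  have him : Tendsto (fun k => ∑' n, (((d k n).im : ℝ) : ℂ) * z ^ n) atTop (𝓝 0) := by
    refine T32.pn_ps_real_to_complex (fun k n => (d k n).im) ?_ ?_ z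
    · intro R hR
      obtain ⟨C, hC⟩ := hcau R hR
      exact ⟨C, fun k n => (mul_le_mul_of_nonneg_right (Complex.abs_im_le_norm _) (pow_pos hR n).le).trans (hC k n)⟩
    · intro s
      have h1 : Tendsto (fun k => (D k (s : ℂ)).im) atTop (𝓝 0) := by
        have := (Complex.continuous_im.tendsto 0).comp (h0 s)
        rwa [Complex.zero_im] at this
      refine h1.congr fun k => ?_
      have h2 := Complex.hasSum_im (hsum k (s : ℂ))
      have e : (fun n => (d k n * (s : ℂ) ^ n).im) = fun n => (d k n).im * s ^ n := by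
        funext n
        rw [← Complex.ofReal_pow, Complex.im_mul_ofReal]
      rw [e] at h2
      exact h2.tsum_eq.symm
  -- summability of the two parts at `z`
  obtain ⟨C, hC⟩ := hcau (2 * (‖z‖ + 1)) (by positivity)
  have hgeo : Summable fun n : ℕ => C * (1 / 2 : ℝ) ^ n :=
    (summable_geometric_of_lt_one (by norm_num) (by norm_num)).mul_left C
  have hbound : ∀ k n, ‖d k n‖ * ‖z‖ ^ n ≤ C * (1 / 2 : ℝ) ^ n := by
    intro k n
    have h1 := hC k n
    have h2 : ‖z‖ ^ n ≤ (‖z‖ + 1) ^ n := by gcongr; linarith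
    have h3 : (2 * (‖z‖ + 1)) ^ n * (1 / 2 : ℝ) ^ n = (‖z‖ + 1) ^ n := by
      rw [← mul_pow]; congr 1; ring
    calc ‖d k n‖ * ‖z‖ ^ n ≤ ‖d k n‖ * (‖z‖ + 1) ^ n := by gcongr
      _ = (‖d k n‖ * (2 * (‖z‖ + 1)) ^ n) * (1 / 2 : ℝ) ^ n := by rw [← h3]; ring
      _ ≤ C * (1 / 2 : ℝ) ^ n := by gcongr
  have hs1 : ∀ k, Summable fun n => (((d k n).re : ℝ) : ℂ) * z ^ n := by
    intro k
    refine Summable.of_norm_bounded hgeo fun n => ?_
    rw [norm_mul, Complex.norm_real, Real.norm_eq_abs, norm_pow]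
    exact (mul_le_mul_of_nonneg_right (Complex.abs_re_le_norm _) (by positivity)).trans (hbound k n)
  have hs2 : ∀ k, Summable fun n => (((d k n).im : ℝ) : ℂ) * z ^ n := by
    intro k
    refine Summable.of_norm_bounded hgeo fun n => ?_
    rw [norm_mul, Complex.norm_real, Real.norm_eq_abs, norm_pow]
    exact (mul_le_mul_of_nonneg_right (Complex.abs_im_le_norm _) (by positivity)).trans (hbound k n)
  have hfin : ∀ k, D k z = (∑' n, (((d k n).re : ℝ) : ℂ) * z ^ n) + Complex.I * ∑' n, (((d k n).im : ℝ) : ℂ) * z ^ n := by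
    intro k
    have h1 := ((hs1 k).hasSum.add ((hs2 k).hasSum.mul_left Complex.I))
    have e : (fun n => (((d k n).re : ℝ) : ℂ) * z ^ n + Complex.I * ((((d k n).im : ℝ) : ℂ) * z ^ n)) = fun n => d k n * z ^ n := by
      funext n
      conv_rhs => rw [← Complex.re_add_im (d k n)]
      ring
    rw [e] at h1
    exact (hsum k z).unique h1
  have := hre.add (him.const_mul Complex.I)
  simp only [mul_zero, add_zero] at this
  exact this.congr fun k => (hfin k).symm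

/-- the term of the complex Laplace transform in the direction `y` of the law tilted by `X` -/
def pnA3T (S : LSys) (X y : S.L →+ ℝ) (z : S.L) (u : ℂ) : ℂ :=
  Complex.exp (u * (y z : ℂ)) * ((Real.exp (X z) * S.W ((z : S.Amb) + 0) : ℝ) : ℂ)

/-- the complex Laplace transform in the direction `y` of the law tilted by `X` -/
def pnA3Phi (S : LSys) (X y : S.L →+ ℝ) (u : ℂ) : ℂ := (∑' z : S.L, pnA3T S X y z u) / (S.w 0 : ℂ)

theorem pn_t31_A3_norm (S : LSys) (hS : S.Ok) (X y : S.L →+ ℝ) (z : S.L) (u : ℂ) :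
    ‖pnA3T S X y z u‖ = Real.exp ((X + u.re • y) z) * S.W ((z : S.Amb) + 0) := by
  unfold pnA3T
  rw [norm_mul, Complex.norm_exp, Complex.norm_real, Real.norm_eq_abs,
    abs_of_pos (mul_pos (Real.exp_pos _) (rd_W_pos hS _)), ← mul_assoc, ← Real.exp_add]
  congr 2
  simp only [Complex.mul_re, Complex.ofReal_re, Complex.ofReal_im, mul_zero, sub_zero, AddMonoidHom.add_apply,
    AddMonoidHom.coe_smul, Pi.smul_apply, smul_eq_mul]
  ring

theorem pn_t31_A3_norm_le (S : LSys) (hS : S.Ok) (X y : S.L →+ ℝ) (z : S.L) (u : ℂ) (R : ℝ) (hu : ‖u‖ ≤ R) :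
    ‖pnA3T S X y z u‖ ≤ Real.exp ((X + R • y) z) * S.W ((z : S.Amb) + 0) + Real.exp ((X + (-R) • y) z) * S.W ((z : S.Amb) + 0) := by
  rw [pn_t31_A3_norm S hS, ← add_mul]
  refine mul_le_mul_of_nonneg_right ?_ (rd_W_pos hS _).le
  simp only [AddMonoidHom.add_apply, AddMonoidHom.coe_smul, Pi.smul_apply, smul_eq_mul]
  have h1 : |u.re| ≤ R := (Complex.abs_re_le_norm u).trans hu
  obtain ⟨h2, h3⟩ := abs_le.1 h1
  rcases le_total 0 (y z) with h | h
  · have : X z + u.re * y z ≤ X z + R * y z := by nlinarith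
    linarith [Real.exp_le_exp.2 this, Real.exp_pos (X z + -R * y z)]
  · have : X z + u.re * y z ≤ X z + -R * y z := by nlinarith
    linarith [Real.exp_le_exp.2 this, Real.exp_pos (X z + R * y z)]

theorem pn_t31_A3_summable (S : LSys) (hS : S.Ok) (X y : S.L →+ ℝ) (u : ℂ) : Summable fun z => pnA3T S X y z u := by
  refine Summable.of_norm ?_
  simp only [pn_t31_A3_norm S hS]
  exact lsys_summable S hS 0 _

theorem pn_t31_A3_diff (S : LSys) (hS : S.Ok) (X y : S.L →+ ℝ) : Differentiable ℂ (pnA3Phi S X y) := by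
  intro u₀
  have h := Complex.differentiableOn_tsum_of_summable_norm (F := fun z u => pnA3T S X y z u) (U := Metric.ball 0 (‖u₀‖ + 1))
    ((lsys_summable S hS 0 (X + (‖u₀‖ + 1) • y)).add (lsys_summable S hS 0 (X + (-(‖u₀‖ + 1)) • y)))
    (fun z => by unfold pnA3T; fun_prop) Metric.isOpen_ball
    (fun z w hw => pn_t31_A3_norm_le S hS X y z w _ (by rw [mem_ball_zero_iff] at hw; exact hw.le))
  have h2 := (h u₀ (by rw [mem_ball_zero_iff]; linarith)).differentiableAt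
    (Metric.isOpen_ball.mem_nhds (by rw [mem_ball_zero_iff]; linarith))
  unfold pnA3Phi
  exact h2.div_const _

theorem pn_t31_A3_real (S : LSys) (X y : S.L →+ ℝ) (s : ℝ) :
    pnA3Phi S X y (s : ℂ) = ((S.E0 fun z => Real.exp ((X + s • y) z) : ℝ) : ℂ) := by
  rw [rd_E0_exp]
  unfold pnA3Phi LSys.wT LSys.Zf
  rw [Complex.ofReal_div, Complex.ofReal_tsum]
  congr 1
  refine tsum_congr fun z => ?_
  unfold pnA3T
  rw [← Complex.ofReal_mul, ← Complex.ofReal_exp, ← Complex.ofReal_mul, ← mul_assoc, ← Real.exp_add]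
  congr 3
  simp only [AddMonoidHom.add_apply, AddMonoidHom.coe_smul, Pi.smul_apply, smul_eq_mul]
  ring

theorem pn_t31_A3_bound (S : LSys) (hS : S.Ok) (X y : S.L →+ ℝ) (u : ℂ) (R : ℝ) (hu : ‖u‖ ≤ R) :
    ‖pnA3Phi S X y u‖ ≤ (S.E0 fun z => Real.exp ((X + R • y) z)) + S.E0 fun z => Real.exp ((X + (-R) • y) z) := by
  have hw := rd_w_pos hS 0
  rw [rd_E0_exp, rd_E0_exp, ← add_div]
  unfold pnA3Phi
  rw [norm_div, Complex.norm_real, Real.norm_eq_abs, abs_of_pos hw]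
  refine div_le_div_of_nonneg_right ?_ hw.le
  unfold LSys.wT LSys.Zf
  rw [← (lsys_summable S hS 0 _).tsum_add (lsys_summable S hS 0 _)]
  refine tsum_of_norm_bounded ((lsys_summable S hS 0 _).add (lsys_summable S hS 0 _)).hasSum fun z => ?_
  exact pn_t31_A3_norm_le S hS X y z u R hu

theorem pn_t31_A3_imag (S : LSys) (hS : S.Ok) (X y : S.L →+ ℝ) (ξ : ℝ) :
    (pnA3Phi S X y ((ξ : ℂ) * Complex.I)).re = S.E0 fun z => Real.exp (X z) * Real.cos (ξ * y z) := by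
  rw [rd_E0_eq]
  unfold pnA3Phi LSys.Zf
  rw [Complex.div_ofReal_re, Complex.re_tsum (pn_t31_A3_summable S hS X y _)]
  congr 1
  refine tsum_congr fun z => ?_
  unfold pnA3T
  have e : (ξ : ℂ) * Complex.I * (y z : ℂ) = ((ξ * y z : ℝ) : ℂ) * Complex.I := by push_cast; ring
  rw [Complex.re_mul_ofReal, e, Complex.exp_ofReal_mul_I_re]
  ring

theorem pn_t31_A3_gbound (q κ m C s : ℝ) (hq : |q| ≤ C) (hκ : |κ| ≤ C) (hm : |m| ≤ C) :
    |(q + 2 * s * κ + s ^ 2 * m) / 2| ≤ (C + 2 * |s| * C + s ^ 2 * C) / 2 := by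
  rw [abs_div, abs_of_pos (by norm_num : (0 : ℝ) < 2)]
  refine div_le_div_of_nonneg_right ?_ (by norm_num)
  have h1 : |2 * s * κ| ≤ 2 * |s| * C := by
    rw [abs_mul, abs_mul, abs_of_pos (by norm_num : (0 : ℝ) < 2)]
    exact mul_le_mul_of_nonneg_left hκ (by positivity)
  have h2 : |s ^ 2 * m| ≤ s ^ 2 * C := by
    rw [abs_mul, abs_of_nonneg (sq_nonneg s)]
    exact mul_le_mul_of_nonneg_left hm (sq_nonneg s)
  calc |q + 2 * s * κ + s ^ 2 * m| ≤ |q + 2 * s * κ| + |s ^ 2 * m| := abs_add_le _ _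
    _ ≤ |q| + |2 * s * κ| + |s ^ 2 * m| := by gcongr; exact abs_add_le _ _
    _ ≤ C + 2 * |s| * C + s ^ 2 * C := by gcongr

/-- **L-T31-A3** (~250 l.).  Real Laplace limits in the direction `y` give the limits at imaginary arguments.
`c k n = (E0 (e^{X} yⁿ) - [coefficient of uⁿ in exp ((q + 2 u κ + u² m)/2)]) / n!`-type coefficients and `T32.pn_ps_real_to_complex`; or: `D k (u) = E0 (e^{X + u y}) - exp ((q + 2uκ + u²m)/2)` is entire, bounded on discs uniformly in `k`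
(`|E0 e^{X + u y}| ≤ E0 e^{X + Re u · y} ≤ max` of the values at `± R` by convexity), tends to `0` on the real axis.  Take the real part at `u = iξ`:  `Re exp ((q + 2iξκ - ξ² m)/2) = e^{(q - ξ² m)/2} cos (ξ κ)`. -/
theorem pn_t31_rowA_imag (S : ℕ → LSys) (hS : ∀ k, (S k).Ok) (X y : ∀ k, (S k).L →+ ℝ) (q κ m : ℕ → ℝ) (C : ℝ)
    (hq : ∀ k, |q k| ≤ C) (hκ : ∀ k, |κ k| ≤ C) (hm : ∀ k, |m k| ≤ C)
    (hlim : ∀ u : ℝ, Tendsto (fun k => lLap (S k) (X k + u • y k) - (q k + 2 * u * κ k + u ^ 2 * m k) / 2) atTop (𝓝 0)) (ξ : ℝ) :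
    Tendsto (fun k => ((S k).E0 fun z => Real.exp (X k z) * Real.cos (ξ * y k z))
      - Real.exp ((q k - ξ ^ 2 * m k) / 2) * Real.cos (ξ * κ k)) atTop (𝓝 0) := by
  have hC0 : 0 ≤ C := (abs_nonneg _).trans (hq 0)
  -- real points
  have hreal : ∀ s : ℝ, Tendsto (fun k => ((S k).E0 fun z => Real.exp ((X k + s • y k) z))
      - Real.exp ((q k + 2 * s * κ k + s ^ 2 * m k) / 2)) atTop (𝓝 0) := by
    intro s
    set B : ℝ := (C + 2 * |s| * C + s ^ 2 * C) / 2 with hB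
    have h1 : Tendsto (fun k => Real.exp (lLap (S k) (X k + s • y k) - (q k + 2 * s * κ k + s ^ 2 * m k) / 2) - 1)
        atTop (𝓝 0) := by
      have := (Real.continuous_exp.tendsto 0).comp (hlim s)
      rw [Real.exp_zero] at this
      simpa using this.sub_const 1
    have h2 : Tendsto (fun k => Real.exp B *
        |Real.exp (lLap (S k) (X k + s • y k) - (q k + 2 * s * κ k + s ^ 2 * m k) / 2) - 1|) atTop (𝓝 0) := by
      simpa using h1.abs.const_mul (Real.exp B)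
    refine squeeze_zero_norm (fun k => ?_) h2
    have e : ((S k).E0 fun z => Real.exp ((X k + s • y k) z)) = Real.exp (lLap (S k) (X k + s • y k)) := by
      unfold lLap
      rw [Real.exp_log (Free.frs_E0_exp_pos (S k) (hS k) _)]
    rw [e, Real.norm_eq_abs]
    have e2 : Real.exp (lLap (S k) (X k + s • y k)) - Real.exp ((q k + 2 * s * κ k + s ^ 2 * m k) / 2)
        = Real.exp ((q k + 2 * s * κ k + s ^ 2 * m k) / 2)
          * (Real.exp (lLap (S k) (X k + s • y k) - (q k + 2 * s * κ k + s ^ 2 * m k) / 2) - 1) := by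
      rw [mul_sub, ← Real.exp_add, mul_one]
      congr 2
      ring
    rw [e2, abs_mul, abs_of_pos (Real.exp_pos _)]
    refine mul_le_mul_of_nonneg_right (Real.exp_le_exp.2 ?_) (abs_nonneg _)
    exact (le_abs_self _).trans (pn_t31_A3_gbound _ _ _ C s (hq k) (hκ k) (hm k))
  -- boundedness of the real transforms
  have hbdd : ∀ s : ℝ, ∃ M : ℝ, ∀ k, ((S k).E0 fun z => Real.exp ((X k + s • y k) z)) ≤ M := by
    intro s
    obtain ⟨M, hM⟩ := (hreal s).bddAbove_range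
    refine ⟨M + Real.exp ((C + 2 * |s| * C + s ^ 2 * C) / 2), fun k => ?_⟩
    have h1 : ((S k).E0 fun z => Real.exp ((X k + s • y k) z))
      - Real.exp ((q k + 2 * s * κ k + s ^ 2 * m k) / 2) ≤ M := hM (Set.mem_range_self k)
    have h2 : Real.exp ((q k + 2 * s * κ k + s ^ 2 * m k) / 2) ≤ Real.exp ((C + 2 * |s| * C + s ^ 2 * C) / 2) :=
      Real.exp_le_exp.2 ((le_abs_self _).trans (pn_t31_A3_gbound _ _ _ C s (hq k) (hκ k) (hm k)))
    linarith
  -- the entire functions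
  set G : ℕ → ℂ → ℂ := fun k u => Complex.exp (((q k : ℂ) + 2 * u * (κ k : ℂ) + u ^ 2 * (m k : ℂ)) / 2) with hG
  set D : ℕ → ℂ → ℂ := fun k u => pnA3Phi (S k) (X k) (y k) u - G k u with hD
  have hd : ∀ k, Differentiable ℂ (D k) := fun k =>
    (pn_t31_A3_diff (S k) (hS k) (X k) (y k)).sub (by simp only [hG]; fun_prop)
  have hb : ∀ R : ℝ, 0 < R → ∃ C' : ℝ, ∀ k (z : ℂ), ‖z‖ ≤ R → ‖D k z‖ ≤ C' := by
    intro R hR
    obtain ⟨M1, hM1⟩ := hbdd R
    obtain ⟨M2, hM2⟩ := hbdd (-R)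
    refine ⟨M1 + M2 + Real.exp ((C + 2 * R * C + R ^ 2 * C) / 2), fun k z hz => ?_⟩
    have h1 := pn_t31_A3_bound (S k) (hS k) (X k) (y k) z R hz
    have h2 : ‖G k z‖ ≤ Real.exp ((C + 2 * R * C + R ^ 2 * C) / 2) := by
      simp only [hG]
      rw [Complex.norm_exp]
      refine Real.exp_le_exp.2 ((Complex.re_le_norm _).trans ?_)
      rw [norm_div, Complex.norm_ofNat]
      refine div_le_div_of_nonneg_right ?_ (by norm_num)
      have a1 : ‖(q k : ℂ)‖ ≤ C := by rw [Complex.norm_real]; exact hq k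
      have a2 : ‖2 * z * (κ k : ℂ)‖ ≤ 2 * R * C := by
        rw [norm_mul, norm_mul, Complex.norm_real, Complex.norm_ofNat]
        exact mul_le_mul (mul_le_mul_of_nonneg_left hz (by norm_num)) (hκ k) (norm_nonneg _) (by positivity)
      have a3 : ‖z ^ 2 * (m k : ℂ)‖ ≤ R ^ 2 * C := by
        rw [norm_mul, norm_pow, Complex.norm_real]
        exact mul_le_mul (pow_le_pow_left₀ (norm_nonneg _) hz 2) (hm k) (norm_nonneg _) (by positivity)
      calc ‖(q k : ℂ) + 2 * z * (κ k : ℂ) + z ^ 2 * (m k : ℂ)‖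
          ≤ ‖(q k : ℂ) + 2 * z * (κ k : ℂ)‖ + ‖z ^ 2 * (m k : ℂ)‖ := norm_add_le _ _
        _ ≤ ‖(q k : ℂ)‖ + ‖2 * z * (κ k : ℂ)‖ + ‖z ^ 2 * (m k : ℂ)‖ := by gcongr; exact norm_add_le _ _
        _ ≤ C + 2 * R * C + R ^ 2 * C := by gcongr
    calc ‖D k z‖ ≤ ‖pnA3Phi (S k) (X k) (y k) z‖ + ‖G k z‖ := norm_sub_le _ _
      _ ≤ M1 + M2 + Real.exp ((C + 2 * R * C + R ^ 2 * C) / 2) := by linarith [hM1 k, hM2 k]
  have h0 : ∀ s : ℝ, Tendsto (fun k => D k (s : ℂ)) atTop (𝓝 0) := by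
    intro s
    have h1 := (Complex.continuous_ofReal.tendsto 0).comp (hreal s)
    rw [Complex.ofReal_zero] at h1
    refine h1.congr fun k => ?_
    simp only [hD, hG, Function.comp]
    rw [pn_t31_A3_real, Complex.ofReal_sub, Complex.ofReal_exp]
    congr 2
    push_cast
    ring
  have hfin := pn_t31_A3_vitali D hd hb h0 ((ξ : ℂ) * Complex.I)
  have hre := (Complex.continuous_re.tendsto 0).comp hfin
  rw [Complex.zero_re] at hre
  refine hre.congr fun k => ?_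
  simp only [hD, hG, Function.comp]
  rw [Complex.sub_re, pn_t31_A3_imag (S k) (hS k)]
  congr 1
  have e : ((q k : ℂ) + 2 * ((ξ : ℂ) * Complex.I) * (κ k : ℂ) + ((ξ : ℂ) * Complex.I) ^ 2 * (m k : ℂ)) / 2
      = (((q k - ξ ^ 2 * m k) / 2 : ℝ) : ℂ) + ((ξ * κ k : ℝ) : ℂ) * Complex.I := by
    rw [mul_pow, Complex.I_sq]
    push_cast
    ring
  rw [e, Complex.exp_add, ← Complex.ofReal_exp, Complex.re_ofReal_mul, Complex.exp_ofReal_mul_I_re]

/-- **L-T31-A4** (~80 l., Mathlib only).  The one-dimensional Gaussian integral (`integral_cexp_quadratic` with `b = -(1+m)/2`, `c = iκ`; real part). -/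
theorem pn_t31_gauss_int (q κ m : ℝ) (hm : 0 ≤ m) :
    (Real.sqrt (2 * Real.pi))⁻¹ * ∫ ξ : ℝ, (Real.exp ((q - ξ ^ 2 * m) / 2) * Real.cos (ξ * κ)) * Real.exp (-ξ ^ 2 / 2)
      = (Real.sqrt (1 + m))⁻¹ * Real.exp ((q - κ ^ 2 / (1 + m)) / 2) := by
  have hm1 : 0 < 1 + m := by linarith
  have e : ∀ ξ : ℝ, (Real.exp ((q - ξ ^ 2 * m) / 2) * Real.cos (ξ * κ)) * Real.exp (-ξ ^ 2 / 2)
      = Real.exp (q / 2) * (Real.cos (ξ * κ) * Real.exp (-((1 + m) / 2) * ξ ^ 2)) := by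
    intro ξ
    have : Real.exp (-((1 + m) / 2) * ξ ^ 2) = Real.exp (-(ξ ^ 2 * m) / 2) * Real.exp (-ξ ^ 2 / 2) := by
      rw [← Real.exp_add]; congr 1; ring
    have h2 : Real.exp ((q - ξ ^ 2 * m) / 2) = Real.exp (q / 2) * Real.exp (-(ξ ^ 2 * m) / 2) := by
      rw [← Real.exp_add]; congr 1; ring
    rw [this, h2]; ring
  simp only [e]
  rw [integral_const_mul, pn_t31_A4_cos_gauss _ _ (by positivity)]
  have s1 : Real.pi / ((1 + m) / 2) = 2 * Real.pi / (1 + m) := by field_simp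
  rw [s1, Real.sqrt_div (by positivity)]
  have hs : Real.sqrt (2 * Real.pi) ≠ 0 := (Real.sqrt_pos.2 (by positivity)).ne'
  have hs' : Real.sqrt (1 + m) ≠ 0 := (Real.sqrt_pos.2 hm1).ne'
  have e5 : Real.exp ((q - κ ^ 2 / (1 + m)) / 2) = Real.exp (q / 2) * Real.exp (-κ ^ 2 / (4 * ((1 + m) / 2))) := by
    rw [← Real.exp_add]; congr 1; field_simp; ring
  rw [e5]
  field_simp

theorem pn_t31_A5_cont (S : LSys) (hS : S.Ok) (X y : S.L →+ ℝ) :
    Continuous fun ξ : ℝ => S.E0 fun z => Real.exp (X z) * Real.cos (ξ * y z) := by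
  simp only [rd_E0_eq]
  refine Continuous.div_const ?_ _
  unfold LSys.Zf
  refine continuous_tsum (u := fun z : S.L => Real.exp (X z) * S.W ((z : S.Amb) + 0)) (fun z => by fun_prop)
    (lsys_summable S hS 0 X) fun z ξ => ?_
  rw [norm_mul, norm_mul, Real.norm_eq_abs, Real.norm_eq_abs, Real.norm_eq_abs, abs_of_pos (Real.exp_pos _),
    abs_of_pos (rd_W_pos hS _)]
  exact mul_le_mul_of_nonneg_right (mul_le_of_le_one_right (Real.exp_pos _).le (Real.abs_cos_le_one _)) (rd_W_pos hS _).le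

theorem pn_t31_A5_abs (S : LSys) (hS : S.Ok) (X y : S.L →+ ℝ) (ξ : ℝ) :
    |S.E0 fun z => Real.exp (X z) * Real.cos (ξ * y z)| ≤ S.E0 fun z => Real.exp (X z) := by
  have hd : S.Dom fun z => Real.exp (X z) * Real.cos (ξ * y z) := rd_dom_mul (rd_dom_exp X) (rd_dom_cos _)
  rw [abs_le]
  constructor
  · have h := rd_E0_mono hS (rd_dom_smul (-1) (rd_dom_exp X)) hd fun z => by
      have := Real.neg_one_le_cos (ξ * y z)
      have h2 := Real.exp_pos (X z)
      nlinarith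
    rw [rd_E0_smul] at h
    linarith
  · exact rd_E0_mono hS hd (rd_dom_exp X) fun z => mul_le_of_le_one_right (Real.exp_pos _).le (Real.cos_le_one _)

theorem pn_t31_A5_exp_lLap (S : LSys) (hS : S.Ok) (X : S.L →+ ℝ) :
    (S.E0 fun z => Real.exp (X z)) = Real.exp (lLap S X) := by
  rw [lLap, Real.exp_log]
  rw [rd_E0_exp]
  exact div_pos (lsys_pos S hS 0 X) (rd_w_pos hS 0)

theorem pn_t31_A5_gauss : Integrable fun ξ : ℝ => Real.exp (-ξ ^ 2 / 2) := by
  have h := integrable_exp_neg_mul_sq (b := 1 / 2) (by norm_num)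
  refine h.congr (Eventually.of_forall fun ξ => ?_)
  simp only
  congr 1
  ring

/-- **L-T31-A5** (~150 l.).  `pn_t31_rowA_fourier`, `pn_t31_rowA_imag`, dominated convergence (`tendsto_integral_of_dominated_convergence`; the integrand is bounded by `(E0 e^X + e^{C}) e^{-ξ²/2}`, `E0 e^X` bounded by `hlim 0`),
`pn_t31_gauss_int`. -/
theorem pn_t31_rowA_num (S : ℕ → LSys) (hS : ∀ k, (S k).Ok) (X y : ∀ k, (S k).L →+ ℝ) (q κ m : ℕ → ℝ) (C : ℝ)
    (hq : ∀ k, |q k| ≤ C) (hκ : ∀ k, |κ k| ≤ C) (hm0 : ∀ k, 0 ≤ m k) (hm : ∀ k, m k ≤ C)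
    (hlim : ∀ u : ℝ, Tendsto (fun k => lLap (S k) (X k + u • y k) - (q k + 2 * u * κ k + u ^ 2 * m k) / 2) atTop (𝓝 0)) :
    Tendsto (fun k => ((S k).E0 fun z => Real.exp (X k z) * Real.exp (-(y k z) ^ 2 / 2))
      - (Real.sqrt (1 + m k))⁻¹ * Real.exp ((q k - κ k ^ 2 / (1 + m k)) / 2)) atTop (𝓝 0) := by
  -- uniform bound of `E0 e^X`
  obtain ⟨M, hM⟩ := (hlim 0).bddAbove_range
  have hB : ∀ k, ((S k).E0 fun z => Real.exp (X k z)) ≤ Real.exp (M + C / 2) := by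
    intro k
    rw [pn_t31_A5_exp_lLap _ (hS k)]
    have h1 : lLap (S k) (X k + (0 : ℝ) • y k) - (q k + 2 * 0 * κ k + 0 ^ 2 * m k) / 2 ≤ M := hM ⟨k, rfl⟩
    rw [zero_smul, add_zero] at h1
    have h2 := (abs_le.1 (hq k)).2
    exact Real.exp_le_exp.2 (by linarith)
  -- the two integrands
  obtain ⟨G, hG⟩ : ∃ G : ℕ → ℝ → ℝ, G = fun k ξ => (S k).E0 fun z => Real.exp (X k z) * Real.cos (ξ * y k z) := ⟨_, rfl⟩
  obtain ⟨H, hH⟩ : ∃ H : ℕ → ℝ → ℝ, H = fun k ξ => Real.exp ((q k - ξ ^ 2 * m k) / 2) * Real.cos (ξ * κ k) := ⟨_, rfl⟩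
  have hGc : ∀ k, Continuous (G k) := fun k => by rw [hG]; exact pn_t31_A5_cont _ (hS k) _ _
  have hHc : ∀ k, Continuous (H k) := fun k => by rw [hH]; fun_prop
  have hGb : ∀ k ξ, |G k ξ| ≤ Real.exp (M + C / 2) := fun k ξ => by
    rw [hG]; exact (pn_t31_A5_abs _ (hS k) _ _ ξ).trans (hB k)
  have hHb : ∀ k ξ, |H k ξ| ≤ Real.exp (C / 2) := fun k ξ => by
    rw [hH]
    simp only
    rw [abs_mul, abs_of_pos (Real.exp_pos _)]
    refine (mul_le_of_le_one_right (Real.exp_pos _).le (Real.abs_cos_le_one _)).trans (Real.exp_le_exp.2 ?_)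
    have h2 := (abs_le.1 (hq k)).2
    have h3 := mul_nonneg (sq_nonneg ξ) (hm0 k)
    linarith
  have hint : ∀ (f : ℝ → ℝ) (B : ℝ), Continuous f → (∀ ξ, |f ξ| ≤ B) →
      Integrable fun ξ : ℝ => f ξ * Real.exp (-ξ ^ 2 / 2) := by
    intro f B hf hfB
    refine (pn_t31_A5_gauss.const_mul B).mono' (by fun_prop) (Eventually.of_forall fun ξ => ?_)
    rw [norm_mul, Real.norm_eq_abs, Real.norm_eq_abs, abs_of_pos (Real.exp_pos _)]
    exact mul_le_mul_of_nonneg_right (hfB ξ) (Real.exp_pos _).le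
  have hGi := fun k => hint (G k) _ (hGc k) (hGb k)
  have hHi := fun k => hint (H k) _ (hHc k) (hHb k)
  have hdc : Tendsto (fun k => ∫ ξ : ℝ, (G k ξ - H k ξ) * Real.exp (-ξ ^ 2 / 2)) atTop (𝓝 (∫ _ξ : ℝ, (0 : ℝ))) := by
    refine tendsto_integral_of_dominated_convergence
      (fun ξ => (Real.exp (M + C / 2) + Real.exp (C / 2)) * Real.exp (-ξ ^ 2 / 2))
      (fun k => ?_) (pn_t31_A5_gauss.const_mul _) (fun k => Eventually.of_forall fun ξ => ?_)
      (Eventually.of_forall fun ξ => ?_)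
    · have := hGc k
      have := hHc k
      exact (by fun_prop : Continuous fun ξ : ℝ => (G k ξ - H k ξ) * Real.exp (-ξ ^ 2 / 2)).aestronglyMeasurable
    · rw [norm_mul, Real.norm_eq_abs, Real.norm_eq_abs, abs_of_pos (Real.exp_pos _)]
      refine mul_le_mul_of_nonneg_right ?_ (Real.exp_pos _).le
      exact (abs_sub _ _).trans (add_le_add (hGb k ξ) (hHb k ξ))
    · have h := pn_t31_rowA_imag S hS X y q κ m C hq hκ (fun k => by rw [abs_of_nonneg (hm0 k)]; exact hm k) hlim ξ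
      have h2 := h.mul_const (Real.exp (-ξ ^ 2 / 2))
      rw [zero_mul] at h2
      rw [hG, hH]
      exact h2
  rw [integral_zero] at hdc
  have h3 := hdc.const_mul (Real.sqrt (2 * Real.pi))⁻¹
  rw [mul_zero] at h3
  refine h3.congr fun k => ?_
  rw [pn_t31_rowA_fourier _ (hS k), ← pn_t31_gauss_int (q k) (κ k) (m k) (hm0 k), ← mul_sub]
  congr 1
  have h4 := integral_sub (hGi k) (hHi k)
  rw [hG, hH] at h4 ⊢
  rw [← h4]
  refine integral_congr_ae (Eventually.of_forall fun ξ => ?_)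
  simp only
  ring

theorem pn_t31_A6_log (x a : ℕ → ℝ) (c : ℝ) (hc : 0 < c) (ha : ∀ k, c ≤ a k) (hx : ∀ k, 0 < x k)
    (h : Tendsto (fun k => x k - a k) atTop (𝓝 0)) :
    Tendsto (fun k => Real.log (x k) - Real.log (a k)) atTop (𝓝 0) := by
  have h1 : Tendsto (fun k => (x k - a k) / a k) atTop (𝓝 0) := by
    refine squeeze_zero_norm (a := fun k => |x k - a k| / c) (fun k => ?_) ?_
    · rw [norm_div, Real.norm_eq_abs, Real.norm_eq_abs, abs_of_pos (hc.trans_le (ha k))]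
      exact div_le_div_of_nonneg_left (abs_nonneg _) hc (ha k)
    · have := h.abs.div_const c
      simpa using this
  have h2 : Tendsto (fun k => 1 + (x k - a k) / a k) atTop (𝓝 1) := by
    simpa using h1.const_add 1
  have h3 := (Real.continuousAt_log (one_ne_zero)).tendsto.comp h2
  rw [Real.log_one] at h3
  refine h3.congr fun k => ?_
  have hak := hc.trans_le (ha k)
  simp only [Function.comp]
  rw [← Real.log_div (hx k).ne' hak.ne']
  congr 1
  field_simp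
  ring

theorem pn_t31_A6_pos {S : LSys} (hS : S.Ok) (X y : S.L →+ ℝ) :
    0 < S.E0 fun z => Real.exp (X z) * Real.exp (-(y z) ^ 2 / 2) := by
  rw [rd_E0_eq]
  refine div_pos ?_ (rd_w_pos hS 0)
  have hd : S.Dom fun z => Real.exp (X z) * Real.exp (-(y z) ^ 2 / 2) :=
    rd_dom_mul (rd_dom_exp X) (rd_dom_bdd 1 fun z => by
      rw [abs_of_pos (Real.exp_pos _)]
      exact Real.exp_le_one_iff.2 (by have := sq_nonneg (y z); linarith))
  exact (rd_dom_summable hS hd 0).tsum_pos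
    (fun z => (mul_pos (mul_pos (Real.exp_pos _) (Real.exp_pos _)) (rd_W_pos hS _)).le) 0
    (mul_pos (mul_pos (Real.exp_pos _) (Real.exp_pos _)) (rd_W_pos hS _))

/-- **ROW-A, limit theorem** (glue: **L-T31-A6**, ~120 l.).  `pn_t31_rowA_num` for `X` and for `0` (`q = κ = 0`), `pn_t31_rowA_E0`, `pn_t31_rowA_w`; the denominators stay in `[(1+C)^{-1/2}/2, 2]`, so differences of logarithms tend to `0`. -/
theorem pn_t31_rowA_lim (S S' : ℕ → LSys) (hS : ∀ k, (S k).Ok) (r : ∀ k, RowA (S k) (S' k))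
    (X : ∀ k, (S k).L →+ ℝ) (q κ m : ℕ → ℝ) (C : ℝ)
    (hq : ∀ k, |q k| ≤ C) (hκ : ∀ k, |κ k| ≤ C) (hm0 : ∀ k, 0 ≤ m k) (hm : ∀ k, m k ≤ C)
    (hlim : ∀ s u : ℝ, Tendsto (fun k => lLap (S k) (s • X k + u • (r k).y)
        - (s ^ 2 * q k + 2 * s * u * κ k + u ^ 2 * m k) / 2) atTop (𝓝 0)) :
    Tendsto (fun k => lLap (S' k) ((X k).comp (r k).e.symm.toAddMonoidHom) - (q k - κ k ^ 2 / (1 + m k)) / 2) atTop (𝓝 0) ∧
    Tendsto (fun k => Real.log ((S' k).w 0 / (S k).w 0) + Real.log (1 + m k) / 2) atTop (𝓝 0) := by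
  have hC : 0 ≤ C := (abs_nonneg _).trans (hq 0)
  -- numerators and denominators
  have hN := pn_t31_rowA_num S hS X (fun k => (r k).y) q κ m C hq hκ hm0 hm (fun u => by
    refine (hlim 1 u).congr fun k => ?_
    rw [one_smul]
    ring_nf)
  have hD := pn_t31_rowA_num S hS (fun _ => 0) (fun k => (r k).y) (fun _ => 0) (fun _ => 0) m C
    (fun _ => by simpa using hC) (fun _ => by simpa using hC) hm0 hm (fun u => by
    refine (hlim 0 u).congr fun k => ?_
    rw [zero_smul]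
    ring_nf)
  simp only [AddMonoidHom.zero_apply, Real.exp_zero, one_mul] at hD
  have hs : ∀ k, (Real.sqrt (1 + C))⁻¹ ≤ (Real.sqrt (1 + m k))⁻¹ := fun k => by
    have h1 : 0 < Real.sqrt (1 + m k) := Real.sqrt_pos.2 (by have := hm0 k; linarith)
    exact inv_anti₀ h1 (Real.sqrt_le_sqrt (by have := hm k; linarith))
  have hsC : 0 < (Real.sqrt (1 + C))⁻¹ := inv_pos.2 (Real.sqrt_pos.2 (by linarith))
  have hlN := pn_t31_A6_log _ _ ((Real.sqrt (1 + C))⁻¹ * Real.exp ((-C - C ^ 2) / 2))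
    (mul_pos hsC (Real.exp_pos _)) (fun k => by
      refine mul_le_mul (hs k) (Real.exp_le_exp.2 ?_) (Real.exp_pos _).le (hsC.le.trans (hs k))
      have h1 := (abs_le.1 (hq k)).1
      have h2 : κ k ^ 2 / (1 + m k) ≤ C ^ 2 := by
        have h3 : κ k ^ 2 ≤ C ^ 2 := by
          rw [← sq_abs]
          exact pow_le_pow_left₀ (abs_nonneg _) (hκ k) 2
        refine (div_le_self (sq_nonneg _) (by have := hm0 k; linarith)).trans h3
      linarith) (fun k => pn_t31_A6_pos (hS k) (X k) (r k).y) hN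
  have hlD := pn_t31_A6_log _ _ ((Real.sqrt (1 + C))⁻¹ * Real.exp ((0 - 0 ^ 2 / (1 + C)) / 2))
    (mul_pos hsC (Real.exp_pos _)) (fun k => by
      simpa using hs k) (fun k => pn_t31_A1_pos (hS k) (r k).y) hD
  have hla : ∀ k, Real.log ((Real.sqrt (1 + m k))⁻¹ * Real.exp ((q k - κ k ^ 2 / (1 + m k)) / 2))
      = -(Real.log (1 + m k) / 2) + (q k - κ k ^ 2 / (1 + m k)) / 2 := fun k => by
    have h1 : 0 < Real.sqrt (1 + m k) := Real.sqrt_pos.2 (by have := hm0 k; linarith)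
    rw [Real.log_mul (inv_pos.2 h1).ne' (Real.exp_pos _).ne', Real.log_inv, Real.log_exp,
      Real.log_sqrt (by have := hm0 k; linarith)]
  have hld : ∀ k, Real.log ((Real.sqrt (1 + m k))⁻¹ * Real.exp (((0 : ℝ) - 0 ^ 2 / (1 + m k)) / 2))
      = -(Real.log (1 + m k) / 2) := fun k => by
    have h1 : 0 < Real.sqrt (1 + m k) := Real.sqrt_pos.2 (by have := hm0 k; linarith)
    rw [Real.log_mul (inv_pos.2 h1).ne' (Real.exp_pos _).ne', Real.log_inv, Real.log_exp,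
      Real.log_sqrt (by have := hm0 k; linarith)]
    simp
  constructor
  · have h := hlN.sub hlD
    rw [sub_zero] at h
    refine h.congr fun k => ?_
    rw [hla, hld]
    have hE := pn_t31_rowA_E0 (r k) (hS k) fun z => Real.exp (((X k).comp (r k).e.symm.toAddMonoidHom) z)
    simp only [AddMonoidHom.comp_apply, AddEquiv.coe_toAddMonoidHom, AddEquiv.symm_apply_apply] at hE
    have hDp := pn_t31_A1_pos (hS k) (r k).y
    have hNp := pn_t31_A6_pos (hS k) (X k) (r k).y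
    have h5 : lLap (S' k) ((X k).comp (r k).e.symm.toAddMonoidHom)
        = Real.log ((S k).E0 fun z => Real.exp (X k z) * Real.exp (-((r k).y z) ^ 2 / 2))
          - Real.log ((S k).E0 fun z => Real.exp (-((r k).y z) ^ 2 / 2)) := by
      rw [← Real.log_div hNp.ne' hDp.ne', ← hE, mul_div_assoc, div_self hDp.ne', mul_one]
      rfl
    rw [h5]
    ring
  · refine hlD.congr fun k => ?_
    rw [hld, pn_t31_rowA_w (r k) (hS k), mul_div_assoc, mul_comm, div_mul_cancel₀ _ (rd_w_pos (hS k) 0).ne']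
    ring

/-! ## 4. ROW-B: one more Gaussian coordinate which confines one released constant -/

/-- `S'` is `S` with one more Gaussian coordinate; over `z ∈ L` it takes the values `y z + ℓ n`, `n ∈ ℤ` -/
structure RowB (S S' : LSys) where
  e : (S.L × ℤ) ≃+ S'.L
  y : S.L →+ ℝ
  ℓ : ℝ
  hℓ : 0 < ℓ
  hW : ∀ (z : S.L) (n : ℤ), S'.W ((e (z, n) : S'.L) : S'.Amb) = S.W (z : S.Amb) * Real.exp (-(y z + ℓ * n) ^ 2 / 2)

namespace RowB

variable {S S' : LSys} (r : RowB S S')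

/-- the slope of a test of `S'` along the confined constant -/
def tau (X : S'.L →+ ℝ) : ℝ := X (r.e (0, 1)) / r.ℓ

/-- the part of a test of `S'` which is a test of `S`:  `X (e (z,n)) = base X z + tau X * (y z + ℓ n)` -/
def base (X : S'.L →+ ℝ) : S.L →+ ℝ :=
  (X.comp r.e.toAddMonoidHom).comp (AddMonoidHom.inl S.L ℤ) - r.tau X • r.y

/-- the error term of the Poisson summation -/
def err : ℝ := ∑' j : ℤ, if j = 0 then 0 else Real.exp (-(2 * Real.pi * j / r.ℓ) ^ 2 / 2) * S.phi ((2 * Real.pi * j / r.ℓ) • r.y)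

end RowB

/-- **L-T31-B1** (~120 l., Mathlib only).  Poisson summation for a shifted, tilted Gaussian: from `Complex.tsum_exp_neg_quadratic` (`a = ℓ²/(2π)`), real parts.  Both series are absolutely summable. -/
theorem pn_t31_poisson (ℓ : ℝ) (hℓ : 0 < ℓ) (s τ : ℝ) :
    HasSum (fun j : ℤ => Real.exp (-(2 * Real.pi * j / ℓ) ^ 2 / 2) * Real.cos (2 * Real.pi * j / ℓ * (s - τ)))
      (ℓ / Real.sqrt (2 * Real.pi) * Real.exp (-τ ^ 2 / 2) * ∑' n : ℤ, Real.exp (-(s + ℓ * n) ^ 2 / 2 + τ * (s + ℓ * n))) := by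
  have hπ : (Real.pi : ℂ) ≠ 0 := by exact_mod_cast Real.pi_ne_zero
  have hℓc : (ℓ : ℂ) ≠ 0 := by exact_mod_cast hℓ.ne'
  -- the complex series
  set F : ℤ → ℂ := fun j => Complex.exp ((-(2 * Real.pi * j / ℓ) ^ 2 / 2 : ℝ) + ((2 * Real.pi * j / ℓ * (s - τ) : ℝ) : ℂ) * Complex.I) with hF
  have hFsum : Summable F := by
    have h := (summable_jacobiTheta₂_term_iff (((s - τ) / ℓ : ℝ) : ℂ) (((2 * Real.pi / ℓ ^ 2 : ℝ) : ℂ) * Complex.I)).2
      (by simp only [Complex.mul_im, Complex.ofReal_re, Complex.I_im, mul_one, Complex.ofReal_im, Complex.I_re, mul_zero, add_zero]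
          positivity)
    refine h.congr fun j => ?_
    simp only [hF, jacobiTheta₂_term]
    congr 1
    push_cast
    have hI : Complex.I * Complex.I = -1 := Complex.I_mul_I
    field_simp
    linear_combination ((j : ℂ) ^ 2 * Real.pi) * hI
  have hre : ∀ j, (F j).re = Real.exp (-(2 * Real.pi * j / ℓ) ^ 2 / 2) * Real.cos (2 * Real.pi * j / ℓ * (s - τ)) := by
    intro j
    simp only [hF]
    rw [Complex.exp_add, ← Complex.ofReal_exp, Complex.re_ofReal_mul, Complex.exp_ofReal_mul_I_re]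
  have h1 := Complex.hasSum_re hFsum.hasSum
  simp only [hre] at h1
  convert h1 using 1
  -- the value
  have hP := Complex.tsum_exp_neg_quadratic (a := ((ℓ ^ 2 / (2 * Real.pi) : ℝ) : ℂ))
    (by rw [Complex.ofReal_re]; positivity) ((-(ℓ * (s - τ)) / (2 * Real.pi) : ℝ) : ℂ)
  have hL : ∀ n : ℤ, Complex.exp (-Real.pi * ((ℓ ^ 2 / (2 * Real.pi) : ℝ) : ℂ) * n ^ 2
        + 2 * Real.pi * ((-(ℓ * (s - τ)) / (2 * Real.pi) : ℝ) : ℂ) * n)
      = ((Real.exp ((s - τ) ^ 2 / 2 - τ ^ 2 / 2) * Real.exp (-(s + ℓ * n) ^ 2 / 2 + τ * (s + ℓ * n)) : ℝ) : ℂ) := by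
    intro n
    rw [← Real.exp_add, Complex.ofReal_exp]
    congr 1
    push_cast
    field_simp
    ring
  have hR : ∀ n : ℤ, Complex.exp (-Real.pi / ((ℓ ^ 2 / (2 * Real.pi) : ℝ) : ℂ)
        * (n + Complex.I * ((-(ℓ * (s - τ)) / (2 * Real.pi) : ℝ) : ℂ)) ^ 2)
      = ((Real.exp ((s - τ) ^ 2 / 2) : ℝ) : ℂ) * F n := by
    intro n
    simp only [hF]
    rw [Complex.ofReal_exp, ← Complex.exp_add]
    congr 1
    push_cast
    have hI : Complex.I ^ 2 = -1 := Complex.I_sq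
    field_simp
    linear_combination (-(ℓ : ℂ) ^ 2 * ((s : ℂ) - τ) ^ 2) * hI
  simp only [hL, hR] at hP
  rw [← Complex.ofReal_tsum, tsum_mul_left, tsum_mul_left] at hP
  have ha : (((ℓ ^ 2 / (2 * Real.pi) : ℝ) : ℂ)) ^ (1 / 2 : ℂ) = ((ℓ / Real.sqrt (2 * Real.pi) : ℝ) : ℂ) := by
    have : (1 / 2 : ℂ) = ((1 / 2 : ℝ) : ℂ) := by push_cast; rfl
    rw [this, ← Complex.ofReal_cpow (by positivity), ← Real.sqrt_eq_rpow, Real.sqrt_div (by positivity),
      Real.sqrt_sq hℓ.le]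
  rw [ha] at hP
  have hs : Real.sqrt (2 * Real.pi) ≠ 0 := (Real.sqrt_pos.2 (by positivity)).ne'
  have hq : (∑' j, F j) = ((ℓ / Real.sqrt (2 * Real.pi) * Real.exp (-τ ^ 2 / 2)
      * ∑' n : ℤ, Real.exp (-(s + ℓ * n) ^ 2 / 2 + τ * (s + ℓ * n)) : ℝ) : ℂ) := by
    have hE : ((Real.exp ((s - τ) ^ 2 / 2) : ℝ) : ℂ) ≠ 0 := by exact_mod_cast (Real.exp_pos _).ne'
    have hc : ((ℓ / Real.sqrt (2 * Real.pi) : ℝ) : ℂ) ≠ 0 := by
      exact_mod_cast (div_pos hℓ (Real.sqrt_pos.2 (by positivity))).ne'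
    have e1 : Real.exp ((s - τ) ^ 2 / 2 - τ ^ 2 / 2) = Real.exp ((s - τ) ^ 2 / 2) * Real.exp (-τ ^ 2 / 2) := by
      rw [← Real.exp_add]; congr 1; ring
    rw [e1] at hP
    push_cast at hP ⊢
    push_cast at hE hc
    field_simp at hP ⊢
    linear_combination -hP
  rw [hq, Complex.ofReal_re]

theorem pn_t31_B2_gsum (ℓ : ℝ) (hℓ : 0 < ℓ) : Summable fun j : ℤ => Real.exp (-(2 * Real.pi * j / ℓ) ^ 2 / 2) := by
  have h := (pn_t31_poisson ℓ hℓ 0 0).summable
  simpa using h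

theorem pn_t31_B2_X {S S' : LSys} (r : RowB S S') (X : S'.L →+ ℝ) (z : S.L) (n : ℤ) :
    X (r.e (z, n)) = r.base X z + r.tau X * (r.y z + r.ℓ * n) := by
  have h1 : ((z, n) : S.L × ℤ) = (z, 0) + n • ((0, 1) : S.L × ℤ) := by
    ext <;> simp
  have h2 : r.tau X * r.ℓ = X (r.e (0, 1)) := by
    rw [RowB.tau, div_mul_cancel₀ _ r.hℓ.ne']
  rw [h1, map_add, map_add, map_zsmul, map_zsmul, RowB.base]
  simp only [AddMonoidHom.sub_apply, AddMonoidHom.comp_apply, AddMonoidHom.inl_apply, AddEquiv.coe_toAddMonoidHom,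
    AddMonoidHom.smul_apply, smul_eq_mul, zsmul_eq_mul]
  rw [← h2]
  ring

theorem pn_t31_B2_fib (ℓ : ℝ) (hℓ : 0 < ℓ) (s τ : ℝ) :
    ∑' n : ℤ, Real.exp (-(s + ℓ * n) ^ 2 / 2 + τ * (s + ℓ * n))
      = Real.sqrt (2 * Real.pi) / ℓ * Real.exp (τ ^ 2 / 2) *
        ∑' j : ℤ, Real.exp (-(2 * Real.pi * j / ℓ) ^ 2 / 2) * Real.cos (2 * Real.pi * j / ℓ * (s - τ)) := by
  rw [(pn_t31_poisson ℓ hℓ s τ).tsum_eq]
  have h1 : 0 < Real.sqrt (2 * Real.pi) := Real.sqrt_pos.2 (by positivity)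
  have h2 : Real.exp (τ ^ 2 / 2) * Real.exp (-τ ^ 2 / 2) = 1 := by
    rw [← Real.exp_add]
    simp [neg_div]
  obtain ⟨A, hA⟩ : ∃ A, A = ∑' n : ℤ, Real.exp (-(s + ℓ * n) ^ 2 / 2 + τ * (s + ℓ * n)) := ⟨_, rfl⟩
  rw [← hA]
  calc A = (Real.sqrt (2 * Real.pi) / ℓ * (ℓ / Real.sqrt (2 * Real.pi))) * (Real.exp (τ ^ 2 / 2) * Real.exp (-τ ^ 2 / 2)) * A := by
        rw [h2]
        field_simp
    _ = _ := by ring

/-- **L-T31-B2** (~250 l.).  **ROW-B, exact bound, UNIFORM IN THE TEST.**  `wT' 0 X = ∑_z W z e^{base X z} ∑_n exp (-(y z + ℓ n)²/2 + τ (y z + ℓ n))` (reindex by `r.e`, `Summable.tsum_prod` for nonnegative terms),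
`pn_t31_poisson`, exchange of the two sums, the term `j = 0` is `wT 0 (base X)`, the other terms are bounded by `rd_cos_bound hS 0 (base X) ((2πj/ℓ) • y) (-(2πj/ℓ) τ)`. -/
theorem pn_t31_rowB {S S' : LSys} (r : RowB S S') (hS : S.Ok) (hS' : S'.Ok) (X : S'.L →+ ℝ) :
    |S'.wT 0 X - Real.sqrt (2 * Real.pi) / r.ℓ * Real.exp (r.tau X ^ 2 / 2) * S.wT 0 (r.base X)|
      ≤ Real.sqrt (2 * Real.pi) / r.ℓ * Real.exp (r.tau X ^ 2 / 2) * S.wT 0 (r.base X) * r.err := by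
  obtain ⟨K, hK⟩ : ∃ K, K = Real.sqrt (2 * Real.pi) / r.ℓ * Real.exp (r.tau X ^ 2 / 2) := ⟨_, rfl⟩
  have hK0 : 0 < K := by
    rw [hK]
    have h1 : 0 < Real.sqrt (2 * Real.pi) := Real.sqrt_pos.2 (by positivity)
    have := r.hℓ
    positivity
  obtain ⟨τ, hτ⟩ : ∃ τ, τ = r.tau X := ⟨_, rfl⟩
  obtain ⟨Y, hY⟩ : ∃ Y, Y = r.base X := ⟨_, rfl⟩
  obtain ⟨g, hg⟩ : ∃ g : ℤ → ℝ, g = fun j : ℤ => Real.exp (-(2 * Real.pi * j / r.ℓ) ^ 2 / 2) := ⟨_, rfl⟩
  have hg0 : ∀ j, 0 < g j := fun j => by rw [hg]; exact Real.exp_pos _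
  have hgs : Summable g := by rw [hg]; exact pn_t31_B2_gsum r.ℓ r.hℓ
  obtain ⟨a, ha⟩ : ∃ a : S.L → ℝ, a = fun z => Real.exp (Y z) * S.W ((z : S.Amb) + 0) := ⟨_, rfl⟩
  have ha0 : ∀ z, 0 < a z := fun z => by rw [ha]; exact mul_pos (Real.exp_pos _) (rd_W_pos hS _)
  have has : Summable a := by rw [ha]; exact lsys_summable S hS 0 Y
  -- step 1 : the sum over `S'.L` as an iterated sum
  have hT : Summable fun p : S.L × ℤ => Real.exp (X (r.e p)) * S'.W (((r.e p : S'.L) : S'.Amb) + 0) :=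
    (Equiv.summable_iff r.e.toEquiv).2 (lsys_summable S' hS' 0 X)
  have h1 : S'.wT 0 X = ∑' z : S.L, ∑' n : ℤ, Real.exp (X (r.e (z, n))) * S'.W (((r.e (z, n) : S'.L) : S'.Amb) + 0) := by
    rw [← hT.tsum_prod]
    exact (r.e.toEquiv.tsum_eq fun z' : S'.L => Real.exp (X z') * S'.W ((z' : S'.Amb) + 0)).symm
  have h2 : ∀ z : S.L, ∑' n : ℤ, Real.exp (X (r.e (z, n))) * S'.W (((r.e (z, n) : S'.L) : S'.Amb) + 0)
      = K * ∑' j : ℤ, a z * (g j * Real.cos (2 * Real.pi * j / r.ℓ * (r.y z - τ))) := by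
    intro z
    rw [tsum_mul_left, hg, hK, hτ, mul_left_comm, ← pn_t31_B2_fib r.ℓ r.hℓ, ← tsum_mul_left]
    refine tsum_congr fun n => ?_
    rw [add_zero, r.hW, pn_t31_B2_X, ha, hY, Real.exp_add, Real.exp_add]
    simp only [add_zero]
    ring
  -- step 2 : exchange
  have hU : Summable (Function.uncurry fun (z : S.L) (j : ℤ) => a z * (g j * Real.cos (2 * Real.pi * j / r.ℓ * (r.y z - τ)))) := by
    refine Summable.of_norm_bounded (has.mul_of_nonneg hgs (fun z => (ha0 z).le) fun j => (hg0 j).le) fun p => ?_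
    simp only [Function.uncurry]
    rw [norm_mul, norm_mul, Real.norm_eq_abs, Real.norm_eq_abs, Real.norm_eq_abs, abs_of_pos (ha0 _), abs_of_pos (hg0 _)]
    exact mul_le_mul_of_nonneg_left (mul_le_of_le_one_right (hg0 _).le (Real.abs_cos_le_one _)) (ha0 _).le
  obtain ⟨Q, hQ⟩ : ∃ Q : ℤ → ℝ, Q = fun j : ℤ => S.Zf 0 fun z => Real.exp (Y z) *
      Real.cos (((2 * Real.pi * j / r.ℓ) • r.y) z + -(2 * Real.pi * j / r.ℓ * τ)) := ⟨_, rfl⟩
  have h3 : S'.wT 0 X = K * ∑' j : ℤ, g j * Q j := by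
    rw [h1, tsum_congr h2, tsum_mul_left, ← hU.tsum_comm]
    congr 1
    refine tsum_congr fun j => ?_
    rw [hQ]
    simp only [LSys.Zf]
    rw [← tsum_mul_left]
    refine tsum_congr fun z => ?_
    rw [ha]
    simp only [AddMonoidHom.smul_apply, smul_eq_mul]
    rw [show 2 * Real.pi * j / r.ℓ * (r.y z - τ) = 2 * Real.pi * j / r.ℓ * r.y z + -(2 * Real.pi * j / r.ℓ * τ) by ring]
    ring
  have hQb : ∀ j, |Q j| ≤ S.wT 0 Y * S.phi ((2 * Real.pi * j / r.ℓ) • r.y) := fun j => by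
    rw [hQ]; exact rd_cos_bound hS 0 Y _ _
  have hw : 0 < S.wT 0 Y := lsys_pos S hS 0 Y
  have hes : Summable fun j : ℤ => g j * S.phi ((2 * Real.pi * j / r.ℓ) • r.y) :=
    Summable.of_nonneg_of_le (fun j => mul_nonneg (hg0 j).le (rd_phi_nonneg hS _))
      (fun j => mul_le_of_le_one_right (hg0 j).le (lsys_phi_le_one S hS _)) hgs
  have hgQ : Summable fun j : ℤ => g j * Q j := by
    refine Summable.of_norm_bounded (hes.mul_left (S.wT 0 Y)) fun j => ?_
    rw [norm_mul, Real.norm_eq_abs, Real.norm_eq_abs, abs_of_pos (hg0 j)]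
    calc g j * |Q j| ≤ g j * (S.wT 0 Y * S.phi ((2 * Real.pi * j / r.ℓ) • r.y)) :=
          mul_le_mul_of_nonneg_left (hQb j) (hg0 j).le
      _ = _ := by ring
  have h00 : g 0 * Q 0 = S.wT 0 Y := by
    rw [hg, hQ]
    simp [LSys.wT]
  have h4 := hgQ.tsum_eq_add_tsum_ite 0
  rw [h00] at h4
  have hes' : Summable fun j : ℤ => if j = 0 then 0 else g j * S.phi ((2 * Real.pi * j / r.ℓ) • r.y) :=
    Summable.of_nonneg_of_le (fun j => by
      split_ifs
      · exact le_rfl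
      · exact mul_nonneg (hg0 j).le (rd_phi_nonneg hS _)) (fun j => by
      split_ifs
      · exact mul_nonneg (hg0 j).le (rd_phi_nonneg hS _)
      · exact le_rfl) hes
  have h5 : |∑' j : ℤ, if j = 0 then 0 else g j * Q j| ≤ S.wT 0 Y * r.err := by
    have herr : r.err = ∑' j : ℤ, if j = 0 then 0 else g j * S.phi ((2 * Real.pi * j / r.ℓ) • r.y) := by
      rw [hg]; rfl
    rw [herr, ← tsum_mul_left, ← Real.norm_eq_abs]
    refine tsum_of_norm_bounded (hes'.mul_left (S.wT 0 Y)).hasSum fun j => ?_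
    split_ifs
    · simp
    · rw [norm_mul, Real.norm_eq_abs, Real.norm_eq_abs, abs_of_pos (hg0 j)]
      calc g j * |Q j| ≤ g j * (S.wT 0 Y * S.phi ((2 * Real.pi * j / r.ℓ) • r.y)) :=
            mul_le_mul_of_nonneg_left (hQb j) (hg0 j).le
        _ = _ := by ring
  rw [← hK, ← hY, h3, h4, mul_add, add_sub_cancel_left, abs_mul, abs_of_pos hK0, mul_assoc]
  exact mul_le_mul_of_nonneg_left h5 hK0.le

/-- **L-T31-B3** (~100 l.).  Tannery (`tendsto_tsum_of_dominated_convergence`, bound `exp (-(2πj/ℓ₁)²/2)`, `lsys_phi_le_one`, `rd_phi_nonneg`). -/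
theorem pn_t31_rowB_err (S S' : ℕ → LSys) (hS : ∀ k, (S k).Ok) (r : ∀ k, RowB (S k) (S' k)) (ℓ₁ : ℝ) (hℓ : ∀ k, (r k).ℓ ≤ ℓ₁)
    (hph : ∀ j : ℤ, j ≠ 0 → Tendsto (fun k => (S k).phi ((2 * Real.pi * j / (r k).ℓ) • (r k).y)) atTop (𝓝 0)) :
    Tendsto (fun k => (r k).err) atTop (𝓝 0) := by
  have hℓ1 : 0 < ℓ₁ := (r 0).hℓ.trans_le (hℓ 0)
  have h := tendsto_tsum_of_dominated_convergence (𝓕 := atTop)
    (f := fun (k : ℕ) (j : ℤ) => if j = 0 then 0 else
      Real.exp (-(2 * Real.pi * j / (r k).ℓ) ^ 2 / 2) * (S k).phi ((2 * Real.pi * j / (r k).ℓ) • (r k).y))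
    (g := fun _ => 0) (pn_t31_B2_gsum ℓ₁ hℓ1) (fun j => ?_) (Eventually.of_forall fun k j => ?_)
  · rw [tsum_zero] at h
    exact h
  · by_cases hj : j = 0
    · simp [hj]
    · simp only [if_neg hj]
      refine squeeze_zero (fun k => mul_nonneg (Real.exp_pos _).le (rd_phi_nonneg (hS k) _)) (fun k => ?_) (hph j hj)
      refine mul_le_of_le_one_left (rd_phi_nonneg (hS k) _) (Real.exp_le_one_iff.2 ?_)
      have := sq_nonneg (2 * Real.pi * j / (r k).ℓ)
      linarith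
  · split_ifs with hj
    · simpa using (Real.exp_pos _).le
    · rw [norm_mul, Real.norm_eq_abs, Real.norm_eq_abs, abs_of_pos (Real.exp_pos _), abs_of_nonneg (rd_phi_nonneg (hS k) _)]
      refine (mul_le_of_le_one_right (Real.exp_pos _).le (lsys_phi_le_one _ (hS k) _)).trans (Real.exp_le_exp.2 ?_)
      have h1 : (2 * Real.pi * j / ℓ₁) ^ 2 ≤ (2 * Real.pi * j / (r k).ℓ) ^ 2 := by
        rw [div_pow, div_pow]
        exact div_le_div_of_nonneg_left (sq_nonneg _) (pow_pos (r k).hℓ 2) (pow_le_pow_left₀ (r k).hℓ.le (hℓ k) 2)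
      linarith

theorem pn_t31_B4_tau0 {S S' : LSys} (r : RowB S S') : r.tau 0 = 0 := by simp [RowB.tau]

theorem pn_t31_B4_base0 {S S' : LSys} (r : RowB S S') : r.base 0 = 0 := by
  simp [RowB.base, pn_t31_B4_tau0]

/-- `log (1 + δ) → 0` -/
theorem pn_t31_B4_log (δ ε : ℕ → ℝ) (h : ∀ k, |δ k| ≤ ε k) (hε : Tendsto ε atTop (𝓝 0)) :
    Tendsto (fun k => Real.log (1 + δ k)) atTop (𝓝 0) := by
  have h1 : Tendsto δ atTop (𝓝 0) := squeeze_zero_norm (fun k => by simpa using h k) hε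
  have h2 : Tendsto (fun k => 1 + δ k) atTop (𝓝 1) := by simpa using h1.const_add 1
  have h3 := (Real.continuousAt_log (one_ne_zero)).tendsto.comp h2
  rw [Real.log_one] at h3
  exact h3

/-- **ROW-B, limit theorem** (glue **L-T31-B4**, ~100 l.): `pn_t31_rowB` for `X` and for `0` (`tau 0 = 0`, `base 0 = 0`), `pn_t31_rowB_err`, `rd_E0_exp`:
`E0' e^X = e^{τ²/2} E0 e^{base X} (1 + δ₁)/(1 + δ₂)`, `|δ_i| ≤ err → 0`. -/
theorem pn_t31_rowB_lim (S S' : ℕ → LSys) (hS : ∀ k, (S k).Ok) (hS' : ∀ k, (S' k).Ok) (r : ∀ k, RowB (S k) (S' k))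
    (ℓ₁ : ℝ) (hℓ : ∀ k, (r k).ℓ ≤ ℓ₁)
    (hph : ∀ j : ℤ, j ≠ 0 → Tendsto (fun k => (S k).phi ((2 * Real.pi * j / (r k).ℓ) • (r k).y)) atTop (𝓝 0))
    (X : ∀ k, (S' k).L →+ ℝ) :
    Tendsto (fun k => lLap (S' k) (X k) - (r k).tau (X k) ^ 2 / 2 - lLap (S k) ((r k).base (X k))) atTop (𝓝 0) := by
  have herr := pn_t31_rowB_err S S' hS r ℓ₁ hℓ hph
  -- the relative errors
  obtain ⟨A, hA⟩ : ∃ A : ∀ k, ((S' k).L →+ ℝ) → ℝ, A = fun k Z =>
      Real.sqrt (2 * Real.pi) / (r k).ℓ * Real.exp ((r k).tau Z ^ 2 / 2) * (S k).wT 0 ((r k).base Z) := ⟨_, rfl⟩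
  have hA0 : ∀ k Z, 0 < A k Z := fun k Z => by
    rw [hA]
    have h1 : 0 < Real.sqrt (2 * Real.pi) := Real.sqrt_pos.2 (by positivity)
    have h2 := (r k).hℓ
    have h3 := lsys_pos (S k) (hS k) 0 ((r k).base Z)
    positivity
  have hδ : ∀ k Z, |((S' k).wT 0 Z - A k Z) / A k Z| ≤ (r k).err := fun k Z => by
    rw [abs_div, abs_of_pos (hA0 k Z), div_le_iff₀ (hA0 k Z), mul_comm]
    rw [hA]
    exact pn_t31_rowB (r k) (hS k) (hS' k) Z
  have h1 := pn_t31_B4_log _ _ (fun k => hδ k (X k)) herr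
  have h2 := pn_t31_B4_log _ _ (fun k => hδ k 0) herr
  have h3 := h1.sub h2
  rw [sub_zero] at h3
  refine h3.congr fun k => ?_
  have e1 : ∀ Z, 1 + ((S' k).wT 0 Z - A k Z) / A k Z = (S' k).wT 0 Z / A k Z := fun Z => by
    have := (hA0 k Z).ne'
    field_simp
    ring
  rw [e1, e1]
  have hw' := fun Z => lsys_pos (S' k) (hS' k) 0 Z
  have hw := fun Z => lsys_pos (S k) (hS k) 0 Z
  rw [Real.log_div (hw' _).ne' (hA0 k _).ne', Real.log_div (hw' _).ne' (hA0 k _).ne']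
  have hc : 0 < Real.sqrt (2 * Real.pi) / (r k).ℓ := div_pos (Real.sqrt_pos.2 (by positivity)) (r k).hℓ
  have e2 : ∀ Z, Real.log (A k Z) = Real.log (Real.sqrt (2 * Real.pi) / (r k).ℓ) + (r k).tau Z ^ 2 / 2
      + Real.log ((S k).wT 0 ((r k).base Z)) := fun Z => by
    rw [hA]
    simp only
    rw [Real.log_mul (mul_pos hc (Real.exp_pos _)).ne' (hw _).ne', Real.log_mul hc.ne' (Real.exp_pos _).ne', Real.log_exp]
  rw [e2, e2, pn_t31_B4_tau0, pn_t31_B4_base0, lLap, lLap, rd_E0_exp, rd_E0_exp, rd_wT_zero, rd_wT_zero,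
    Real.log_div (hw' _).ne' (rd_w_pos (hS' k) 0).ne', Real.log_div (hw _).ne' (rd_w_pos (hS k) 0).ne']
  ring

/-! ## 5. From Laplace limits to variances and characteristic coefficients -/

theorem pn_t31_V_cosh (s x : ℝ) (hs : |s| ≤ 1) :
    Real.cosh (s * x) ≤ 1 + s ^ 2 / 2 * x ^ 2 + s ^ 4 * Real.cosh (2 * x) := by
  have h1 := Free.cosh_le_quartic (s * x)
  have h2 := Free.quartic_le_cosh x
  have h3 : Real.cosh (s * x) ≤ Real.cosh x := by
    rw [Real.cosh_le_cosh, abs_mul]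
    exact mul_le_of_le_one_left (abs_nonneg _) hs
  have h4 : Real.cosh (1 * x) * Real.cosh x ≤ Real.cosh ((1 + 1) * x) := Free.frs_cosh_mul_le zero_le_one
  rw [one_mul] at h4
  have e2 : ((1 : ℝ) + 1) * x = 2 * x := by ring
  rw [e2] at h4
  have hc : 0 < Real.cosh x := Real.cosh_pos x
  have hcs : 0 < Real.cosh (s * x) := Real.cosh_pos _
  have h5 : x ^ 4 * Real.cosh (s * x) ≤ 24 * Real.cosh (2 * x) := by
    calc x ^ 4 * Real.cosh (s * x) ≤ (24 * Real.cosh x) * Real.cosh x :=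
          mul_le_mul h2 h3 hcs.le (by positivity)
      _ = 24 * (Real.cosh x * Real.cosh x) := by ring
      _ ≤ 24 * Real.cosh (2 * x) := by linarith
  have h6 : (s * x) ^ 4 * Real.cosh (s * x) / 24 ≤ s ^ 4 * Real.cosh (2 * x) := by
    have : (s * x) ^ 4 * Real.cosh (s * x) / 24 = s ^ 4 * (x ^ 4 * Real.cosh (s * x)) / 24 := by ring
    rw [this]
    have hs4 : 0 ≤ s ^ 4 := by positivity
    nlinarith
  have e : (s * x) ^ 2 / 2 = s ^ 2 / 2 * x ^ 2 := by ring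
  linarith

theorem pn_t31_V_exp (S : LSys) (hS : S.Ok) (X : S.L →+ ℝ) :
    Real.exp (lLap S X) = S.E0 fun z => Real.exp (X z) :=
  Real.exp_log (Free.frs_E0_exp_pos S hS X)

theorem pn_t31_V_key (S : LSys) (hS : S.Ok) (X : S.L →+ ℝ) (s : ℝ) (hs : |s| ≤ 1) :
    lLap S (s • X) ≤ s ^ 2 / 2 * S.V0 X + s ^ 4 * Real.exp (lLap S ((2 : ℝ) • X)) := by
  have h1 : 1 + lLap S (s • X) ≤ S.E0 fun z => Real.exp ((s • X) z) := by
    rw [← pn_t31_V_exp S hS]
    linarith [Real.add_one_le_exp (lLap S (s • X))]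
  rw [Free.frs_E0_exp_eq_cosh hS] at h1
  rw [pn_t31_V_exp S hS, Free.frs_E0_exp_eq_cosh hS, rd_V0_eq]
  have d1 : S.Dom fun _ : S.L => (1 : ℝ) := rd_dom_const 1
  have d2 : S.Dom fun z => s ^ 2 / 2 * X z ^ 2 := rd_dom_smul _ (rd_dom_pow (rd_dom_test X) 2)
  have d3 : S.Dom fun z => s ^ 4 * Real.cosh (((2 : ℝ) • X) z) := rd_dom_smul _ (Free.frs_dom_cosh _)
  have h2 : (S.E0 fun z => Real.cosh ((s • X) z))
      ≤ S.E0 fun z => (1 + s ^ 2 / 2 * X z ^ 2) + s ^ 4 * Real.cosh (((2 : ℝ) • X) z) := by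
    refine rd_E0_mono hS (Free.frs_dom_cosh _) (rd_dom_add (rd_dom_add d1 d2) d3) fun z => ?_
    simp only [AddMonoidHom.smul_apply, smul_eq_mul]
    exact pn_t31_V_cosh s (X z) hs
  rw [rd_E0_add hS (rd_dom_add d1 d2) d3, rd_E0_add hS d1 d2, rd_E0_const hS, rd_E0_smul, rd_E0_smul] at h2
  linarith

/-- **L-T31-V** (~120 l.).  Upper bound: `lsys_laplace_lower` (`V0/2 ≤ lLap`).  Lower bound: `E0 e^{sX} = E0 cosh (sX)` (`rd_E0_inv`), `cosh (s x) ≤ 1 + s² x²/2 + s⁴ cosh x` for `|s| ≤ 1`, so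
`s² q/2 ≤ e^{s² q/2} - 1 ≤ s² V0/2 + s⁴ E0 cosh X + o(1)`; divide by `s²`, let `k → ∞`, then `s → 0`. -/
theorem pn_t31_lap_var (S : ℕ → LSys) (hS : ∀ k, (S k).Ok) (X : ∀ k, (S k).L →+ ℝ) (q : ℕ → ℝ) (C : ℝ) (hq : ∀ k, |q k| ≤ C)
    (hlim : ∀ s : ℝ, Tendsto (fun k => lLap (S k) (s • X k) - s ^ 2 * q k / 2) atTop (𝓝 0)) :
    Tendsto (fun k => (S k).V0 (X k) - q k) atTop (𝓝 0) := by
  rw [tendsto_order]
  constructor
  · -- lower bound
    intro a ha
    obtain ⟨M, hM⟩ : ∃ M : ℝ, M = Real.exp (2 * C + 1) := ⟨_, rfl⟩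
    have hM0 : 0 < M := by rw [hM]; exact Real.exp_pos _
    -- choose `s`
    obtain ⟨s, hs0, hs1, hsM⟩ : ∃ s : ℝ, 0 < s ∧ s ≤ 1 ∧ 2 * s ^ 2 * M < -a / 2 := by
      have hpos : 0 < -a / (4 * M + 1) := div_pos (by linarith) (by linarith)
      refine ⟨min 1 (-a / (4 * M + 1)), lt_min one_pos hpos, min_le_left _ _, ?_⟩
      obtain ⟨t, ht⟩ : ∃ t : ℝ, t = min 1 (-a / (4 * M + 1)) := ⟨_, rfl⟩
      rw [← ht]
      have ht0 : 0 < t := by rw [ht]; exact lt_min one_pos hpos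
      have ht1 : t ≤ 1 := by rw [ht]; exact min_le_left _ _
      have ht2 : t ≤ -a / (4 * M + 1) := by rw [ht]; exact min_le_right _ _
      have ht3 : t * (4 * M + 1) ≤ -a := by rwa [le_div_iff₀ (by linarith)] at ht2
      have ht4 : t ^ 2 ≤ t := by nlinarith
      nlinarith
    have h2 : ∀ᶠ k in atTop, lLap (S k) ((2 : ℝ) • X k) - 2 ^ 2 * q k / 2 < 1 :=
      (hlim 2).eventually (gt_mem_nhds one_pos)
    have hδ : 0 < s ^ 2 * (-a / 4) := by
      have : 0 < s ^ 2 := by positivity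
      nlinarith
    have h3 : ∀ᶠ k in atTop, -(s ^ 2 * (-a / 4)) < lLap (S k) (s • X k) - s ^ 2 * q k / 2 :=
      (hlim s).eventually (lt_mem_nhds (by linarith))
    filter_upwards [h2, h3] with k hk2 hk3
    have hkey := pn_t31_V_key (S k) (hS k) (X k) s (by rw [abs_of_pos hs0]; exact hs1)
    have hq1 : q k ≤ C := (le_abs_self _).trans (hq k)
    have hE : Real.exp (lLap (S k) ((2 : ℝ) • X k)) ≤ M := by
      rw [hM]
      exact Real.exp_le_exp.2 (by linarith)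
    have hs2 : 0 < s ^ 2 := by positivity
    have hs4 : s ^ 4 * Real.exp (lLap (S k) ((2 : ℝ) • X k)) ≤ s ^ 4 * M :=
      mul_le_mul_of_nonneg_left hE (by positivity)
    -- `s² q/2 - s² (-a/4) < s²/2 V0 + s⁴ M`
    have h5 : s ^ 2 * (q k / 2 - (-a / 4)) < s ^ 2 * ((S k).V0 (X k) / 2 + s ^ 2 * M) := by
      have e4 : s ^ 4 * M = s ^ 2 * (s ^ 2 * M) := by ring
      nlinarith
    have h6 := lt_of_mul_lt_mul_left h5 hs2.le
    linarith
  · -- upper bound
    intro a ha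
    have h1 : ∀ᶠ k in atTop, lLap (S k) ((1 : ℝ) • X k) - 1 ^ 2 * q k / 2 < a / 2 :=
      (hlim 1).eventually (gt_mem_nhds (by linarith))
    filter_upwards [h1] with k hk
    rw [one_smul] at hk
    have := lsys_laplace_lower (S k) (hS k) (X k)
    unfold lLap at hk
    linarith

/-- **L-T31-P** (~40 l.).  `pn_t31_rowA_imag` with `X := 0`, `y := X`, `q = κ = 0`, `m = q`, `ξ = 1`. -/
theorem pn_t31_lap_phi (S : ℕ → LSys) (hS : ∀ k, (S k).Ok) (X : ∀ k, (S k).L →+ ℝ) (q : ℕ → ℝ) (C : ℝ) (hq : ∀ k, |q k| ≤ C)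
    (hlim : ∀ s : ℝ, Tendsto (fun k => lLap (S k) (s • X k) - s ^ 2 * q k / 2) atTop (𝓝 0)) :
    Tendsto (fun k => (S k).phi (X k) - Real.exp (-(q k) / 2)) atTop (𝓝 0) := by
  have hC0 : 0 ≤ C := (abs_nonneg _).trans (hq 0)
  have h := pn_t31_rowA_imag S hS (fun _ => 0) X (fun _ => 0) (fun _ => 0) q C (fun _ => by simpa using hC0)
    (fun _ => by simpa using hC0) hq (fun u => by
      refine (hlim u).congr fun k => ?_
      rw [zero_add]
      congr 1
      ring) 1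
  refine h.congr fun k => ?_
  simp only [AddMonoidHom.zero_apply, Real.exp_zero, one_mul, mul_zero, Real.cos_zero, mul_one, one_pow, zero_sub]
  rfl

/-! ## 6. Stability -/

theorem pn_t31_S_nonneg (S : LSys) (hS : S.Ok) (X : S.L →+ ℝ) : 0 ≤ lLap S X :=
  le_trans (div_nonneg (rd_V0_nonneg hS X) (by norm_num)) (lsys_laplace_lower S hS X)

theorem pn_t31_S_convex (S : LSys) (hS : S.Ok) (A B : S.L →+ ℝ) (θ : ℝ) (h0 : 0 < θ) (h1 : θ < 1) :
    lLap S ((1 - θ) • A + θ • B) ≤ (1 - θ) * lLap S A + θ * lLap S B := by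
  have hpq : ((1 - θ)⁻¹).HolderConjugate θ⁻¹ := by
    rw [Real.holderConjugate_iff]
    refine ⟨?_, ?_⟩
    · rw [one_lt_inv₀ (by linarith)]
      linarith
    · rw [inv_inv, inv_inv]
      ring
  have h := Free.mgf_holder S hS ((1 - θ) • A) (θ • B) _ _ hpq
  rw [inv_inv, inv_inv] at h
  have e1 : (fun z => Real.exp ((1 - θ)⁻¹ * ((1 - θ) • A) z)) = fun z => Real.exp (A z) := by
    funext z
    rw [AddMonoidHom.smul_apply, smul_eq_mul, ← mul_assoc, inv_mul_cancel₀ (by linarith : (1 - θ) ≠ 0), one_mul]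
  have e2 : (fun z => Real.exp (θ⁻¹ * (θ • B) z)) = fun z => Real.exp (B z) := by
    funext z
    rw [AddMonoidHom.smul_apply, smul_eq_mul, ← mul_assoc, inv_mul_cancel₀ h0.ne', one_mul]
  rw [e1, e2] at h
  exact h

/-- **L-T31-S** (~120 l.).  `Λ(s) = lLap (X + s D)` is convex (`Free.mgf_holder`) and `≥ 0` (`lsys_laplace_lower`, `rd_V0_nonneg`).  `Λ(1) ≤ (1-θ) Λ(0) + θ Λ(1/θ) ≤ Λ(0) + θ C` and
`Λ(0) ≤ (1-θ) Λ(1) + θ Λ(1 - 1/θ) ≤ Λ(1) + θ C`. -/
theorem pn_t31_approx (S : ℕ → LSys) (hS : ∀ k, (S k).Ok) (X D : ∀ k, (S k).L →+ ℝ) (θ : ℕ → ℝ) (hθ : Tendsto θ atTop (𝓝 0))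
    (hθ1 : ∀ k, 0 < θ k ∧ θ k ≤ 1) (C : ℝ) (hC : ∀ k (s : ℝ), |s| * θ k ≤ 1 → lLap (S k) (X k + s • D k) ≤ C) :
    Tendsto (fun k => lLap (S k) (X k + D k) - lLap (S k) (X k)) atTop (𝓝 0) := by
  have hlt : ∀ᶠ k in atTop, θ k < 1 := hθ.eventually (gt_mem_nhds one_pos)
  have hup : Tendsto (fun k => θ k * C) atTop (𝓝 0) := by
    simpa using hθ.mul_const C
  have hlo : Tendsto (fun k => -(θ k * C)) atTop (𝓝 0) := by
    simpa using hup.neg
  refine tendsto_of_tendsto_of_tendsto_of_le_of_le' hlo hup ?_ ?_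
  · filter_upwards [hlt] with k hk
    obtain ⟨h0, -⟩ := hθ1 k
    have hc := pn_t31_S_convex (S k) (hS k) (X k + D k) (X k + (1 - (θ k)⁻¹) • D k) (θ k) h0 hk
    have e : (1 - θ k) • (X k + D k) + θ k • (X k + (1 - (θ k)⁻¹) • D k) = X k := by
      ext z
      simp only [AddMonoidHom.add_apply, AddMonoidHom.smul_apply, smul_eq_mul]
      field_simp
      ring
    rw [e] at hc
    have hb := hC k (1 - (θ k)⁻¹) (by
      have : 1 - (θ k)⁻¹ ≤ 0 := by
        have := (one_le_inv₀ h0).2 hk.le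
        linarith
      rw [abs_of_nonpos this]
      have : (θ k)⁻¹ * θ k = 1 := inv_mul_cancel₀ h0.ne'
      nlinarith)
    have hn := pn_t31_S_nonneg (S k) (hS k) (X k + D k)
    nlinarith
  · filter_upwards [hlt] with k hk
    obtain ⟨h0, -⟩ := hθ1 k
    have hc := pn_t31_S_convex (S k) (hS k) (X k) (X k + (θ k)⁻¹ • D k) (θ k) h0 hk
    have e : (1 - θ k) • X k + θ k • (X k + (θ k)⁻¹ • D k) = X k + D k := by
      ext z
      simp only [AddMonoidHom.add_apply, AddMonoidHom.smul_apply, smul_eq_mul]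
      field_simp
      ring
    rw [e] at hc
    have hb := hC k (θ k)⁻¹ (by
      rw [abs_of_pos (inv_pos.2 h0), inv_mul_cancel₀ h0.ne'])
    have hn := pn_t31_S_nonneg (S k) (hS k) (X k)
    nlinarith

end

end Claimed.Agent.R285.Pins
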