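import Claimed.Agent.R285.Pins.T32Res
import Claimed.Agent.R285.Pins.Sub
import Claimed.Agent.R285.Free.Grid

/-!
# ROW 285, PINS, T3.2 package.  FILE 8 (helper122): THE T3.1 INPUTS of `AsIn`, `AsIn'`.

* `T31In a b ν` = THE CONTRACT WITH T3.1 (helper217; shape of msg #21754): `C3.mixed_laplace` with MOVING bounded rows, at all scales comparable to `ν`, under the uniform confinement `UConf` of `Pins/Sub.lean`, plus the bound of the reference cost.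
* `asS h` = the scale of the level-`r` cell tests, read on the coarse graph (`domFn (sbCT (S23.fine r Γ.T) (sbG r (g k)) t)`).
* `pn_lim_level` = T3.1 at level `r` for ANY `NoDiag` geometry with fixed confining rows (transport principle of `Pins/Sub.lean`).
* exits: `pn_lim_cut`, `pn_lim_cutP`, `pn_lim_res`, `pn_lim_resP` (the four `Scale.Lim`), `pn_lim_ea` (cell tests are energy-approximable), `pn_lim_ea_sub` (level-`r₁` tests are energy-approximable).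
* `T31At a b ν` = the same contract at the scale `ν` of the scenario only;  `pn_lim_scen_comp` (a scenario at a comparable scale is a scenario), `pn_lim_t31_of_at`.
-/

set_option autoImplicit false

namespace Claimed.Agent.R285.Pins.T32

open Filter Topology MeasureTheory
open Claimed.Agent.R285.Pot
open Claimed.Agent.R285.C3
open scoped Classical

noncomputable section

/-- **THE CONTRACT WITH T3.1**: Gaussian Laplace limits of bounded moving cell tests under moving bounded rows which confine uniformly, at all scales comparable to `ν`; bounded reference costs. -/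
def T31In (a : ℝ) (b : ℕ → ℝ) (ν : ℕ → ℕ) : Prop :=
  ∀ (n₁ n₂ : ℕ) (Γ : CGeom n₁ n₂), Γ.NoDiag → ∀ (K : ℕ) (g : ℕ → DGrid n₁ n₂) (ν' : ℕ → ℕ), Admissible K g ν' → Comp ν ν' →
    ∀ (N : ℕ) (R : ℕ → Fin N → Cell n₁ n₂ → ℝ) (Rb : ℝ), (∀ k o κ, |R k o κ| ≤ Rb) → UConf Γ R →
    ∀ (t : ℕ → Cell n₁ n₂ → ℝ) (Tb : ℝ), (∀ k κ, |t k κ| ≤ Tb) →
      (∀ X : ∀ k, ((lawR Γ (g k) (R k)).sys (b k)).L →+ ℝ, (∀ k, (lawR Γ (g k) (R k)).Lift (b k) (Γ.cellTest (g k) (t k)) (X k)) →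
        Tendsto (fun k => (lawR Γ (g k) (R k)).logLap (b k) (X k)
          - (lawR Γ (g k) (R k)).gVar a (Γ.cellTest (g k) (t k)) / 2) atTop (𝓝 0)) ∧
      ∃ C : ℝ, ∀ k, (lawR Γ (g k) (R k)).gVar 1 (Γ.cellTest (g k) (t k)) ≤ C

variable {m₁ m₂ : ℕ}

/-- the contract in height variables -/
theorem pn_lim_hLap {a : ℝ} {b : ℕ → ℝ} {ν : ℕ → ℕ} (hT : T31In a b ν) (hb : ∀ k, 0 < b k) (Γ : CGeom m₁ m₂) (hΓ : Γ.NoDiag) {K : ℕ}
    {g : ℕ → DGrid m₁ m₂} {ν' : ℕ → ℕ} (hg : Admissible K g ν') (hν : Comp ν ν') {N : ℕ} (R : ℕ → Fin N → Cell m₁ m₂ → ℝ) (Rb : ℝ)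
    (hR : ∀ k o κ, |R k o κ| ≤ Rb) (hU : UConf Γ R) (t : ℕ → Cell m₁ m₂ → ℝ) (Tb : ℝ) (ht : ∀ k κ, |t k κ| ≤ Tb) :
    Tendsto (fun k => hLap (lawR Γ (g k) (R k)) (b k) (Γ.cellTest (g k) (t k))
        - (lawR Γ (g k) (R k)).gVar a (Γ.cellTest (g k) (t k)) / 2) atTop (𝓝 0) ∧
      ∃ C : ℝ, ∀ k, (lawR Γ (g k) (R k)).gVar 1 (Γ.cellTest (g k) (t k)) ≤ C := by
  obtain ⟨h1, h2⟩ := hT m₁ m₂ Γ hΓ K g ν' hg hν N R Rb hR hU t Tb ht
  refine ⟨?_, h2⟩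
  have hP : ∀ k, (lawR Γ (g k) (R k)).Proper := fun k =>
    (pn_sb_ok_of_pd (lawR Γ (g k) (R k)) rfl (pn_sb_pd_of_uconf Γ R hU k (g k)) (hb k)).1
  choose X hX using fun k => pn_exists_lift (lawR Γ (g k) (R k)) (hP k) (b k) (Γ.cellTest (g k) (t k))
  refine (h1 X hX).congr fun k => ?_
  rw [pn_hLap_eq_logLap _ (hP k) (b k) _ (X k) (hX k)]

/-! ## 1. The level-`r` tests on the coarse graph -/

/-- the level-`r` cell test with coefficients `t`, read on the graph of `(Γ, g)` -/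
def asSub (Γ : CGeom m₁ m₂) (g : DGrid m₁ m₂) (r : ℕ) : (Cell (r * m₁) (r * m₂) → ℝ) →ₗ[ℝ] ((Γ.graph g).V → ℝ) where
  toFun t := domFn (D := g.region Γ.T) (cut := Γ.cutB g) (sbCT (S23.fine r Γ.T) (sbG r g) t)
  map_add' t t' := by
    rw [pn_sb_CT_add]
    rfl
  map_smul' c t := by
    rw [pn_sb_CT_smul]
    rfl

/-- the transported quantities, as functions of `(D, cut, P, R, f)` -/
def sbQ (β a : ℝ) (D : Finset (ℤ × ℤ)) (cut : Set Bond) (P : Set (ℤ × ℤ)) {N : ℕ} (R : Fin N → ℤ × ℤ → ℝ) (f : ℤ × ℤ → ℝ) : ℝ × ℝ :=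
  (hLap (sbLaw D cut P R) β (domFn f) - (sbLaw D cut P R).gVar a (domFn f) / 2, (sbLaw D cut P R).gVar 1 (domFn f))

/-- TRANSPORT: the level-`r` chart and the coarse chart give the same law and the same tests -/
theorem pn_lim_transport (Γ : CGeom m₁ m₂) {N : ℕ} (row : Fin N → Cell m₁ m₂ → ℝ) {r : ℕ} (hr : 0 < r) {g : DGrid m₁ m₂} (h : sbOK r g)
    (β a : ℝ) (t : Cell (r * m₁) (r * m₂) → ℝ) :
    (hLap (lawR (S23.refine r Γ) (sbG r g) fun o => sbUp r (sbG r g) (row o)) β ((S23.refine r Γ).cellTest (sbG r g) t)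
        - (lawR (S23.refine r Γ) (sbG r g) fun o => sbUp r (sbG r g) (row o)).gVar a ((S23.refine r Γ).cellTest (sbG r g) t) / 2
      = hLap (lawR Γ g row) β (asSub Γ g r t) - (lawR Γ g row).gVar a (asSub Γ g r t) / 2) ∧
    (lawR (S23.refine r Γ) (sbG r g) fun o => sbUp r (sbG r g) (row o)).gVar 1 ((S23.refine r Γ).cellTest (sbG r g) t)
      = (lawR Γ g row).gVar 1 (asSub Γ g r t) := by
  have hR := pn_sb_refines hr h
  have key : sbQ β a ((sbG r g).region (S23.fine r Γ.T)) ((S23.refine r Γ).cutB (sbG r g)) (↑((sbG r g).region (S23.fine r Γ.pin)) : Set (ℤ × ℤ))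
        (fun o => sbCT (S23.fine r Γ.T) (sbG r g) (sbUp r (sbG r g) (row o))) (sbCT (S23.fine r Γ.T) (sbG r g) t)
      = sbQ β a (g.region Γ.T) (Γ.cutB g) (↑(g.region Γ.pin) : Set (ℤ × ℤ)) (fun o => sbCT Γ.T g (row o)) (sbCT (S23.fine r Γ.T) (sbG r g) t) := by
    rw [pn_sb_region hR, pn_sb_cut hR, pn_sb_region hR]
    simp only [pn_sb_up hR]
  exact ⟨congrArg Prod.fst key, congrArg Prod.snd key⟩

theorem pn_lim_row_bdd {N : ℕ} (row : Fin N → Cell m₁ m₂ → ℝ) : ∃ Rb : ℝ, ∀ o κ, |row o κ| ≤ Rb :=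
  ⟨∑ o, ∑ κ, |row o κ|, fun o κ =>
    (Finset.single_le_sum (f := fun κ => |row o κ|) (fun _ _ => abs_nonneg _) (Finset.mem_univ κ)).trans
      (Finset.single_le_sum (f := fun o => ∑ κ, |row o κ|) (fun _ _ => Finset.sum_nonneg fun _ _ => abs_nonneg _) (Finset.mem_univ o))⟩

/-- **T3.1 at level `r`** for a `NoDiag` geometry with fixed confining rows, on the coarse graph -/
theorem pn_lim_level {a : ℝ} {b : ℕ → ℝ} {ν : ℕ → ℕ} (hT : T31In a b ν) (hb : ∀ k, 0 < b k) (Γ : CGeom m₁ m₂) (hΓ : Γ.NoDiag) {K : ℕ}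
    {g : ℕ → DGrid m₁ m₂} (hg : Admissible K g ν) {N : ℕ} (row : Fin N → Cell m₁ m₂ → ℝ) (hU : UConf Γ fun _ => row) {r : ℕ} (hr : 0 < r)
    (t : ℕ → Cell (r * m₁) (r * m₂) → ℝ) (ht : ∃ C : ℝ, ∀ k i, |t k i| ≤ C) :
    Tendsto (fun k => hLap (lawR Γ (g k) row) (b k) (asSub Γ (g k) r (t k))
        - (lawR Γ (g k) row).gVar a (asSub Γ (g k) r (t k)) / 2) atTop (𝓝 0) ∧
      ∃ C : ℝ, ∀ᶠ k in atTop, (lawR Γ (g k) row).gVar 1 (asSub Γ (g k) r (t k)) ≤ C := by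
  obtain ⟨Tb, hTb⟩ := ht
  obtain ⟨Rb, hRb⟩ := pn_lim_row_bdd row
  obtain ⟨h1, C, h2⟩ := pn_lim_hLap hT hb (S23.refine r Γ) (Sec.noDiag_refine Γ hΓ r) (pn_sb_adm hg hr) (pn_sb_comp ν hr)
    (fun k o => sbUp r (sbG r (g k)) (row o)) Rb (fun k o κ => (pn_sb_up_le r _ _ κ).trans (hRb o _))
    (pn_sb_uconf_up Γ row hU hr fun k => sbG r (g k)) t Tb hTb
  have hev := pn_sb_ev hg hr
  refine ⟨h1.congr' (hev.mono fun k hk => (pn_lim_transport Γ row hr hk (b k) a (t k)).1), C, hev.mono fun k hk => ?_⟩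
  rw [← (pn_lim_transport Γ row hr hk (b k) a (t k)).2]
  exact h2 k

/-! ## 2. More pins -/

/-- the geometry with the guard pinned -/
def pinG (Γ : CGeom m₁ m₂) (p : Finset (Cell m₁ m₂)) : CGeom m₁ m₂ := { Γ with pin := Γ.pin ∪ p }

theorem pn_lim_sites_union (Γ : CGeom m₁ m₂) (g : DGrid m₁ m₂) (A B : Finset (Cell m₁ m₂)) :
    Γ.sites g (A ∪ B) = Γ.sites g A ∪ Γ.sites g B := by
  ext v
  show domPos v ∈ (↑(g.region (A ∪ B)) : Set (ℤ × ℤ)) ↔ domPos v ∈ (↑(g.region A) : Set (ℤ × ℤ)) ∨ domPos v ∈ (↑(g.region B) : Set (ℤ × ℤ))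
  simp only [Finset.mem_coe, DGrid.region, Finset.mem_biUnion, Finset.mem_union]
  constructor
  · rintro ⟨κ, h1 | h1, h2⟩
    · exact Or.inl ⟨κ, h1, h2⟩
    · exact Or.inr ⟨κ, h1, h2⟩
  · rintro (⟨κ, h1, h2⟩ | ⟨κ, h1, h2⟩)
    · exact ⟨κ, Or.inl h1, h2⟩
    · exact ⟨κ, Or.inr h1, h2⟩

theorem pn_lim_addPin (Γ : CGeom m₁ m₂) (g : DGrid m₁ m₂) {N : ℕ} (row : Fin N → Cell m₁ m₂ → ℝ) (p : Finset (Cell m₁ m₂)) :
    (lawR Γ g row).addPin (Γ.sites g p) = (lawR (pinG Γ p) g row : HLaw (Γ.graph g)) := by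
  have e : (HLaw.pinned (Γ.sites g Γ.pin) ⊓ HLaw.pinned (Γ.sites g p) : AddSubgroup ((Γ.graph g).V → ℤ))
      = HLaw.pinned (Γ.sites g (Γ.pin ∪ p)) := by
    rw [pl_pinned_inf, pn_lim_sites_union]
  unfold HLaw.addPin
  show @HLaw.mk (Γ.graph g) (HLaw.pinned (Γ.sites g Γ.pin) ⊓ HLaw.pinned (Γ.sites g p)) _ _ _ = _
  rw [e]
  rfl

theorem pn_lim_noDiag_pin {Γ : CGeom m₁ m₂} (hΓ : Γ.NoDiag) (p : Finset (Cell m₁ m₂)) : (pinG Γ p).NoDiag := hΓ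

/-! ## 3. The scale and the four limits -/

section four

variable {Γ : CGeom m₁ m₂} {N : ℕ} {row : Fin N → Cell m₁ m₂ → ℝ} {F : Finset (Cell m₁ m₂ × Bool)} {N' : ℕ}
  {row' : Fin (N + N') → Cell m₁ m₂ → ℝ} {A p : Finset (Cell m₁ m₂)} {g : ℕ → DGrid m₁ m₂} {b : ℕ → ℝ}

/-- the scale of the level-`r` cell tests -/
def asS (h : AsOk Γ row g b) : Scale (asL h) where
  I r := Cell (r * m₁) (r * m₂)
  fI _ := inferInstance
  sub r k := asSub Γ (g k) r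

theorem pn_lim_uconf (h : AsOk Γ row g b) : UConf Γ fun _ => row :=
  pn_sb_uconf_of_pd Γ (g 0) row (pn_pd (asL h) 0)

variable {a : ℝ} {ν : ℕ → ℕ} {K : ℕ}

/-- `Scale.Lim` from the two conclusions of `pn_lim_level` -/
theorem pn_lim_mk (L : LSeq) (S : Scale L)
    (H : ∀ r, 0 < r → ∀ t : ℕ → S.I r → ℝ, (∃ C : ℝ, ∀ k i, |t k i| ≤ C) →
      Tendsto (fun k => hLap (L.H k) (L.b k) (S.sub r k (t k)) - (L.H k).gVar a (S.sub r k (t k)) / 2) atTop (𝓝 0) ∧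
        ∃ C : ℝ, ∀ᶠ k in atTop, (L.H k).gVar 1 (S.sub r k (t k)) ≤ C) : S.Lim a := by
  intro r hr t ht
  obtain ⟨h1, C, h2⟩ := H r hr t ht
  exact ⟨h1, pn_ea_bd_of_ev L _ C h2⟩

/-- [C]T3.1 at every level, cut laws -/
theorem pn_lim_cut (hT : T31In a b ν) (hΓ : Γ.NoDiag) (hg : Admissible K g ν) (h : AsOk Γ row g b) : (asS h).Lim a :=
  pn_lim_mk _ _ fun _ hr t ht => pn_lim_level hT h.b_pos Γ hΓ hg row (pn_lim_uconf h) hr t ht

/-- [C]T3.1 at every level, cut laws with the guard pinned -/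
theorem pn_lim_cutP (hT : T31In a b ν) (hΓ : Γ.NoDiag) (hg : Admissible K g ν) (h : AsOk Γ row g b) (p : Finset (Cell m₁ m₂)) :
    ((asS h).pin fun k => Γ.sites (g k) p).Lim a := by
  refine pn_lim_mk _ _ fun r hr t ht => ?_
  have key := pn_lim_level hT h.b_pos (pinG Γ p) (pn_lim_noDiag_pin hΓ p) hg row (pn_sb_uconf_pin Γ _ (pn_lim_uconf h) p) hr t ht
  have e : ∀ k, ((asL h).pin fun k => Γ.sites (g k) p).H k = (lawR (pinG Γ p) (g k) row : HLaw (Γ.graph (g k))) := fun k =>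
    pn_lim_addPin Γ (g k) row p
  simp only [e]
  exact key

/-- [C]T3.1 at every level, restored laws -/
theorem pn_lim_res (hT : T31In a b ν) (hΓ' : (uncut Γ F).NoDiag) (hg : Admissible K g ν) (h : AsOk Γ row g b) (R : AsRes Γ row F row' A p) :
    ((asW h R).S' (asS h)).Lim a :=
  pn_lim_mk _ _ fun _ hr t ht => pn_lim_level hT h.b_pos (uncut Γ F) hΓ' hg row'
    (pn_sb_uconf_uncut Γ _ (pn_lim_uconf h) F (fun _ => row') fun _ o => R.old o) hr t ht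

/-- [C]T3.1 at every level, restored laws with the guard pinned -/
theorem pn_lim_resP (hT : T31In a b ν) (hΓ' : (uncut Γ F).NoDiag) (hg : Admissible K g ν) (h : AsOk Γ row g b) (R : AsRes Γ row F row' A p) :
    (((asW h R).S' (asS h)).pin (asW h R).P).Lim a := by
  refine pn_lim_mk _ _ fun r hr t ht => ?_
  have key := pn_lim_level hT h.b_pos (pinG (uncut Γ F) p) (pn_lim_noDiag_pin hΓ' p) hg row'
    (pn_sb_uconf_pin (uncut Γ F) _ (pn_sb_uconf_uncut Γ _ (pn_lim_uconf h) F (fun _ => row') fun _ o => R.old o) p) hr t ht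
  have e : ∀ k, ((asW h R).L'.pin (asW h R).P).H k = (lawR (pinG (uncut Γ F) p) (g k) row' : HLaw ((uncut Γ F).graph (g k))) := fun k =>
    pn_lim_addPin (uncut Γ F) (g k) row' p
  simp only [e]
  exact key

/-- cell tests with bounded coefficients are level-`r` tests, eventually -/
theorem pn_lim_ea (hg : Admissible K g ν) (h : AsOk Γ row g b) (t : ℕ → Cell m₁ m₂ → ℝ) (Tb : ℝ) (ht : ∀ k κ, |t k κ| ≤ Tb) :
    (asS h).EA (asT Γ g t) := by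
  intro ε hε
  refine ⟨1, one_pos, fun r _ hr => ⟨fun k => sbUp r (sbG r (g k)) (t k), ⟨Tb, fun k i => (pn_sb_up_le r _ _ i).trans (ht k _)⟩, ?_⟩⟩
  refine (pn_sb_ev hg hr).mono fun k hk => ?_
  have e1 : (asS h).sub r k (sbUp r (sbG r (g k)) (t k))
      = domFn (D := (g k).region Γ.T) (cut := Γ.cutB (g k)) (sbCT (S23.fine r Γ.T) (sbG r (g k)) (sbUp r (sbG r (g k)) (t k))) := rfl
  rw [e1, pn_sb_up (pn_sb_refines hr hk)]
  have e : ∀ f : (Γ.graph (g k)).V → ℝ, (lawR Γ (g k) row).gVar 1 (f - f) ≤ ε := fun f => by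
    rw [sub_self, pl_gVar_zero _ one_pos]
    exact hε.le
  exact e _

end four

/-! ## 4. Level-`r₁` tests are energy-approximable -/

section easub

variable {Γ : CGeom m₁ m₂} {N : ℕ} {row : Fin N → Cell m₁ m₂ → ℝ} {g : ℕ → DGrid m₁ m₂} {b : ℕ → ℝ} {ν : ℕ → ℕ} {K : ℕ}

/-- level-`r₁` cell tests with bounded coefficients are level-`r` tests for `r₁ ∣ r`, eventually (`pn_sb_nest`) -/
theorem pn_lim_ea_sub (hg : Admissible K g ν) (h : AsOk Γ row g b) {r₁ : ℕ} (hr₁ : 0 < r₁) (t₁ : ℕ → Cell (r₁ * m₁) (r₁ * m₂) → ℝ) (Tb : ℝ)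
    (ht : ∀ k κ, |t₁ k κ| ≤ Tb) : (asS h).EA fun k => asSub Γ (g k) r₁ (t₁ k) := by
  intro ε hε
  refine ⟨r₁, hr₁, fun r hd hr => ?_⟩
  have hex : ∀ k, ∃ t : Cell (r * m₁) (r * m₂) → ℝ, (∀ κ, |t κ| ≤ |Tb|) ∧
      (sbOK r (g k) → sbCT (S23.fine r Γ.T) (sbG r (g k)) t = sbCT (S23.fine r₁ Γ.T) (sbG r₁ (g k)) (t₁ k)) := by
    intro k
    by_cases hk : sbOK r (g k)
    · obtain ⟨t, h1, h2⟩ := pn_sb_nest hr₁ hd hr hk Γ.T (t₁ k)
      exact ⟨t, fun κ => (h1 Tb (ht k) κ).trans (le_abs_self _), fun _ => h2⟩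
    · exact ⟨0, fun κ => by simp, fun h' => absurd h' hk⟩
  choose t h1 h2 using hex
  refine ⟨t, ⟨|Tb|, h1⟩, (pn_sb_ev hg hr).mono fun k hk => ?_⟩
  have e1 : (asS h).sub r k (t k) = domFn (D := (g k).region Γ.T) (cut := Γ.cutB (g k)) (sbCT (S23.fine r Γ.T) (sbG r (g k)) (t k)) := rfl
  rw [e1, h2 k hk]
  have e : ∀ f : (Γ.graph (g k)).V → ℝ, (lawR Γ (g k) row).gVar 1 (f - f) ≤ ε := fun f => by
    rw [sub_self, pl_gVar_zero _ one_pos]
    exact hε.le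
  exact e _

end easub

/-! ## 5. Comparable scales -/

theorem pn_lim_comp_trans {ν ν' ν'' : ℕ → ℕ} (h : Comp ν ν') (h' : Comp ν' ν'') : Comp ν ν'' := by
  obtain ⟨c, hc⟩ := h
  obtain ⟨c', hc'⟩ := h'
  refine ⟨c * c', fun k => ⟨?_, ?_⟩⟩
  · calc ν k ≤ c * ν' k := (hc k).1
      _ ≤ c * (c' * ν'' k) := Nat.mul_le_mul_left _ (hc' k).1
      _ = c * c' * ν'' k := (Nat.mul_assoc _ _ _).symm
  · calc ν'' k ≤ c' * ν' k := (hc' k).2
      _ ≤ c' * (c * ν k) := Nat.mul_le_mul_left _ (hc k).2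
      _ = c * c' * ν k := by ring

/-- a scenario at a comparable scale is a scenario -/
theorem pn_lim_scen_comp {a : ℝ} {b : ℕ → ℝ} {ν ν' : ℕ → ℕ} (hS : Scen a b ν) (hν : Comp ν ν') : Scen a b ν' where
  a_pos := hS.a_pos
  b_cpt := hS.b_cpt
  free := fun n₁ n₂ K g ν'' hg hc => hS.free n₁ n₂ K g ν'' hg (pn_lim_comp_trans hν hc)
  coef := by
    obtain ⟨c, hc⟩ := hν
    refine Free.fr_scaleCoef_comparable hS.coef ((c : ℝ) + 1)⁻¹ c (by positivity) (Eventually.of_forall fun k => ⟨?_, ?_⟩)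
    · rw [inv_mul_le_iff₀ (by positivity)]
      have h1 : (ν k : ℝ) ≤ (c : ℝ) * ν' k := by exact_mod_cast (hc k).1
      have h2 : (0 : ℝ) ≤ ν' k := Nat.cast_nonneg _
      linarith
    · exact_mod_cast (hc k).2

/-- the contract with T3.1 at the scale of the scenario (= `C3.mixed_laplace` with moving rows + the bound of the reference cost) -/
def T31At (a : ℝ) (b : ℕ → ℝ) (ν : ℕ → ℕ) : Prop :=
  ∀ (n₁ n₂ : ℕ) (Γ : CGeom n₁ n₂), Γ.NoDiag → ∀ (K : ℕ) (g : ℕ → DGrid n₁ n₂), Admissible K g ν →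
    ∀ (N : ℕ) (R : ℕ → Fin N → Cell n₁ n₂ → ℝ) (Rb : ℝ), (∀ k o κ, |R k o κ| ≤ Rb) → UConf Γ R →
    ∀ (t : ℕ → Cell n₁ n₂ → ℝ) (Tb : ℝ), (∀ k κ, |t k κ| ≤ Tb) →
      (∀ X : ∀ k, ((lawR Γ (g k) (R k)).sys (b k)).L →+ ℝ, (∀ k, (lawR Γ (g k) (R k)).Lift (b k) (Γ.cellTest (g k) (t k)) (X k)) →
        Tendsto (fun k => (lawR Γ (g k) (R k)).logLap (b k) (X k)
          - (lawR Γ (g k) (R k)).gVar a (Γ.cellTest (g k) (t k)) / 2) atTop (𝓝 0)) ∧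
      ∃ C : ℝ, ∀ k, (lawR Γ (g k) (R k)).gVar 1 (Γ.cellTest (g k) (t k)) ≤ C

theorem pn_lim_t31_of_at {a : ℝ} {b : ℕ → ℝ} (H : ∀ ν : ℕ → ℕ, Scen a b ν → T31At a b ν) {ν : ℕ → ℕ} (hS : Scen a b ν) : T31In a b ν :=
  fun n₁ n₂ Γ hΓ K g ν' hg hν => H ν' (pn_lim_scen_comp hS hν) n₁ n₂ Γ hΓ K g hg

end

end Claimed.Agent.R285.Pins.T32
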