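import Claimed.Agent.R285.Pins.T31
import Claimed.Agent.R285.Pins.T32Lim
import Claimed.Agent.R285.Pins.T31Rows

/-!
# ROW 285, PINS, package T31 (architect helper217).  FILE 9: THE CONTRACTS OF T3.2 (`T32.T31At`, `T32.pn_in_lap`, `T32.pn_in_bd`) IN THE VOCABULARY OF `Pins/Sub.lean`, `Pins/T32Lim.lean`.   No own sorry.
`T32Fin.lean` / `T32Asy.lean` import this file and link:   `pn_fin_t31_at := pn_t31o_at`,   `pn_in_lap := pn_t31o_lap`,   `pn_in_bd := pn_t31o_bd`.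
-/

set_option autoImplicit false

namespace Claimed.Agent.R285.Pins

open Filter Topology MeasureTheory Pot C3
open scoped Classical

noncomputable section

variable {m₁ m₂ : ℕ} {a : ℝ} {b : ℕ → ℝ} {ν : ℕ → ℕ}

/-- the uniform confinement of `Pins/Sub.lean` is the confinement of all constants of `Pins/T31Ref.lean` -/
theorem pn_t31o_confI (Γ : CGeom m₁ m₂) {N : ℕ} (R : ℕ → Fin N → Cell m₁ m₂ → ℝ) (h : UConf Γ R) : ∃ c : ℝ, 0 < c ∧ ∀ k, ConfI Γ c (R k) := by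
  obtain ⟨c, hc, h⟩ := h
  refine ⟨c, hc, fun k s hs => ?_⟩
  have h1 : CompFn Γ fun κ => if κ ∈ Γ.T then s κ else 0 := by
    refine ⟨fun κ κ' hA => ?_, fun κ hκ => ?_⟩
    · simp only [if_pos hA.1, if_pos hA.2.1]
      exact hs.1 κ κ' hA
    · by_cases hT : κ ∈ Γ.T
      · simp only [if_pos hT]
        exact hs.2 κ hκ hT
      · simp only [if_neg hT]
  have h2 := h k _ h1
  have e1 : ∑ κ ∈ Γ.T, (if κ ∈ Γ.T then s κ else 0) ^ 2 = ∑ κ ∈ Γ.T, s κ ^ 2 :=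
    Finset.sum_congr rfl fun κ hκ => by rw [if_pos hκ]
  have e2 : ∀ o, ∑ κ ∈ Γ.T, R k o κ * (if κ ∈ Γ.T then s κ else 0) = ∑ κ ∈ Γ.T, R k o κ * s κ := fun o =>
    Finset.sum_congr rfl fun κ hκ => by rw [if_pos hκ]
  simp only [e1, e2] at h2
  exact h2

/-- **`T32.T31At`** -/
theorem pn_t31o_at (ν : ℕ → ℕ) (hS : Scen a b ν) : T32.T31At a b ν := by
  intro n₁ n₂ Γ hΓ K g hg N R Rb hR hU t Tb ht
  obtain ⟨c, hc, hU'⟩ := pn_t31o_confI Γ R hU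
  exact pn_t31_moving hS Γ hΓ K g ν hg ⟨1, fun k => ⟨by simp, by simp⟩⟩ R Rb hR hc hU' t Tb ht

/-- **`T32.T31In`** -/
theorem pn_t31o_in (hS : Scen a b ν) : T32.T31In a b ν := T32.pn_lim_t31_of_at pn_t31o_at hS

/-- **`T32.pn_in_lap`** verbatim -/
theorem pn_t31o_lap (hS : Scen a b ν) (Γ : CGeom m₁ m₂) (hΓ : Γ.NoDiag) (K : ℕ) (g : ℕ → DGrid m₁ m₂) (ν' : ℕ → ℕ) (hg : Admissible K g ν') (hc : Comp ν ν')
    {N : ℕ} (R : ℕ → Fin N → Cell m₁ m₂ → ℝ) (hR : ∃ C : ℝ, ∀ k o κ, |R k o κ| ≤ C) (hU : UConf Γ R)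
    (t : ℕ → Cell m₁ m₂ → ℝ) (ht : ∃ C : ℝ, ∀ k κ, |t k κ| ≤ C) :
    Tendsto (fun k => T32.hLap (lawR Γ (g k) (R k)) (b k) (Γ.cellTest (g k) (t k))
      - (lawR Γ (g k) (R k)).gVar a (Γ.cellTest (g k) (t k)) / 2) atTop (𝓝 0) := by
  obtain ⟨Rb, hR⟩ := hR
  obtain ⟨Tb, ht⟩ := ht
  exact (T32.pn_lim_hLap (pn_t31o_in hS) (pn_t31f_b_pos hS) Γ hΓ hg hc R Rb hR hU t Tb ht).1

/-- **`T32.pn_in_bd`** verbatim -/
theorem pn_t31o_bd (Γ : CGeom m₁ m₂) (K : ℕ) (g : ℕ → DGrid m₁ m₂) (ν' : ℕ → ℕ) (hg : Admissible K g ν')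
    {N : ℕ} (R : ℕ → Fin N → Cell m₁ m₂ → ℝ) (hR : ∃ C : ℝ, ∀ k o κ, |R k o κ| ≤ C) (hU : UConf Γ R)
    (t : ℕ → Cell m₁ m₂ → ℝ) (ht : ∃ C : ℝ, ∀ k κ, |t k κ| ≤ C) :
    ∃ C : ℝ, ∀ k, (lawR Γ (g k) (R k)).gVar 1 (Γ.cellTest (g k) (t k)) ≤ C := by
  obtain ⟨Rb, hR⟩ := hR
  obtain ⟨Tb, ht⟩ := ht
  obtain ⟨c, hc, hU'⟩ := pn_t31o_confI Γ R hU
  obtain ⟨C, -, hC⟩ := pn_t31r_gVar_le Γ K N Rb c 1 hc one_pos Tb 0
  refine ⟨C, fun k => ?_⟩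
  have h := hC (g k) (ν' k) (hg.2 k).1 (hg.2 k).2 (R k) (hR k) (pn_t31r_conf_of_confI Γ (hU' k)) (t k) (fun _ => 0) (ht k)
    (by unfold C3.dirT; simp [C2.gd])
  have e2 : Γ.cellTest (g k) (t k) + gRow Γ (g k) (fun _ => 0) = Γ.cellTest (g k) (t k) := by
    have e3 : gRow Γ (g k) (fun _ => 0) = 0 := by
      funext v
      unfold gRow HLaw.gradRow amb domFn
      simp
    rw [e3, add_zero]
  rw [e2] at h
  exact h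

/-- the partition sum without additional pins -/
theorem pn_t31o_zP {G : HGraph} (H : HLaw G) (hP : H.Proper) (β : ℝ) : T32.zP H β ∅ = (H.sys β).w 0 := by
  unfold T32.zP
  rw [T32.pn_addPin_empty, HLaw.Z_eq_w H hP]
  congr 1
  unfold HLaw.Aff.amb HLaw.Aff.zero
  simp only [map_zero, zero_add]
  refine Prod.ext rfl (funext fun o => ?_)
  show -(0 : ℝ) = 0
  exact neg_zero

/-- **`T32.pn_in_rows`** verbatim -/
theorem pn_t31o_rows (hS : Scen a b ν) (Γ : CGeom m₁ m₂) (hΓ : Γ.NoDiag) (K : ℕ) (g : ℕ → DGrid m₁ m₂) (ν' : ℕ → ℕ) (hg : Admissible K g ν') (hc : Comp ν ν')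
    {N N₂ : ℕ} (R : ℕ → Fin N → Cell m₁ m₂ → ℝ) (hR : ∃ C : ℝ, ∀ k o κ, |R k o κ| ≤ C) (hU : UConf Γ R)
    (R₂ : ℕ → Fin N₂ → Cell m₁ m₂ → ℝ) (hR₂ : ∃ C : ℝ, ∀ k o κ, |R₂ k o κ| ≤ C) (hU₂ : UConf Γ R₂) :
    Tendsto (fun k => Real.log (T32.zP (lawR Γ (g k) (R k)) (b k) ∅ / T32.zP (lawR Γ (g k) (R₂ k)) (b k) ∅)
      - Real.log (gZ (lawR Γ (g k) (R k)) a (Γ.sites (g k) Γ.pin) 0 (fun _ => 1)
          / gZ (lawR Γ (g k) (R₂ k)) a (Γ.sites (g k) Γ.pin) 0 fun _ => 1)) atTop (𝓝 0) := by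
  have hS' := pn_t31_scen_comp hS hc
  obtain ⟨c, hc0, hI⟩ := pn_t31o_confI Γ R hU
  obtain ⟨c₂, hc₂, hI₂⟩ := pn_t31o_confI Γ R₂ hU₂
  have h1 := fun k => pn_t31_moving_ok hS' Γ g R hc0 hI k
  have h2 := fun k => pn_t31_moving_ok hS' Γ g R₂ hc₂ hI₂ k
  have h := pn_t31_moving_rows hS' Γ hΓ K g hg R R₂ hR hR₂ ⟨c, hc0, fun k => pn_t31r_conf_of_confI Γ (hI k)⟩
    ⟨c₂, hc₂, fun k => pn_t31r_conf_of_confI Γ (hI₂ k)⟩ (fun k => (h1 k).1) (fun k => (h1 k).2) (fun k => (h2 k).1) (fun k => (h2 k).2)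
  refine h.congr fun k => ?_
  rw [pn_t31o_zP _ (h1 k).2, pn_t31o_zP _ (h2 k).2]

end

end Claimed.Agent.R285.Pins
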