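import Claimed.Agent.R285.Pins.T31Scn
import Claimed.Agent.R285.Sec.Trace
import Claimed.Agent.R285.Pot.LinPin

/-!
# ROW 285, PINS, package T31 (architect helper217).  FILE 5: UNIFORM BOUNDS ON THE GAUSSIAN REFERENCES (confinement).   PAPER-FREE.     Plan of the package: header of `Pins/T31Geo.lean`.

All constants are uniform in the mesh.  Only input: `Sec.avg_adjacent` (`S23`-vocabulary: `cellAvg`, `enB`; PROVED in `Sec/Trace.lean`), the `pl_*` API of `Pot/LinVar.lean`, `Pot/LinDual.lean`, `Pot/LinPin.lean`.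
Every `sorry` is a LEAF (`L-T31R-*`, name in the docstring); statements frozen (tell helper217 at once if one looks false or awkward); prove IN PLACE, helpers directly above, prefix `pn_t31r_<leaf>_`.
-/

set_option autoImplicit false

namespace Claimed.Agent.R285.Pins

open Filter Topology MeasureTheory Pot
open scoped Classical

noncomputable section

variable {m₁ m₂ : ℕ}

/-! ## 1. Confinement -/

/-- cell functions which are constant on the components and vanish on the components with a pinned cell -/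
def CConst (Γ : CGeom m₁ m₂) (s : C3.Cell m₁ m₂ → ℝ) : Prop :=
  (∀ κ κ', Γ.Adj κ κ' → s κ = s κ') ∧ ∀ κ ∈ Γ.pin, κ ∈ Γ.T → s κ = 0

/-- the rows `R` confine the released constants with constant `c`, MODULO the constants which no row sees -/
def Conf1 (Γ : CGeom m₁ m₂) (c : ℝ) {N : ℕ} (R : Fin N → C3.Cell m₁ m₂ → ℝ) : Prop :=
  ∀ s, CConst Γ s → ∃ s', CConst Γ s' ∧ (∀ o, ∑ κ ∈ Γ.T, R o κ * s' κ = 0) ∧
    c * ∑ κ ∈ Γ.T, (s κ - s' κ) ^ 2 ≤ ∑ o, (∑ κ ∈ Γ.T, R o κ * s κ) ^ 2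

/-- the rows `R` confine ALL released constants with constant `c` -/
def ConfI (Γ : CGeom m₁ m₂) (c : ℝ) {N : ℕ} (R : Fin N → C3.Cell m₁ m₂ → ℝ) : Prop :=
  ∀ s, CConst Γ s → c * ∑ κ ∈ Γ.T, s κ ^ 2 ≤ ∑ o, (∑ κ ∈ Γ.T, R o κ * s κ) ^ 2

/-- uniform confinement of moving rows -/
def UConf1 (Γ : CGeom m₁ m₂) {N : ℕ} (R : ℕ → Fin N → C3.Cell m₁ m₂ → ℝ) : Prop := ∃ c : ℝ, 0 < c ∧ ∀ k, Conf1 Γ c (R k)

theorem pn_t31r_cconst_zero (Γ : CGeom m₁ m₂) : CConst Γ 0 := ⟨fun _ _ _ => rfl, fun _ _ _ => rfl⟩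

theorem pn_t31r_conf_of_confI (Γ : CGeom m₁ m₂) {c : ℝ} {N : ℕ} {R : Fin N → C3.Cell m₁ m₂ → ℝ} (h : ConfI Γ c R) : Conf1 Γ c R :=
  fun s hs => ⟨0, pn_t31r_cconst_zero Γ, fun o => by simp, by simpa using h s hs⟩

/-- no row -/
theorem pn_t31r_conf_zero (Γ : CGeom m₁ m₂) (c : ℝ) (R : Fin 0 → C3.Cell m₁ m₂ → ℝ) : Conf1 Γ c R :=
  fun s hs => ⟨s, hs, fun o => o.elim0, by simp⟩

/-- abstract form: a linear map on a subspace of a finite dimensional function space is bounded below modulo its kernel -/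
theorem pn_t31r_U_abs {ι : Type} [Fintype ι] {N : ℕ} (V : Submodule ℝ (ι → ℝ)) (M : (ι → ℝ) →ₗ[ℝ] (Fin N → ℝ)) (T : Finset ι) :
    ∃ c : ℝ, 0 < c ∧ ∀ s ∈ V, ∃ s' ∈ V, M s' = 0 ∧ c * ∑ κ ∈ T, (s κ - s' κ) ^ 2 ≤ ∑ o, (M s o) ^ 2 := by
  obtain ⟨W0, hW⟩ := Submodule.exists_isCompl (V ⊓ LinearMap.ker M)
  set W : Submodule ℝ (ι → ℝ) := V ⊓ W0 with hWdef
  set f : W →ₗ[ℝ] (Fin N → ℝ) := M.domRestrict W with hf
  have hker : LinearMap.ker f = ⊥ := by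
    rw [LinearMap.ker_eq_bot']
    intro w hw
    have h1 : (w : ι → ℝ) ∈ LinearMap.ker M := by
      rw [LinearMap.mem_ker]
      exact hw
    have h2 : (w : ι → ℝ) ∈ (V ⊓ LinearMap.ker M) ⊓ W0 := ⟨⟨w.2.1, h1⟩, w.2.2⟩
    rw [hW.inf_eq_bot] at h2
    exact Subtype.ext ((Submodule.mem_bot ℝ).1 h2)
  obtain ⟨K, hK0, hK⟩ := LinearMap.exists_antilipschitzWith f hker
  have hKpos : (0 : ℝ) < K := by exact_mod_cast hK0
  refine ⟨1 / (((T.card : ℝ) + 1) * (K : ℝ) ^ 2), by positivity, fun s hs => ?_⟩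
  -- decompose
  have htop : s ∈ (V ⊓ LinearMap.ker M) ⊔ W0 := by
    rw [hW.sup_eq_top]
    exact Submodule.mem_top
  obtain ⟨k, hk, w, hw0, hkw⟩ := Submodule.mem_sup.1 htop
  have hk0 : M k = 0 := LinearMap.mem_ker.1 hk.2
  have hwV : w ∈ V := by
    have : w = s - k := by rw [← hkw]; abel
    rw [this]
    exact V.sub_mem hs hk.1
  have hw : w ∈ W := ⟨hwV, hw0⟩
  refine ⟨k, hk.1, hk0, ?_⟩
  have hsw : ∀ κ, s κ - k κ = w κ := by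
    intro κ
    have h2 := congrFun hkw κ
    simp only [Pi.add_apply] at h2
    linarith
  have hMs : M s = M w := by
    rw [← hkw, map_add, hk0, zero_add]
  -- the bound
  have hanti : ‖(⟨w, hw⟩ : W)‖ ≤ K * ‖f ⟨w, hw⟩‖ := by
    have := hK.le_mul_dist ⟨w, hw⟩ 0
    simpa [dist_zero_right] using this
  have hfw : f ⟨w, hw⟩ = M w := rfl
  have hnw : ‖(⟨w, hw⟩ : W)‖ = ‖w‖ := rfl
  set S : ℝ := ∑ o, (M w o) ^ 2 with hS
  have hS0 : 0 ≤ S := Finset.sum_nonneg fun o _ => sq_nonneg _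
  have hMn : ‖M w‖ ≤ Real.sqrt S := by
    rw [pi_norm_le_iff_of_nonneg (Real.sqrt_nonneg _)]
    intro o
    rw [Real.norm_eq_abs]
    apply Real.abs_le_sqrt
    exact Finset.single_le_sum (f := fun o => (M w o) ^ 2) (fun o _ => sq_nonneg _) (Finset.mem_univ o)
  have hw2 : ‖w‖ ^ 2 ≤ (K : ℝ) ^ 2 * S := by
    have h1 : ‖w‖ ≤ K * Real.sqrt S := by
      rw [← hnw]
      refine hanti.trans ?_
      rw [hfw]
      exact mul_le_mul_of_nonneg_left hMn hKpos.le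
    calc ‖w‖ ^ 2 ≤ (K * Real.sqrt S) ^ 2 := by
          exact pow_le_pow_left₀ (norm_nonneg _) h1 2
      _ = (K : ℝ) ^ 2 * S := by rw [mul_pow, Real.sq_sqrt hS0]
  have hsum : ∑ κ ∈ T, (s κ - k κ) ^ 2 ≤ (T.card : ℝ) * ‖w‖ ^ 2 := by
    have : ∀ κ ∈ T, (s κ - k κ) ^ 2 ≤ ‖w‖ ^ 2 := by
      intro κ _
      rw [hsw κ, ← sq_abs]
      exact pow_le_pow_left₀ (abs_nonneg _) (by simpa using norm_le_pi_norm w κ) 2
    have := Finset.sum_le_card_nsmul T _ _ this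
    simpa [nsmul_eq_mul] using this
  rw [hMs]
  have hden : 0 < ((T.card : ℝ) + 1) * (K : ℝ) ^ 2 := by positivity
  rw [div_mul_eq_mul_div, one_mul, div_le_iff₀ hden]
  have hn0 : 0 ≤ ‖w‖ ^ 2 := sq_nonneg _
  calc ∑ κ ∈ T, (s κ - k κ) ^ 2 ≤ (T.card : ℝ) * ‖w‖ ^ 2 := hsum
    _ ≤ ((T.card : ℝ) + 1) * ((K : ℝ) ^ 2 * S) := by
        apply mul_le_mul (by linarith) hw2 hn0 (by positivity)
    _ = S * (((T.card : ℝ) + 1) * (K : ℝ) ^ 2) := by ring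

/-- **L-T31R-U** (~250 l., finite dimensional linear algebra).  FIXED rows confine uniformly.   `V = {s | CConst Γ s}` is a subspace of `Cell → ℝ`, `M : V → (Fin N → ℝ)` linear.  Take a complement `W` of `ker M` in `V`
(`Submodule.exists_isCompl`); `M` is injective on `W`, so `‖w‖ ≤ C ‖M w‖` (`LinearMap.exists_antilipschitzWith` / `LinearEquiv.toContinuousLinearEquiv` of `W ≃ range`); norms on finite dimensional spaces: compare the sup norm with `∑ (·)²` by hand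
(`Finset.sum_le_card_nsmul`, `norm_le_pi_norm`).   `s = w + s'`, `s' ∈ ker M`. -/
theorem pn_t31r_uconf_fixed (Γ : CGeom m₁ m₂) {N : ℕ} (row : Fin N → C3.Cell m₁ m₂ → ℝ) : UConf1 Γ fun _ => row := by
  let V : Submodule ℝ (C3.Cell m₁ m₂ → ℝ) :=
    { carrier := {s | CConst Γ s}
      add_mem' := by
        intro a b ha hb
        refine ⟨fun κ κ' h => ?_, fun κ h1 h2 => ?_⟩
        · simp only [Pi.add_apply, ha.1 κ κ' h, hb.1 κ κ' h]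
        · simp only [Pi.add_apply, ha.2 κ h1 h2, hb.2 κ h1 h2, add_zero]
      zero_mem' := pn_t31r_cconst_zero Γ
      smul_mem' := by
        intro c a ha
        refine ⟨fun κ κ' h => ?_, fun κ h1 h2 => ?_⟩
        · simp only [Pi.smul_apply, ha.1 κ κ' h]
        · simp only [Pi.smul_apply, ha.2 κ h1 h2, smul_zero] }
  let M : (C3.Cell m₁ m₂ → ℝ) →ₗ[ℝ] (Fin N → ℝ) :=
    { toFun := fun s o => ∑ κ ∈ Γ.T, row o κ * s κ
      map_add' := by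
        intro a b
        funext o
        simp only [Pi.add_apply, mul_add, Finset.sum_add_distrib]
      map_smul' := by
        intro c a
        funext o
        simp only [Pi.smul_apply, smul_eq_mul, RingHom.id_apply, Finset.mul_sum]
        exact Finset.sum_congr rfl fun κ _ => by ring }
  obtain ⟨c, hc, h⟩ := pn_t31r_U_abs V M Γ.T
  refine ⟨c, hc, fun _ s hs => ?_⟩
  obtain ⟨s', hs', h0, hle⟩ := h s hs
  exact ⟨s', hs', fun o => congrFun h0 o, hle⟩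

/-! ## 2. Cellwise constant fields -/

/-- the field which takes the value `s κ` on the cell `κ` -/
def cellFn (Γ : CGeom m₁ m₂) (g : DGrid m₁ m₂) (s : C3.Cell m₁ m₂ → ℝ) : (Γ.graph g).V → ℝ :=
  fun v => ∑ κ ∈ Γ.T, if v ∈ Γ.sites g {κ} then s κ else 0

theorem pn_t31r_F_mem_sites (Γ : CGeom m₁ m₂) (g : DGrid m₁ m₂) (A : Finset (C3.Cell m₁ m₂)) (v : (Γ.graph g).V) :
    v ∈ Γ.sites g A ↔ vpos Γ g v ∈ g.region A := Iff.rfl

theorem pn_t31r_F_mem_site1 (Γ : CGeom m₁ m₂) (g : DGrid m₁ m₂) (κ : C3.Cell m₁ m₂) (v : (Γ.graph g).V) :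
    v ∈ Γ.sites g {κ} ↔ vpos Γ g v ∈ g.cell κ := by
  rw [pn_t31r_F_mem_sites, ro_mem_region]
  simp

theorem pn_t31r_F_ex_cell (Γ : CGeom m₁ m₂) (g : DGrid m₁ m₂) (v : (Γ.graph g).V) : ∃ κ ∈ Γ.T, v ∈ Γ.sites g {κ} := by
  have hv : vpos Γ g v ∈ g.region Γ.T := v.2
  obtain ⟨κ, hκ, h⟩ := (ro_mem_region g Γ.T _).1 hv
  exact ⟨κ, hκ, (pn_t31r_F_mem_site1 Γ g κ v).2 h⟩

theorem pn_t31r_F_cellFn_apply (Γ : CGeom m₁ m₂) (g : DGrid m₁ m₂) (s : C3.Cell m₁ m₂ → ℝ) {κ : C3.Cell m₁ m₂} (hκ : κ ∈ Γ.T)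
    {v : (Γ.graph g).V} (hv : v ∈ Γ.sites g {κ}) : cellFn Γ g s v = s κ := by
  unfold cellFn
  rw [Finset.sum_eq_single κ, if_pos hv]
  · intro κ' _ hne
    rw [if_neg]
    intro hv'
    rw [pn_t31r_F_mem_site1] at hv hv'
    exact hne (ro_cell_unique' g hv' hv)
  · intro h
    exact absurd hκ h

theorem pn_t31r_F_conn (Γ : CGeom m₁ m₂) {s : C3.Cell m₁ m₂ → ℝ} (hs : CConst Γ s) {κ κ' : C3.Cell m₁ m₂} (h : Γ.Conn κ κ') : s κ = s κ' := by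
  induction h with
  | refl => rfl
  | tail _ hbc ih => exact ih.trans (hs.1 _ _ hbc)

theorem pn_t31r_F_card (Γ : CGeom m₁ m₂) (g : DGrid m₁ m₂) {κ : C3.Cell m₁ m₂} (hκ : κ ∈ Γ.T) :
    (Finset.univ.filter fun x : (Γ.graph g).V => x ∈ Γ.sites g {κ}).card = (g.cell κ).card := by
  refine Finset.card_bij (fun x _ => vpos Γ g x) ?_ ?_ ?_
  · intro x hx
    exact (pn_t31r_F_mem_site1 Γ g κ x).1 (Finset.mem_filter.1 hx).2
  · intro x _ y _ hxy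
    exact Subtype.ext hxy
  · intro y hy
    refine ⟨vmk Γ g y ((ro_mem_region g Γ.T y).2 ⟨κ, hκ, hy⟩), ?_, rfl⟩
    rw [Finset.mem_filter]
    exact ⟨Finset.mem_univ _, (pn_t31r_F_mem_site1 Γ g κ _).2 hy⟩

theorem pn_t31r_F_cell_card_pos (g : DGrid m₁ m₂) (κ : C3.Cell m₁ m₂) : 0 < (g.cell κ).card :=
  Finset.card_pos.2 ⟨_, pn_t31s_corner_mem g κ⟩

/-- **L-T31R-F** (~250 l. for the block of six).  `rspan` of a pinned lattice = the fields vanishing on the pins (`pl_mem_rspan_pin`, `pl_law_eq_pin`); every vertex lies in exactly one cell of `Γ.T` (`Pot.ro_cell_unique`);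
a bond of `Γ` joins two sites of one cell or of two cells with `Γ.Adj`. -/
theorem pn_t31r_avg_off (Γ : CGeom m₁ m₂) (g : DGrid m₁ m₂) {κ : C3.Cell m₁ m₂} (hκ : κ ∉ Γ.T) : Γ.avgRow g {κ} = 0 := by
  funext v
  have e : ({κ} : Finset (C3.Cell m₁ m₂)) ∩ Γ.T = ∅ := Finset.singleton_inter_of_notMem hκ
  unfold CGeom.avgRow
  rw [e]
  simp [DGrid.region]

theorem pn_t31r_cellFn_mem (Γ : CGeom m₁ m₂) (g : DGrid m₁ m₂) {N : ℕ} (R : Fin N → C3.Cell m₁ m₂ → ℝ) {s : C3.Cell m₁ m₂ → ℝ} (hs : CConst Γ s) :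
    cellFn Γ g s ∈ (C3.lawR Γ g R).rspan := by
  refine (pl_mem_rspan_pin (C3.lawR Γ g R) (Γ.sites g Γ.pin) (cellFn Γ g s)).2 ?_
  intro x hx
  obtain ⟨κ, hκ, hxκ⟩ := pn_t31r_F_ex_cell Γ g x
  rw [pn_t31r_F_cellFn_apply Γ g s hκ hxκ]
  rw [pn_t31r_F_mem_sites, ro_mem_region] at hx
  obtain ⟨κ', hκ', hx'⟩ := hx
  rw [pn_t31r_F_mem_site1] at hxκ
  obtain rfl := ro_cell_unique' g hxκ hx'
  exact hs.2 κ hκ' hκ

theorem pn_t31r_cellFn_grad (Γ : CGeom m₁ m₂) (g : DGrid m₁ m₂) {s : C3.Cell m₁ m₂ → ℝ} (hs : CConst Γ s) (e : (Γ.graph g).E) :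
    plGrad (cellFn Γ g s) e = 0 := by
  unfold plGrad
  obtain ⟨κ, hκ, h1⟩ := pn_t31r_F_ex_cell Γ g ((Γ.graph g).src e)
  obtain ⟨κ', hκ', h2⟩ := pn_t31r_F_ex_cell Γ g ((Γ.graph g).tgt e)
  rw [pn_t31r_F_cellFn_apply Γ g s hκ h1, pn_t31r_F_cellFn_apply Γ g s hκ' h2]
  rw [pn_t31r_F_mem_site1] at h1 h2
  have hc : Γ.Conn κ κ' := pn_t31g_C2_conn Γ g (e := e.1) e.2 h1 h2
  rw [pn_t31r_F_conn Γ hs hc, sub_self]

theorem pn_t31r_cellFn_avg (Γ : CGeom m₁ m₂) (g : DGrid m₁ m₂) (s : C3.Cell m₁ m₂ → ℝ) {κ : C3.Cell m₁ m₂} (hκ : κ ∈ Γ.T) :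
    HLaw.pair (Γ.avgRow g {κ}) (cellFn Γ g s) = s κ := by
  have e : ({κ} : Finset (C3.Cell m₁ m₂)) ∩ Γ.T = {κ} := Finset.inter_eq_left.2 (Finset.singleton_subset_iff.2 hκ)
  have e2 : g.region ({κ} : Finset (C3.Cell m₁ m₂)) = g.cell κ := by simp [DGrid.region]
  unfold HLaw.pair CGeom.avgRow
  rw [e, e2]
  have h1 : ∀ x : (Γ.graph g).V, (if x ∈ Γ.sites g {κ} then ((g.cell κ).card : ℝ)⁻¹ else 0) * cellFn Γ g s x
      = if x ∈ Γ.sites g {κ} then ((g.cell κ).card : ℝ)⁻¹ * s κ else 0 := by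
    intro x
    by_cases hx : x ∈ Γ.sites g {κ}
    · rw [if_pos hx, if_pos hx, pn_t31r_F_cellFn_apply Γ g s hκ hx]
    · rw [if_neg hx, if_neg hx, zero_mul]
  rw [Finset.sum_congr rfl fun x _ => h1 x, ← Finset.sum_filter, Finset.sum_const, pn_t31r_F_card Γ g hκ, nsmul_eq_mul, ← mul_assoc,
    mul_inv_cancel₀ (by exact_mod_cast (pn_t31r_F_cell_card_pos g κ).ne'), one_mul]

theorem pn_t31r_F_comb (Γ : CGeom m₁ m₂) (g : DGrid m₁ m₂) (t : C3.Cell m₁ m₂ → ℝ) (v : (Γ.graph g).V → ℝ) :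
    ∑ x, (∑ κ, t κ * Γ.avgRow g {κ} x) * v x = ∑ κ ∈ Γ.T, t κ * HLaw.pair (Γ.avgRow g {κ}) v := by
  have h1 : ∑ x, (∑ κ, t κ * Γ.avgRow g {κ} x) * v x = ∑ κ, t κ * HLaw.pair (Γ.avgRow g {κ}) v := by
    unfold HLaw.pair
    simp only [Finset.sum_mul, Finset.mul_sum]
    rw [Finset.sum_comm]
    refine Finset.sum_congr rfl fun κ _ => Finset.sum_congr rfl fun x _ => ?_
    ring
  rw [h1]
  symm
  refine Finset.sum_subset (Finset.subset_univ _) ?_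
  intro κ _ hκ
  rw [pn_t31r_avg_off Γ g hκ]
  simp [HLaw.pair]

theorem pn_t31r_cellFn_obs (Γ : CGeom m₁ m₂) (g : DGrid m₁ m₂) {N : ℕ} (R : Fin N → C3.Cell m₁ m₂ → ℝ) (s : C3.Cell m₁ m₂ → ℝ) (o : Fin N) :
    (C3.lawR Γ g R).obs (cellFn Γ g s) o = ∑ κ ∈ Γ.T, R o κ * s κ := by
  rw [show (C3.lawR Γ g R).obs (cellFn Γ g s) o = ∑ κ ∈ Γ.T, R o κ * HLaw.pair (Γ.avgRow g {κ}) (cellFn Γ g s) from
    pn_t31r_F_comb Γ g (R o) (cellFn Γ g s)]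
  exact Finset.sum_congr rfl fun κ hκ => by rw [pn_t31r_cellFn_avg Γ g s hκ]

/-- the rows and the cell tests only see the cell averages -/
theorem pn_t31r_obs_eq (Γ : CGeom m₁ m₂) (g : DGrid m₁ m₂) {N : ℕ} (R : Fin N → C3.Cell m₁ m₂ → ℝ) (v : (Γ.graph g).V → ℝ) (o : Fin N) :
    (C3.lawR Γ g R).obs v o = ∑ κ ∈ Γ.T, R o κ * HLaw.pair (Γ.avgRow g {κ}) v :=
  pn_t31r_F_comb Γ g (R o) v

theorem pn_t31r_cellTest_pair (Γ : CGeom m₁ m₂) (g : DGrid m₁ m₂) (t : C3.Cell m₁ m₂ → ℝ) (v : (Γ.graph g).V → ℝ) :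
    HLaw.pair (Γ.cellTest g t) v = ∑ κ ∈ Γ.T, t κ * HLaw.pair (Γ.avgRow g {κ}) v :=
  pn_t31r_F_comb Γ g t v

/-- membership in the sites of one cell -/
theorem pn_t31r_Z_mem (Γ : CGeom m₁ m₂) (g : DGrid m₁ m₂) (κ : C3.Cell m₁ m₂) (x : (Γ.graph g).V) :
    x ∈ Γ.sites g {κ} ↔ domPos (D := g.region Γ.T) (cut := Γ.cutB g) x ∈ g.cell κ := by
  show domPos (D := g.region Γ.T) (cut := Γ.cutB g) x ∈ (↑(g.region {κ}) : Set (ℤ × ℤ)) ↔ _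
  rw [Finset.mem_coe, DGrid.region, Finset.singleton_biUnion]

/-- every vertex lies in a cell of the geometry -/
theorem pn_t31r_Z_cell (Γ : CGeom m₁ m₂) (g : DGrid m₁ m₂) (x : (Γ.graph g).V) : ∃ κ ∈ Γ.T, x ∈ Γ.sites g {κ} := by
  have hx : domPos (D := g.region Γ.T) (cut := Γ.cutB g) x ∈ g.region Γ.T := Subtype.property (p := fun v => v ∈ g.region Γ.T) x
  obtain ⟨κ, hκ, h⟩ := Finset.mem_biUnion.1 hx
  exact ⟨κ, hκ, (pn_t31r_Z_mem Γ g κ x).2 h⟩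

/-- the fields of the real span vanish on the pins -/
theorem pn_t31r_Z_pin (Γ : CGeom m₁ m₂) (g : DGrid m₁ m₂) {N : ℕ} (R : Fin N → C3.Cell m₁ m₂ → ℝ) {v : (Γ.graph g).V → ℝ}
    (hv : v ∈ (C3.lawR Γ g R).rspan) : ∀ x ∈ Γ.sites g Γ.pin, v x = 0 := by
  let W : Submodule ℝ ((Γ.graph g).V → ℝ) :=
    { carrier := {v | ∀ x ∈ Γ.sites g Γ.pin, v x = 0}
      zero_mem' := fun _ _ => rfl
      add_mem' := fun {u v} hu hv x hx => by simp [hu x hx, hv x hx]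
      smul_mem' := fun t v hv x hx => by simp [hv x hx] }
  have hle : (C3.lawR Γ g R).rspan ≤ W := by
    refine Submodule.span_le.2 ?_
    rintro _ ⟨h, hh, rfl⟩ x hx
    have : h x = 0 := hh x hx
    simp [this]
  exact hle hv

/-- **L-T31R-Z** (~120 l.).  A field without gradient is cellwise constant (`pn_t31s_const`), with `CConst` values if it vanishes on the pins. -/
theorem pn_t31r_null (Γ : CGeom m₁ m₂) (g : DGrid m₁ m₂) {N : ℕ} (R : Fin N → C3.Cell m₁ m₂ → ℝ) (v : (Γ.graph g).V → ℝ)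
    (hv : v ∈ (C3.lawR Γ g R).rspan) (h0 : ∀ e, plGrad v e = 0) : ∃ s, CConst Γ s ∧ v = cellFn Γ g s := by
  have hv0 := pn_t31r_Z_pin Γ g R hv
  have hh : ∀ e, v ((Γ.graph g).tgt e) = v ((Γ.graph g).src e) := fun e => by
    have := h0 e
    simp only [plGrad] at this
    linarith
  have hcv : ∀ κ (hκ : κ ∈ Γ.T), vmk Γ g (cornerOf g κ) (pn_t31s_corner_region g hκ) ∈ Γ.sites g {κ} :=
    fun κ hκ => (pn_t31r_Z_mem Γ g κ _).2 (pn_t31s_corner_mem g κ)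
  refine ⟨fun κ => if hκ : κ ∈ Γ.T then v (vmk Γ g (cornerOf g κ) (pn_t31s_corner_region g hκ)) else 0, ⟨?_, ?_⟩, ?_⟩
  · intro κ κ' hadj
    simp only [dif_pos hadj.1, dif_pos hadj.2.1]
    exact pn_t31s_const Γ g v hh (Relation.ReflTransGen.single hadj) (hcv κ hadj.1) (hcv κ' hadj.2.1)
  · intro κ hp hT
    simp only [dif_pos hT]
    apply hv0
    show domPos (D := g.region Γ.T) (cut := Γ.cutB g) _ ∈ (↑(g.region Γ.pin) : Set (ℤ × ℤ))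
    exact Finset.mem_coe.2 (pn_t31s_corner_region g hp)
  · funext x
    obtain ⟨κ, hκ, hx⟩ := pn_t31r_Z_cell Γ g x
    unfold cellFn
    rw [Finset.sum_eq_single κ]
    · rw [if_pos hx]
      simp only [dif_pos hκ]
      exact pn_t31s_const Γ g v hh Relation.ReflTransGen.refl hx (hcv κ hκ)
    · intro κ' _ hne
      rw [if_neg]
      intro hx'
      exact hne (ro_cell_unique g ((pn_t31r_Z_mem Γ g κ' x).1 hx') ((pn_t31r_Z_mem Γ g κ x).1 hx))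
    · intro h
      exact absurd hκ h

/-! ## 3. Poincare on the cell graph -/

theorem pn_t31r_chain_walk {α : Type} (G : SimpleGraph α) (d : α → ℝ) (ρ : ℝ) (h : ∀ a b, G.Adj a b → |d a - d b| ≤ ρ) :
    ∀ {a b : α} (p : G.Walk a b), |d a - d b| ≤ p.length * ρ := by
  intro a b p
  induction p with
  | nil => simp
  | @cons u w x hadj p ih =>
    have h1 := h _ _ hadj
    have h2 : |d u - d x| ≤ |d u - d w| + |d w - d x| := abs_sub_le _ _ _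
    rw [SimpleGraph.Walk.length_cons]
    push_cast
    linarith

theorem pn_t31r_chain_fin {α : Type} [Fintype α] (r : α → α → Prop) (d : α → ℝ) (ρ : ℝ) (hρ : 0 ≤ ρ)
    (h : ∀ a b, r a b → |d a - d b| ≤ ρ) {a b : α} (hab : Relation.ReflTransGen r a b) :
    |d a - d b| ≤ (Fintype.card α : ℝ) * ρ := by
  have hG : ∀ a b, (SimpleGraph.fromRel r).Adj a b → |d a - d b| ≤ ρ := by
    intro a b hadj
    rw [SimpleGraph.fromRel_adj] at hadj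
    rcases hadj.2 with h1 | h1
    · exact h _ _ h1
    · rw [abs_sub_comm]; exact h _ _ h1
  have hre : (SimpleGraph.fromRel r).Reachable a b := by
    induction hab with
    | refl => exact SimpleGraph.Reachable.refl _
    | @tail x y _ hxy ih =>
      by_cases hne : x = y
      · rw [← hne]; exact ih
      · exact ih.trans (SimpleGraph.Adj.reachable ((SimpleGraph.fromRel_adj r x y).2 ⟨hne, Or.inl hxy⟩))
  obtain ⟨p⟩ := hre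
  have h1 := pn_t31r_chain_walk _ d ρ hG (p.toPath : (SimpleGraph.fromRel r).Walk a b)
  have h2 : ((p.toPath : (SimpleGraph.fromRel r).Walk a b).length : ℝ) ≤ Fintype.card α := by
    exact_mod_cast (p.toPath.2.length_lt).le
  exact h1.trans (mul_le_mul_of_nonneg_right h2 hρ)

theorem pn_t31r_chain_ext (Γ : CGeom m₁ m₂) (g : DGrid m₁ m₂) (v : (Γ.graph g).V → ℝ) :
    ∃ φ : ℤ × ℤ → ℝ, S23.onV Γ g φ = v := by
  refine ⟨fun x => if h : x ∈ g.region Γ.T then v ⟨x, h⟩ else 0, ?_⟩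
  funext x
  obtain ⟨x, hx⟩ := x
  show (if h : x ∈ g.region Γ.T then v ⟨x, h⟩ else 0) = _
  rw [dif_pos hx]

theorem pn_t31r_chain_avg (Γ : CGeom m₁ m₂) (g : DGrid m₁ m₂) (φ : ℤ × ℤ → ℝ) {κ : C3.Cell m₁ m₂} (hκ : κ ∈ Γ.T) :
    HLaw.pair (Γ.avgRow g {κ}) (S23.onV Γ g φ) = Sec.cellAvg g κ φ := by
  have hB : ∀ x : (Γ.graph g).V, Γ.avgRow g {κ} x * S23.onV Γ g φ x
      = (fun y : ℤ × ℤ => (if y ∈ g.cell κ then ((g.cell κ).card : ℝ)⁻¹ else 0) * φ y)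
        (domPos (D := g.region Γ.T) (cut := Γ.cutB g) x) := by
    intro x
    have h2 : g.region ({κ} ∩ Γ.T) = g.cell κ := by
      rw [Finset.singleton_inter_of_mem hκ]
      exact Finset.singleton_biUnion
    have h3 : g.region {κ} = g.cell κ := Finset.singleton_biUnion
    unfold CGeom.avgRow
    rw [h2]
    have h4 : x ∈ Γ.sites g {κ} ↔ domPos (D := g.region Γ.T) (cut := Γ.cutB g) x ∈ g.cell κ := by
      rw [← h3]; exact Iff.rfl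
    simp only [h4]
    rfl
  unfold HLaw.pair
  rw [Finset.sum_congr rfl fun x _ => hB x]
  refine (Sec.sec_tr_sum_V Γ g (fun y : ℤ × ℤ => (if y ∈ g.cell κ then ((g.cell κ).card : ℝ)⁻¹ else 0) * φ y)).trans ?_
  simp only [ite_mul, zero_mul]
  rw [← Finset.sum_filter, Finset.filter_mem_eq_inter, Finset.inter_eq_right.2 (Sec.sec_tr_cell_sub_region g hκ), ← Finset.mul_sum]
  rfl

/-- **L-T31R-P** (~250 l.).  `Sec.avg_adjacent K` (constant `4K`) for `φ` = the extension of `v` by zero: `pair (avgRow {κ}) v = S23.cellAvg g κ φ` for `κ ∈ Γ.T`, `HLaw.en v 0 = S23.enB Γ g φ`.   Along `Γ.Conn`: a chain without repetition has at most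
`m₁ m₂` steps; WITHOUT paths: with `r² = 4K en`, `d κ = pair (avgRow {κ}) v`: if `d κ' > d κ + m₁ m₂ r` some window `(d κ + j r, d κ + (j+1) r]`, `j < m₁ m₂`, contains no value `d κ''` (pigeonhole), and `{κ'' | d κ'' ≤ d κ + j r}` is closed under `Γ.Adj`: contradiction.
`C = 4 K (m₁ m₂)²`. -/
theorem pn_t31r_chain (m₁ m₂ K : ℕ) : ∃ C : ℝ, 0 ≤ C ∧ ∀ (Γ : CGeom m₁ m₂) (g : DGrid m₁ m₂) (n : ℕ), 1 ≤ n → g.SideGe n → g.SideLe (K * n) →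
    ∀ κ κ', Γ.Conn κ κ' → ∀ v : (Γ.graph g).V → ℝ,
      (HLaw.pair (Γ.avgRow g {κ}) v - HLaw.pair (Γ.avgRow g {κ'}) v) ^ 2 ≤ C * HLaw.en v 0 := by
  obtain ⟨C₀, hC₀, hadj⟩ := Sec.avg_adjacent K
  refine ⟨((m₁ * m₂ : ℕ) : ℝ) ^ 2 * C₀, by positivity, ?_⟩
  intro Γ g n hn hge hle κ κ' hconn v
  obtain ⟨φ, rfl⟩ := pn_t31r_chain_ext Γ g v
  rw [Sec.sec_tr_en_onV]
  have hen : 0 ≤ S23.enB Γ g φ := Finset.sum_nonneg fun _ _ => sq_nonneg _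
  have hstep : ∀ a b, Γ.Adj a b →
      |HLaw.pair (Γ.avgRow g {a}) (S23.onV Γ g φ) - HLaw.pair (Γ.avgRow g {b}) (S23.onV Γ g φ)| ≤ Real.sqrt (C₀ * S23.enB Γ g φ) := by
    intro a b hab
    obtain ⟨ha, hb, hcase⟩ := hab
    rw [pn_t31r_chain_avg Γ g φ ha, pn_t31r_chain_avg Γ g φ hb]
    apply Real.abs_le_sqrt
    rcases hcase with ⟨h1, h2, h3⟩ | ⟨h1, h2, h3⟩ | ⟨h1, h2, h3⟩ | ⟨h1, h2, h3⟩
    · exact hadj Γ g n hn ⟨hge, hle⟩ (a, true) b (by simp only [S23.FaceNbr, if_true]; exact ⟨h1.symm, h2.symm⟩) h3 ha hb φ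
    · exact hadj Γ g n hn ⟨hge, hle⟩ (a, false) b (by simp only [S23.FaceNbr]; exact ⟨h1.symm, h2.symm⟩) h3 ha hb φ
    · have := hadj Γ g n hn ⟨hge, hle⟩ (b, true) a (by simp only [S23.FaceNbr, if_true]; exact ⟨h1.symm, h2⟩) h3 hb ha φ
      calc _ = (Sec.cellAvg g b φ - Sec.cellAvg g a φ) ^ 2 := by ring
        _ ≤ _ := this
    · have := hadj Γ g n hn ⟨hge, hle⟩ (b, false) a (by simp only [S23.FaceNbr]; exact ⟨h1, h2.symm⟩) h3 hb ha φ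
      calc _ = (Sec.cellAvg g b φ - Sec.cellAvg g a φ) ^ 2 := by ring
        _ ≤ _ := this
  have h := pn_t31r_chain_fin Γ.Adj (fun a => HLaw.pair (Γ.avgRow g {a}) (S23.onV Γ g φ)) _ (Real.sqrt_nonneg _) hstep hconn
  rw [Fintype.card_prod, Fintype.card_fin, Fintype.card_fin] at h
  have h2 := pow_le_pow_left₀ (abs_nonneg _) h 2
  rw [sq_abs, mul_pow, Real.sq_sqrt (by positivity)] at h2
  calc _ ≤ _ := h2
    _ = _ := by ring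

/-- the cell average over a pinned cell vanishes -/
theorem pn_t31r_K_pin (Γ : CGeom m₁ m₂) (g : DGrid m₁ m₂) {N : ℕ} (R : Fin N → C3.Cell m₁ m₂ → ℝ) {v : (Γ.graph g).V → ℝ}
    (hv : v ∈ (C3.lawR Γ g R).rspan) {κ : C3.Cell m₁ m₂} (hκ : κ ∈ Γ.pin) : HLaw.pair (Γ.avgRow g {κ}) v = 0 := by
  have hv0 := pn_t31r_Z_pin Γ g R hv
  unfold HLaw.pair
  refine Finset.sum_eq_zero fun x _ => ?_
  by_cases hx : x ∈ Γ.sites g {κ}
  · have hx' : x ∈ Γ.sites g Γ.pin := by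
      have h1 := (pn_t31r_Z_mem Γ g κ x).1 hx
      show domPos (D := g.region Γ.T) (cut := Γ.cutB g) x ∈ (↑(g.region Γ.pin) : Set (ℤ × ℤ))
      exact Finset.mem_coe.2 (Finset.mem_biUnion.2 ⟨κ, hκ, h1⟩)
    rw [hv0 x hx', mul_zero]
  · simp only [CGeom.avgRow, if_neg hx, zero_mul]

/-- connected cells have the same component -/
theorem pn_t31r_K_comp (Γ : CGeom m₁ m₂) {κ κ' : C3.Cell m₁ m₂} (h : Γ.Conn κ κ') : roComp Γ κ = roComp Γ κ' := by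
  ext κ''
  rw [ro_mem_comp, ro_mem_comp]
  exact ⟨fun h1 => ro_cg_conn_trans Γ (ro_cg_conn_symm Γ h) h1, fun h1 => ro_cg_conn_trans Γ h h1⟩

/-- the energy and the rows are bounded by the form -/
theorem pn_t31r_K_form {G : HGraph} (H : HLaw G) {a : ℝ} (ha : 0 < a) (v : G.V → ℝ) :
    HLaw.en v 0 ≤ a * H.form a v ∧ ∑ o, H.obs v o ^ 2 ≤ H.form a v := by
  have h0 : 0 ≤ ∑ o, H.obs v o ^ 2 := Finset.sum_nonneg fun o _ => sq_nonneg _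
  have h1 : 0 ≤ HLaw.en v 0 := Finset.sum_nonneg fun e _ => sq_nonneg _
  have e : a * H.form a v = HLaw.en v 0 + a * ∑ o, H.obs v o ^ 2 := by
    rw [HLaw.form]
    field_simp
  constructor
  · rw [e]
    have := mul_nonneg ha.le h0
    linarith
  · rw [HLaw.form]
    have := mul_nonneg (inv_pos.2 ha).le h1
    linarith

/-- **L-T31R-K** (~300 l.).  **THE KEY BOUND.**   (`n = 0`: then `Γ.T = ∅` by `SideLe`, everything is trivial.)   `d κ = pair (avgRow {κ}) v`.  `s̄ κ := 0` if the component of `κ` has a pinned cell (there `d = 0`: `v` vanishes on the pins), `:= d (rep κ)` otherwise,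
`rep κ` = a representative of `roComp Γ κ` (`Finset.min'` for any linear order, or `Classical.choose`, applied to the FINSET `roComp Γ κ`, which is the same for connected cells).  `CConst Γ s̄`; `(d κ - s̄ κ)² ≤ C₁ en v` (`pn_t31r_chain`).
`hconf s̄` gives `s'`;  `∑_κ R o κ s̄ κ = obs v o - ∑_κ R o κ (d κ - s̄ κ)` (`pn_t31r_obs_eq`), so `∑_o (..)² ≤ 2 ∑_o obs² + 2 N (m₁ m₂)² Rb² C₁ en v`;   `en v 0 ≤ a form`, `∑ obs² ≤ form`;   `(d - s')² ≤ 2 (d - s̄)² + 2 (s̄ - s')²`. -/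
theorem pn_t31r_key (Γ : CGeom m₁ m₂) (K N : ℕ) (Rb c a : ℝ) (hc : 0 < c) (ha : 0 < a) : ∃ C : ℝ, 0 ≤ C ∧
    ∀ (g : DGrid m₁ m₂) (n : ℕ), g.SideGe n → g.SideLe (K * n) → ∀ R : Fin N → C3.Cell m₁ m₂ → ℝ, (∀ o κ, |R o κ| ≤ Rb) → Conf1 Γ c R →
      ∀ v ∈ (C3.lawR Γ g R).rspan, ∃ s' : C3.Cell m₁ m₂ → ℝ, CConst Γ s' ∧ (∀ o, ∑ κ ∈ Γ.T, R o κ * s' κ = 0) ∧
        ∑ κ ∈ Γ.T, (HLaw.pair (Γ.avgRow g {κ}) v - s' κ) ^ 2 ≤ C * (C3.lawR Γ g R).form a v := by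
  obtain ⟨C₁, hC₁, hchain⟩ := pn_t31r_chain m₁ m₂ K
  obtain ⟨t, ht⟩ : ∃ t : ℝ, t = (Γ.T.card : ℝ) := ⟨_, rfl⟩
  have ht0 : 0 ≤ t := by rw [ht]; positivity
  have hC0 : 0 ≤ 2 * t * C₁ * a + 2 / c * (2 + 2 * N * t ^ 2 * Rb ^ 2 * C₁ * a) := by positivity
  refine ⟨2 * t * C₁ * a + 2 / c * (2 + 2 * N * t ^ 2 * Rb ^ 2 * C₁ * a), hC0, ?_⟩
  intro g n hge hle R hR hconf v hv
  have hF0 := pl_form_nonneg (C3.lawR Γ g R) ha v
  by_cases hn : n = 0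
  · -- no cell
    have hno : ∀ κ : C3.Cell m₁ m₂, False := by
      intro κ
      have h1 := hle.1 κ.1
      have h2 : g.x₁ κ.1.castSucc < g.x₁ κ.1.succ := g.mono₁ Fin.castSucc_lt_succ
      rw [hn] at h1
      simp only [mul_zero, Nat.cast_zero] at h1
      omega
    refine ⟨0, pn_t31r_cconst_zero Γ, fun o => Finset.sum_eq_zero fun κ _ => (hno κ).elim, ?_⟩
    rw [Finset.sum_eq_zero fun κ _ => (hno κ).elim]
    exact mul_nonneg hC0 hF0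
  have hn1 : 1 ≤ n := Nat.one_le_iff_ne_zero.2 hn
  obtain ⟨d, hd⟩ : ∃ d : C3.Cell m₁ m₂ → ℝ, d = fun κ => HLaw.pair (Γ.avgRow g {κ}) v := ⟨_, rfl⟩
  have hdκ : ∀ κ, HLaw.pair (Γ.avgRow g {κ}) v = d κ := fun κ => by rw [hd]
  obtain ⟨E, hE⟩ : ∃ E : ℝ, E = HLaw.en v 0 := ⟨_, rfl⟩
  have hch : ∀ κ κ', Γ.Conn κ κ' → (d κ - d κ') ^ 2 ≤ C₁ * E := by
    intro κ κ' h
    rw [hd, hE]
    exact hchain Γ g n hn1 hge hle κ κ' h v
  -- the reference values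
  obtain ⟨F, hF⟩ : ∃ F : Finset (C3.Cell m₁ m₂) → ℝ, F = fun S =>
      if (∃ κ' ∈ S, κ' ∈ Γ.pin ∧ κ' ∈ Γ.T) then 0 else if h : S.Nonempty then d h.choose else 0 := ⟨_, rfl⟩
  obtain ⟨sb, hsb⟩ : ∃ sb : C3.Cell m₁ m₂ → ℝ, sb = fun κ => F (roComp Γ κ) := ⟨_, rfl⟩
  have hself : ∀ κ, κ ∈ roComp Γ κ := fun κ => (ro_mem_comp Γ κ κ).2 Relation.ReflTransGen.refl
  have hcc : CConst Γ sb := by
    constructor
    · intro κ κ' hadj
      rw [hsb]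
      show F (roComp Γ κ) = F (roComp Γ κ')
      rw [pn_t31r_K_comp Γ (Relation.ReflTransGen.single hadj)]
    · intro κ hp hT
      rw [hsb, hF]
      show (if (∃ κ' ∈ roComp Γ κ, κ' ∈ Γ.pin ∧ κ' ∈ Γ.T) then (0 : ℝ) else _) = 0
      rw [if_pos ⟨κ, hself κ, hp, hT⟩]
  have hdist : ∀ κ, (d κ - sb κ) ^ 2 ≤ C₁ * E := by
    intro κ
    rw [hsb, hF]
    show (d κ - (if (∃ κ' ∈ roComp Γ κ, κ' ∈ Γ.pin ∧ κ' ∈ Γ.T) then (0 : ℝ)
      else if h : (roComp Γ κ).Nonempty then d h.choose else 0)) ^ 2 ≤ _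
    by_cases hp : ∃ κ' ∈ roComp Γ κ, κ' ∈ Γ.pin ∧ κ' ∈ Γ.T
    · rw [if_pos hp]
      obtain ⟨κ', h1, h2, _⟩ := hp
      have h3 : d κ' = 0 := by
        rw [hd]
        exact pn_t31r_K_pin Γ g R hv h2
      have := hch κ κ' ((ro_mem_comp Γ κ κ').1 h1)
      rwa [h3] at this
    · rw [if_neg hp]
      have hne : (roComp Γ κ).Nonempty := ⟨κ, hself κ⟩
      rw [dif_pos hne]
      exact hch κ _ ((ro_mem_comp Γ κ _).1 hne.choose_spec)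
  obtain ⟨s', hs', hker, hbd⟩ := hconf sb hcc
  refine ⟨s', hs', hker, ?_⟩
  simp only [hdκ]
  obtain ⟨hen, hobs⟩ := pn_t31r_K_form (C3.lawR Γ g R) ha v
  rw [← hE] at hen
  obtain ⟨Fm, hFm⟩ : ∃ Fm : ℝ, Fm = (C3.lawR Γ g R).form a v := ⟨_, rfl⟩
  rw [← hFm] at hen hobs hF0 ⊢
  have hE0 : 0 ≤ E := by rw [hE]; exact Finset.sum_nonneg fun e _ => sq_nonneg _
  -- the rows on the reference values
  have hrow : ∀ o, (∑ κ ∈ Γ.T, R o κ * sb κ) ^ 2 ≤ 2 * (C3.lawR Γ g R).obs v o ^ 2 + 2 * (t ^ 2 * Rb ^ 2 * C₁ * E) := by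
    intro o
    have e1 : ∑ κ ∈ Γ.T, R o κ * sb κ = (C3.lawR Γ g R).obs v o - ∑ κ ∈ Γ.T, R o κ * (d κ - sb κ) := by
      rw [pn_t31r_obs_eq Γ g R v o, ← Finset.sum_sub_distrib]
      refine Finset.sum_congr rfl fun κ _ => ?_
      rw [hdκ]
      ring
    have e2 : (∑ κ ∈ Γ.T, R o κ * (d κ - sb κ)) ^ 2 ≤ t ^ 2 * Rb ^ 2 * C₁ * E := by
      have h1 := sq_sum_le_card_mul_sum_sq (s := Γ.T) (f := fun κ => R o κ * (d κ - sb κ))
      have h2 : ∑ κ ∈ Γ.T, (R o κ * (d κ - sb κ)) ^ 2 ≤ ∑ _κ ∈ Γ.T, Rb ^ 2 * (C₁ * E) := by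
        refine Finset.sum_le_sum fun κ _ => ?_
        rw [mul_pow]
        have h3 : R o κ ^ 2 ≤ Rb ^ 2 := by
          rw [← sq_abs]
          exact pow_le_pow_left₀ (abs_nonneg _) (hR o κ) 2
        exact mul_le_mul h3 (hdist κ) (sq_nonneg _) (sq_nonneg _)
      rw [Finset.sum_const, nsmul_eq_mul, ← ht] at h2
      rw [← ht] at h1
      calc _ ≤ t * ∑ κ ∈ Γ.T, (R o κ * (d κ - sb κ)) ^ 2 := h1
        _ ≤ t * (t * (Rb ^ 2 * (C₁ * E))) := mul_le_mul_of_nonneg_left h2 ht0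
        _ = _ := by ring
    rw [e1]
    have h4 : ∀ x y : ℝ, (x - y) ^ 2 ≤ 2 * x ^ 2 + 2 * y ^ 2 := fun x y => by nlinarith [sq_nonneg (x + y)]
    have := h4 ((C3.lawR Γ g R).obs v o) (∑ κ ∈ Γ.T, R o κ * (d κ - sb κ))
    linarith
  have hrows : ∑ o, (∑ κ ∈ Γ.T, R o κ * sb κ) ^ 2 ≤ 2 * Fm + 2 * N * t ^ 2 * Rb ^ 2 * C₁ * a * Fm := by
    have h1 : ∑ o, (∑ κ ∈ Γ.T, R o κ * sb κ) ^ 2
        ≤ ∑ o, (2 * (C3.lawR Γ g R).obs v o ^ 2 + 2 * (t ^ 2 * Rb ^ 2 * C₁ * E)) := Finset.sum_le_sum fun o _ => hrow o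
    have h2 : ∑ o : Fin N, (2 * (C3.lawR Γ g R).obs v o ^ 2 + 2 * (t ^ 2 * Rb ^ 2 * C₁ * E))
        = 2 * ∑ o : Fin N, (C3.lawR Γ g R).obs v o ^ 2 + N * (2 * (t ^ 2 * Rb ^ 2 * C₁ * E)) := by
      rw [Finset.sum_add_distrib, ← Finset.mul_sum, Finset.sum_const, Finset.card_univ, Fintype.card_fin, nsmul_eq_mul]
    have h3 : (N : ℝ) * (2 * (t ^ 2 * Rb ^ 2 * C₁ * E)) ≤ N * (2 * (t ^ 2 * Rb ^ 2 * C₁ * (a * Fm))) := by
      have : 0 ≤ (N : ℝ) * (2 * (t ^ 2 * Rb ^ 2 * C₁)) := by positivity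
      have := mul_le_mul_of_nonneg_left hen this
      linarith
    have h5 : ∑ o : Fin N, (C3.lawR Γ g R).obs v o ^ 2 ≤ Fm := hobs
    calc _ ≤ _ := h1
      _ = _ := h2
      _ ≤ 2 * Fm + N * (2 * (t ^ 2 * Rb ^ 2 * C₁ * (a * Fm))) := by linarith
      _ = _ := by ring
  have hss : ∑ κ ∈ Γ.T, (sb κ - s' κ) ^ 2 ≤ c⁻¹ * (2 * Fm + 2 * N * t ^ 2 * Rb ^ 2 * C₁ * a * Fm) := by
    rw [← div_eq_inv_mul, le_div_iff₀ hc, mul_comm]
    exact hbd.trans hrows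
  have hds : ∑ κ ∈ Γ.T, (d κ - sb κ) ^ 2 ≤ t * (C₁ * (a * Fm)) := by
    have h1 : ∑ κ ∈ Γ.T, (d κ - sb κ) ^ 2 ≤ ∑ _κ ∈ Γ.T, C₁ * E := Finset.sum_le_sum fun κ _ => hdist κ
    rw [Finset.sum_const, nsmul_eq_mul, ← ht] at h1
    exact h1.trans (mul_le_mul_of_nonneg_left (mul_le_mul_of_nonneg_left hen hC₁) ht0)
  have hfin : ∑ κ ∈ Γ.T, (d κ - s' κ) ^ 2 ≤ 2 * ∑ κ ∈ Γ.T, (d κ - sb κ) ^ 2 + 2 * ∑ κ ∈ Γ.T, (sb κ - s' κ) ^ 2 := by
    rw [Finset.mul_sum, Finset.mul_sum, ← Finset.sum_add_distrib]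
    refine Finset.sum_le_sum fun κ _ => ?_
    nlinarith [sq_nonneg ((d κ - sb κ) - (sb κ - s' κ))]
  calc _ ≤ _ := hfin
    _ ≤ 2 * (t * (C₁ * (a * Fm))) + 2 * (c⁻¹ * (2 * Fm + 2 * N * t ^ 2 * Rb ^ 2 * C₁ * a * Fm)) := by linarith
    _ = _ := by
      field_simp

/-- the energy of the restriction of an ambient function -/
theorem pn_t31r_V_dir {m₁ m₂ : ℕ} (Γ : CGeom m₁ m₂) (g : DGrid m₁ m₂) (w : ℤ × ℤ → ℝ) :
    ∑ e, plGrad (amb Γ g w) e ^ 2 = C3.dirT Γ g w := rfl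

theorem pn_t31r_V_gRow {m₁ m₂ : ℕ} (Γ : CGeom m₁ m₂) (g : DGrid m₁ m₂) (w : ℤ × ℤ → ℝ) (v : (Γ.graph g).V → ℝ) :
    HLaw.pair (gRow Γ g w) v = ∑ e, plGrad (amb Γ g w) e * plGrad v e :=
  pl_pair_div (plGrad (amb Γ g w)) v

theorem pn_t31r_V_en {G : HGraph} (v : G.V → ℝ) : HLaw.en v 0 = ∑ e, plGrad v e ^ 2 := by
  unfold HLaw.en plGrad
  simp

theorem pn_t31r_V_en_le {G : HGraph} (H : HLaw G) {a : ℝ} (ha : 0 < a) (v : G.V → ℝ) : HLaw.en v 0 ≤ a * H.form a v := by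
  have h0 : 0 ≤ ∑ o, H.obs v o ^ 2 := Finset.sum_nonneg fun o _ => sq_nonneg _
  have e : a * H.form a v = HLaw.en v 0 + a * ∑ o, H.obs v o ^ 2 := by
    rw [HLaw.form]
    field_simp
  rw [e]
  have := mul_nonneg ha.le h0
  linarith

/-- pure-real: `x² ≤ C F` gives `2 x - F ≤ C` -/
theorem pn_t31r_V_real {x C F : ℝ} (h : x ^ 2 ≤ C * F) (hC : 0 ≤ C) (hF : 0 ≤ F) : 2 * x - F ≤ C := by
  by_contra hcon
  push Not at hcon
  have h1 : 0 < x := by nlinarith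
  nlinarith [sq_nonneg (C - F), mul_nonneg hC hF]

/-- pure-real: the two Cauchy-Schwarz bounds put together -/
theorem pn_t31r_V_real2 {x y T D C₁ F W En a E M : ℝ} (hx : x ^ 2 ≤ T * D) (hy : y ^ 2 ≤ W * En) (hT0 : 0 ≤ T) (hT : T ≤ M) (hD : D ≤ C₁ * F) (hW : W ≤ E)
    (hEn0 : 0 ≤ En) (hEn : En ≤ a * F) (hE : 0 ≤ E) (hF : 0 ≤ F) (hC₁ : 0 ≤ C₁) :
    (x + y) ^ 2 ≤ (2 * M * C₁ + 2 * E * a) * F := by
  have h1 : x ^ 2 ≤ M * (C₁ * F) := hx.trans ((mul_le_mul_of_nonneg_left hD hT0).trans (mul_le_mul_of_nonneg_right hT (mul_nonneg hC₁ hF)))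
  have h2 : y ^ 2 ≤ E * (a * F) := hy.trans ((mul_le_mul_of_nonneg_right hW hEn0).trans (mul_le_mul_of_nonneg_left hEn hE))
  nlinarith [sq_nonneg (x - y)]

/-- the null vector of a cell function which no row sees -/
theorem pn_t31r_V_null {m₁ m₂ : ℕ} (Γ : CGeom m₁ m₂) (g : DGrid m₁ m₂) {N : ℕ} (R : Fin N → C3.Cell m₁ m₂ → ℝ) {s : C3.Cell m₁ m₂ → ℝ} (hs : CConst Γ s)
    (h0 : ∀ o, ∑ κ ∈ Γ.T, R o κ * s κ = 0) {f : (Γ.graph g).V → ℝ} (hf : plAdm (C3.lawR Γ g R) f) : HLaw.pair f (cellFn Γ g s) = 0 :=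
  hf _ (pn_t31r_cellFn_mem Γ g R hs) (pn_t31r_cellFn_grad Γ g hs) fun o => (pn_t31r_cellFn_obs Γ g R s o).trans (h0 o)

/-- **L-T31R-V** (~200 l.).  **Bounded reference variances.**  Not admissible: `pl_gVar_of_not_adm`.  Admissible: for `v ∈ rspan` and `s'` from `pn_t31r_key`: `cellFn s'` is a null vector in `rspan`, so `⟨f, v⟩ = ⟨f, v - cellFn s'⟩
= ∑_κ t κ (d κ - s' κ) + ∑_e ∇w ∇v` (`pn_t31r_cellTest_pair`, `pn_t31r_cellFn_avg`, `pl_pair_div`, `pn_t31r_cellFn_grad`), `⟨f,v⟩² ≤ C' form a v`, hence `2⟨f,v⟩ - form ≤ C'` (`ciSup_le`). -/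
theorem pn_t31r_gVar_le (Γ : CGeom m₁ m₂) (K N : ℕ) (Rb c a : ℝ) (hc : 0 < c) (ha : 0 < a) (Tb E : ℝ) : ∃ C : ℝ, 0 ≤ C ∧
    ∀ (g : DGrid m₁ m₂) (n : ℕ), g.SideGe n → g.SideLe (K * n) → ∀ R : Fin N → C3.Cell m₁ m₂ → ℝ, (∀ o κ, |R o κ| ≤ Rb) → Conf1 Γ c R →
      ∀ (t : C3.Cell m₁ m₂ → ℝ) (w : ℤ × ℤ → ℝ), (∀ κ, |t κ| ≤ Tb) → C3.dirT Γ g w ≤ E →
        (C3.lawR Γ g R).gVar a (Γ.cellTest g t + gRow Γ g w) ≤ C := by
  obtain ⟨C₁, hC₁, hkey⟩ := pn_t31r_key Γ K N Rb c a hc ha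
  refine ⟨2 * ((Γ.T.card : ℝ) * Tb ^ 2) * C₁ + 2 * |E| * a, by positivity, ?_⟩
  intro g n hg hK R hR hconf t w ht hw
  by_cases hf : plAdm (C3.lawR Γ g R) (Γ.cellTest g t + gRow Γ g w)
  swap
  · rw [pl_gVar_of_not_adm _ ha hf]
    positivity
  unfold HLaw.gVar
  refine ciSup_le fun v => ?_
  obtain ⟨v, hv⟩ := v
  simp only
  obtain ⟨s', hs', h0, hb⟩ := hkey g n hg hK R hR hconf v hv
  have hF := pl_form_nonneg (C3.lawR Γ g R) ha v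
  refine pn_t31r_V_real ?_ (by positivity) hF
  have e0 : ∑ x, (Γ.cellTest g t + gRow Γ g w) x * v x = HLaw.pair (Γ.cellTest g t + gRow Γ g w) v := rfl
  have e1 : HLaw.pair (Γ.cellTest g t + gRow Γ g w) v = HLaw.pair (Γ.cellTest g t + gRow Γ g w) (v - cellFn Γ g s') := by
    rw [pl_pair_sub_right, pn_t31r_V_null Γ g R hs' h0 hf, sub_zero]
  have e2 : HLaw.pair (Γ.cellTest g t) (v - cellFn Γ g s') = ∑ κ ∈ Γ.T, t κ * (HLaw.pair (Γ.avgRow g {κ}) v - s' κ) := by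
    rw [pn_t31r_cellTest_pair]
    refine Finset.sum_congr rfl fun κ hκ => ?_
    rw [pl_pair_sub_right, pn_t31r_cellFn_avg Γ g s' hκ]
  have e3 : HLaw.pair (gRow Γ g w) (v - cellFn Γ g s') = ∑ e, plGrad (amb Γ g w) e * plGrad v e := by
    rw [pn_t31r_V_gRow]
    refine Finset.sum_congr rfl fun e _ => ?_
    rw [pl_grad_sub, Pi.sub_apply, pn_t31r_cellFn_grad Γ g hs', sub_zero]
  rw [e0, e1, pl_pair_add_left, e2, e3]
  refine pn_t31r_V_real2 (T := ∑ κ ∈ Γ.T, t κ ^ 2) (W := C3.dirT Γ g w) (En := HLaw.en v 0) (Finset.sum_mul_sq_le_sq_mul_sq _ _ _) ?_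
    (Finset.sum_nonneg fun _ _ => sq_nonneg _) ?_ hb (hw.trans (le_abs_self E)) (Finset.sum_nonneg fun _ _ => sq_nonneg _)
    (pn_t31r_V_en_le _ ha v) (abs_nonneg E) hF hC₁
  · rw [← pn_t31r_V_dir, pn_t31r_V_en]
    exact Finset.sum_mul_sq_le_sq_mul_sq _ _ _
  · refine (Finset.sum_le_card_nsmul _ _ (Tb ^ 2) fun κ _ => ?_).trans (le_of_eq (by rw [nsmul_eq_mul]))
    rw [← sq_abs]
    exact pow_le_pow_left₀ (abs_nonneg _) (ht κ) 2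

/-- **L-T31R-O** (~150 l.).  **Bounded optimisers.**  `v₀` any optimiser (`pl_opt_exists`), `s'` from `pn_t31r_key`, `v = v₀ - cellFn s'` is an optimiser too (null vector: `pl_B_eq_zero_of_null`), `form a v₀ = gVar ≤ C` (`pl_gVar_eq_form`, `pn_t31r_gVar_le`). -/
theorem pn_t31r_opt_bd (Γ : CGeom m₁ m₂) (K N : ℕ) (Rb c a : ℝ) (hc : 0 < c) (ha : 0 < a) (Tb E : ℝ) : ∃ C : ℝ,
    ∀ (g : DGrid m₁ m₂) (n : ℕ), g.SideGe n → g.SideLe (K * n) → ∀ R : Fin N → C3.Cell m₁ m₂ → ℝ, (∀ o κ, |R o κ| ≤ Rb) → Conf1 Γ c R →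
      ∀ (t : C3.Cell m₁ m₂ → ℝ) (w : ℤ × ℤ → ℝ), (∀ κ, |t κ| ≤ Tb) → C3.dirT Γ g w ≤ E →
        plAdm (C3.lawR Γ g R) (Γ.cellTest g t + gRow Γ g w) →
        ∃ v, plIsOpt (C3.lawR Γ g R) a (Γ.cellTest g t + gRow Γ g w) v ∧ ∑ κ ∈ Γ.T, HLaw.pair (Γ.avgRow g {κ}) v ^ 2 ≤ C := by
  obtain ⟨C₁, hC₁, hkey⟩ := pn_t31r_key Γ K N Rb c a hc ha
  obtain ⟨C₂, hC₂, hvar⟩ := pn_t31r_gVar_le Γ K N Rb c a hc ha Tb E
  refine ⟨C₁ * C₂, ?_⟩
  intro g n hg hK R hR hconf t w ht hw hf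
  obtain ⟨v₀, hv₀⟩ := pl_opt_exists (C3.lawR Γ g R) ha hf
  obtain ⟨s', hs', h0, hb⟩ := hkey g n hg hK R hR hconf v₀ hv₀.1
  refine ⟨v₀ - cellFn Γ g s', ⟨Submodule.sub_mem _ hv₀.1 (pn_t31r_cellFn_mem Γ g R hs'), fun u hu => ?_⟩, ?_⟩
  · rw [pl_B_sub_left, hv₀.2 u hu, pl_B_eq_zero_of_null (C3.lawR Γ g R) a (pn_t31r_cellFn_grad Γ g hs')
      (fun o => (pn_t31r_cellFn_obs Γ g R s' o).trans (h0 o)) u, sub_zero]
  · have e : ∑ κ ∈ Γ.T, HLaw.pair (Γ.avgRow g {κ}) (v₀ - cellFn Γ g s') ^ 2 = ∑ κ ∈ Γ.T, (HLaw.pair (Γ.avgRow g {κ}) v₀ - s' κ) ^ 2 :=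
      Finset.sum_congr rfl fun κ hκ => by rw [pl_pair_sub_right, pn_t31r_cellFn_avg Γ g s' hκ]
    rw [e]
    refine hb.trans (mul_le_mul_of_nonneg_left ?_ hC₁)
    rw [← pl_gVar_eq_form (C3.lawR Γ g R) ha hv₀]
    exact hvar g n hg hK R hR hconf t w ht hw

/-- real injectivity from the confinement of all constants -/
private theorem pn_t31r_ok_inj (Γ : CGeom m₁ m₂) (g : DGrid m₁ m₂) {N : ℕ} (R : Fin N → C3.Cell m₁ m₂ → ℝ) {c : ℝ} (hc : 0 < c) (h : ConfI Γ c R)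
    (v : (Γ.graph g).V → ℝ) (hv : v ∈ (C3.lawR Γ g R).rspan) (h0 : ∀ e, v ((Γ.graph g).tgt e) = v ((Γ.graph g).src e))
    (h1 : ∀ o, ∑ x, (C3.lawR Γ g R).B o x * v x = 0) : v = 0 := by
  obtain ⟨s, hs, rfl⟩ := pn_t31r_null Γ g R v hv (fun e => by unfold plGrad; rw [h0 e, sub_self])
  have h2 : ∀ o, ∑ κ ∈ Γ.T, R o κ * s κ = 0 := by
    intro o
    rw [← pn_t31r_cellFn_obs Γ g R s o]
    exact h1 o
  have h3 := h s hs
  simp only [h2] at h3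
  have h4 : ∑ κ ∈ Γ.T, s κ ^ 2 ≤ 0 := by
    have h5 : c * ∑ κ ∈ Γ.T, s κ ^ 2 ≤ 0 := by simpa using h3
    by_contra hcon
    push Not at hcon
    nlinarith
  have h6 : ∀ κ ∈ Γ.T, s κ = 0 := by
    intro κ hκ
    have h7 : s κ ^ 2 ≤ ∑ κ ∈ Γ.T, s κ ^ 2 := Finset.single_le_sum (f := fun κ => s κ ^ 2) (fun _ _ => sq_nonneg _) hκ
    have h8 : s κ ^ 2 = 0 := le_antisymm (h7.trans h4) (sq_nonneg _)
    exact pow_eq_zero_iff (two_ne_zero) |>.1 h8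
  funext x
  unfold cellFn
  refine Finset.sum_eq_zero fun κ hκ => ?_
  rw [h6 κ hκ, ite_self]

/-- **L-T31R-OK** (~150 l.).  Properness from confinement of all constants: `HLaw.ok_of_real_injective`, `pn_t31r_null`, `pn_t31r_cellFn_obs`; `Proper`: apply the real injectivity to `toR h`. -/
theorem pn_t31r_ok (Γ : CGeom m₁ m₂) (g : DGrid m₁ m₂) {N : ℕ} (R : Fin N → C3.Cell m₁ m₂ → ℝ) {c : ℝ} (hc : 0 < c) (h : ConfI Γ c R)
    (β : ℝ) (hβ : 0 < β) : ((C3.lawR Γ g R).sys β).Ok ∧ (C3.lawR Γ g R).Proper := by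
  refine ⟨HLaw.ok_of_real_injective (C3.lawR Γ g R) β hβ fun v hv h0 h1 => pn_t31r_ok_inj Γ g R hc h v hv h0 h1, ?_⟩
  intro z hz hz0
  have e1 : ∀ e, z ((Γ.graph g).tgt e) - z ((Γ.graph g).src e) = 0 := fun e => congrFun (congrArg Prod.fst hz0) e
  have e2 : ∀ o, ∑ x, (C3.lawR Γ g R).B o x * (2 * Real.pi * (z x : ℝ)) = 0 := fun o => congrFun (congrArg Prod.snd hz0) o
  have key := pn_t31r_ok_inj Γ g R hc h (fun x => (z x : ℝ)) (Submodule.subset_span ⟨z, hz, rfl⟩)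
    (fun e => by
      have := e1 e
      have h2 : z ((Γ.graph g).tgt e) = z ((Γ.graph g).src e) := by omega
      simp only [h2])
    (fun o => by
      have h2 := e2 o
      have h3 : ∑ x, (C3.lawR Γ g R).B o x * (2 * Real.pi * (z x : ℝ)) = 2 * Real.pi * ∑ x, (C3.lawR Γ g R).B o x * (z x : ℝ) := by
        rw [Finset.mul_sum]
        exact Finset.sum_congr rfl fun x _ => by ring
      rw [h3] at h2
      have hpi : (2 * Real.pi) ≠ 0 := by positivity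
      exact (mul_eq_zero.1 h2).resolve_left hpi)
  funext x
  have := congrFun key x
  simpa using this

/-! ## 4. The scenario -/

theorem pn_t31r_R0 (Γ : CGeom m₁ m₂) (g : ℕ → DGrid m₁ m₂) (b : ℕ → ℝ) {J : ℕ} (u : Fin J → ℕ → ℤ × ℤ → ℝ) :
    (geoX Γ g b u).R0 = rX (fun _ => Fin.elim0) := by
  funext k o
  exact o.elim0

/-- the energy of a combined shift -/
theorem pn_t31r_dir_cmb (Γ : CGeom m₁ m₂) (g : DGrid m₁ m₂) {J : ℕ} (u : Fin J → ℤ × ℤ → ℝ) (s : Fin J → ℝ) (Tb E : ℝ)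
    (hs : ∀ j, |s j| ≤ Tb) (hE : ∀ j, C3.dirT Γ g (u j) ≤ E) : C3.dirT Γ g (fun x => ∑ j, s j * u j x) ≤ (J : ℝ) ^ 2 * Tb ^ 2 * E := by
  have hs2 : ∀ j, s j ^ 2 ≤ Tb ^ 2 := fun j => by
    rw [← sq_abs (s j)]
    exact pow_le_pow_left₀ (abs_nonneg _) (hs j) 2
  have h1 : ∀ e : Bond, C2.gd (fun x => ∑ j, s j * u j x) e ^ 2 ≤ (J : ℝ) * Tb ^ 2 * ∑ j, C2.gd (u j) e ^ 2 := by
    intro e
    have e1 : C2.gd (fun x => ∑ j, s j * u j x) e = ∑ j, s j * C2.gd (u j) e := by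
      unfold C2.gd
      rw [← Finset.sum_sub_distrib]
      exact Finset.sum_congr rfl fun j _ => by ring
    rw [e1]
    have h2 : (∑ j, s j * C2.gd (u j) e) ^ 2 ≤ ((Finset.univ : Finset (Fin J)).card : ℝ) * ∑ j, (s j * C2.gd (u j) e) ^ 2 :=
      sq_sum_le_card_mul_sum_sq
    rw [Finset.card_univ, Fintype.card_fin] at h2
    refine h2.trans ?_
    rw [mul_assoc]
    refine mul_le_mul_of_nonneg_left ?_ (Nat.cast_nonneg J)
    rw [Finset.mul_sum]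
    refine Finset.sum_le_sum fun j _ => ?_
    rw [mul_pow]
    exact mul_le_mul_of_nonneg_right (hs2 j) (sq_nonneg _)
  have h3 : C3.dirT Γ g (fun x => ∑ j, s j * u j x) ≤ (J : ℝ) * Tb ^ 2 * ∑ j, C3.dirT Γ g (u j) := by
    unfold C3.dirT
    rw [Finset.sum_comm, Finset.mul_sum]
    exact Finset.sum_le_sum fun e _ => h1 _
  have h4 : ∑ j, C3.dirT Γ g (u j) ≤ (J : ℝ) * E := by
    have := Finset.sum_le_card_nsmul (Finset.univ : Finset (Fin J)) (fun j => C3.dirT Γ g (u j)) E fun j _ => hE j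
    rwa [Finset.card_univ, Fintype.card_fin, nsmul_eq_mul] at this
  calc C3.dirT Γ g (fun x => ∑ j, s j * u j x) ≤ (J : ℝ) * Tb ^ 2 * ∑ j, C3.dirT Γ g (u j) := h3
    _ ≤ (J : ℝ) * Tb ^ 2 * ((J : ℝ) * E) := mul_le_mul_of_nonneg_left h4 (by positivity)
    _ = _ := by ring

/-- **L-T31R-S** (~200 l. for the three: `pn_t31r_dir_cmb`, `pn_t31r_BD`, `pn_t31r_OB`; GLUE).  `pn_t31s_law` (rewrite the law: `congrFun`), `pn_t31s_tst'`, `pn_t31r_gVar_le`, `pn_t31r_opt_bd` with `n = ν k`;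
`∑_j ⟨φ_{c j}, v⟩² ≤ ∑_{κ ∈ Γ.T} ⟨avgRow {κ}, v⟩²` (`mkC` is injective with values in `Γ.T`: `Finset.sum_le_sum_of_subset_of_nonneg` after `Finset.sum_image`). -/
theorem pn_t31r_BD (Γ : CGeom m₁ m₂) (K : ℕ) (g : ℕ → DGrid m₁ m₂) {ν : ℕ → ℕ} (hg : Admissible K g ν) (b : ℕ → ℝ) {J : ℕ}
    (u : Fin J → ℕ → ℤ × ℤ → ℝ) (hE : ∃ E : ℝ, ∀ k j, C3.dirT Γ (g k) (u j k) ≤ E) {a : ℝ} (ha : 0 < a) {N : ℕ}
    (R : ℕ → Fin N → C3.Cell m₁ m₂ → ℝ) (hR : ∃ Rb : ℝ, ∀ k o κ, |R k o κ| ≤ Rb) (hU : UConf1 Γ R) : (geoX Γ g b u).BD a (rX R) := by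
  obtain ⟨E, hE⟩ := hE
  obtain ⟨Rb, hR⟩ := hR
  obtain ⟨c, hc, hU⟩ := hU
  intro Tb
  obtain ⟨C, -, hC⟩ := pn_t31r_gVar_le Γ K N Rb c a hc ha Tb ((J : ℝ) ^ 2 * Tb ^ 2 * E)
  refine ⟨C, fun k t ht => ?_⟩
  rw [congrFun (pn_t31s_law Γ g b u R) k, pn_t31s_tst' Γ g b u k t]
  exact hC (g k) (ν k) (hg.2 k).1 (hg.2 k).2 (R k) (hR k) (hU k) _ _ (fun κ => ht (Sum.inl κ))
    (pn_t31r_dir_cmb Γ (g k) (fun j => u j k) (fun j => t (Sum.inr j)) Tb E (fun j => ht (Sum.inr j)) (fun j => hE k j))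

theorem pn_t31r_OB (Γ : CGeom m₁ m₂) (K : ℕ) (g : ℕ → DGrid m₁ m₂) {ν : ℕ → ℕ} (hg : Admissible K g ν) (b : ℕ → ℝ) {J : ℕ}
    (u : Fin J → ℕ → ℤ × ℤ → ℝ) (hE : ∃ E : ℝ, ∀ k j, C3.dirT Γ (g k) (u j k) ≤ E) {a : ℝ} (ha : 0 < a) {N : ℕ}
    (R : ℕ → Fin N → C3.Cell m₁ m₂ → ℝ) (hR : ∃ Rb : ℝ, ∀ k o κ, |R k o κ| ≤ Rb) (hU : UConf1 Γ R) : (geoFrc Γ g b u).OB a (rX R) := by
  obtain ⟨E, hE⟩ := hE
  obtain ⟨Rb, hR⟩ := hR
  obtain ⟨c, hc, hU⟩ := hU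
  intro Tb
  obtain ⟨C, hC⟩ := pn_t31r_opt_bd Γ K N Rb c a hc ha Tb ((J : ℝ) ^ 2 * Tb ^ 2 * E)
  refine ⟨C, fun k t ht hadm => ?_⟩
  rw [congrFun (pn_t31s_law Γ g b u R) k, pn_t31s_tst' Γ g b u k t] at hadm ⊢
  obtain ⟨v, hv, hvC⟩ := hC (g k) (ν k) (hg.2 k).1 (hg.2 k).2 (R k) (hR k) (hU k) _ _ (fun κ => ht (Sum.inl κ))
    (pn_t31r_dir_cmb Γ (g k) (fun j => u j k) (fun j => t (Sum.inr j)) Tb E (fun j => ht (Sum.inr j)) (fun j => hE k j)) hadm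
  refine ⟨v, hv, le_trans ?_ hvC⟩
  have hinj : Function.Injective (mkC Γ) := by
    intro j j' hjj
    by_contra hne
    have hne' : cmpF Γ j ≠ cmpF Γ j' := fun h => hne (pn_t31s_cmpF_inj Γ h)
    have hd := pn_t31g_comps_disj Γ (pn_t31s_cmpF_comps Γ j) (pn_t31s_cmpF_comps Γ j') hne'
    exact Finset.disjoint_left.1 hd (pn_t31s_mkC_mem Γ j) (hjj ▸ pn_t31s_mkC_mem Γ j')
  have e1 : ∑ j, HLaw.pair (Γ.avgRow (g k) {mkC Γ j}) v ^ 2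
      = ∑ κ ∈ Finset.univ.image (mkC Γ), HLaw.pair (Γ.avgRow (g k) {κ}) v ^ 2 :=
    (Finset.sum_image (f := fun κ => HLaw.pair (Γ.avgRow (g k) {κ}) v ^ 2) fun j _ j' _ h => hinj h).symm
  show ∑ j, HLaw.pair (Γ.avgRow (g k) {mkC Γ j}) v ^ 2 ≤ _
  rw [e1]
  refine Finset.sum_le_sum_of_subset_of_nonneg ?_ fun _ _ _ => sq_nonneg _
  intro κ hκ
  obtain ⟨j, -, rfl⟩ := Finset.mem_image.1 hκ
  exact pn_t31g_comps_sub Γ (pn_t31s_cmpF_comps Γ j) (pn_t31s_mkC_mem Γ j)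

end

end Claimed.Agent.R285.Pins
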