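import Claimed.Agent.R285.Pins.T31Geo

/-!
# ROW 285, PINS, package T31 (architect helper217).  FILE 4: THE SCENARIO OF A GEOMETRY.   PAPER-FREE.     Plan of the package: header of `Pins/T31Geo.lean`.

`geoX Γ g b u : Scn` = graphs `Γ.graph (g k)`, lattices = the hard pins of `Γ`, basic tests = the cell averages AND the gradient tests of finitely many ambient shifts `u j`.     `geoFrc` = its free components (`Frc`).
Every `sorry` is a LEAF (`L-T31S-*`, name in the docstring); statements frozen (tell helper217 at once if one looks false or awkward); prove IN PLACE, helpers directly above, prefix `pn_t31s_<leaf>_`.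
-/

set_option autoImplicit false

namespace Claimed.Agent.R285.Pins

open Filter Topology MeasureTheory Pot
open scoped Classical

noncomputable section

variable {m₁ m₂ : ℕ}

/-! ## 1. The scenario -/

/-- the scenario of a geometry: basic tests = cell averages and the gradient tests of the ambient shifts `u j` -/
def geoX (Γ : CGeom m₁ m₂) (g : ℕ → DGrid m₁ m₂) (b : ℕ → ℝ) {J : ℕ} (u : Fin J → ℕ → ℤ × ℤ → ℝ) : Scn where
  G := fun k => Γ.graph (g k)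
  Λ := fun k => HLaw.pinned (Γ.sites (g k) Γ.pin)
  b := b
  ι := C3.Cell m₁ m₂ ⊕ Fin J
  φ := fun k i => Sum.elim (fun κ => Γ.avgRow (g k) {κ}) (fun j => gRow Γ (g k) (u j k)) i

/-- rows = combinations of cell averages -/
def rX {J N : ℕ} (R : ℕ → Fin N → C3.Cell m₁ m₂ → ℝ) : ℕ → Fin N → (C3.Cell m₁ m₂ ⊕ Fin J) → ℝ :=
  fun k o => Sum.elim (R k o) fun _ => 0

/-- the combined shift `∑_j s_j u_j` -/
def cmbU {J : ℕ} (u : Fin J → ℕ → ℤ × ℤ → ℝ) (s : ℕ → Fin J → ℝ) : ℕ → ℤ × ℤ → ℝ := fun k x => ∑ j, s k j * u j k x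

/-- the gradient row is linear in the ambient shift -/
theorem pn_t31s_T_gRow_lin (Γ : CGeom m₁ m₂) (g : DGrid m₁ m₂) {J : ℕ} (s : Fin J → ℝ) (w : Fin J → ℤ × ℤ → ℝ)
    (v : (Γ.graph g).V) : gRow Γ g (fun x => ∑ j, s j * w j x) v = ∑ j, s j * gRow Γ g (w j) v := by
  unfold gRow HLaw.gradRow
  simp only [Finset.mul_sum]
  rw [Finset.sum_comm]
  refine Finset.sum_congr rfl fun e _ => ?_
  have e1 : ∀ y : (Γ.graph g).V, amb Γ g (fun x => ∑ j, s j * w j x) y = ∑ j, s j * amb Γ g (w j) y := fun y => rfl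
  rw [e1, e1, ← Finset.sum_sub_distrib, Finset.sum_mul]
  refine Finset.sum_congr rfl fun j _ => ?_
  ring

/-- **L-T31S-T** (~120 l. for the three).  `Fintype.sum_sum_type`; `gradRow` is linear in the shift (`HLaw.gradRow`, `Finset.sum_comm`, `Finset.mul_sum`). -/
theorem pn_t31s_tst (Γ : CGeom m₁ m₂) (g : ℕ → DGrid m₁ m₂) (b : ℕ → ℝ) {J : ℕ} (u : Fin J → ℕ → ℤ × ℤ → ℝ) (k : ℕ)
    (t : C3.Cell m₁ m₂ → ℝ) (s : Fin J → ℝ) :
    (geoX Γ g b u).tst k (Sum.elim t s) = Γ.cellTest (g k) t + gRow Γ (g k) (fun x => ∑ j, s j * u j k x) := by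
  have key : ∀ v : (Γ.graph (g k)).V, (geoX Γ g b u).tst k (Sum.elim t s) v =
      Γ.cellTest (g k) t v + gRow Γ (g k) (fun x => ∑ j, s j * u j k x) v := by
    intro v
    have h1 : (geoX Γ g b u).tst k (Sum.elim t s) v =
        ∑ i : C3.Cell m₁ m₂ ⊕ Fin J, Sum.elim t s i *
          Sum.elim (fun κ => Γ.avgRow (g k) {κ}) (fun j => gRow Γ (g k) (u j k)) i v := rfl
    rw [h1, Fintype.sum_sum_type, pn_t31s_T_gRow_lin Γ (g k) s (fun j => u j k) v]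
    rfl
  exact funext key

/-- every coefficient vector is of this form -/
theorem pn_t31s_tst' (Γ : CGeom m₁ m₂) (g : ℕ → DGrid m₁ m₂) (b : ℕ → ℝ) {J : ℕ} (u : Fin J → ℕ → ℤ × ℤ → ℝ) (k : ℕ)
    (t : C3.Cell m₁ m₂ ⊕ Fin J → ℝ) :
    (geoX Γ g b u).tst k t = Γ.cellTest (g k) (fun κ => t (Sum.inl κ)) + gRow Γ (g k) (fun x => ∑ j, t (Sum.inr j) * u j k x) := by
  have h := pn_t31s_tst Γ g b u k (fun κ => t (Sum.inl κ)) (fun j => t (Sum.inr j))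
  have e : (Sum.elim (fun κ => t (Sum.inl κ)) (fun j => t (Sum.inr j)) : C3.Cell m₁ m₂ ⊕ Fin J → ℝ) = t := by
    funext i
    cases i <;> rfl
  rw [e] at h
  exact h

/-- the law of the scenario with cell rows is `C3.lawR` (`congrArg (glaw _)`, `funext`, `pn_t31s_tst` with `s = 0`) -/
theorem pn_t31s_law (Γ : CGeom m₁ m₂) (g : ℕ → DGrid m₁ m₂) (b : ℕ → ℝ) {J : ℕ} (u : Fin J → ℕ → ℤ × ℤ → ℝ) {N : ℕ}
    (R : ℕ → Fin N → C3.Cell m₁ m₂ → ℝ) : (geoX Γ g b u).law (rX R) = fun k => C3.lawR Γ (g k) (R k) := by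
  funext k
  have h1 : (geoX Γ g b u).law (rX R) k =
      glaw (HLaw.pinned (Γ.sites (g k) Γ.pin)) fun o => (geoX Γ g b u).tst k (Sum.elim (R k o) fun _ => 0) := rfl
  have h2 : C3.lawR Γ (g k) (R k) = glaw (HLaw.pinned (Γ.sites (g k) Γ.pin)) fun o => Γ.cellTest (g k) (R k o) := rfl
  rw [h1, h2]
  congr 1
  funext o
  rw [pn_t31s_tst]
  have key : ∀ v : (Γ.graph (g k)).V, Γ.cellTest (g k) (R k o) v + gRow Γ (g k) (fun x => ∑ j : Fin J, (0 : ℝ) * u j k x) v =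
      Γ.cellTest (g k) (R k o) v := by
    intro v
    rw [pn_t31s_T_gRow_lin Γ (g k) (fun _ => 0) (fun j => u j k) v]
    simp
  exact funext key

/-- `GLim` in terms of `LapLim` -/
theorem pn_t31s_GLim_iff (𝔰 : Scn) (a : ℝ) {N : ℕ} (R : ℕ → Fin N → 𝔰.ι → ℝ) :
    𝔰.GLim a R ↔ ∀ (t : ℕ → 𝔰.ι → ℝ) (Tb : ℝ), (∀ k κ, |t k κ| ≤ Tb) → LapLim a (𝔰.law R) 𝔰.b (fun k => 𝔰.tst k (t k)) := Iff.rfl

/-! ## 2. Connectivity -/

/-- the value along a bond of `Γ` -/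
theorem pn_t31s_CN_bond (Γ : CGeom m₁ m₂) (g : DGrid m₁ m₂) {α : Type} (h : (Γ.graph g).V → α)
    (hh : ∀ e, h ((Γ.graph g).tgt e) = h ((Γ.graph g).src e)) (e : Bond) (h1 : e.1 ∈ g.region Γ.T) (h2 : e.snd ∈ g.region Γ.T)
    (h3 : e ∉ Γ.cutB g) : h (vmk Γ g e.snd h2) = h (vmk Γ g e.1 h1) := by
  have he : e ∈ domBonds (g.region Γ.T) (Γ.cutB g) := by
    unfold domBonds
    rw [Finset.mem_filter, Finset.mem_product]
    exact ⟨⟨h1, Finset.mem_univ _⟩, h2, h3⟩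
  exact hh (Subtype.mk e he : {e : Bond // e ∈ domBonds (g.region Γ.T) (Γ.cutB g)})

theorem pn_t31s_CN_reg (g : DGrid m₁ m₂) {T : Finset (C3.Cell m₁ m₂)} {κ : C3.Cell m₁ m₂} (hκ : κ ∈ T) {x : ℤ × ℤ} (hx : x ∈ g.cell κ) :
    x ∈ g.region T := Finset.mem_biUnion.2 ⟨κ, hκ, hx⟩

/-- a bond inside a cell is not cut -/
theorem pn_t31s_CN_in (Γ : CGeom m₁ m₂) (g : DGrid m₁ m₂) {κ : C3.Cell m₁ m₂} {e : Bond} (h1 : e.1 ∈ g.cell κ) (h2 : e.snd ∈ g.cell κ) :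
    e ∉ Γ.cutB g := by
  rintro ⟨f, _, _, hf1, hf2⟩
  have : f.1 = κ := pn_t31g_p1_cell_unique g hf1 h1
  rw [this] at hf2
  exact hf2 h2

theorem pn_t31s_CN_mem (g : DGrid m₁ m₂) (κ : C3.Cell m₁ m₂) (x : ℤ × ℤ) :
    x ∈ g.cell κ ↔ (g.x₁ κ.1.castSucc ≤ x.1 ∧ x.1 < g.x₁ κ.1.succ) ∧ (g.x₂ κ.2.castSucc ≤ x.2 ∧ x.2 < g.x₂ κ.2.succ) := by
  unfold DGrid.cell
  rw [Finset.mem_product, Finset.mem_Ico, Finset.mem_Ico]

/-- inside a cell: every site has the value of the corner -/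
theorem pn_t31s_CN_cell (Γ : CGeom m₁ m₂) (g : DGrid m₁ m₂) {α : Type} (h : (Γ.graph g).V → α)
    (hh : ∀ e, h ((Γ.graph g).tgt e) = h ((Γ.graph g).src e)) {κ : C3.Cell m₁ m₂} (hκ : κ ∈ Γ.T) (i j : ℕ)
    (hx : (g.x₁ κ.1.castSucc + i, g.x₂ κ.2.castSucc + j) ∈ g.cell κ) (h0 : (g.x₁ κ.1.castSucc, g.x₂ κ.2.castSucc) ∈ g.cell κ) :
    h (vmk Γ g _ (pn_t31s_CN_reg g hκ hx)) = h (vmk Γ g _ (pn_t31s_CN_reg g hκ h0)) := by
  induction i with
  | zero =>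
    induction j with
    | zero =>
      congr 1
      apply Subtype.ext
      simp [vmk]
    | succ j ihj =>
      have hx' : (g.x₁ κ.1.castSucc + ((0 : ℕ) : ℤ), g.x₂ κ.2.castSucc + (j : ℤ)) ∈ g.cell κ := by
        rw [pn_t31s_CN_mem] at hx ⊢
        simp only at hx ⊢
        push_cast at hx ⊢
        omega
      rw [← ihj hx']
      have hs : Bond.snd ((g.x₁ κ.1.castSucc + ((0 : ℕ) : ℤ), g.x₂ κ.2.castSucc + (j : ℤ)), false)
          = (g.x₁ κ.1.castSucc + ((0 : ℕ) : ℤ), g.x₂ κ.2.castSucc + ((j + 1 : ℕ) : ℤ)) := by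
        simp only [Bond.snd]
        push_cast
        simp [add_assoc]
      have hb := pn_t31s_CN_bond Γ g h hh ((g.x₁ κ.1.castSucc + ((0 : ℕ) : ℤ), g.x₂ κ.2.castSucc + (j : ℤ)), false)
        (pn_t31s_CN_reg g hκ hx') (by rw [hs]; exact pn_t31s_CN_reg g hκ hx)
        (pn_t31s_CN_in Γ g (κ := κ) hx' (by rw [hs]; exact hx))
      rw [← hb]
      congr 1
      apply Subtype.ext
      exact hs.symm
  | succ i ihi =>
    have hx' : (g.x₁ κ.1.castSucc + (i : ℤ), g.x₂ κ.2.castSucc + (j : ℤ)) ∈ g.cell κ := by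
      rw [pn_t31s_CN_mem] at hx ⊢
      simp only at hx ⊢
      push_cast at hx ⊢
      omega
    rw [← ihi hx']
    have hs : Bond.snd ((g.x₁ κ.1.castSucc + (i : ℤ), g.x₂ κ.2.castSucc + (j : ℤ)), true)
        = (g.x₁ κ.1.castSucc + ((i + 1 : ℕ) : ℤ), g.x₂ κ.2.castSucc + (j : ℤ)) := by
      simp only [Bond.snd]
      push_cast
      simp [add_assoc]
    have hb := pn_t31s_CN_bond Γ g h hh ((g.x₁ κ.1.castSucc + (i : ℤ), g.x₂ κ.2.castSucc + (j : ℤ)), true)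
      (pn_t31s_CN_reg g hκ hx') (by rw [hs]; exact pn_t31s_CN_reg g hκ hx)
      (pn_t31s_CN_in Γ g (κ := κ) hx' (by rw [hs]; exact hx))
    rw [← hb]
    congr 1
    apply Subtype.ext
    exact hs.symm

theorem pn_t31s_CN_corner (g : DGrid m₁ m₂) (κ : C3.Cell m₁ m₂) : (g.x₁ κ.1.castSucc, g.x₂ κ.2.castSucc) ∈ g.cell κ := by
  rw [pn_t31s_CN_mem]
  exact ⟨⟨le_refl _, g.mono₁ Fin.castSucc_lt_succ⟩, le_refl _, g.mono₂ Fin.castSucc_lt_succ⟩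

/-- inside a cell: general form -/
theorem pn_t31s_CN_cell' (Γ : CGeom m₁ m₂) (g : DGrid m₁ m₂) {α : Type} (h : (Γ.graph g).V → α)
    (hh : ∀ e, h ((Γ.graph g).tgt e) = h ((Γ.graph g).src e)) {κ : C3.Cell m₁ m₂} (hκ : κ ∈ Γ.T) (x : ℤ × ℤ) (hx : x ∈ g.cell κ) :
    h (vmk Γ g x (pn_t31s_CN_reg g hκ hx)) = h (vmk Γ g _ (pn_t31s_CN_reg g hκ (pn_t31s_CN_corner g κ))) := by
  have hx0 := (pn_t31s_CN_mem g κ x).1 hx
  obtain ⟨i, hi⟩ := Int.eq_ofNat_of_zero_le (sub_nonneg.2 hx0.1.1)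
  obtain ⟨j, hj⟩ := Int.eq_ofNat_of_zero_le (sub_nonneg.2 hx0.2.1)
  have hxe : x = (g.x₁ κ.1.castSucc + i, g.x₂ κ.2.castSucc + j) := by
    apply Prod.ext
    · simp only; omega
    · simp only; omega
  subst hxe
  exact pn_t31s_CN_cell Γ g h hh hκ i j hx (pn_t31s_CN_corner g κ)

/-- across an uncut vertical face -/
theorem pn_t31s_CN_right (Γ : CGeom m₁ m₂) (g : DGrid m₁ m₂) {α : Type} (h : (Γ.graph g).V → α)
    (hh : ∀ e, h ((Γ.graph g).tgt e) = h ((Γ.graph g).src e)) {κ κ' : C3.Cell m₁ m₂} (hκ : κ ∈ Γ.T) (hκ' : κ' ∈ Γ.T)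
    (h1 : κ.1.1 + 1 = κ'.1.1) (h2 : κ.2 = κ'.2) (h3 : (κ, true) ∉ Γ.cutF) :
    h (vmk Γ g _ (pn_t31s_CN_reg g hκ (pn_t31s_CN_corner g κ))) = h (vmk Γ g _ (pn_t31s_CN_reg g hκ' (pn_t31s_CN_corner g κ'))) := by
  have hs1 : κ.1.succ = κ'.1.castSucc := by
    apply Fin.ext
    simp only [Fin.val_succ, Fin.val_castSucc]
    exact h1
  have hm1 := g.mono₁ (Fin.castSucc_lt_succ (i := κ.1))
  have hm2 := g.mono₂ (Fin.castSucc_lt_succ (i := κ.2))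
  have hx : (g.x₁ κ.1.succ - 1, g.x₂ κ.2.castSucc) ∈ g.cell κ := by
    rw [pn_t31s_CN_mem]
    simp only
    omega
  have hs : Bond.snd ((g.x₁ κ.1.succ - 1, g.x₂ κ.2.castSucc), true) = (g.x₁ κ'.1.castSucc, g.x₂ κ'.2.castSucc) := by
    simp only [Bond.snd, if_true, sub_add_cancel, hs1, h2]
  have hy : Bond.snd ((g.x₁ κ.1.succ - 1, g.x₂ κ.2.castSucc), true) ∈ g.cell κ' := by rw [hs]; exact pn_t31s_CN_corner g κ'
  have hcut : (((g.x₁ κ.1.succ - 1, g.x₂ κ.2.castSucc), true) : Bond) ∉ Γ.cutB g := by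
    rintro ⟨f, hf, hf2, hf1, _⟩
    have : f.1 = κ := pn_t31g_p1_cell_unique g hf1 hx
    apply h3
    have hfe : f = (κ, true) := Prod.ext this hf2.symm
    rw [← hfe]; exact hf
  have hb := pn_t31s_CN_bond Γ g h hh _ (pn_t31s_CN_reg g hκ hx) (pn_t31s_CN_reg g hκ' hy) hcut
  rw [← pn_t31s_CN_cell' Γ g h hh hκ _ hx, ← hb]
  congr 1
  apply Subtype.ext
  exact hs

/-- across an uncut horizontal face -/
theorem pn_t31s_CN_up (Γ : CGeom m₁ m₂) (g : DGrid m₁ m₂) {α : Type} (h : (Γ.graph g).V → α)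
    (hh : ∀ e, h ((Γ.graph g).tgt e) = h ((Γ.graph g).src e)) {κ κ' : C3.Cell m₁ m₂} (hκ : κ ∈ Γ.T) (hκ' : κ' ∈ Γ.T)
    (h1 : κ.1 = κ'.1) (h2 : κ.2.1 + 1 = κ'.2.1) (h3 : (κ, false) ∉ Γ.cutF) :
    h (vmk Γ g _ (pn_t31s_CN_reg g hκ (pn_t31s_CN_corner g κ))) = h (vmk Γ g _ (pn_t31s_CN_reg g hκ' (pn_t31s_CN_corner g κ'))) := by
  have hs1 : κ.2.succ = κ'.2.castSucc := by
    apply Fin.ext
    simp only [Fin.val_succ, Fin.val_castSucc]
    exact h2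
  have hm1 := g.mono₁ (Fin.castSucc_lt_succ (i := κ.1))
  have hm2 := g.mono₂ (Fin.castSucc_lt_succ (i := κ.2))
  have hx : (g.x₁ κ.1.castSucc, g.x₂ κ.2.succ - 1) ∈ g.cell κ := by
    rw [pn_t31s_CN_mem]
    simp only
    omega
  have hs : Bond.snd ((g.x₁ κ.1.castSucc, g.x₂ κ.2.succ - 1), false) = (g.x₁ κ'.1.castSucc, g.x₂ κ'.2.castSucc) := by
    simp [Bond.snd, hs1, h1]
  have hy : Bond.snd ((g.x₁ κ.1.castSucc, g.x₂ κ.2.succ - 1), false) ∈ g.cell κ' := by rw [hs]; exact pn_t31s_CN_corner g κ'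
  have hcut : (((g.x₁ κ.1.castSucc, g.x₂ κ.2.succ - 1), false) : Bond) ∉ Γ.cutB g := by
    rintro ⟨f, hf, hf2, hf1, _⟩
    have : f.1 = κ := pn_t31g_p1_cell_unique g hf1 hx
    apply h3
    have hfe : f = (κ, false) := Prod.ext this hf2.symm
    rw [← hfe]; exact hf
  have hb := pn_t31s_CN_bond Γ g h hh _ (pn_t31s_CN_reg g hκ hx) (pn_t31s_CN_reg g hκ' hy) hcut
  rw [← pn_t31s_CN_cell' Γ g h hh hκ _ hx, ← hb]
  congr 1
  apply Subtype.ext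
  exact hs

theorem pn_t31s_CN_adj (Γ : CGeom m₁ m₂) (g : DGrid m₁ m₂) {α : Type} (h : (Γ.graph g).V → α)
    (hh : ∀ e, h ((Γ.graph g).tgt e) = h ((Γ.graph g).src e)) {κ κ' : C3.Cell m₁ m₂} (ha : Γ.Adj κ κ') :
    h (vmk Γ g _ (pn_t31s_CN_reg g ha.1 (pn_t31s_CN_corner g κ))) = h (vmk Γ g _ (pn_t31s_CN_reg g ha.2.1 (pn_t31s_CN_corner g κ'))) := by
  obtain ⟨hκ, hκ', hc⟩ := ha
  rcases hc with ⟨h1, h2, h3⟩ | ⟨h1, h2, h3⟩ | ⟨h1, h2, h3⟩ | ⟨h1, h2, h3⟩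
  · exact pn_t31s_CN_right Γ g h hh hκ hκ' h1 h2 h3
  · exact pn_t31s_CN_up Γ g h hh hκ hκ' h1 h2 h3
  · exact (pn_t31s_CN_right Γ g h hh hκ' hκ h1 h2.symm h3).symm
  · exact (pn_t31s_CN_up Γ g h hh hκ' hκ h1.symm h2 h3).symm

theorem pn_t31s_CN_conn (Γ : CGeom m₁ m₂) (g : DGrid m₁ m₂) {α : Type} (h : (Γ.graph g).V → α)
    (hh : ∀ e, h ((Γ.graph g).tgt e) = h ((Γ.graph g).src e)) {κ κ' : C3.Cell m₁ m₂} (hc : Γ.Conn κ κ') (hκ : κ ∈ Γ.T) :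
    ∃ hκ' : κ' ∈ Γ.T, h (vmk Γ g _ (pn_t31s_CN_reg g hκ (pn_t31s_CN_corner g κ))) = h (vmk Γ g _ (pn_t31s_CN_reg g hκ' (pn_t31s_CN_corner g κ'))) := by
  induction hc with
  | refl => exact ⟨hκ, rfl⟩
  | tail _ ha ih =>
    obtain ⟨_, h1⟩ := ih
    exact ⟨ha.2.1, h1.trans (pn_t31s_CN_adj Γ g h hh ha)⟩

theorem pn_t31s_CN_site (Γ : CGeom m₁ m₂) (g : DGrid m₁ m₂) {κ : C3.Cell m₁ m₂} {v : (Γ.graph g).V} (hv : v ∈ Γ.sites g {κ}) :
    ∃ (hκ : κ ∈ Γ.T) (hx : vpos Γ g v ∈ g.cell κ), v = vmk Γ g (vpos Γ g v) (pn_t31s_CN_reg g hκ hx) := by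
  have h1 : vpos Γ g v ∈ g.region {κ} := hv
  have h2 : vpos Γ g v ∈ g.cell κ := by
    unfold DGrid.region at h1
    rw [Finset.singleton_biUnion] at h1
    exact h1
  have h3 : vpos Γ g v ∈ g.region Γ.T := Subtype.prop (p := fun v => v ∈ g.region Γ.T) v
  obtain ⟨κ₁, hκ₁, h4⟩ := Finset.mem_biUnion.1 h3
  have : κ₁ = κ := pn_t31g_p1_cell_unique g h4 h2
  subst this
  exact ⟨hκ₁, h2, rfl⟩

/-- **L-T31S-CN** (~250 l.).  A function without gradient is constant on every component.  Induction on `Relation.ReflTransGen`; inside a cell: `Free.fr_const` for the rectangle of the cell (all n.n. bonds inside a cell are bonds of `Γ`: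
they do not leave the cell, so they are not in `cutB`) or a direct double induction; across an uncut face: the bond from the last column (row) of `κ` to the first of `κ'` is a bond of `Γ`. -/
theorem pn_t31s_const (Γ : CGeom m₁ m₂) (g : DGrid m₁ m₂) {α : Type} (h : (Γ.graph g).V → α)
    (hh : ∀ e, h ((Γ.graph g).tgt e) = h ((Γ.graph g).src e)) {κ κ' : C3.Cell m₁ m₂} (hc : Γ.Conn κ κ')
    {v v' : (Γ.graph g).V} (hv : v ∈ Γ.sites g {κ}) (hv' : v' ∈ Γ.sites g {κ'}) : h v = h v' := by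
  obtain ⟨hκ, hx, he⟩ := pn_t31s_CN_site Γ g hv
  obtain ⟨hκ', hx', he'⟩ := pn_t31s_CN_site Γ g hv'
  obtain ⟨_, h1⟩ := pn_t31s_CN_conn Γ g h hh hc hκ
  rw [he, he', pn_t31s_CN_cell' Γ g h hh hκ _ hx, pn_t31s_CN_cell' Γ g h hh hκ' _ hx']
  exact h1

/-! ## 3. The free components -/

/-- the number of free components -/
def nFree (Γ : CGeom m₁ m₂) : ℕ := (freeC Γ).card

/-- the `j`-th free component -/
def cmpF (Γ : CGeom m₁ m₂) (j : Fin (nFree Γ)) : Finset (C3.Cell m₁ m₂) := ((freeC Γ).equivFin.symm j).1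

theorem pn_t31s_cmpF_mem (Γ : CGeom m₁ m₂) (j : Fin (nFree Γ)) : cmpF Γ j ∈ freeC Γ := ((freeC Γ).equivFin.symm j).2

theorem pn_t31s_cmpF_comps (Γ : CGeom m₁ m₂) (j : Fin (nFree Γ)) : cmpF Γ j ∈ comps Γ :=
  (Finset.mem_filter.1 (pn_t31s_cmpF_mem Γ j)).1

theorem pn_t31s_cmpF_inj (Γ : CGeom m₁ m₂) {j j' : Fin (nFree Γ)} (h : cmpF Γ j = cmpF Γ j') : j = j' :=
  (freeC Γ).equivFin.symm.injective (Subtype.ext h)

theorem pn_t31s_cmpF_surj (Γ : CGeom m₁ m₂) {U : Finset (C3.Cell m₁ m₂)} (hU : U ∈ freeC Γ) : ∃ j, cmpF Γ j = U :=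
  ⟨(freeC Γ).equivFin ⟨U, hU⟩, by simp [cmpF]⟩

/-- the marked cell of a free component -/
def mkC (Γ : CGeom m₁ m₂) (j : Fin (nFree Γ)) : C3.Cell m₁ m₂ := (pn_t31g_comps_nonempty Γ (pn_t31s_cmpF_comps Γ j)).choose

theorem pn_t31s_mkC_mem (Γ : CGeom m₁ m₂) (j : Fin (nFree Γ)) : mkC Γ j ∈ cmpF Γ j :=
  (pn_t31g_comps_nonempty Γ (pn_t31s_cmpF_comps Γ j)).choose_spec

/-- the lower left site of a cell -/
def cornerOf (g : DGrid m₁ m₂) (κ : C3.Cell m₁ m₂) : ℤ × ℤ := (g.x₁ κ.1.castSucc, g.x₂ κ.2.castSucc)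

theorem pn_t31s_corner_mem (g : DGrid m₁ m₂) (κ : C3.Cell m₁ m₂) : cornerOf g κ ∈ g.cell κ := by
  simp only [cornerOf, DGrid.cell, Finset.mem_product, Finset.mem_Ico, le_refl, true_and]
  exact ⟨g.mono₁ Fin.castSucc_lt_succ, g.mono₂ Fin.castSucc_lt_succ⟩

theorem pn_t31s_corner_region (g : DGrid m₁ m₂) {κ : C3.Cell m₁ m₂} {U : Finset (C3.Cell m₁ m₂)} (h : κ ∈ U) : cornerOf g κ ∈ g.region U :=
  Finset.mem_biUnion.2 ⟨κ, h, pn_t31s_corner_mem g κ⟩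

/-- the root site of a free component -/
def rootV (Γ : CGeom m₁ m₂) (g : DGrid m₁ m₂) (j : Fin (nFree Γ)) : (Γ.graph g).V :=
  vmk Γ g (cornerOf g (mkC Γ j)) (pn_t31s_corner_region g (pn_t31g_comps_sub Γ (pn_t31s_cmpF_comps Γ j) (pn_t31s_mkC_mem Γ j)))

/-- the indicator of a union of cells, as an integer height -/
def indU (Γ : CGeom m₁ m₂) (g : DGrid m₁ m₂) (U : Finset (C3.Cell m₁ m₂)) : (Γ.graph g).V → ℤ := fun v => if v ∈ Γ.sites g U then 1 else 0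

theorem pn_t31s_F1_region_single (g : DGrid m₁ m₂) (κ : C3.Cell m₁ m₂) : g.region {κ} = g.cell κ :=
  Finset.singleton_biUnion

theorem pn_t31s_F1_cell_uniq (g : DGrid m₁ m₂) {κ κ' : C3.Cell m₁ m₂} {x : ℤ × ℤ} (h : x ∈ g.cell κ) (h' : x ∈ g.cell κ') : κ = κ' := by
  by_contra hne
  have hd := pn_t31g_region_disj g (Finset.disjoint_singleton.2 hne)
  rw [pn_t31s_F1_region_single, pn_t31s_F1_region_single] at hd
  exact Finset.disjoint_left.1 hd h h'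

theorem pn_t31s_F1_mem_sites (Γ : CGeom m₁ m₂) (g : DGrid m₁ m₂) (A : Finset (C3.Cell m₁ m₂)) (v : (Γ.graph g).V) :
    v ∈ Γ.sites g A ↔ vpos Γ g v ∈ g.region A := Iff.rfl

theorem pn_t31s_F1_cmpF_disj (Γ : CGeom m₁ m₂) (g : DGrid m₁ m₂) {j j' : Fin (nFree Γ)} (h : j ≠ j') :
    Disjoint (g.region (cmpF Γ j)) (g.region (cmpF Γ j')) :=
  pn_t31g_region_disj g (pn_t31g_comps_disj Γ (pn_t31s_cmpF_comps Γ j) (pn_t31s_cmpF_comps Γ j')
    fun e => h (pn_t31s_cmpF_inj Γ e))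

/-- **L-T31S-F1** (~200 l. for the block `ind_*`).  Membership, gradient (`pn_t31g_bond_comp`), values at the roots (`pn_t31g_comps_disj`, `pn_t31g_region_disj`, `pn_t31s_cmpF_inj`). -/
theorem pn_t31s_ind_mem (Γ : CGeom m₁ m₂) (g : DGrid m₁ m₂) {U : Finset (C3.Cell m₁ m₂)} (hU : U ∈ freeC Γ) : indU Γ g U ∈ latOn Γ g U := by
  have hd : Disjoint U Γ.pin := Finset.disjoint_iff_inter_eq_empty.2 (Finset.mem_filter.1 hU).2
  have hr := pn_t31g_region_disj g hd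
  refine ⟨fun v hv => ?_, fun v hv => if_neg hv⟩
  refine if_neg fun h => ?_
  exact Finset.disjoint_left.1 hr ((pn_t31s_F1_mem_sites Γ g U v).1 h) ((pn_t31s_F1_mem_sites Γ g Γ.pin v).1 hv)

theorem pn_t31s_ind_grad (Γ : CGeom m₁ m₂) (g : DGrid m₁ m₂) {U : Finset (C3.Cell m₁ m₂)} (hU : U ∈ comps Γ) (e : (Γ.graph g).E) :
    indU Γ g U ((Γ.graph g).tgt e) = indU Γ g U ((Γ.graph g).src e) := by
  obtain ⟨e, he⟩ := e
  have hb := pn_t31g_bond_comp Γ g he hU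
  unfold indU
  by_cases h1 : e.1 ∈ g.region U
  · have h2 := hb.1 h1
    rw [if_pos (show _ ∈ Γ.sites g U from h2), if_pos (show _ ∈ Γ.sites g U from h1)]
  · have h2 : e.snd ∉ g.region U := fun h => h1 (hb.2 h)
    rw [if_neg (show _ ∉ Γ.sites g U from h2), if_neg (show _ ∉ Γ.sites g U from h1)]

theorem pn_t31s_F1_root_mem (Γ : CGeom m₁ m₂) (g : DGrid m₁ m₂) (j : Fin (nFree Γ)) :
    vpos Γ g (rootV Γ g j) ∈ g.cell (mkC Γ j) := pn_t31s_corner_mem g (mkC Γ j)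

theorem pn_t31s_F1_root_region (Γ : CGeom m₁ m₂) (g : DGrid m₁ m₂) (j : Fin (nFree Γ)) :
    vpos Γ g (rootV Γ g j) ∈ g.region (cmpF Γ j) := pn_t31s_corner_region g (pn_t31s_mkC_mem Γ j)

theorem pn_t31s_ind_root (Γ : CGeom m₁ m₂) (g : DGrid m₁ m₂) (j j' : Fin (nFree Γ)) :
    indU Γ g (cmpF Γ j) (rootV Γ g j') = if j = j' then 1 else 0 := by
  unfold indU
  by_cases h : j = j'
  · subst h
    rw [if_pos rfl, if_pos (show _ ∈ Γ.sites g _ from pn_t31s_F1_root_region Γ g j)]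
  · rw [if_neg h, if_neg]
    intro h1
    exact Finset.disjoint_left.1 (pn_t31s_F1_cmpF_disj Γ g h) h1 (pn_t31s_F1_root_region Γ g j')

/-- the corner vertex of a cell of the geometry -/
def pn_t31s_F2_cv (Γ : CGeom m₁ m₂) (g : DGrid m₁ m₂) (κ : C3.Cell m₁ m₂) (hκ : κ ∈ Γ.T) : (Γ.graph g).V :=
  vmk Γ g (cornerOf g κ) (pn_t31s_corner_region g hκ)

theorem pn_t31s_F2_cv_eqns_cite : True := by
  have := @pn_t31s_F2_cv.eq_1
  trivial

theorem pn_t31s_F2_cv_mem (Γ : CGeom m₁ m₂) (g : DGrid m₁ m₂) (κ : C3.Cell m₁ m₂) (hκ : κ ∈ Γ.T) :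
    pn_t31s_F2_cv Γ g κ hκ ∈ Γ.sites g {κ} :=
  pn_t31s_corner_region g (Finset.mem_singleton_self κ)

/-- a function without gradient takes one value on a component -/
theorem pn_t31s_F2_const (Γ : CGeom m₁ m₂) (g : DGrid m₁ m₂) {α : Type} (h : (Γ.graph g).V → α)
    (hh : ∀ e, h ((Γ.graph g).tgt e) = h ((Γ.graph g).src e)) {U : Finset (C3.Cell m₁ m₂)} (hU : U ∈ comps Γ)
    {v v' : (Γ.graph g).V} (hv : v ∈ Γ.sites g U) (hv' : v' ∈ Γ.sites g U) : h v = h v' := by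
  obtain ⟨κ₀, h0, rfl⟩ := Finset.mem_image.1 hU
  obtain ⟨κ, hκ, h1⟩ := Finset.mem_biUnion.1 ((pn_t31s_F1_mem_sites Γ g _ v).1 hv)
  obtain ⟨κ', hκ', h2⟩ := Finset.mem_biUnion.1 ((pn_t31s_F1_mem_sites Γ g _ v').1 hv')
  have c1 := (pn_t31g_mem_roComp Γ κ₀ κ).1 hκ
  have c2 := (pn_t31g_mem_roComp Γ κ₀ κ').1 hκ'
  have s1 : v ∈ Γ.sites g {κ} := by
    rw [pn_t31s_F1_mem_sites, pn_t31s_F1_region_single]
    exact h1
  have s2 : v' ∈ Γ.sites g {κ'} := by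
    rw [pn_t31s_F1_mem_sites, pn_t31s_F1_region_single]
    exact h2
  rw [← pn_t31s_const Γ g h hh c1 (pn_t31s_F2_cv_mem Γ g κ₀ h0) s1,
    ← pn_t31s_const Γ g h hh c2 (pn_t31s_F2_cv_mem Γ g κ₀ h0) s2]

/-- **L-T31S-F2** (~150 l.).  `pn_t31s_const`: on a component with a pinned cell `h = 0`, on the free component `j` `h = h (root j)`; every vertex lies in exactly one component. -/
theorem pn_t31s_ker (Γ : CGeom m₁ m₂) (g : DGrid m₁ m₂) (h : (Γ.graph g).V → ℤ) (hh : h ∈ HLaw.pinned (Γ.sites g Γ.pin))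
    (h0 : ∀ e, h ((Γ.graph g).tgt e) = h ((Γ.graph g).src e)) : h = ∑ j, h (rootV Γ g j) • indU Γ g (cmpF Γ j) := by
  funext v
  rw [Finset.sum_apply]
  simp only [Pi.smul_apply, smul_eq_mul]
  obtain ⟨U, hU, hvU⟩ := pn_t31g_region_cover Γ g (x := vpos Γ g v) v.2
  by_cases hf : U ∈ freeC Γ
  · obtain ⟨j₀, rfl⟩ := pn_t31s_cmpF_surj Γ hf
    rw [Finset.sum_eq_single j₀]
    · have e1 : indU Γ g (cmpF Γ j₀) v = 1 := if_pos hvU
      rw [e1, mul_one]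
      exact pn_t31s_F2_const Γ g h h0 hU hvU (pn_t31s_F1_root_region Γ g j₀)
    · intro j _ hj
      have e1 : indU Γ g (cmpF Γ j) v = 0 :=
        if_neg fun h1 => Finset.disjoint_left.1 (pn_t31s_F1_cmpF_disj Γ g hj) h1 hvU
      rw [e1, mul_zero]
    · intro hn
      exact absurd (Finset.mem_univ _) hn
  · have hne : (U ∩ Γ.pin).Nonempty := by
      rw [Finset.nonempty_iff_ne_empty]
      intro he
      exact hf (Finset.mem_filter.2 ⟨hU, he⟩)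
    obtain ⟨κp, hκp⟩ := hne
    obtain ⟨k1, k2⟩ := Finset.mem_inter.1 hκp
    have kT : κp ∈ Γ.T := pn_t31g_comps_sub Γ hU k1
    have e1 : h v = h (pn_t31s_F2_cv Γ g κp kT) :=
      pn_t31s_F2_const Γ g h h0 hU hvU (pn_t31s_corner_region g k1)
    have e2 : h (pn_t31s_F2_cv Γ g κp kT) = 0 := hh _ (pn_t31s_corner_region g k2)
    rw [e1, e2]
    symm
    refine Finset.sum_eq_zero fun j _ => ?_
    have hne : cmpF Γ j ≠ U := fun e => hf (e ▸ pn_t31s_cmpF_mem Γ j)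
    have hd := pn_t31g_region_disj g (pn_t31g_comps_disj Γ (pn_t31s_cmpF_comps Γ j) hU hne)
    have e3 : indU Γ g (cmpF Γ j) v = 0 := if_neg fun h1 => Finset.disjoint_left.1 hd h1 hvU
    rw [e3, mul_zero]

/-- counting the points of a subset inside the subtype of a bigger finite set -/
theorem pn_t31s_F3_cardaux {α : Type} [DecidableEq α] (D S : Finset α) (hS : S ⊆ D) :
    (Finset.univ.filter fun v : {x // x ∈ D} => v.1 ∈ S).card = S.card := by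
  refine Finset.card_bij (fun v _ => v.1) ?_ ?_ ?_
  · intro v hv
    exact (Finset.mem_filter.1 hv).2
  · intro a _ b _ hab
    exact Subtype.ext hab
  · intro b hb
    exact ⟨⟨b, hS hb⟩, Finset.mem_filter.2 ⟨Finset.mem_univ _, hb⟩, rfl⟩

/-- the number of vertices in a cell of the geometry -/
theorem pn_t31s_F3_card (Γ : CGeom m₁ m₂) (g : DGrid m₁ m₂) {κ : C3.Cell m₁ m₂} (hκ : κ ∈ Γ.T) :
    (Finset.univ.filter fun v : (Γ.graph g).V => v ∈ Γ.sites g {κ}).card = (g.region ({κ} ∩ Γ.T)).card := by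
  have e0 : ({κ} ∩ Γ.T : Finset (C3.Cell m₁ m₂)) = {κ} := Finset.inter_eq_left.2 (Finset.singleton_subset_iff.2 hκ)
  rw [e0]
  have hsub : g.region {κ} ⊆ g.region Γ.T := pn_t31g_region_mono g (Finset.singleton_subset_iff.2 hκ)
  have key := pn_t31s_F3_cardaux (g.region Γ.T) (g.region {κ}) hsub
  rw [← key]
  refine Finset.card_bij (fun v _ => v) ?_ ?_ ?_
  · intro v hv
    exact Finset.mem_filter.2 ⟨Finset.mem_univ _, (Finset.mem_filter.1 hv).2⟩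
  · intro a _ b _ hab
    exact hab
  · intro b hb
    exact ⟨b, Finset.mem_filter.2 ⟨Finset.mem_univ _, (Finset.mem_filter.1 hb).2⟩, rfl⟩

/-- the average over a cell of a function which is constant on the cell -/
theorem pn_t31s_F3_avg (Γ : CGeom m₁ m₂) (g : DGrid m₁ m₂) {κ : C3.Cell m₁ m₂} (hκ : κ ∈ Γ.T) (φ : (Γ.graph g).V → ℝ) (c : ℝ)
    (hφ : ∀ v ∈ Γ.sites g {κ}, φ v = c) : HLaw.pair (Γ.avgRow g {κ}) φ = c := by
  unfold HLaw.pair CGeom.avgRow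
  have e1 : ∀ v : (Γ.graph g).V, (if v ∈ Γ.sites g {κ} then ((g.region ({κ} ∩ Γ.T)).card : ℝ)⁻¹ else 0) * φ v
      = if v ∈ Γ.sites g {κ} then ((g.region ({κ} ∩ Γ.T)).card : ℝ)⁻¹ * c else 0 := by
    intro v
    by_cases hv : v ∈ Γ.sites g {κ}
    · rw [if_pos hv, if_pos hv, hφ v hv]
    · rw [if_neg hv, if_neg hv, zero_mul]
  simp only [e1]
  rw [← Finset.sum_filter, Finset.sum_const, pn_t31s_F3_card Γ g hκ, nsmul_eq_mul]
  have hpos : ((g.region ({κ} ∩ Γ.T)).card : ℝ) ≠ 0 := by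
    have : (g.region ({κ} ∩ Γ.T)).Nonempty :=
      ⟨cornerOf g κ, pn_t31s_corner_region g (Finset.mem_inter.2 ⟨Finset.mem_singleton_self κ, hκ⟩)⟩
    exact_mod_cast this.card_pos.ne'
  field_simp

theorem pn_t31s_F3_avg_out (Γ : CGeom m₁ m₂) (g : DGrid m₁ m₂) {κ : C3.Cell m₁ m₂} (hκ : κ ∉ Γ.T) (φ : (Γ.graph g).V → ℝ) :
    HLaw.pair (Γ.avgRow g {κ}) φ = 0 := by
  have e0 : ({κ} ∩ Γ.T : Finset (C3.Cell m₁ m₂)) = ∅ := Finset.singleton_inter_of_notMem hκ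
  unfold HLaw.pair CGeom.avgRow
  refine Finset.sum_eq_zero fun v _ => ?_
  rw [e0]
  simp [DGrid.region]

/-- an indicator height is constant on every cell -/
theorem pn_t31s_F3_ind_cell (Γ : CGeom m₁ m₂) (g : DGrid m₁ m₂) (U : Finset (C3.Cell m₁ m₂)) (κ : C3.Cell m₁ m₂) :
    ∀ v ∈ Γ.sites g {κ}, toR (indU Γ g U) v = if κ ∈ U then 1 else 0 := by
  intro v hv
  rw [pn_t31s_F1_mem_sites, pn_t31s_F1_region_single] at hv
  unfold toR indU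
  by_cases hκ : κ ∈ U
  · rw [if_pos hκ, if_pos (show v ∈ Γ.sites g U from Finset.mem_biUnion.2 ⟨κ, hκ, hv⟩)]
    simp
  · rw [if_neg hκ, if_neg]
    · simp
    · intro h1
      obtain ⟨κ', hκ', h2⟩ := Finset.mem_biUnion.1 ((pn_t31s_F1_mem_sites Γ g U v).1 h1)
      exact hκ (pn_t31s_F1_cell_uniq g hv h2 ▸ hκ')

theorem pn_t31s_F3_mkC_T (Γ : CGeom m₁ m₂) (j : Fin (nFree Γ)) : mkC Γ j ∈ Γ.T :=
  pn_t31g_comps_sub Γ (pn_t31s_cmpF_comps Γ j) (pn_t31s_mkC_mem Γ j)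

/-- **L-T31S-F3** (~200 l. for the block of four).  The average over a cell `κ ∈ Γ.T` of a function which is constant `= c` on the cell is `c` (the cell is not empty: `pn_t31s_corner_mem`); `avgRow g {κ} = 0` if `κ ∉ Γ.T`. -/
theorem pn_t31s_chg (Γ : CGeom m₁ m₂) (g : DGrid m₁ m₂) (j j' : Fin (nFree Γ)) :
    HLaw.pair (Γ.avgRow g {mkC Γ j'}) (toR (indU Γ g (cmpF Γ j))) = if j = j' then 1 else 0 := by
  rw [pn_t31s_F3_avg Γ g (pn_t31s_F3_mkC_T Γ j') _ _ (pn_t31s_F3_ind_cell Γ g (cmpF Γ j) (mkC Γ j'))]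
  by_cases h : j = j'
  · subst h
    rw [if_pos rfl, if_pos (pn_t31s_mkC_mem Γ j)]
  · rw [if_neg h, if_neg]
    intro h1
    have hd := pn_t31g_comps_disj Γ (pn_t31s_cmpF_comps Γ j) (pn_t31s_cmpF_comps Γ j') fun e => h (pn_t31s_cmpF_inj Γ e)
    exact Finset.disjoint_left.1 hd h1 (pn_t31s_mkC_mem Γ j')

theorem pn_t31s_chg_avg (Γ : CGeom m₁ m₂) (g : DGrid m₁ m₂) (U : Finset (C3.Cell m₁ m₂)) (κ : C3.Cell m₁ m₂) :
    |HLaw.pair (Γ.avgRow g {κ}) (toR (indU Γ g U))| ≤ 1 := by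
  by_cases hκ : κ ∈ Γ.T
  · rw [pn_t31s_F3_avg Γ g hκ _ _ (pn_t31s_F3_ind_cell Γ g U κ)]
    split_ifs <;> simp
  · rw [pn_t31s_F3_avg_out Γ g hκ]
    simp

/-- `pl_pair_div` (`gradRow = plDiv ∘ plGrad`), `pn_t31s_ind_grad` -/
theorem pn_t31s_chg_grad (Γ : CGeom m₁ m₂) (g : DGrid m₁ m₂) {U : Finset (C3.Cell m₁ m₂)} (hU : U ∈ comps Γ) (u : ℤ × ℤ → ℝ) :
    HLaw.pair (gRow Γ g u) (toR (indU Γ g U)) = 0 := by
  have e : gRow Γ g u = plDiv (plGrad (amb Γ g u)) := rfl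
  rw [e, pl_pair_div]
  refine Finset.sum_eq_zero fun e _ => ?_
  have h1 : plGrad (toR (indU Γ g U)) e = 0 := by
    unfold plGrad toR
    rw [pn_t31s_ind_grad Γ g hU e, sub_self]
  rw [h1, mul_zero]

theorem pn_t31s_off (Γ : CGeom m₁ m₂) (g : DGrid m₁ m₂) {j j' : Fin (nFree Γ)} (hj : j ≠ j') (h : (Γ.graph g).V → ℤ)
    (hh : h ∈ latOn Γ g (cmpF Γ j)) : HLaw.pair (Γ.avgRow g {mkC Γ j'}) (toR h) = 0 := by
  refine pn_t31s_F3_avg Γ g (pn_t31s_F3_mkC_T Γ j') _ 0 fun v hv => ?_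
  have h1 : v ∉ Γ.sites g (cmpF Γ j) := by
    intro h2
    have h3 : vpos Γ g v ∈ g.region (cmpF Γ j') :=
      pn_t31g_region_mono g (Finset.singleton_subset_iff.2 (pn_t31s_mkC_mem Γ j')) hv
    exact Finset.disjoint_left.1 (pn_t31s_F1_cmpF_disj Γ g hj) h2 h3
  have h2 : h v = 0 := hh.2 v h1
  unfold toR
  rw [h2]
  simp

/-- the free components of the scenario of a geometry -/
def geoFrc (Γ : CGeom m₁ m₂) (g : ℕ → DGrid m₁ m₂) (b : ℕ → ℝ) {J : ℕ} (u : Fin J → ℕ → ℤ × ℤ → ℝ) : Frc (geoX Γ g b u) (nFree Γ) where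
  u := fun k j => indU Γ (g k) (cmpF Γ j)
  x := fun k j => rootV Γ (g k) j
  c := fun j => Sum.inl (mkC Γ j)
  Λs := fun k j => latOn Γ (g k) (cmpF Γ j)
  u_mem := fun k j => pn_t31s_ind_mem Γ (g k) (pn_t31s_cmpF_mem Γ j)
  sub := fun _ _ => inf_le_left
  u_grad := fun k j e => pn_t31s_ind_grad Γ (g k) (pn_t31s_cmpF_comps Γ j) e
  u_x := fun k j j' => pn_t31s_ind_root Γ (g k) j j'
  ker := fun k h hh h0 => pn_t31s_ker Γ (g k) h hh h0
  chg := fun k j j' => pn_t31s_chg Γ (g k) j j'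
  chg_bd := ⟨1, fun k j κ => by
    rcases κ with κ | i
    · exact pn_t31s_chg_avg Γ (g k) _ κ
    · have h := pn_t31s_chg_grad Γ (g k) (pn_t31s_cmpF_comps Γ j) (u i k)
      show |HLaw.pair (gRow Γ (g k) (u i k)) (toR (indU Γ (g k) (cmpF Γ j)))| ≤ 1
      rw [h, abs_zero]
      exact zero_le_one⟩
  off := fun k j j' hj h hh => pn_t31s_off Γ (g k) hj h hh

theorem pn_t31s_PH_test (Γ : CGeom m₁ m₂) (g : DGrid m₁ m₂) (c : C3.Cell m₁ m₂) (x : (Γ.graph g).V) (q : ℤ) :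
    (q : ℝ) • (Γ.avgRow g {c} - ptc x)
      = Γ.cellTest g (fun κ => if κ = c then (q : ℝ) else 0) - C3.ptRow (fun v => if v = x then q else 0) := by
  funext v
  simp only [Pi.smul_apply, Pi.sub_apply, smul_eq_mul, CGeom.cellTest, C3.ptRow, ptc, ite_mul, zero_mul,
    Finset.sum_ite_eq', Finset.mem_univ, if_true]
  by_cases hv : v = x <;> simp [hv, mul_sub]

/-- **L-T31S-PH** (~200 l.).  **Vanishing characters of the scenario.**  `i k` from `pn_t31g_wiso_comp`; `Ξ k ∘ (i k).e` is a lift of `pullV (q • (avgRow {c} - ptc x)) = cellTest (q 1_c) - ptRow (q δ_x)` on the polygon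
(`pn_t31g_pull_smul/sub/avg`; the pull-back of `ptc (rootV ..)` is the point charge at the corner); `pn_t31_wiso_phi`; `hPh` with `l = q`, `t k = fun κ => if κ = c then q else 0` (`∑_{κ ∈ U} = q` by `pn_t31s_mkC_mem`). -/
theorem pn_t31s_PH (Γ : CGeom m₁ m₂) (hΓ : Γ.NoDiag) (K : ℕ) (g : ℕ → DGrid m₁ m₂) {ν : ℕ → ℕ} (hg : Admissible K g ν) (b : ℕ → ℝ) (hb : ∀ k, 0 < b k)
    {J : ℕ} (u : Fin J → ℕ → ℤ × ℤ → ℝ) (hPh : ∀ U ∈ freeC Γ, PhaseOn b ν U Γ.pin) : (geoFrc Γ g b u).PH := by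
  intro j q hq Ξ hΞ
  have hU := pn_t31s_cmpF_comps Γ j
  choose i hi using fun k => pn_t31g_wiso_comp Γ hΓ (g k) (b k) (hb k) hU
  have key := hPh (cmpF Γ j) (pn_t31s_cmpF_mem Γ j) K g hg q hq (fun _ κ => if κ = mkC Γ j then (q : ℝ) else 0) |(q : ℝ)|
    (fun k κ => by
      by_cases h : κ = mkC Γ j
      · simp [h]
      · simp [h])
    (fun k => by
      rw [Finset.sum_ite_eq', if_pos (pn_t31s_mkC_mem Γ j)])
    (fun k => pullV Γ (cmpF Γ j) (g k) (fun v => if v = rootV Γ (g k) j then q else 0))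
    (fun k => (Ξ k).comp (i k).e.toAddMonoidHom)
    (fun k => by
      have h1 := hi k _ (Ξ k) (hΞ k)
      have e : ((q : ℝ) • ((geoX Γ g b u).φ k ((geoFrc Γ g b u).c j) - ptc ((geoFrc Γ g b u).x k j)))
          = (q : ℝ) • (Γ.avgRow (g k) {mkC Γ j} - ptc (rootV Γ (g k) j)) := rfl
      rw [e, pn_t31s_PH_test, pn_t31g_pull_sub, pn_t31g_pull_cellTest Γ (g k) hU, pn_t31g_pull_ptRow] at h1
      exact h1)
  refine key.congr fun k => ?_
  exact (pn_t31_wiso_phi (i k) (Ξ k)).symm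

end

end Claimed.Agent.R285.Pins
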