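import Claimed.Agent.R285.Pins.T32PotB
import Claimed.Agent.R285.Pins.T32Con

/-!
# ROW 285, PINS, T3.2 package: THE POT INPUTS, part 3 (architect helper53).   The band law of a general cut geometry (`T32.lawW` of `Pins/T32Con.lean`): band rows + unit rows.   PAPER-FREE.

* `pn_pot_band_gen` : the Gaussian pin interaction tends to `0` for EVERY law with the Gram matrix of `H₀ +` (soft rows of the fine cells of the band), `H₀` = at most `N` rows, each carried by the inner or by the outer layer, `∑∑ B² ≤ CB/(s ν)²`;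
* `ppUnit` : the law of the unit rows of `T32.lawW`;  `pn_pot_unit_*`, `pn_pot_lawW_eqv`;
* `pn_pot_band_W` : `T32.pn_pot_band` (contract POT-5 of `Pins/T32Asy.lean`) in raw vocabulary.
Every `sorry` is a leaf `L-PP-*`.  Statements frozen; helper lemmas: prefix `pn_pot_`.
-/

set_option autoImplicit false

namespace Claimed.Agent.R285.Pins

open Filter Topology MeasureTheory
open Claimed.Agent.R285.C3 (Cell lawR)
open Claimed.Agent.R285.Pot
open scoped Classical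

noncomputable section

variable {m₁ m₂ n₁ n₂ : ℕ}

/-- **L-PP-F2** (~300 l.; the proof of `pn_pot_band` (L-PP-F1, `T32PotB.lean`) with `H₀` in the place of the law without rows).
`rintro ⟨rfl, rfl⟩`.   `lam₀', σ` from `ps_band_pin_chart n₁ n₂ (K+1) N ha CB ((K+1)²) hε`, applied with `lam' = lam/(K+1)²`:  `lam₀ = lam₀' (K+1)²`, `s₀ = max 3 (⌈(K+1)/σ⌉₊ + 1)`.
Chart: `pn_pg_chart' (pn_pg_med_refines ..) Γ`, medium grid `shMed s g'`, medium scale `s ν ≥ 3`, `pn_pg_med_side`;  layers `pn_pg_lay Γ X j`, `pn_pg_far`, `pn_pg_sub_ball`;   `psSitesD g' (S23.fine s Y) = psSitesD (shMed s g') Y` (`pn_sb_region`);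
boxes `pgBoxes g' (S23.fine s (pgKb Γ X j))`: `pn_pg_part`, box side `≤ K ν ≤ σ (s ν)`;  `w = √lam / s`: `w² (s ν)² = lam ν²`, `ν² ≤ |b_i| ≤ (K+1)² ν²` (`pn_pg_box_set`, `pn_pg_card_ge/le`);   `ps_eqv_gPin`, `ps_eqv_PD`. -/
theorem pn_pot_band_gen (n₁ n₂ K N : ℕ) {a : ℝ} (ha : 0 < a) (CB : ℝ) {ε : ℝ} (hε : 0 < ε) :
    ∃ lam₀ : ℝ, 0 < lam₀ ∧ ∀ lam : ℝ, lam₀ ≤ lam → ∃ s₀ : ℕ, ∀ s, s₀ ≤ s → ∀ (D : Finset (ℤ × ℤ)) (cut : Set Bond) (Γ : CGeom n₁ n₂)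
      (g' : DGrid (s * n₁) (s * n₂)), PsChart D cut (S23.refine s Γ) g' → ∀ ν : ℕ, 1 ≤ ν → g'.SideGe ν → g'.SideLe (K * ν) →
    ∀ (X : Finset (Cell n₁ n₂)) (j : ℕ) (H₀ : HLaw (domG D cut)), Fintype.card H₀.O ≤ N →
      (∀ o, (∀ x, H₀.B o x ≠ 0 → x ∈ psSitesD g' (S23.fine s (shBall X j))) ∨ ∀ x, H₀.B o x ≠ 0 → x ∈ psSitesD g' (S23.fine s (pgOut X j))) →
      ∑ o, ∑ x, H₀.B o x ^ 2 ≤ CB / ((s * ν : ℕ) : ℝ) ^ 2 →
    ∀ H : HLaw (domG D cut), psEqv H (psAdd H₀ (psSoftD (pgBoxes g' (S23.fine s (pgKb Γ X j))) fun _ => Real.sqrt lam / s)) →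
    ∀ P : Set (domG D cut).V, plPD H P → ∀ A : Finset (Cell n₁ n₂), Disjoint A (shBall X (j + 2)) →
      H.gPin a P (psSitesD g' (S23.fine s A)) (psSitesD g' (S23.fine s X)) ≤ ε := by
  obtain ⟨lam₀', h0', h⟩ := ps_band_pin_chart n₁ n₂ (K + 1) N ha CB (((K : ℝ) + 1) ^ 2) hε
  have hK1 : (0 : ℝ) < ((K : ℝ) + 1) ^ 2 := by positivity
  refine ⟨lam₀' * ((K : ℝ) + 1) ^ 2, by positivity, fun lam hlam => ?_⟩
  have hlam0 : 0 < lam := lt_of_lt_of_le (by positivity) hlam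
  have hlam' : lam₀' ≤ lam / ((K : ℝ) + 1) ^ 2 := by rwa [le_div_iff₀ hK1]
  obtain ⟨σ, hσ, h'⟩ := h (lam / ((K : ℝ) + 1) ^ 2) hlam'
  refine ⟨max 3 (⌈((K : ℝ) + 1) / σ⌉₊ + 1), fun s hs => ?_⟩
  have hs3 : 3 ≤ s := le_trans (le_max_left _ _) hs
  have hs0 : 0 < s := by omega
  have hsσ : (K : ℝ) + 1 ≤ σ * s := by
    have h1 : ⌈((K : ℝ) + 1) / σ⌉₊ ≤ s := by have := le_trans (le_max_right _ _) hs; omega
    have h2 : ((K : ℝ) + 1) / σ ≤ s := (Nat.le_ceil _).trans (by exact_mod_cast h1)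
    rw [div_le_iff₀ hσ] at h2
    linarith
  rintro D cut Γ g' ⟨rfl, rfl⟩ ν hν h1 h2 X j H₀ hN hsupp hl2 H heqv' P hPD A hA
  have href := pn_pg_med_refines hs0 g'
  have hchart := pn_pg_chart' href Γ
  obtain ⟨hm1, hm2⟩ := pn_pg_med_side hs0 g' h1 h2
  have hm2' : (shMed s g').SideLe ((K + 1) * (s * ν)) :=
    pn_pot_band_sideLe_mono (Nat.mul_le_mul_right _ (Nat.le_succ K)) hm2
  have hν3 : 3 ≤ s * ν := le_trans hs3 (Nat.le_mul_of_pos_right s hν)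
  obtain ⟨hfar1, hfar2⟩ := pn_pg_far Γ X j hA
  have hsν : (0 : ℝ) < (s : ℝ) := by exact_mod_cast hs0
  have hνR : (0 : ℝ) < (ν : ℝ) := by exact_mod_cast hν
  have hconv : ∀ (Y : Finset (Cell n₁ n₂)) (x : (domG (g'.region (S23.refine s Γ).T) ((S23.refine s Γ).cutB g')).V),
      x ∈ psSitesD (D := g'.region (S23.refine s Γ).T) (cut := (S23.refine s Γ).cutB g') g' (S23.fine s Y) →
      x ∈ psSitesD (D := g'.region (S23.refine s Γ).T) (cut := (S23.refine s Γ).cutB g') (shMed s g') Y := by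
    intro Y x hx
    unfold psSitesD at hx ⊢
    rwa [pn_sb_region href Y] at hx
  have key := h' _ _ Γ (shMed s g') hchart (s * ν) hν3 hm1 hm2' (shBall X j) (pgKb Γ X j) (pgOut X j) (pn_pg_lay Γ X j)
    H₀ hN (fun o => (hsupp o).imp (fun hh x hx => hconv _ x (hh x hx)) (fun hh x hx => hconv _ x (hh x hx)))
    hl2
    (Fin (S23.fine s (pgKb Γ X j)).card) (pgBoxes g' (S23.fine s (pgKb Γ X j))) (fun _ => Real.sqrt lam / s) (K * ν)
    (pn_pg_part href (pgKb Γ X j) h2)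
    (by
      push_cast
      have : (K : ℝ) * ν ≤ (σ * s) * ν := mul_le_mul_of_nonneg_right (by linarith) hνR.le
      linarith)
    (fun i => by
      have hw : (Real.sqrt lam / s) ^ 2 * (((s * ν : ℕ) : ℝ)) ^ 2 = lam * (ν : ℝ) ^ 2 := by
        push_cast
        rw [div_pow, Real.sq_sqrt hlam0.le]
        field_simp
      have hset : (pgBoxes g' (S23.fine s (pgKb Γ X j)) i).set = g'.cell ((S23.fine s (pgKb Γ X j)).equivFin.symm i).1 :=
        pn_pg_box_set g' _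
      have c1 := pn_pg_card_ge g' ((S23.fine s (pgKb Γ X j)).equivFin.symm i).1 h1
      have c2 := pn_pg_card_le g' ((S23.fine s (pgKb Γ X j)).equivFin.symm i).1 h2
      rw [hw, hset]
      constructor
      · have e1 : ((K * ν : ℕ) : ℝ) ^ 2 ≤ ((K : ℝ) + 1) ^ 2 * (ν : ℝ) ^ 2 := by
          push_cast
          rw [mul_pow]
          have : (K : ℝ) ^ 2 ≤ ((K : ℝ) + 1) ^ 2 := by nlinarith [(Nat.cast_nonneg K : (0 : ℝ) ≤ K)]
          exact mul_le_mul_of_nonneg_right this (by positivity)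
        rw [div_mul_eq_mul_div, div_le_iff₀ hK1]
        calc lam * _ ≤ lam * (((K : ℝ) + 1) ^ 2 * (ν : ℝ) ^ 2) := mul_le_mul_of_nonneg_left (c2.trans e1) hlam0.le
          _ = lam * (ν : ℝ) ^ 2 * ((K : ℝ) + 1) ^ 2 := by ring
      · have e2 : ((K : ℝ) + 1) ^ 2 * (lam / ((K : ℝ) + 1) ^ 2) = lam := by field_simp
        rw [e2]
        exact mul_le_mul_of_nonneg_left c1 hlam0.le)
    P (psSitesD g' (S23.fine s A)) (psSitesD g' (S23.fine s X)) ((ps_eqv_PD heqv' P).1 hPD)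
    (by
      intro x hx
      exact pn_pg_sitesD_mono (shMed s g') (pn_pg_sub_ball X j) (hconv X x hx))
    (by
      intro x hx
      have hx' := hconv A x hx
      exact ⟨pn_pg_sitesD_mono (shMed s g') hfar1 hx', pn_pg_sitesD_notMem (shMed s g') hfar2 hx'⟩)
  rw [ps_eqv_gPin heqv']
  exact key.2

/-! ## The unit rows of `T32.lawW` -/

/-- the law of the unit rows (medium geometry `Γ`, fine grid `g'`), on any graph -/
def ppUnit (D : Finset (ℤ × ℤ)) (cut : Set Bond) (Γ : CGeom n₁ n₂) (J s : ℕ) (g' : DGrid (s * n₁) (s * n₂)) : HLaw (domG D cut) :=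
  sbLaw D cut ∅ fun o => sbCT (S23.fine s Γ.T) g' (T32.rowU Γ J s g' o)

theorem pn_pot_unit_cite : True := by have := @ppUnit.eq_1; trivial

/-- the level-`s` cell test with the coefficients `shCoef` of a medium cell of `T` is the average over the medium cell -/
theorem pn_pot_coef_eval (T : Finset (Cell n₁ n₂)) (s : ℕ) (g' : DGrid (s * n₁) (s * n₂)) {κ : Cell n₁ n₂} (hκ : κ ∈ T) (z : ℤ × ℤ) :
    sbCT (S23.fine s T) g' (shCoef s g' κ) z = psAvg (g'.region (S23.fine s {κ})) z := by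
  unfold psAvg
  by_cases hz : ∃ κ', z ∈ g'.cell κ'
  · obtain ⟨κ', hκ'⟩ := hz
    rw [pn_sb_CT_eval _ g' _ hκ']
    unfold shCoef
    by_cases hc : S23.coarse s κ' = κ
    · have hmem : κ' ∈ S23.fine s T := (pn_sb_mem_fine s T κ').2 (hc ▸ hκ)
      have e1 : ({κ'} : Finset (Cell (s * n₁) (s * n₂))) ∩ S23.fine s T = {κ'} :=
        Finset.inter_eq_left.2 (Finset.singleton_subset_iff.2 hmem)
      have hzR : z ∈ g'.region (S23.fine s {κ}) :=
        Finset.mem_biUnion.2 ⟨κ', (pn_sb_mem_fine s {κ} κ').2 (by rw [hc]; exact Finset.mem_singleton_self κ), hκ'⟩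
      rw [if_pos hc, if_pos hzR, e1, pn_sb_region_single]
      have hpos : (0 : ℝ) < (g'.cell κ').card := by exact_mod_cast pn_sb_cell_card_pos g' κ'
      rw [div_mul_eq_mul_div, mul_inv_cancel₀ hpos.ne', one_div]
    · have hzR : z ∉ g'.region (S23.fine s {κ}) := by
        intro h
        obtain ⟨κ'', h1, h2⟩ := Finset.mem_biUnion.1 h
        have h3 : κ'' = κ' := Sec.sec_cell_unique g' h2 hκ'
        rw [h3] at h1
        exact hc (Finset.mem_singleton.1 ((pn_sb_mem_fine s {κ} κ').1 h1))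
      rw [if_neg hc, if_neg hzR, zero_mul]
  · have hz' : ∀ κ', z ∉ g'.cell κ' := fun κ' h => hz ⟨κ', h⟩
    rw [pn_sb_CT_zero _ g' _ hz', if_neg]
    intro h
    obtain ⟨κ'', _, h2⟩ := Finset.mem_biUnion.1 h
    exact hz' κ'' h2

/-- the unit rows, evaluated -/
theorem pn_pot_unit_B (D : Finset (ℤ × ℤ)) (cut : Set Bond) (Γ : CGeom n₁ n₂) (J s : ℕ) (g' : DGrid (s * n₁) (s * n₂)) (o : Fin (n₁ * n₂))
    (x : (domG D cut).V) :
    (ppUnit D cut Γ J s g').B o x = if finProdFinEquiv.symm o ∈ Γ.T \ T32.bdT Γ J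
      then psAvg (g'.region (S23.fine s {finProdFinEquiv.symm o})) (domPos x) else 0 := by
  show sbCT (S23.fine s Γ.T) g' (T32.rowU Γ J s g' o) (domPos x) = _
  unfold T32.rowU
  by_cases h : finProdFinEquiv.symm o ∈ Γ.T \ T32.bdT Γ J
  · rw [if_pos h, if_pos h, pn_pot_coef_eval Γ.T s g' (Finset.mem_sdiff.1 h).1]
  · rw [if_neg h, if_neg h]
    unfold sbCT
    simp

/-- **L-PP-F3** (~300 l. for the three).  The unit row of the medium cell `κ ∈ Γ.T \ bdT` is the average over `κ`:  at `z` in the fine cell `κ'` (`pn_sb_CT_eval`) the value is `shCoef s g' κ κ' / |κ'| = 1/|region (fine s {κ})|` if `coarse s κ' = κ`, `0` otherwise.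
A cell of `Γ.T \ bdT Γ J` is not a band cell (`Relation.ReflTransGen.refl`), so it lies in `shBall Γ.pin (J+1)` or in `pgOut Γ.pin (J+1)`. -/
theorem pn_pot_unit_supp (D : Finset (ℤ × ℤ)) (cut : Set Bond) (Γ : CGeom n₁ n₂) (J s : ℕ) (g' : DGrid (s * n₁) (s * n₂)) (o : Fin (n₁ * n₂)) :
    (∀ x, (ppUnit D cut Γ J s g').B o x ≠ 0 → x ∈ psSitesD g' (S23.fine s (shBall Γ.pin (J + 1)))) ∨
      ∀ x, (ppUnit D cut Γ J s g').B o x ≠ 0 → x ∈ psSitesD g' (S23.fine s (pgOut Γ.pin (J + 1))) := by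
  obtain ⟨κ, hκ⟩ : ∃ κ, κ = finProdFinEquiv.symm o := ⟨_, rfl⟩
  have hB := pn_pot_unit_B D cut Γ J s g' o
  rw [← hκ] at hB
  by_cases h : κ ∈ Γ.T \ T32.bdT Γ J
  · have key : ∀ Y : Finset (Cell n₁ n₂), κ ∈ Y → ∀ x, (ppUnit D cut Γ J s g').B o x ≠ 0 → x ∈ psSitesD g' (S23.fine s Y) := by
      intro Y hY x hx
      rw [hB x, if_pos h] at hx
      unfold psAvg at hx
      have hz : domPos x ∈ g'.region (S23.fine s {κ}) := by
        by_contra hc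
        exact hx (if_neg hc)
      obtain ⟨κ', h1, h2⟩ := Finset.mem_biUnion.1 hz
      have h3 : S23.coarse s κ' = κ := Finset.mem_singleton.1 ((pn_sb_mem_fine s {κ} κ').1 h1)
      exact Finset.mem_coe.2 (Finset.mem_biUnion.2 ⟨κ', (pn_sb_mem_fine s Y κ').2 (h3 ▸ hY), h2⟩)
    obtain ⟨hT, hb⟩ := Finset.mem_sdiff.1 h
    have hK : κ ∉ shKb Γ J := by
      intro hc
      exact hb (Finset.mem_filter.2 ⟨hT, κ, hc, Relation.ReflTransGen.refl⟩)
    by_cases h1 : κ ∈ shBall Γ.pin (J + 1)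
    · exact Or.inl (key _ h1)
    · refine Or.inr (key _ ?_)
      unfold pgOut
      refine Finset.mem_filter.2 ⟨Finset.mem_univ _, fun h2 => hK ?_⟩
      exact Finset.mem_filter.2 ⟨hT, h2, h1⟩
  · refine Or.inl fun x hx => ?_
    rw [hB x, if_neg h] at hx
    exact absurd rfl hx

/-- `∑_x B² ≤ |κ| / |κ|² ≤ 1/(s ν)²` (`|region (fine s {κ})| = |medium cell| ≥ (s ν)²`: `pn_pg_med_refines`, `pn_sb_region`, `pn_pg_med_side`, `pn_pg_card_ge`; the vertices are distinct sites: sum over `D` `≤` sum over the region) -/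
theorem pn_pot_unit_l2 (D : Finset (ℤ × ℤ)) (cut : Set Bond) (Γ : CGeom n₁ n₂) (J : ℕ) {s : ℕ} (hs : 0 < s) (g' : DGrid (s * n₁) (s * n₂)) {ν : ℕ} (h1 : 1 ≤ ν)
    (hg : g'.SideGe ν) : ∑ o, ∑ x, (ppUnit D cut Γ J s g').B o x ^ 2 ≤ ((n₁ * n₂ : ℕ) : ℝ) / ((s * ν : ℕ) : ℝ) ^ 2 := by
  have href := pn_pg_med_refines hs g'
  -- the sides of the medium grid
  obtain ⟨M₁, hM₁⟩ := (Finset.univ.image fun i : Fin (s * n₁) => g'.x₁ i.succ - g'.x₁ i.castSucc).exists_le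
  obtain ⟨M₂, hM₂⟩ := (Finset.univ.image fun i : Fin (s * n₂) => g'.x₂ i.succ - g'.x₂ i.castSucc).exists_le
  have a1 := pn_pg_med_1d g'.x₁ (shMed s g').x₁ href.1 (ν : ℤ) M₁ hg.1
    (fun i => hM₁ _ (Finset.mem_image_of_mem _ (Finset.mem_univ i)))
  have a2 := pn_pg_med_1d g'.x₂ (shMed s g').x₂ href.2 (ν : ℤ) M₂ hg.2
    (fun i => hM₂ _ (Finset.mem_image_of_mem _ (Finset.mem_univ i)))
  have hmed : (shMed s g').SideGe (s * ν) := by
    refine ⟨fun i => ?_, fun j => ?_⟩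
    · have := (a1 i).1
      push_cast
      exact this
    · have := (a2 j).1
      push_cast
      exact this
  have hsν : (0 : ℝ) < ((s * ν : ℕ) : ℝ) := by
    have : 0 < s * ν := Nat.mul_pos hs (by omega)
    exact_mod_cast this
  have hrow : ∀ o : Fin (n₁ * n₂), ∑ x, (ppUnit D cut Γ J s g').B o x ^ 2 ≤ 1 / ((s * ν : ℕ) : ℝ) ^ 2 := by
    intro o
    obtain ⟨κ, hκ⟩ : ∃ κ, κ = finProdFinEquiv.symm o := ⟨_, rfl⟩
    have hB := pn_pot_unit_B D cut Γ J s g' o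
    rw [← hκ] at hB
    by_cases h : κ ∈ Γ.T \ T32.bdT Γ J
    · obtain ⟨R, hR⟩ : ∃ R, R = g'.region (S23.fine s {κ}) := ⟨_, rfl⟩
      have hRc : ((s * ν : ℕ) : ℝ) ^ 2 ≤ (R.card : ℝ) := by
        rw [hR, pn_sb_region href {κ}, pn_sb_region_single]
        exact pn_pg_card_ge (shMed s g') κ hmed
      have hR0 : (0 : ℝ) < (R.card : ℝ) := lt_of_lt_of_le (by positivity) hRc
      have e1 : ∑ x, (ppUnit D cut Γ J s g').B o x ^ 2 = ∑ z ∈ D, psAvg R z ^ 2 := by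
        rw [← Finset.sum_coe_sort D fun z => psAvg R z ^ 2]
        refine Finset.sum_congr rfl fun x _ => ?_
        rw [hB x, if_pos h, ← hR]
        rfl
      have e2 : ∑ z ∈ D, psAvg R z ^ 2 ≤ ∑ z ∈ R, ((R.card : ℝ)⁻¹) ^ 2 := by
        have e3 : ∑ z ∈ D, psAvg R z ^ 2 = ∑ z ∈ D.filter (fun z => z ∈ R), ((R.card : ℝ)⁻¹) ^ 2 := by
          rw [Finset.sum_filter]
          refine Finset.sum_congr rfl fun z _ => ?_
          unfold psAvg
          by_cases hz : z ∈ R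
          · rw [if_pos hz, if_pos hz]
          · rw [if_neg hz, if_neg hz]
            norm_num
        rw [e3]
        refine Finset.sum_le_sum_of_subset_of_nonneg (fun z hz => (Finset.mem_filter.1 hz).2) fun _ _ _ => sq_nonneg _
      rw [e1]
      refine e2.trans ?_
      rw [Finset.sum_const, nsmul_eq_mul]
      have e4 : (R.card : ℝ) * ((R.card : ℝ)⁻¹) ^ 2 = 1 / (R.card : ℝ) := by
        field_simp
      rw [e4]
      exact one_div_le_one_div_of_le (by positivity) hRc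
    · have e1 : ∑ x, (ppUnit D cut Γ J s g').B o x ^ 2 = 0 := by
        refine Finset.sum_eq_zero fun x _ => ?_
        rw [hB x, if_neg h]
        norm_num
      rw [e1]
      positivity
  show ∑ o : Fin (n₁ * n₂), ∑ x, (ppUnit D cut Γ J s g').B o x ^ 2 ≤ _
  calc ∑ o : Fin (n₁ * n₂), ∑ x, (ppUnit D cut Γ J s g').B o x ^ 2
      ≤ ∑ _o : Fin (n₁ * n₂), 1 / ((s * ν : ℕ) : ℝ) ^ 2 := Finset.sum_le_sum fun o _ => hrow o
    _ = ((n₁ * n₂ : ℕ) : ℝ) / ((s * ν : ℕ) : ℝ) ^ 2 := by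
        rw [Finset.sum_const, Finset.card_univ, Fintype.card_fin, nsmul_eq_mul, mul_one_div]

/-- the band rows, evaluated at any site -/
theorem pn_pot_shRow_eval (T : Finset (Cell n₁ n₂)) (s : ℕ) (g' : DGrid (s * n₁) (s * n₂)) {Kb : Finset (Cell n₁ n₂)} (hK : Kb ⊆ T) (lam : ℝ)
    (o : Fin ((s * n₁) * (s * n₂))) (z : ℤ × ℤ) :
    sbCT (S23.fine s T) g' (shRow s Kb lam o) z
      = if S23.coarse s (finProdFinEquiv.symm o) ∈ Kb then Real.sqrt lam / s * psAvg (g'.cell (finProdFinEquiv.symm o)) z else 0 := by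
  unfold sbCT
  rw [Finset.sum_eq_single (finProdFinEquiv.symm o)]
  · unfold shRow
    by_cases h : S23.coarse s (finProdFinEquiv.symm o) ∈ Kb
    · have hT : finProdFinEquiv.symm o ∈ S23.fine s T := (pn_sb_mem_fine s T _).2 (hK h)
      have e1 : ({finProdFinEquiv.symm o} : Finset (Cell (s * n₁) (s * n₂))) ∩ S23.fine s T = {finProdFinEquiv.symm o} :=
        Finset.inter_eq_left.2 (Finset.singleton_subset_iff.2 hT)
      rw [if_pos ⟨rfl, h⟩, if_pos h, e1, pn_sb_region_single]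
      unfold psAvg
      by_cases hz : z ∈ g'.cell (finProdFinEquiv.symm o)
      · rw [if_pos hz, if_pos (Finset.mem_coe.2 hz)]
      · rw [if_neg hz, if_neg (fun hc => hz (Finset.mem_coe.1 hc))]
    · rw [if_neg (fun h' => h h'.2), if_neg h, zero_mul]
  · intro κ _ hne
    unfold shRow
    rw [if_neg (fun h' => hne h'.1), zero_mul]
  · intro h
    exact absurd (Finset.mem_univ _) h

/-- the Gram matrix of the rows `T32.rowW` (`Fin.sum_univ_add`, `Fin.addCases_left/right`; band part: `pn_pg_band_eqv` for any geometry with the cells `Γ.T`, read on `domG D cut`: the identity is pointwise in the two sites; `Fintype.sum_sum_type`) -/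
theorem pn_pot_rowW_eqv (D : Finset (ℤ × ℤ)) (cut : Set Bond) (P₀ : Set (ℤ × ℤ)) (Γ : CGeom n₁ n₂) (J s : ℕ) (lam : ℝ) (g' : DGrid (s * n₁) (s * n₂)) :
    psEqv (sbLaw D cut P₀ fun o => sbCT (S23.fine s Γ.T) g' (T32.rowW Γ J s lam g' o))
      (psAdd (ppUnit D cut Γ J s g') (psSoftD (pgBoxes g' (S23.fine s (shKb Γ J))) fun _ => Real.sqrt lam / s)) := by
  intro x y
  obtain ⟨r, hr⟩ : ∃ r : ℝ, r = Real.sqrt lam / s := ⟨_, rfl⟩
  obtain ⟨Kb, hKb⟩ : ∃ Kb, Kb = shKb Γ J := ⟨_, rfl⟩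
  have hK : Kb ⊆ Γ.T := by
    rw [hKb]
    exact Finset.filter_subset _ _
  rw [← hKb]
  show ∑ o : Fin ((s * n₁) * (s * n₂) + n₁ * n₂), sbCT (S23.fine s Γ.T) g' (T32.rowW Γ J s lam g' o) (domPos x)
      * sbCT (S23.fine s Γ.T) g' (T32.rowW Γ J s lam g' o) (domPos y)
    = ∑ o : Fin (n₁ * n₂) ⊕ Fin (S23.fine s Kb).card,
      Sum.elim (ppUnit D cut Γ J s g').B (psSoftD (D := D) (cut := cut) (pgBoxes g' (S23.fine s Kb)) fun _ => Real.sqrt lam / s) o x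
      * Sum.elim (ppUnit D cut Γ J s g').B (psSoftD (D := D) (cut := cut) (pgBoxes g' (S23.fine s Kb)) fun _ => Real.sqrt lam / s) o y
  rw [Fin.sum_univ_add, Fintype.sum_sum_type, add_comm]
  congr 1
  · refine Finset.sum_congr rfl fun o _ => ?_
    unfold T32.rowW
    rw [Fin.addCases_right]
    rfl
  · have hLs : ∑ o : Fin ((s * n₁) * (s * n₂)), sbCT (S23.fine s Γ.T) g' (T32.rowW Γ J s lam g' (Fin.castAdd (n₁ * n₂) o)) (domPos x)
          * sbCT (S23.fine s Γ.T) g' (T32.rowW Γ J s lam g' (Fin.castAdd (n₁ * n₂) o)) (domPos y)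
        = ∑ κ ∈ S23.fine s Kb, (r * psAvg (g'.cell κ) (domPos x)) * (r * psAvg (g'.cell κ) (domPos y)) := by
      have e0 : ∀ o : Fin ((s * n₁) * (s * n₂)), T32.rowW Γ J s lam g' (Fin.castAdd (n₁ * n₂) o) = shRow s Kb lam o := by
        intro o
        unfold T32.rowW
        rw [Fin.addCases_left, hKb]
      simp only [e0, pn_pot_shRow_eval Γ.T s g' hK lam, ← hr]
      rw [Equiv.sum_comp finProdFinEquiv.symm (fun κ : Fin (s * n₁) × Fin (s * n₂) =>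
        (if S23.coarse s κ ∈ Kb then r * psAvg (g'.cell κ) (domPos x) else 0) * (if S23.coarse s κ ∈ Kb then r * psAvg (g'.cell κ) (domPos y) else 0))]
      unfold S23.fine
      rw [Finset.sum_filter]
      refine Finset.sum_congr rfl fun κ _ => ?_
      by_cases h : S23.coarse s κ ∈ Kb
      · rw [if_pos h, if_pos h, if_pos h]
      · rw [if_neg h, if_neg h, if_neg h, zero_mul]
    rw [hLs]
    have hR : ∀ (d : Fin (S23.fine s Kb).card) (v : (domG D cut).V),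
        psSoftD (D := D) (cut := cut) (pgBoxes g' (S23.fine s Kb)) (fun _ => Real.sqrt lam / s) d v
          = r * psAvg (g'.cell ((S23.fine s Kb).equivFin.symm d).1) (domPos v) := by
      intro d v
      unfold psSoftD pgBoxes
      rw [pn_pg_box_set, hr]
    show _ = ∑ d : Fin (S23.fine s Kb).card,
      psSoftD (D := D) (cut := cut) (pgBoxes g' (S23.fine s Kb)) (fun _ => Real.sqrt lam / s) d x
      * psSoftD (D := D) (cut := cut) (pgBoxes g' (S23.fine s Kb)) (fun _ => Real.sqrt lam / s) d y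
    simp only [hR]
    rw [Equiv.sum_comp (S23.fine s Kb).equivFin.symm (fun κ : {κ // κ ∈ S23.fine s Kb} =>
      (r * psAvg (g'.cell κ.1) (domPos x)) * (r * psAvg (g'.cell κ.1) (domPos y))),
      Finset.sum_coe_sort (S23.fine s Kb) (fun κ => (r * psAvg (g'.cell κ) (domPos x)) * (r * psAvg (g'.cell κ) (domPos y)))]

/-! ## The contract POT-5 -/

/-- **L-PP-F4** (~300 l., GLUE).   `n₁ = r₀ m₁`, `n₂ = r₀ m₂`, `Γm = T32.gMed Γ p r₀`, `K'' = 2 (2K+1) + 1`;   `lam₀`, `s₀` from `pn_pot_band_gen n₁ n₂ K'' (n₁ n₂) ha (n₁ n₂) hε` (take `max s₀ 1`).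
For the `k` with `r₀ ≤ ν k`, `s ≤ ν k / r₀` (eventually):  `gm = sbG r₀ g`, `g' = sbG s gm`, `pn_pot_sub` twice, `ν'' = ν / r₀ / s ≥ 1`;
chart: `pn_pg_chart (Refines s g' gm) Γm`, rewritten by `pn_sb_region`, `pn_sb_cut` for `Refines r₀ gm g` (`Γm.T = S23.fine r₀ Γ.T`, `Γm.cutB = (S23.refine r₀ Γ).cutB`: `rfl`);
`X = S23.fine r₀ p = Γm.pin`, `j = J + 1`, `pgKb Γm X (J+1) = shKb Γm J` (`rfl`);  `H₀ = ppUnit ..` (`pn_pot_unit_supp`, `pn_pot_unit_l2`, `Fintype.card (Fin _)`), `H = T32.lawW ..` (`pn_pot_rowW_eqv`; `T32.lawW`, `T32.rowWz` unfold to this `sbLaw`);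
`A := S23.fine r₀ A`: `pn_pg_sep_ball hsep` (`J + 3 ≤ r₀`);  sites: `pn_sb_region` twice. -/
theorem pn_pot_band_W (Γ : CGeom m₁ m₂) (K : ℕ) (g : ℕ → DGrid m₁ m₂) (ν : ℕ → ℕ) (hg : Admissible K g ν) {a : ℝ} (ha : 0 < a)
    (A p : Finset (Cell m₁ m₂)) (hsep : C3.Sep A p) (J r₀ : ℕ) (hr₀ : 2 * J + 5 ≤ r₀)
    (hPD : ∀ lam : ℝ, 0 < lam → ∀ s : ℕ, 0 < s → ∀ᶠ k in atTop, plPD (T32.lawW Γ p r₀ J s lam (g k)) (Γ.sites (g k) Γ.pin)) {ε : ℝ} (hε : 0 < ε) :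
    ∃ lam₀ : ℝ, 0 < lam₀ ∧ ∀ lam ≥ lam₀, ∃ s₀ : ℕ, ∀ s ≥ s₀,
      ∀ᶠ k in atTop, (T32.lawW Γ p r₀ J s lam (g k)).gPin a (Γ.sites (g k) Γ.pin) (Γ.sites (g k) A) (Γ.sites (g k) p) ≤ ε := by
  obtain ⟨lam₀, hl0, h⟩ := pn_pot_band_gen (r₀ * m₁) (r₀ * m₂) (2 * (2 * K + 1) + 1) ((r₀ * m₁) * (r₀ * m₂)) ha
    ((((r₀ * m₁) * (r₀ * m₂) : ℕ)) : ℝ) hε
  refine ⟨lam₀, hl0, fun lam hlam => ?_⟩
  obtain ⟨s₀, hs₀⟩ := h lam hlam
  refine ⟨max s₀ 1, fun s hs => ?_⟩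
  have hs1 : s₀ ≤ s := le_trans (le_max_left _ _) hs
  have hs0 : 0 < s := lt_of_lt_of_le one_pos (le_trans (le_max_right _ _) hs)
  have hr0 : 0 < r₀ := by omega
  have hlam0 : 0 < lam := lt_of_lt_of_le hl0 hlam
  filter_upwards [hPD lam hlam0 s hs0, hg.1.eventually_ge_atTop (r₀ * s)] with k hk hνk
  obtain ⟨h1, h2⟩ := hg.2 k
  have hνr : r₀ ≤ ν k := le_trans (Nat.le_mul_of_pos_right r₀ hs0) hνk
  have hνs : s ≤ ν k / r₀ := (Nat.le_div_iff_mul_le hr0).2 (by rw [mul_comm]; exact hνk)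
  obtain ⟨-, hrefr, hr1, hr2⟩ := pn_pot_sub hr0 hνr h1 h2
  obtain ⟨-, hrefs, hq1, hq2⟩ := pn_pot_sub hs0 hνs hr1 hr2
  have hν'' : 1 ≤ ν k / r₀ / s := (Nat.le_div_iff_mul_le hs0).2 (by rw [one_mul]; exact hνs)
  have hreg : ∀ Y : Finset (Cell m₁ m₂), (sbG s (sbG r₀ (g k))).region (S23.fine s (S23.fine r₀ Y)) = (g k).region Y := by
    intro Y
    rw [pn_sb_region hrefs, pn_sb_region hrefr]
  have hchart : PsChart ((g k).region Γ.T) (Γ.cutB (g k)) (S23.refine s (T32.gMed Γ p r₀)) (sbG s (sbG r₀ (g k))) := by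
    refine ⟨(hreg Γ.T).symm, ?_⟩
    rw [pn_sb_cut hrefs (T32.gMed Γ p r₀)]
    exact (pn_sb_cut hrefr Γ).symm
  have hsites : ∀ Y : Finset (Cell m₁ m₂),
      psSitesD (D := (g k).region Γ.T) (cut := Γ.cutB (g k)) (sbG s (sbG r₀ (g k))) (S23.fine s (S23.fine r₀ Y)) = Γ.sites (g k) Y := by
    intro Y
    unfold psSitesD CGeom.sites
    rw [hreg Y]
  have key := hs₀ s hs1 ((g k).region Γ.T) (Γ.cutB (g k)) (T32.gMed Γ p r₀) (sbG s (sbG r₀ (g k))) hchart (ν k / r₀ / s) hν'' hq1 hq2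
    (S23.fine r₀ p) (J + 1) (ppUnit ((g k).region Γ.T) (Γ.cutB (g k)) (T32.gMed Γ p r₀) J s (sbG s (sbG r₀ (g k))))
    (le_of_eq (Fintype.card_fin _))
    (pn_pot_unit_supp ((g k).region Γ.T) (Γ.cutB (g k)) (T32.gMed Γ p r₀) J s (sbG s (sbG r₀ (g k))))
    (pn_pot_unit_l2 ((g k).region Γ.T) (Γ.cutB (g k)) (T32.gMed Γ p r₀) J hs0 (sbG s (sbG r₀ (g k))) hν'' hq1)
    (T32.lawW Γ p r₀ J s lam (g k))
    (pn_pot_rowW_eqv ((g k).region Γ.T) (Γ.cutB (g k)) (↑((g k).region Γ.pin) : Set (ℤ × ℤ)) (T32.gMed Γ p r₀) J s lam (sbG s (sbG r₀ (g k))))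
    (Γ.sites (g k) Γ.pin) hk (S23.fine r₀ A) (pn_pg_sep_ball hsep (by omega))
  rw [hsites A, hsites p] at key
  exact key

/-! ## Densities of the level-`r` cell tests -/

/-- `⌊ν/r⌋ ≥ ν/(2r)` for `ν ≥ r` -/
theorem pn_pot_div_half {r ν : ℕ} (hr : 0 < r) (hν : r ≤ ν) : (ν : ℝ) ≤ 2 * r * ((ν / r : ℕ) : ℝ) := by
  have h1 : 1 ≤ ν / r := (Nat.le_div_iff_mul_le hr).2 (by simpa using hν)
  have h2 : ν < r * (ν / r + 1) := by
    have := Nat.lt_mul_div_succ ν hr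
    simpa using this
  have h3 : ν ≤ 2 * r * (ν / r) := by nlinarith
  exact_mod_cast h3

/-- level-`r` cell tests with bounded coefficients have bounded densities -/
theorem pn_pot_ct_dens (Γ : CGeom m₁ m₂) (g : DGrid m₁ m₂) {r ν K : ℕ} (hr : 0 < r) (hν : r ≤ ν) (h1 : g.SideGe ν) (h2 : g.SideLe (K * ν))
    (t : Cell (r * m₁) (r * m₂) → ℝ) {C : ℝ} (hC : 0 ≤ C) (ht : ∀ κ, |t κ| ≤ C) (x : (Γ.graph g).V) :
    |ppCT Γ g r t x| ≤ 4 * (r : ℝ) ^ 2 * C / (ν : ℝ) ^ 2 := by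
  obtain ⟨-, -, h3, -⟩ := pn_pot_sub hr hν h1 h2
  have h4 : 1 ≤ ν / r := (Nat.le_div_iff_mul_le hr).2 (by simpa using hν)
  have h5 := pn_pg_CT_dens (D := g.region Γ.T) (cut := Γ.cutB g) (S23.fine r Γ.T) (sbG r g) t hC ht h4 h3 x
  refine h5.trans ?_
  have h6 := pn_pot_div_half hr hν
  have h7 : (0 : ℝ) < ((ν / r : ℕ) : ℝ) := by exact_mod_cast h4
  have h8 : (0 : ℝ) < (ν : ℝ) := by exact_mod_cast (lt_of_lt_of_le hr hν)
  rw [div_le_div_iff₀ (by positivity) (by positivity)]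
  have h9 : (ν : ℝ) ^ 2 ≤ (2 * r * ((ν / r : ℕ) : ℝ)) ^ 2 := pow_le_pow_left₀ h8.le h6 2
  calc C * (ν : ℝ) ^ 2 ≤ C * (2 * r * ((ν / r : ℕ) : ℝ)) ^ 2 := mul_le_mul_of_nonneg_left h9 hC
    _ = 4 * (r : ℝ) ^ 2 * C * ((ν / r : ℕ) : ℝ) ^ 2 := by ring

end

end Claimed.Agent.R285.Pins
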