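import Claimed.Agent.R285.Pins.T32Con
import Claimed.Agent.R285.Pins.T31Ref
import Claimed.Agent.R285.Pins.T31Out
import Claimed.Agent.R285.Pins.ShiftLim
import Claimed.Agent.R285.Pins.T32PotC

/-!
# ROW 285, PINS, T3.2 package (architect helper178).  FILE 8: `C3.pin_interaction`, CONTRACTS AND THE BAND LAW OF A GENERAL CUT GEOMETRY.
(`C3.cond_transfer`, `C3.restoration_transfer`: helper122, `T32Res`, `T32Lim`, `T32Fin`.   The assembly of `C3.pin_interaction`: `T32Pin.lean`.)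

## THE ONLY SORRIES = TWO INPUT CONTRACTS (owners outside this package)
* T3.1, change of the rows, on ANY chart, MOVING bounded rows, uniform confinement `UConf` (helper55/helper217, `pn_t31q_geo`): `pn_in_rows`.
* vanishing interaction under the band law (helper249, `psh_dPin`): `pn_in_band`.
(POT: `pn_pot_band` is LINKED to helper53's `pn_pot_band_W`, `T32PotC.lean`.)
## s2-s3 (T3.1 at every level, EA; parallel to helper122's `T32Lim`): proved (helper88, helper67, helper217).   s4: the band law of a general cut geometry (leaves `L-PN-B*`): proved (helper174, helper275, helper196).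
TRANSPORT between charts: `pn_cn_tr3` (write the quantity as a function `Q D cut P`), `pn_cn_tr_lawR`, `pn_cn_lawW_tr`, `pn_cn_lawS_up`, `pn_cn_subT_up`; everything holds for the `k` with `sbOK r (g k)` (eventually: `pn_sb_ev`); limits: `Tendsto.congr'`.
-/

set_option autoImplicit false

namespace Claimed.Agent.R285.Pins.T32

open Filter Topology MeasureTheory
open Claimed.Agent.R285.Pot
open Claimed.Agent.R285.C3
open scoped Classical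

noncomputable section

variable {a : ℝ} {b : ℕ → ℝ} {ν : ℕ → ℕ} {m₁ m₂ : ℕ}

/-! ## 0. Input contracts -/

/-- **CONTRACT T31-LAP** (helper217).  [C]T3.1, Laplace form: any regular geometry (hard pins allowed), any admissible grids at a comparable scale, moving bounded rows which confine the constants uniformly, moving bounded coefficients. -/
theorem pn_in_lap (hS : Scen a b ν) (Γ : CGeom m₁ m₂) (hΓ : Γ.NoDiag) (K : ℕ) (g : ℕ → DGrid m₁ m₂) (ν' : ℕ → ℕ) (hg : Admissible K g ν') (hc : Comp ν ν')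
    {N : ℕ} (R : ℕ → Fin N → Cell m₁ m₂ → ℝ) (hR : ∃ C : ℝ, ∀ k o κ, |R k o κ| ≤ C) (hU : UConf Γ R)
    (t : ℕ → Cell m₁ m₂ → ℝ) (ht : ∃ C : ℝ, ∀ k κ, |t k κ| ≤ C) :
    Tendsto (fun k => hLap (lawR Γ (g k) (R k)) (b k) (Γ.cellTest (g k) (t k))
      - (lawR Γ (g k) (R k)).gVar a (Γ.cellTest (g k) (t k)) / 2) atTop (𝓝 0) := pn_t31o_lap hS Γ hΓ K g ν' hg hc R hR hU t ht

/-- **CONTRACT T31-ROWS** (helper217).  [C]T3.1, change of the confining rows ((3.27)). -/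
theorem pn_in_rows (hS : Scen a b ν) (Γ : CGeom m₁ m₂) (hΓ : Γ.NoDiag) (K : ℕ) (g : ℕ → DGrid m₁ m₂) (ν' : ℕ → ℕ) (hg : Admissible K g ν') (hc : Comp ν ν')
    {N N₂ : ℕ} (R : ℕ → Fin N → Cell m₁ m₂ → ℝ) (hR : ∃ C : ℝ, ∀ k o κ, |R k o κ| ≤ C) (hU : UConf Γ R)
    (R₂ : ℕ → Fin N₂ → Cell m₁ m₂ → ℝ) (hR₂ : ∃ C : ℝ, ∀ k o κ, |R₂ k o κ| ≤ C) (hU₂ : UConf Γ R₂) :
    Tendsto (fun k => Real.log (zP (lawR Γ (g k) (R k)) (b k) ∅ / zP (lawR Γ (g k) (R₂ k)) (b k) ∅)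
      - Real.log (gZ (lawR Γ (g k) (R k)) a (Γ.sites (g k) Γ.pin) 0 (fun _ => 1)
          / gZ (lawR Γ (g k) (R₂ k)) a (Γ.sites (g k) Γ.pin) 0 fun _ => 1)) atTop (𝓝 0) :=
  pn_t31o_rows hS Γ hΓ K g ν' hg hc R hR hU R₂ hR₂ hU₂

/-- `UConf` (all pinned cells) gives the confinement `ConfI` of `Pins/T31Ref.lean` (pinned cells of `T`): cut the function off outside `T` -/
theorem pn_as_confI (Γ : CGeom m₁ m₂) {N : ℕ} (R : ℕ → Fin N → Cell m₁ m₂ → ℝ) {c : ℝ}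
    (hU : ∀ k s, CompFn Γ s → c * ∑ κ ∈ Γ.T, s κ ^ 2 ≤ ∑ o, (∑ κ ∈ Γ.T, R k o κ * s κ) ^ 2) (k : ℕ) : ConfI Γ c (R k) := by
  intro s hs
  have h1 : CompFn Γ fun κ => if κ ∈ Γ.T then s κ else 0 := by
    refine ⟨fun κ κ' h => ?_, fun κ hκ => ?_⟩
    · simp only [if_pos h.1, if_pos h.2.1]
      exact hs.1 κ κ' h
    · by_cases hT : κ ∈ Γ.T
      · simp only [if_pos hT]
        exact hs.2 κ hκ hT
      · simp only [if_neg hT]
  have h2 := hU k _ h1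
  have e1 : ∑ κ ∈ Γ.T, (if κ ∈ Γ.T then s κ else 0) ^ 2 = ∑ κ ∈ Γ.T, s κ ^ 2 :=
    Finset.sum_congr rfl fun κ hκ => by rw [if_pos hκ]
  have e2 : ∀ o, ∑ κ ∈ Γ.T, R k o κ * (if κ ∈ Γ.T then s κ else 0) = ∑ κ ∈ Γ.T, R k o κ * s κ :=
    fun o => Finset.sum_congr rfl fun κ hκ => by rw [if_pos hκ]
  simp only [e1, e2] at h2
  exact h2

theorem pn_as_gRow_zero (Γ : CGeom m₁ m₂) (g : DGrid m₁ m₂) : gRow Γ g 0 = 0 := by
  funext x
  simp [gRow, HLaw.gradRow, amb, domFn]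

theorem pn_as_dirT_zero (Γ : CGeom m₁ m₂) (g : DGrid m₁ m₂) : C3.dirT Γ g 0 = 0 := by
  simp [C3.dirT, C2.gd]

/-- **CONTRACT POT-BD** (deterministic; Poincare between adjacent cells + `UConf`).  Cell tests have bounded reference cost.
`(avg_κ v - avg_κ' v)² ≤ C(K) 𝓔(v)` for cells joined by an uncut face;  `s` = the average over one cell of each component (`0` on the components with a pinned cell) is a `CompFn`;  `c ∑ s² ≤ 2 |B v|² + C 𝓔(v)`. -/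
theorem pn_in_bd (Γ : CGeom m₁ m₂) (K : ℕ) (g : ℕ → DGrid m₁ m₂) (ν' : ℕ → ℕ) (hg : Admissible K g ν')
    {N : ℕ} (R : ℕ → Fin N → Cell m₁ m₂ → ℝ) (hR : ∃ C : ℝ, ∀ k o κ, |R k o κ| ≤ C) (hU : UConf Γ R)
    (t : ℕ → Cell m₁ m₂ → ℝ) (ht : ∃ C : ℝ, ∀ k κ, |t k κ| ≤ C) :
    ∃ C : ℝ, ∀ k, (lawR Γ (g k) (R k)).gVar 1 (Γ.cellTest (g k) (t k)) ≤ C := by
  obtain ⟨Rb, hRb⟩ := hR
  obtain ⟨c, hc, hU⟩ := hU
  obtain ⟨Tb, hTb⟩ := ht
  obtain ⟨C, -, hC⟩ := pn_t31r_gVar_le Γ K N Rb c 1 hc one_pos Tb 0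
  refine ⟨C, fun k => ?_⟩
  have h := hC (g k) (ν' k) (hg.2 k).1 (hg.2 k).2 (R k) (hRb k) (pn_t31r_conf_of_confI Γ (pn_as_confI Γ R hU k)) (t k) 0 (hTb k)
    (pn_as_dirT_zero Γ (g k)).le
  rwa [pn_as_gRow_zero, add_zero] at h

/-- **CONTRACT BAND** (helper249, `psh_dPin`).  [C](3.28) + P3.8: the pin interaction vanishes under the band law, in the order `k → ∞`, `s → ∞`, `lam → ∞`.   `Γ` = MEDIUM geometry, `Γ.pin` = THE PIN, every component has a band cell. -/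
theorem pn_in_band (hS : Scen a b ν) (K : ℕ) : ∃ J : ℕ, ∀ (n₁ n₂ : ℕ) (Γ : CGeom n₁ n₂), Γ.NoDiag → ShConf Γ J → ∀ A ⊆ shTg Γ J, ∀ ε > 0,
    ∃ lam₀ : ℝ, 0 < lam₀ ∧ ∀ lam ≥ lam₀, ∃ s₀ : ℕ, ∀ s ≥ s₀, ∀ (g' : ℕ → DGrid (s * n₁) (s * n₂)) (ν' : ℕ → ℕ), Admissible K g' ν' → Comp ν ν' →
      ∀ᶠ k in atTop, (shLaw s Γ J lam (g' k)).dPin (b k) (shSites s Γ (g' k) A) (shSites s Γ (g' k) Γ.pin) ≤ ε :=
  psh_dPin hS (pn_t31_shIn hS) K

/-! ## 1. Standing data -/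

/-- the standing hypotheses of [C]T3.2 -/
structure Std (a : ℝ) (b : ℕ → ℝ) (ν : ℕ → ℕ) (Γ : CGeom m₁ m₂) {N : ℕ} (row : Fin N → Cell m₁ m₂ → ℝ) (K : ℕ) (g : ℕ → DGrid m₁ m₂) : Prop where
  hS : Scen a b ν
  hΓ : Γ.NoDiag
  hg : Admissible K g ν
  hP : ∀ k, (lawR Γ (g k) row).Proper
  hOk : ∀ k, ((lawR Γ (g k) row).sys (b k)).Ok

namespace Std

variable {Γ : CGeom m₁ m₂} {N : ℕ} {row : Fin N → Cell m₁ m₂ → ℝ} {K : ℕ} {g : ℕ → DGrid m₁ m₂}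

theorem b_pos (h : Std a b ν Γ row K g) (k : ℕ) : 0 < b k := by
  obtain ⟨b₀, b₁, h0, h1⟩ := h.hS.b_cpt
  exact lt_of_lt_of_le h0 (h1 k).1

theorem gd (h : Std a b ν Γ row K g) (k : ℕ) : Gd (lawR Γ (g k) row) (b k) := ⟨h.b_pos k, h.hP k, h.hOk k⟩

theorem b_le (h : Std a b ν Γ row K g) (k : ℕ) : b k ≤ ⨆ k, b k := by
  obtain ⟨b₀, b₁, -, h1⟩ := h.hS.b_cpt
  exact le_ciSup (f := b) ⟨b₁, by rintro _ ⟨k, rfl⟩; exact (h1 k).2⟩ k

/-- the rows confine the constants -/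
theorem uconf (h : Std a b ν Γ row K g) : UConf Γ fun _ => row :=
  pn_sb_uconf_of_pd Γ (g 0) row (pl_PD_of_ok _ rfl (b 0) (h.hOk 0) (h.hP 0))

/-- the sequence of laws -/
def L (h : Std a b ν Γ row K g) : LSeq := cL Γ row g b h.gd (⨆ k, b k) h.b_le

/-- the scale of the level-`r` cell tests -/
def S (h : Std a b ν Γ row K g) : Scale h.L := cS Γ row g b h.gd (⨆ k, b k) h.b_le

/-- cut law, restored law, guard, core -/
def W (h : Std a b ν Γ row K g) (A p : Finset (Cell m₁ m₂)) (hd : Disjoint A p) (F : Finset (Cell m₁ m₂ × Bool)) (hF : ∀ f ∈ F, FaceIn A f)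
    {N' : ℕ} (row' : Fin (N + N') → Cell m₁ m₂ → ℝ) (hr : ∀ o, row' (Fin.castAdd N' o) = row o) (hr' : ∀ o, ∀ κ ∉ A, row' (Fin.natAdd N o) κ = 0) : Two :=
  cW Γ row g b h.gd (⨆ k, b k) h.b_le A p hd F hF row' hr hr'

/-- cell tests -/
def ct (_h : Std a b ν Γ row K g) (t : ℕ → Cell m₁ m₂ → ℝ) : ∀ k, (Γ.graph (g k)).V → ℝ := fun k => Γ.cellTest (g k) (t k)

/-- sites -/
def st (_h : Std a b ν Γ row K g) (X : Finset (Cell m₁ m₂)) : ∀ k, Set (Γ.graph (g k)).V := fun k => Γ.sites (g k) X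

end Std

theorem pn_as_sep_disj {A p : Finset (Cell m₁ m₂)} (h : C3.Sep A p) : Disjoint A p := by
  rw [Finset.disjoint_left]
  intro κ h1 h2
  rcases h κ h1 κ h2 with h3 | h3 | h3 | h3 <;> omega

variable {Γ : CGeom m₁ m₂} {N : ℕ} {row : Fin N → Cell m₁ m₂ → ℝ} {K : ℕ} {g : ℕ → DGrid m₁ m₂}

/-! ## 2. [C]T3.1 at every level -/

/-- **L-PN-A1** (~200 l.).  Chart `(S23.refine r Γ, sbG r (g k))`, scale `sbNu r (ν k)` (`pn_sb_adm`, `pn_sb_comp`, `Sec.noDiag_refine`), rows `sbUp r (sbG r (g k)) (row o)` (`pn_sb_up_le`, `pn_sb_uconf_up`): `pn_in_lap`, `pn_in_bd`.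
Transport for the `k` with `sbOK r (g k)` (`pn_sb_ev`): `pn_cn_tr_lawR` with `Q D cut H = hLap H (b k) (domFn f) - H.gVar a (domFn f) / 2`, `f = sbCT (S23.fine r Γ.T) (sbG r (g k)) (t k)` (`pn_sb_cellTest`), then `pn_cn_lawS_up`.
Bound for ALL `k`: an eventually bounded sequence is bounded (as in `pn_ea_bd_of_ev`). -/
theorem pn_as_lim (hS : Scen a b ν) (Γ : CGeom m₁ m₂) (hΓ : Γ.NoDiag) (K : ℕ) (g : ℕ → DGrid m₁ m₂) (hg : Admissible K g ν)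
    {N : ℕ} (row : Fin N → Cell m₁ m₂ → ℝ) (hU : UConf Γ fun _ => row) {r : ℕ} (hr : 0 < r)
    (t : ℕ → Cell (r * m₁) (r * m₂) → ℝ) (ht : ∃ C : ℝ, ∀ k i, |t k i| ≤ C) :
    Tendsto (fun k => hLap (lawR Γ (g k) row) (b k) (subT Γ (g k) r (t k)) - (lawR Γ (g k) row).gVar a (subT Γ (g k) r (t k)) / 2) atTop (𝓝 0) ∧
      ∃ C : ℝ, ∀ k, (lawR Γ (g k) row).gVar 1 (subT Γ (g k) r (t k)) ≤ C := by
  have hadm := pn_sb_adm hg hr
  have hcomp := pn_sb_comp ν hr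
  have hND : (S23.refine r Γ).NoDiag := Sec.noDiag_refine Γ hΓ r
  have hRb : ∃ C : ℝ, ∀ k o κ, |sbUp r (sbG r (g k)) (row o) κ| ≤ C := by
    refine ⟨∑ o, ∑ κ, |row o κ|, fun k o κ => (pn_sb_up_le r _ (row o) κ).trans ?_⟩
    exact (Finset.single_le_sum (f := fun κ => |row o κ|) (fun _ _ => abs_nonneg _) (Finset.mem_univ _)).trans
      (Finset.single_le_sum (f := fun o => ∑ κ, |row o κ|) (fun _ _ => Finset.sum_nonneg fun _ _ => abs_nonneg _) (Finset.mem_univ o))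
  have hU' := pn_sb_uconf_up Γ row hU hr fun k => sbG r (g k)
  have h1 := pn_in_lap hS (S23.refine r Γ) hND _ _ _ hadm hcomp (fun k o => sbUp r (sbG r (g k)) (row o)) hRb hU' t ht
  obtain ⟨C, h2⟩ := pn_in_bd (S23.refine r Γ) _ _ _ hadm (fun k o => sbUp r (sbG r (g k)) (row o)) hRb hU' t ht
  have key : ∀ k, sbOK r (g k) → ∀ Q : ∀ (D : Finset (ℤ × ℤ)) (cut : Set Bond), HLaw (domG D cut) → ℝ,
      Q _ _ (lawR (S23.refine r Γ) (sbG r (g k)) fun o => sbUp r (sbG r (g k)) (row o)) = Q _ _ (lawR Γ (g k) row) := by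
    intro k hk Q
    rw [pn_cn_tr_lawR Q (pn_sb_refines hr hk) Γ, ← pn_cn_lawS_up Γ (g k) hr hk row]
    rfl
  have hev := pn_sb_ev hg hr
  constructor
  · refine h1.congr' ?_
    filter_upwards [hev] with k hk
    exact key k hk fun D cut H => hLap H (b k) (domFn (sbCT (S23.fine r Γ.T) (sbG r (g k)) (t k)))
      - H.gVar a (domFn (sbCT (S23.fine r Γ.T) (sbG r (g k)) (t k))) / 2
  · have h3 : ∀ᶠ k in atTop, (lawR Γ (g k) row).gVar 1 (subT Γ (g k) r (t k)) ≤ C := by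
      filter_upwards [hev] with k hk
      rw [← show _ = (lawR Γ (g k) row).gVar 1 (subT Γ (g k) r (t k)) from
        key k hk fun D cut H => H.gVar 1 (domFn (sbCT (S23.fine r Γ.T) (sbG r (g k)) (t k)))]
      exact h2 k
    have h4 : IsBoundedUnder (· ≤ ·) atTop fun k => (lawR Γ (g k) row).gVar 1 (subT Γ (g k) r (t k)) := ⟨C, by simpa using h3⟩
    obtain ⟨B, hB⟩ := h4.bddAbove_range
    exact ⟨B, fun k => hB ⟨k, rfl⟩⟩

theorem pn_as_Lim (h : Std a b ν Γ row K g) : h.S.Lim a := fun _ hr t ht =>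
  pn_as_lim h.hS Γ h.hΓ K g h.hg row h.uconf hr t ht

theorem pn_as_LimP (h : Std a b ν Γ row K g) (p : Finset (Cell m₁ m₂)) : (h.S.pin (h.st p)).Lim a := by
  intro r hr t ht
  have h1 := pn_as_lim h.hS (gpin Γ p) h.hΓ K g h.hg row (pn_sb_uconf_pin Γ _ h.uconf p) hr t ht
  constructor
  · refine h1.1.congr fun k => ?_
    rw [← pn_cn_addPin]
    rfl
  · obtain ⟨C, hC⟩ := h1.2
    refine ⟨C, fun k => ?_⟩
    have := hC k
    rw [← pn_cn_addPin] at this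
    exact this

section res

variable (h : Std a b ν Γ row K g) (A p : Finset (Cell m₁ m₂)) (hd : Disjoint A p) (F : Finset (Cell m₁ m₂ × Bool)) (hF : ∀ f ∈ F, FaceIn A f)
  {N' : ℕ} (row' : Fin (N + N') → Cell m₁ m₂ → ℝ) (hr : ∀ o, row' (Fin.castAdd N' o) = row o) (hr' : ∀ o, ∀ κ ∉ A, row' (Fin.natAdd N o) κ = 0)

include h hr in
theorem pn_as_uconf' : UConf (uncut Γ F) fun _ => row' :=
  pn_sb_uconf_uncut Γ (fun _ => row) h.uconf F (fun _ => row') fun _ o => hr o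

theorem pn_as_Lim' (hΓ' : (uncut Γ F).NoDiag) : ((h.W A p hd F hF row' hr hr').S' h.S).Lim a := fun _ hr₁ t ht =>
  pn_as_lim h.hS (uncut Γ F) hΓ' K g h.hg row' (pn_as_uconf' h F row' hr) hr₁ t ht

theorem pn_as_LimP' (hΓ' : (uncut Γ F).NoDiag) : (((h.W A p hd F hF row' hr hr').S' h.S).pin (h.W A p hd F hF row' hr hr').P).Lim a := by
  intro r hr₁ t ht
  have h1 := pn_as_lim h.hS (gpin (uncut Γ F) p) hΓ' K g h.hg row' (pn_sb_uconf_pin (uncut Γ F) _ (pn_as_uconf' h F row' hr) p) hr₁ t ht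
  constructor
  · refine h1.1.congr fun k => ?_
    rw [← pn_cn_addPin]
    rfl
  · obtain ⟨C, hC⟩ := h1.2
    refine ⟨C, fun k => ?_⟩
    have := hC k
    rw [← pn_cn_addPin] at this
    exact this

end res

/-! ## 3. Energy-approximable tests -/

theorem pn_as_ea_congr {L : LSeq} (S : Scale L) (f f' : L.T) (he : ∀ᶠ k in atTop, f k = f' k) (hf : S.EA f) : S.EA f' := by
  intro ε hε
  obtain ⟨r₀, hr₀, h1⟩ := hf ε hε
  refine ⟨r₀, hr₀, fun r hr hr0 => ?_⟩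
  obtain ⟨t, ht, h2⟩ := h1 r hr hr0
  refine ⟨t, ht, ?_⟩
  filter_upwards [h2, he] with k h3 h4
  rw [← h4]
  exact h3

/-- **L-PN-A3** (~250 l. for the block `pn_as_ea_sub` .. `pn_as_ea_bal'`).  Level-`r₁` tests are level-`r` tests for `r₁ ∣ r` and `sbOK r (g k)` (`pn_sb_nest`; coefficients `0` for the other `k`); then `f k - sub r k (t' k) = 0`, `pl_gVar_zero`. -/
theorem pn_as_ea_sub (h : Std a b ν Γ row K g) {r₁ : ℕ} (hr₁ : 0 < r₁) (t : ℕ → Cell (r₁ * m₁) (r₁ * m₂) → ℝ) (ht : ∃ C : ℝ, ∀ k κ, |t k κ| ≤ C) :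
    h.S.EA fun k => subT Γ (g k) r₁ (t k) := by
  intro ε hε
  refine ⟨r₁, hr₁, fun r hd hr => ?_⟩
  obtain ⟨C, hC⟩ := ht
  have hex : ∀ k, ∃ t' : Cell (r * m₁) (r * m₂) → ℝ, (∀ κ, |t' κ| ≤ |C|) ∧
      (sbOK r (g k) → sbCT (S23.fine r Γ.T) (sbG r (g k)) t' = sbCT (S23.fine r₁ Γ.T) (sbG r₁ (g k)) (t k)) := by
    intro k
    by_cases hk : sbOK r (g k)
    · obtain ⟨t', h1, h2⟩ := pn_sb_nest hr₁ hd hr hk Γ.T (t k)
      exact ⟨t', h1 |C| fun κ => (hC k κ).trans (le_abs_self C), fun _ => h2⟩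
    · exact ⟨0, fun κ => by simp, fun h' => absurd h' hk⟩
  choose t' ht1 ht2 using hex
  refine ⟨t', ⟨|C|, ht1⟩, ?_⟩
  filter_upwards [pn_sb_ev h.hg hr] with k hk
  have e0 : subT Γ (g k) r (t' k) = subT Γ (g k) r₁ (t k) := by
    unfold subT
    rw [ht2 k hk]
  have e : subT Γ (g k) r₁ (t k) - subT Γ (g k) r (t' k) = 0 := by
    rw [e0, sub_self]
  show (lawR Γ (g k) row).gVar 1 (subT Γ (g k) r₁ (t k) - subT Γ (g k) r (t' k)) ≤ ε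
  rw [e, pl_gVar_zero _ one_pos]
  exact hε.le

/-- a cell test is eventually a level-`1` test (`pn_cn_subT_up`, `pn_sb_ev`, `pn_sb_up_le`) -/
theorem pn_as_cell_eq (h : Std a b ν Γ row K g) (t : ℕ → Cell m₁ m₂ → ℝ) :
    ∀ᶠ k in atTop, subT Γ (g k) 1 (sbUp 1 (sbG 1 (g k)) (t k)) = h.ct t k := by
  filter_upwards [pn_sb_ev h.hg one_pos] with k hk
  exact pn_cn_subT_up Γ (g k) one_pos hk (t k)

theorem pn_as_up_bdd (t : ℕ → Cell m₁ m₂ → ℝ) (ht : ∃ C : ℝ, ∀ k κ, |t k κ| ≤ C) (g : ℕ → DGrid m₁ m₂) (r : ℕ) :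
    ∃ C : ℝ, ∀ k κ, |sbUp r (sbG r (g k)) (t k) κ| ≤ C := by
  obtain ⟨C, hC⟩ := ht
  exact ⟨C, fun k κ => (pn_sb_up_le r _ (t k) κ).trans (hC k _)⟩

theorem pn_as_ea_cell (h : Std a b ν Γ row K g) (t : ℕ → Cell m₁ m₂ → ℝ) (ht : ∃ C : ℝ, ∀ k κ, |t k κ| ≤ C) : h.S.EA (h.ct t) :=
  pn_as_ea_congr h.S _ _ (pn_as_cell_eq h t) (pn_as_ea_sub h one_pos _ (pn_as_up_bdd t ht g 1))

/-! ## 4. The band law of a general cut geometry -/

/-- the partition sum with additional pins, as a sum over the pinned lattice -/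
theorem pn_as_zP_eq {G : HGraph} (H : HLaw G) (b : ℝ) (X : Set G.V) :
    zP H b X = ∑' h : ↥(H.Λ ⊓ HLaw.pinned X), hW H b (h : G.V → ℤ) := by
  have h := pn_ZC_eq' H b X 0 (fun _ => 1)
  have e : C3.resZ X (0 : G.V → ℤ) = 0 := by
    funext v
    simp [C3.resZ]
  unfold C3.ZC at h
  rw [e] at h
  simp only [one_mul, add_zero] at h
  exact h

/-- the weight of a height, unfolded -/
theorem pn_as_hW_eq {G : HGraph} (H : HLaw G) (β : ℝ) (h : G.V → ℤ) :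
    hW H β h = (∏ e, bes β (h (G.tgt e) - h (G.src e))) * Real.exp (-(∑ o, (∑ v, H.B o v * (2 * Real.pi * (h v : ℝ))) ^ 2) / 2) := rfl

/-- every bond and every row sees one block -/
theorem pn_as_hW_split {G : HGraph} (H : HLaw G) (β : ℝ) (V₁ : Set G.V)
    (hE : ∀ e, G.src e ∈ V₁ ↔ G.tgt e ∈ V₁) (hO : ∀ o, (∀ v ∈ V₁, H.B o v = 0) ∨ (∀ v ∉ V₁, H.B o v = 0))
    (h₁ h₂ : G.V → ℤ) (s₁ : ∀ v ∉ V₁, h₁ v = 0) (s₂ : ∀ v ∈ V₁, h₂ v = 0) :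
    hW H β (h₂ + h₁) * hW H β 0 = hW H β h₁ * hW H β h₂ := by
  simp only [pn_as_hW_eq]
  have hp : (∏ e, bes β ((h₂ + h₁) (G.tgt e) - (h₂ + h₁) (G.src e))) * (∏ e, bes β ((0 : G.V → ℤ) (G.tgt e) - (0 : G.V → ℤ) (G.src e)))
      = (∏ e, bes β (h₁ (G.tgt e) - h₁ (G.src e))) * ∏ e, bes β (h₂ (G.tgt e) - h₂ (G.src e)) := by
    rw [← Finset.prod_mul_distrib, ← Finset.prod_mul_distrib]
    refine Finset.prod_congr rfl fun e _ => ?_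
    simp only [Pi.add_apply, Pi.zero_apply]
    by_cases hs : G.src e ∈ V₁
    · rw [s₂ _ hs, s₂ _ ((hE e).1 hs)]
      simp
    · rw [s₁ _ hs, s₁ _ (fun ht => hs ((hE e).2 ht))]
      simp [mul_comm]
  have hq : (∑ o, (∑ v, H.B o v * (2 * Real.pi * (((h₂ + h₁) v : ℤ) : ℝ))) ^ 2) + (∑ o, (∑ v, H.B o v * (2 * Real.pi * (((0 : G.V → ℤ) v : ℤ) : ℝ))) ^ 2)
      = (∑ o, (∑ v, H.B o v * (2 * Real.pi * ((h₁ v : ℤ) : ℝ))) ^ 2) + ∑ o, (∑ v, H.B o v * (2 * Real.pi * ((h₂ v : ℤ) : ℝ))) ^ 2 := by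
    rw [← Finset.sum_add_distrib, ← Finset.sum_add_distrib]
    refine Finset.sum_congr rfl fun o _ => ?_
    have e0 : ∑ v, H.B o v * (2 * Real.pi * (((0 : G.V → ℤ) v : ℤ) : ℝ)) = 0 := by simp
    have ea : ∑ v, H.B o v * (2 * Real.pi * (((h₂ + h₁) v : ℤ) : ℝ))
        = (∑ v, H.B o v * (2 * Real.pi * ((h₁ v : ℤ) : ℝ))) + ∑ v, H.B o v * (2 * Real.pi * ((h₂ v : ℤ) : ℝ)) := by
      rw [← Finset.sum_add_distrib]
      refine Finset.sum_congr rfl fun v _ => ?_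
      simp only [Pi.add_apply, Int.cast_add]
      ring
    rw [e0, ea]
    rcases hO o with h | h
    · have : ∑ v, H.B o v * (2 * Real.pi * ((h₁ v : ℤ) : ℝ)) = 0 := by
        refine Finset.sum_eq_zero fun v _ => ?_
        by_cases hv : v ∈ V₁
        · rw [h v hv, zero_mul]
        · rw [s₁ v hv]; simp
      rw [this]; ring
    · have : ∑ v, H.B o v * (2 * Real.pi * ((h₂ v : ℤ) : ℝ)) = 0 := by
        refine Finset.sum_eq_zero fun v _ => ?_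
        by_cases hv : v ∈ V₁
        · rw [s₂ v hv]; simp
        · rw [h v hv, zero_mul]
      rw [this]; ring
  rw [mul_mul_mul_comm, hp, ← Real.exp_add, mul_mul_mul_comm (∏ e, bes β (h₁ (G.tgt e) - h₁ (G.src e))), ← Real.exp_add]
  congr 2
  linarith

theorem pn_as_addPin_addPin {G : HGraph} (H : HLaw G) (X Y : Set G.V) : (H.addPin X).addPin Y = H.addPin (X ∪ Y) := by
  unfold HLaw.addPin
  simp only
  rw [pn_pinned_union]

theorem pn_as_zP_addPin {G : HGraph} (H : HLaw G) (β : ℝ) (X Y : Set G.V) : zP (H.addPin X) β Y = zP H β (X ∪ Y) := by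
  unfold zP
  rw [pn_as_addPin_addPin]

theorem pn_as_splits {G : HGraph} (H : HLaw G) {P₀ : Set G.V} (hl : H.Λ = HLaw.pinned P₀) (X V₁ : Set G.V) : Splits (H.addPin X) V₁ := by
  intro h hh
  have hh' : h ∈ H.Λ ⊓ HLaw.pinned X := hh
  show C3.resZ V₁ h ∈ H.Λ ⊓ HLaw.pinned X
  rw [hl] at hh' ⊢
  refine ⟨fun v hv => ?_, fun v hv => ?_⟩
  · have := hh'.1 v hv
    simp only [C3.resZ]
    split_ifs
    · exact this
    · rfl
  · have := hh'.2 v hv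
    simp only [C3.resZ]
    split_ifs
    · exact this
    · rfl

/-- additional pins do not change the weight -/
theorem pn_as_hW_addPin {G : HGraph} (H : HLaw G) (β : ℝ) (X : Set G.V) (h : G.V → ℤ) : hW (H.addPin X) β h = hW H β h := rfl

/-- the partition sum of a law with two independent blocks -/
theorem pn_as_zP_split {G : HGraph} (H : HLaw G) {β : ℝ} (hG : Gd H β) {P₀ : Set G.V} (hl : H.Λ = HLaw.pinned P₀) (V₁ : Set G.V)
    (hE : ∀ e, G.src e ∈ V₁ ↔ G.tgt e ∈ V₁) (hO : ∀ o, (∀ v ∈ V₁, H.B o v = 0) ∨ (∀ v ∉ V₁, H.B o v = 0)) (X : Set G.V) :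
    zP H β X * hW H β 0 = zP (H.addPin V₁ᶜ) β X * zP (H.addPin V₁) β X := by
  have hsp := pn_as_splits H hl X V₁
  have g1 : Gd ((H.addPin X).addPin V₁ᶜ) β := pn_gd_addPin _ (pn_gd_addPin H hG X) _
  have g2 : Gd ((H.addPin X).addPin V₁) β := pn_gd_addPin _ (pn_gd_addPin H hG X) _
  have s1 : Summable fun h : ↥((H.addPin X).Λ ⊓ HLaw.pinned V₁ᶜ) => hW H β (h : G.V → ℤ) := by
    have := pn_summableW _ g1
    simp only [pn_as_hW_addPin] at this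
    exact this
  have s2 : Summable fun h : ↥((H.addPin X).Λ ⊓ HLaw.pinned V₁) => hW H β (h : G.V → ℤ) := by
    have := pn_summableW _ g2
    simp only [pn_as_hW_addPin] at this
    exact this
  have z1 : zP (H.addPin V₁ᶜ) β X = ∑' h : ↥((H.addPin X).Λ ⊓ HLaw.pinned V₁ᶜ), hW H β (h : G.V → ℤ) := by
    rw [pn_as_zP_addPin, Set.union_comm, ← pn_as_zP_addPin, pn_as_zP_eq]
    simp only [pn_as_hW_addPin]
  have z2 : zP (H.addPin V₁) β X = ∑' h : ↥((H.addPin X).Λ ⊓ HLaw.pinned V₁), hW H β (h : G.V → ℤ) := by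
    rw [pn_as_zP_addPin, Set.union_comm, ← pn_as_zP_addPin, pn_as_zP_eq]
    simp only [pn_as_hW_addPin]
  have z0 : zP H β X = ∑' h : (H.addPin X).Λ, hW H β (h : G.V → ℤ) := pn_as_zP_eq H β X
  have z3 : (∑' h : (H.addPin X).Λ, hW H β (h : G.V → ℤ)) = ∑' x : ↥((H.addPin X).Λ ⊓ HLaw.pinned V₁ᶜ) × ↥((H.addPin X).Λ ⊓ HLaw.pinned V₁), hW H β ((x.2 : G.V → ℤ) + (x.1 : G.V → ℤ)) :=
    ((pn_split (H.addPin X) V₁ hsp).tsum_eq fun h : (H.addPin X).Λ => hW H β (h : G.V → ℤ)).symm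
  rw [z0, z1, z2, z3, ← tsum_mul_right, tsum_mul_tsum_of_summable_norm s1.norm s2.norm]
  refine tsum_congr fun x => ?_
  exact pn_as_hW_split H β V₁ hE hO x.1 x.2 (fun v hv => x.1.2.2 v hv) (fun v hv => x.2.2.2 v hv)

/-- **L-PN-B1** (~300 l. for the three).  INDEPENDENT BLOCKS.  `V₁` is a union of components of the graph and every row is carried by `V₁` or by its complement.  With `zP X = ∑_{h ∈ Λ, h_X = 0} hW h`:
`hW (h 1_{V₁} + h 1_{V₁ᶜ}) · hW 0 = hW (h 1_{V₁}) · hW (h 1_{V₁ᶜ})` (every bond and every row sees one block), so `zP X · hW 0 = zP (X ∪ V₁ᶜ) · zP (X ∪ V₁)` (`pn_split`, `Summable.tsum_prod`/`tsum_mul_tsum`, `pn_summable`);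
then `pn_dPin_four` for the three laws (`zP (H.addPin V) X = zP H (V ∪ X)`: `pn_pinned_union`); the factors `hW 0 > 0` cancel. -/
theorem pn_dPin_split {G : HGraph} (H : HLaw G) {β : ℝ} (hG : Gd H β) {P₀ : Set G.V} (hl : H.Λ = HLaw.pinned P₀) (V₁ : Set G.V)
    (hE : ∀ e, G.src e ∈ V₁ ↔ G.tgt e ∈ V₁) (hO : ∀ o, (∀ v ∈ V₁, H.B o v = 0) ∨ (∀ v ∉ V₁, H.B o v = 0)) (A P : Set G.V) :
    H.dPin β A P = (H.addPin V₁).dPin β A P + (H.addPin V₁ᶜ).dPin β A P := by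
  have g1 : Gd (H.addPin V₁) β := pn_gd_addPin H hG _
  have g2 : Gd (H.addPin V₁ᶜ) β := pn_gd_addPin H hG _
  have hw : 0 < hW H β 0 := pn_hW_pos' H hG.b_pos 0
  have key : ∀ X : Set G.V, Real.log (zP H β X) = Real.log (zP (H.addPin V₁ᶜ) β X) + Real.log (zP (H.addPin V₁) β X) - Real.log (hW H β 0) := by
    intro X
    have h := pn_as_zP_split H hG hl V₁ hE hO X
    rw [← Real.log_mul (pn_zP_pos _ g2 X).ne' (pn_zP_pos _ g1 X).ne', ← h, Real.log_mul (pn_zP_pos H hG X).ne' hw.ne']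
    ring
  rw [pn_dPin_four H hG, pn_dPin_four _ g1, pn_dPin_four _ g2, key, key, key, key]
  ring

/-- (`pn_dPin_absorb`, `pn_pPin_eq_zP`, `pn_zP_pos`) -/
theorem pn_dPin_zero_left {G : HGraph} (H : HLaw G) {β : ℝ} (hG : Gd H β) {P₀ : Set G.V} (hl : H.Λ = HLaw.pinned P₀) (A P : Set G.V) (hA : A ⊆ P₀) :
    H.dPin β A P = 0 := by
  have h0 : H.pPin β ∅ = 1 := by
    rw [pn_pPin_eq_zP]
    exact div_self (pn_zP_pos H hG ∅).ne'
  unfold HLaw.dPin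
  rw [pn_pPin_congr H hl β (X := A ∪ P) (Y := P) (by rw [← Set.union_assoc, Set.union_eq_self_of_subset_right hA]),
    pn_pPin_congr H hl β (X := A) (Y := ∅) (by rw [Set.union_eq_self_of_subset_right hA, Set.union_empty]), h0, Real.log_one]
  ring

theorem pn_dPin_zero_right {G : HGraph} (H : HLaw G) {β : ℝ} (hG : Gd H β) {P₀ : Set G.V} (hl : H.Λ = HLaw.pinned P₀) (A P : Set G.V) (hP : P ⊆ P₀) :
    H.dPin β A P = 0 := by
  have h0 : H.pPin β ∅ = 1 := by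
    rw [pn_pPin_eq_zP]
    exact div_self (pn_zP_pos H hG ∅).ne'
  unfold HLaw.dPin
  rw [pn_pPin_congr H hl β (X := A ∪ P) (Y := A) (by rw [Set.union_comm A P, ← Set.union_assoc, Set.union_eq_self_of_subset_right hP]),
    pn_pPin_congr H hl β (X := P) (Y := ∅) (by rw [Set.union_eq_self_of_subset_right hP, Set.union_empty]), h0, Real.log_one]
  ring

/-- the weight of the restriction of an ambient height -/
theorem pn_as_hW_amb (D : Finset (ℤ × ℤ)) (cut : Set Bond) (P : Set (ℤ × ℤ)) {N : ℕ} (R : Fin N → ℤ × ℤ → ℝ) (β : ℝ) (u : ℤ × ℤ → ℤ) :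
    hW (sbLaw D cut P R) β (domFn u) = (∏ e ∈ domBonds D cut, bes β (u e.snd - u e.1)) *
      Real.exp (-(∑ o, (∑ z ∈ D, R o z * (2 * Real.pi * (u z : ℝ))) ^ 2) / 2) := by
  unfold hW LSys.W
  congr 1
  · exact (Finset.prod_subtype (domBonds D cut) (fun _ => Iff.rfl) (fun e => bes β (u e.snd - u e.1))).symm
  · congr 3
    refine Finset.sum_congr rfl fun o _ => ?_
    congr 1
    exact (Finset.sum_subtype D (fun _ => Iff.rfl) (fun z => R o z * (2 * Real.pi * (u z : ℝ)))).symm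

/-- the ambient extension by zero of a height on `D'` -/
def pn_as_sdU (D' : Finset (ℤ × ℤ)) (cut : Set Bond) (h' : (domG D' cut).V → ℤ) : ℤ × ℤ → ℤ :=
  fun z => if hz : z ∈ D' then h' ⟨z, hz⟩ else 0

theorem pn_as_sdU_eqns_cite (D' : Finset (ℤ × ℤ)) (cut : Set Bond) (h' : (domG D' cut).V → ℤ) (z : ℤ × ℤ) :
    pn_as_sdU D' cut h' z = if hz : z ∈ D' then h' ⟨z, hz⟩ else 0 := rfl

theorem pn_as_sdU_off (D' : Finset (ℤ × ℤ)) (cut : Set Bond) (h' : (domG D' cut).V → ℤ) {z : ℤ × ℤ} (hz : z ∉ D') : pn_as_sdU D' cut h' z = 0 :=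
  dif_neg hz

theorem pn_as_sdU_dom (D' : Finset (ℤ × ℤ)) (cut : Set Bond) (h' : (domG D' cut).V → ℤ) : domFn (D := D') (cut := cut) (pn_as_sdU D' cut h') = h' := by
  funext v
  have hv : domPos v ∈ D' := v.2
  show pn_as_sdU D' cut h' (domPos v) = h' v
  rw [pn_as_sdU_eqns_cite, dif_pos hv]
  rfl

/-- heights on `D` which vanish off `D'` and on `X` = heights on `D'` which vanish on `X` -/
def pn_as_sdE (D D' : Finset (ℤ × ℤ)) (hD : D' ⊆ D) (cut : Set Bond) {N₁ N₂ : ℕ} (R : Fin N₁ → ℤ × ℤ → ℝ) (R' : Fin N₂ → ℤ × ℤ → ℝ) (X : Set (ℤ × ℤ)) :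
    ↥((sbLaw D cut (↑(D \ D') : Set (ℤ × ℤ)) R).Λ ⊓ HLaw.pinned (domSet X)) ≃ ↥((sbLaw D' cut ∅ R').Λ ⊓ HLaw.pinned (domSet X)) where
  toFun h := ⟨fun v => (h : (domG D cut).V → ℤ) ⟨v.1, hD v.2⟩, fun v hv => (Set.notMem_empty _ hv).elim, fun v hv => h.2.2 ⟨v.1, hD v.2⟩ hv⟩
  invFun h' := ⟨domFn (D := D) (cut := cut) (pn_as_sdU D' cut h'), fun v hv => pn_as_sdU_off D' cut _ (Finset.mem_sdiff.1 hv).2, fun v hv => by
    show pn_as_sdU D' cut h' (domPos v) = 0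
    by_cases hz : domPos v ∈ D'
    · rw [pn_as_sdU_eqns_cite, dif_pos hz]
      exact h'.2.2 ⟨domPos v, hz⟩ hv
    · exact pn_as_sdU_off D' cut _ hz⟩
  left_inv h := by
    refine Subtype.ext ?_
    funext v
    show pn_as_sdU D' cut _ (domPos v) = (h : (domG D cut).V → ℤ) v
    by_cases hz : domPos v ∈ D'
    · rw [pn_as_sdU_eqns_cite, dif_pos hz]
      rfl
    · rw [pn_as_sdU_off D' cut _ hz]
      exact (h.2.1 v (Finset.mem_sdiff.2 ⟨v.2, hz⟩)).symm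
  right_inv h' := by
    refine Subtype.ext ?_
    funext v
    show pn_as_sdU D' cut h' v.1 = (h' : (domG D' cut).V → ℤ) v
    rw [pn_as_sdU_eqns_cite, dif_pos v.2]
    rfl

theorem pn_as_sdE_symm_coe (D D' : Finset (ℤ × ℤ)) (hD : D' ⊆ D) (cut : Set Bond) {N₁ N₂ : ℕ} (R : Fin N₁ → ℤ × ℤ → ℝ) (R' : Fin N₂ → ℤ × ℤ → ℝ) (X : Set (ℤ × ℤ))
    (h' : ↥((sbLaw D' cut ∅ R').Λ ⊓ HLaw.pinned (domSet X))) :
    (((pn_as_sdE D D' hD cut R R' X).symm h' : ↥((sbLaw D cut (↑(D \ D') : Set (ℤ × ℤ)) R).Λ ⊓ HLaw.pinned (domSet X))) : (domG D cut).V → ℤ)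
      = domFn (D := D) (cut := cut) (pn_as_sdU D' cut h') := rfl

/-- the bonds of the sub-domain -/
theorem pn_as_sd_bonds (D D' : Finset (ℤ × ℤ)) (hD : D' ⊆ D) (cut : Set Bond) : domBonds D' cut ⊆ domBonds D cut := by
  intro e he
  unfold domBonds at he ⊢
  rw [Finset.mem_filter, Finset.mem_product] at he ⊢
  exact ⟨⟨hD he.1.1, he.1.2⟩, hD he.2.1, he.2.2⟩

theorem pn_as_sd_off (D D' : Finset (ℤ × ℤ)) (cut : Set Bond) (hsep : ∀ e ∈ domBonds D cut, (e.1 ∈ D' ↔ e.snd ∈ D'))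
    {e : Bond} (he : e ∈ domBonds D cut \ domBonds D' cut) : e.1 ∉ D' ∧ e.snd ∉ D' := by
  rw [Finset.mem_sdiff] at he
  have h1 : e.1 ∉ D' := by
    intro h1
    apply he.2
    have h2 := (hsep e he.1).1 h1
    have h3 := he.1
    unfold domBonds at h3 ⊢
    rw [Finset.mem_filter, Finset.mem_product] at h3 ⊢
    exact ⟨⟨h1, h3.1.2⟩, h2, h3.2.2⟩
  exact ⟨h1, fun h2 => h1 ((hsep e he.1).2 h2)⟩

/-- the weights differ by a constant -/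
theorem pn_as_sd_hW (D D' : Finset (ℤ × ℤ)) (hD : D' ⊆ D) (cut : Set Bond) (hsep : ∀ e ∈ domBonds D cut, (e.1 ∈ D' ↔ e.snd ∈ D'))
    {N₁ N₂ : ℕ} (R : Fin N₁ → ℤ × ℤ → ℝ) (R' : Fin N₂ → ℤ × ℤ → ℝ)
    (hR : ∀ u : ℤ × ℤ → ℝ, (∀ z ∉ D', u z = 0) → ∑ o, (∑ z ∈ D, R o z * u z) ^ 2 = ∑ o, (∑ z ∈ D', R' o z * u z) ^ 2)
    (β : ℝ) (P P' : Set (ℤ × ℤ)) (u : ℤ × ℤ → ℤ) (hu : ∀ z ∉ D', u z = 0) :
    hW (sbLaw D cut P R) β (domFn u) = (∏ _e ∈ domBonds D cut \ domBonds D' cut, bes β 0) * hW (sbLaw D' cut P' R') β (domFn u) := by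
  rw [pn_as_hW_amb, pn_as_hW_amb, ← mul_assoc, ← Finset.prod_sdiff (pn_as_sd_bonds D D' hD cut),
    hR (fun z => 2 * Real.pi * (u z : ℝ)) (fun z hz => by simp [hu z hz])]
  congr 2
  refine Finset.prod_congr rfl fun e he => ?_
  obtain ⟨h1, h2⟩ := pn_as_sd_off D D' cut hsep he
  rw [hu _ h1, hu _ h2, sub_zero]

/-- the partition sums differ by a constant -/
theorem pn_as_sd_zP (D D' : Finset (ℤ × ℤ)) (hD : D' ⊆ D) (cut : Set Bond) (hsep : ∀ e ∈ domBonds D cut, (e.1 ∈ D' ↔ e.snd ∈ D'))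
    {N₁ N₂ : ℕ} (R : Fin N₁ → ℤ × ℤ → ℝ) (R' : Fin N₂ → ℤ × ℤ → ℝ)
    (hR : ∀ u : ℤ × ℤ → ℝ, (∀ z ∉ D', u z = 0) → ∑ o, (∑ z ∈ D, R o z * u z) ^ 2 = ∑ o, (∑ z ∈ D', R' o z * u z) ^ 2)
    (β : ℝ) (X : Set (ℤ × ℤ)) :
    zP (sbLaw D cut (↑(D \ D') : Set (ℤ × ℤ)) R) β (domSet X)
      = (∏ _e ∈ domBonds D cut \ domBonds D' cut, bes β 0) * zP (sbLaw D' cut ∅ R') β (domSet X) := by
  rw [pn_as_zP_eq, pn_as_zP_eq, ← tsum_mul_left, ← (pn_as_sdE D D' hD cut R R' X).symm.tsum_eq]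
  refine tsum_congr fun h' => ?_
  rw [pn_as_sdE_symm_coe, pn_as_sd_hW D D' hD cut hsep R R' hR β _ ∅ _ (fun z hz => pn_as_sdU_off D' cut _ hz), pn_as_sdU_dom]

/-- **L-PN-B2** (~400 l.).  SUB-DOMAIN.  `D'` is a union of components of `domG D cut`; the law on `D` pinned off `D'` and the law on `D'` have the same pin interactions, if the rows have the same quadratic form on the fields carried by `D'`.
Bijection `{h on D : h = 0 off D', h_X = 0} ≃ {h' on D' : h'_X = 0}`; `hW h = c · hW h'`, `c = ∏` over the bonds of `D` outside `D'` of the weight of the gradient `0` (`c > 0`, the same for all `X`); so `zP X = c · zP' X` and `c` cancels in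
`pPin`.  (Weights: unfold as in `pn_l11_hW`, `pn_rows_weight` of `T32Lat`.) -/
theorem pn_as_subdom (D D' : Finset (ℤ × ℤ)) (hD : D' ⊆ D) (cut : Set Bond) (hsep : ∀ e ∈ domBonds D cut, (e.1 ∈ D' ↔ e.snd ∈ D'))
    {N₁ N₂ : ℕ} (R : Fin N₁ → ℤ × ℤ → ℝ) (R' : Fin N₂ → ℤ × ℤ → ℝ)
    (hR : ∀ u : ℤ × ℤ → ℝ, (∀ z ∉ D', u z = 0) → ∑ o, (∑ z ∈ D, R o z * u z) ^ 2 = ∑ o, (∑ z ∈ D', R' o z * u z) ^ 2)
    {β : ℝ} (hβ : 0 < β) (A P : Set (ℤ × ℤ)) :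
    (sbLaw D cut (↑(D \ D') : Set (ℤ × ℤ)) R).dPin β (domSet A) (domSet P) = (sbLaw D' cut ∅ R').dPin β (domSet A) (domSet P) := by
  have hc : (∏ _e ∈ domBonds D cut \ domBonds D' cut, bes β 0) ≠ 0 := (Finset.prod_pos fun _ _ => bes_pos β hβ 0).ne'
  have key : ∀ X : Set (ℤ × ℤ), (sbLaw D cut (↑(D \ D') : Set (ℤ × ℤ)) R).pPin β (domSet X) = (sbLaw D' cut ∅ R').pPin β (domSet X) := by
    intro X
    have e0 : (∅ : Set (domG D cut).V) = domSet (D := D) (cut := cut) ∅ := rfl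
    have e0' : (∅ : Set (domG D' cut).V) = domSet (D := D') (cut := cut) ∅ := rfl
    rw [pn_pPin_eq_zP, pn_pPin_eq_zP, e0, e0', pn_as_sd_zP D D' hD cut hsep R R' hR β X, pn_as_sd_zP D D' hD cut hsep R R' hR β ∅,
      mul_div_mul_left _ _ hc]
  have eU : (domSet (D := D) (cut := cut) A ∪ domSet P) = domSet (A ∪ P) := rfl
  have eU' : (domSet (D := D') (cut := cut) A ∪ domSet P) = domSet (A ∪ P) := rfl
  unfold HLaw.dPin
  rw [eU, eU', key, key, key]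

section med

variable {n₁ n₂ : ℕ}

theorem pn_as_adj_symm (Γ : CGeom n₁ n₂) {κ κ' : Cell n₁ n₂} (h : Γ.Adj κ κ') : Γ.Adj κ' κ := by
  obtain ⟨h1, h2, h3⟩ := h
  refine ⟨h2, h1, ?_⟩
  rcases h3 with h | h | h | h
  · exact Or.inr (Or.inr (Or.inl ⟨h.1, h.2.1.symm, h.2.2⟩))
  · exact Or.inr (Or.inr (Or.inr ⟨h.1.symm, h.2.1, h.2.2⟩))
  · exact Or.inl ⟨h.1, h.2.1.symm, h.2.2⟩
  · exact Or.inr (Or.inl ⟨h.1.symm, h.2.1, h.2.2⟩)

theorem pn_as_conn_symm (Γ : CGeom n₁ n₂) {κ κ' : Cell n₁ n₂} (h : Γ.Conn κ κ') : Γ.Conn κ' κ :=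
  by
  induction h with
  | refl => exact Relation.ReflTransGen.refl
  | tail _ hbc ih => exact Relation.ReflTransGen.head (pn_as_adj_symm Γ hbc) ih

theorem pn_as_bdT_adj (Γ : CGeom n₁ n₂) (J : ℕ) {κ κ' : Cell n₁ n₂} (h : Γ.Adj κ κ') (hκ : κ ∈ bdT Γ J) : κ' ∈ bdT Γ J := by
  obtain ⟨_, d, hd, hc⟩ := Finset.mem_filter.mp hκ
  exact Finset.mem_filter.mpr ⟨h.2.1, d, hd, Relation.ReflTransGen.head (pn_as_adj_symm Γ h) hc⟩

theorem pn_as_gBd_adj (Γ : CGeom n₁ n₂) (J : ℕ) {κ κ' : Cell n₁ n₂} : (gBd Γ J).Adj κ κ' ↔ Γ.Adj κ κ' ∧ κ ∈ bdT Γ J := by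
  constructor
  · rintro ⟨h1, h2, h3⟩
    exact ⟨⟨(Finset.mem_filter.mp h1).1, (Finset.mem_filter.mp h2).1, h3⟩, h1⟩
  · rintro ⟨h, h1⟩
    exact ⟨h1, pn_as_bdT_adj Γ J h h1, h.2.2⟩

theorem pn_as_gBd_conn_mono (Γ : CGeom n₁ n₂) (J : ℕ) {κ κ' : Cell n₁ n₂} (h : (gBd Γ J).Conn κ κ') : Γ.Conn κ κ' :=
  by
  induction h with
  | refl => exact Relation.ReflTransGen.refl
  | tail _ hbc ih => exact Relation.ReflTransGen.tail ih ((pn_as_gBd_adj Γ J).mp hbc).1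

theorem pn_as_gBd_conn (Γ : CGeom n₁ n₂) (J : ℕ) {κ κ' : Cell n₁ n₂} (h : Γ.Conn κ κ') (hκ : κ ∈ bdT Γ J) : (gBd Γ J).Conn κ κ' ∧ κ' ∈ bdT Γ J := by
  induction h with
  | refl => exact ⟨Relation.ReflTransGen.refl, hκ⟩
  | tail _ hbc ih => exact ⟨ih.1.tail ((pn_as_gBd_adj Γ J).mpr ⟨hbc, ih.2⟩), pn_as_bdT_adj Γ J hbc ih.2⟩

theorem pn_as_kb_sub (Γ : CGeom n₁ n₂) (J : ℕ) {κ : Cell n₁ n₂} (h : κ ∈ shKb Γ J) : κ ∈ bdT Γ J :=
  Finset.mem_filter.mpr ⟨(Finset.mem_filter.mp h).1, κ, h, Relation.ReflTransGen.refl⟩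

theorem pn_as_ball_adj (Γ : CGeom n₁ n₂) (p : Finset (Cell n₁ n₂)) (j : ℕ) {κ κ' : Cell n₁ n₂} (h : Γ.Adj κ κ') (hκ : κ ∈ shBall p j) : κ' ∈ shBall p (j + 1) := by
  obtain ⟨_, q, hq, h1, h2, h3, h4⟩ := Finset.mem_filter.mp hκ
  refine Finset.mem_filter.mpr ⟨Finset.mem_univ _, q, hq, ?_⟩
  obtain ⟨_, _, h5⟩ := h
  rcases h5 with h | h | h | h
  · have e := congrArg Fin.val h.2.1
    have e1 := h.1
    exact ⟨by omega, by omega, by omega, by omega⟩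
  · have e := congrArg Fin.val h.1
    have e1 := h.2.1
    exact ⟨by omega, by omega, by omega, by omega⟩
  · have e := congrArg Fin.val h.2.1
    have e1 := h.1
    exact ⟨by omega, by omega, by omega, by omega⟩
  · have e := congrArg Fin.val h.1
    have e1 := h.2.1
    exact ⟨by omega, by omega, by omega, by omega⟩

theorem pn_as_blocks_aux (Γ : CGeom n₁ n₂) (J : ℕ) {κ κ' : Cell n₁ n₂} (h : Γ.Adj κ κ') (hb : κ ∉ bdT Γ J) (hκ : κ ∈ shBall Γ.pin (J + 1)) : κ' ∈ shBall Γ.pin (J + 1) := by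
  by_contra hn
  exact hb (pn_as_bdT_adj Γ J (pn_as_adj_symm Γ h) (pn_as_kb_sub Γ J (Finset.mem_filter.mpr ⟨h.2.1, pn_as_ball_adj Γ Γ.pin (J + 1) h hκ, hn⟩)))

/-- **L-PN-B3** (~350 l. for the block `pn_as_gBd_noDiag` .. `pn_as_rowW_uconf`; combinatorics of `Conn`).  `Adj` is symmetric; a cell joined to a cell of `bdT` lies in `bdT`; `(gBd Γ J).Conn ↔ Γ.Conn` on `bdT`. -/
theorem pn_as_gBd_noDiag (Γ : CGeom n₁ n₂) (hΓ : Γ.NoDiag) (J : ℕ) : (gBd Γ J).NoDiag := by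
  refine ⟨fun κ κ' h1 h2 h3 hc => hΓ.1 κ κ' (Finset.mem_filter.mp h1).1 (Finset.mem_filter.mp h2).1 h3 (pn_as_gBd_conn_mono Γ J hc), ?_⟩
  intro i j i' j' hi hj
  refine ⟨fun hc h1 h2 => ?_, fun hc h1 h2 => ?_⟩
  · rcases (hΓ.2 i j i' j' hi hj).1 (pn_as_gBd_conn_mono Γ J hc) (Finset.mem_filter.mp h1).1 (Finset.mem_filter.mp h2).1 with h | h
    · exact Or.inl ⟨pn_as_bdT_adj Γ J (κ := (i, j)) (κ' := (i', j)) ⟨(Finset.mem_filter.mp h1).1, h.1, Or.inl ⟨hi, rfl, h.2.1⟩⟩ h1, h.2⟩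
    · exact Or.inr ⟨pn_as_bdT_adj Γ J (κ := (i, j)) (κ' := (i, j')) ⟨(Finset.mem_filter.mp h1).1, h.1, Or.inr (Or.inl ⟨rfl, hj, h.2.1⟩)⟩ h1, h.2⟩
  · rcases (hΓ.2 i j i' j' hi hj).2 (pn_as_gBd_conn_mono Γ J hc) (Finset.mem_filter.mp h1).1 (Finset.mem_filter.mp h2).1 with h | h
    · exact Or.inl ⟨pn_as_bdT_adj Γ J (κ := (i', j)) (κ' := (i, j)) ⟨(Finset.mem_filter.mp h1).1, h.1, Or.inr (Or.inr (Or.inl ⟨hi, rfl, h.2.1⟩))⟩ h1, h.2⟩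
    · exact Or.inr ⟨pn_as_bdT_adj Γ J (κ := (i', j)) (κ' := (i', j')) ⟨(Finset.mem_filter.mp h1).1, h.1, Or.inr (Or.inl ⟨rfl, hj, h.2.1⟩)⟩ h1, h.2⟩

theorem pn_as_gBd_conf (Γ : CGeom n₁ n₂) (J : ℕ) : ShConf (gBd Γ J) J := by
  intro κ hκ
  obtain ⟨_, d, hd, hc⟩ := Finset.mem_filter.mp hκ
  have hkb : shKb (gBd Γ J) J = shKb Γ J := by
    ext κ
    constructor
    · intro h
      obtain ⟨h1, h2⟩ := Finset.mem_filter.mp h
      exact Finset.mem_filter.mpr ⟨(Finset.mem_filter.mp h1).1, h2⟩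
    · intro h
      exact Finset.mem_filter.mpr ⟨pn_as_kb_sub Γ J h, (Finset.mem_filter.mp h).2⟩
  exact ⟨d, hkb ▸ hd, (pn_as_gBd_conn Γ J hc hκ).1⟩

theorem pn_as_gBd_kb (Γ : CGeom n₁ n₂) (J : ℕ) : shKb (gBd Γ J) J = shKb Γ J := by
  ext κ
  constructor
  · intro h
    obtain ⟨h1, h2⟩ := Finset.mem_filter.mp h
    exact Finset.mem_filter.mpr ⟨(Finset.mem_filter.mp h1).1, h2⟩
  · intro h
    exact Finset.mem_filter.mpr ⟨pn_as_kb_sub Γ J h, (Finset.mem_filter.mp h).2⟩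

/-- no uncut face between the three blocks `bdT`, `(T \ bdT) ∩ {d ≤ J+1}`, `(T \ bdT) \ {d ≤ J+1}` (the distance changes by at most one across a face; a cell of `T` at distance `J+2` is a band cell, hence in `bdT`) -/
theorem pn_as_blocks (Γ : CGeom n₁ n₂) (J : ℕ) {κ κ' : Cell n₁ n₂} (h : Γ.Adj κ κ') :
    (κ ∈ bdT Γ J ↔ κ' ∈ bdT Γ J) ∧ (κ ∉ bdT Γ J → (κ ∈ shBall Γ.pin (J + 1) ↔ κ' ∈ shBall Γ.pin (J + 1))) := by
  refine ⟨⟨pn_as_bdT_adj Γ J h, pn_as_bdT_adj Γ J (pn_as_adj_symm Γ h)⟩, fun hb => ⟨pn_as_blocks_aux Γ J h hb, ?_⟩⟩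
  exact pn_as_blocks_aux Γ J (pn_as_adj_symm Γ h) fun h' => hb (pn_as_bdT_adj Γ J (pn_as_adj_symm Γ h) h')

theorem pn_as_coef_eq (s : ℕ) (g' : DGrid (s * n₁) (s * n₂)) (κ : Cell n₁ n₂) (κ' : Cell (s * n₁) (s * n₂)) :
    shCoef s g' κ κ' = if S23.coarse s κ' = κ then sbW s g' κ' else 0 := by
  unfold shCoef sbW
  by_cases h : S23.coarse s κ' = κ
  · rw [if_pos h, if_pos h, h]
  · rw [if_neg h, if_neg h]

theorem pn_as_comp_conn (Γ : CGeom n₁ n₂) {σ : Cell n₁ n₂ → ℝ} (hσ : ∀ κ κ', Γ.Adj κ κ' → σ κ = σ κ') {κ κ' : Cell n₁ n₂} (h : Γ.Conn κ κ') : σ κ = σ κ' := by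
  induction h with
  | refl => rfl
  | tail _ hbc ih => exact ih.trans (hσ _ _ hbc)

/-- the band row of the corner of a band cell -/
theorem pn_as_row_band (T : Finset (Cell n₁ n₂)) (Kb : Finset (Cell n₁ n₂)) {s : ℕ} (hs : 0 < s) (lam : ℝ) (s' : Cell (s * n₁) (s * n₂) → ℝ) {d : Cell n₁ n₂} (hd : d ∈ Kb) (hT : d ∈ T) :
    ∑ κ' ∈ S23.fine s T, shRow s Kb lam (finProdFinEquiv (sbCorner s hs d)) κ' * s' κ' = Real.sqrt lam / s * s' (sbCorner s hs d) := by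
  rw [Finset.sum_eq_single (sbCorner s hs d)]
  · unfold shRow
    rw [if_pos ⟨(Equiv.symm_apply_apply _ _).symm, by rw [pn_sb_coarse_corner]; exact hd⟩]
  · intro κ' _ hne
    unfold shRow
    rw [if_neg, zero_mul]
    rintro ⟨h1, _⟩
    rw [Equiv.symm_apply_apply] at h1
    exact hne h1
  · intro hn
    exact absurd ((pn_sb_mem_fine s T _).2 (by rw [pn_sb_coarse_corner]; exact hT)) hn

/-- the unit row of a cell -/
theorem pn_as_row_unit (T : Finset (Cell n₁ n₂)) {s : ℕ} (hs : 0 < s) (g' : DGrid (s * n₁) (s * n₂)) (s' : Cell (s * n₁) (s * n₂) → ℝ) (σ : Cell n₁ n₂ → ℝ)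
    (hc : ∀ κ' ∈ S23.fine s T, s' κ' = σ (S23.coarse s κ')) {κ : Cell n₁ n₂} (hT : κ ∈ T) :
    ∑ κ' ∈ S23.fine s T, shCoef s g' κ κ' * s' κ' = σ κ := by
  have hsub : S23.fine s {κ} ⊆ S23.fine s T := by
    intro κ' h
    rw [pn_sb_mem_fine] at h ⊢
    rw [Finset.mem_singleton.1 h]
    exact hT
  rw [← Finset.sum_subset hsub]
  · rw [← one_mul (σ κ), ← pn_sb_W_sum hs g' κ, Finset.sum_mul]
    refine Finset.sum_congr rfl fun κ' hκ' => ?_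
    have e : S23.coarse s κ' = κ := Finset.mem_singleton.1 ((pn_sb_mem_fine s _ κ').1 hκ')
    rw [pn_as_coef_eq, if_pos e, hc κ' (hsub hκ'), e]
  · intro κ' _ hn
    have e : S23.coarse s κ' ≠ κ := fun e => hn ((pn_sb_mem_fine s _ κ').2 (Finset.mem_singleton.2 e))
    rw [pn_as_coef_eq, if_neg e, zero_mul]

theorem pn_as_rowW_bdd (Γ : CGeom n₁ n₂) (J s : ℕ) (lam : ℝ) (g' : ℕ → DGrid (s * n₁) (s * n₂)) : ∃ C : ℝ, ∀ k o κ, |rowW Γ J s lam (g' k) o κ| ≤ C := by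
  refine ⟨|Real.sqrt lam / s| + 1, fun k o κ => ?_⟩
  have h0 : (0 : ℝ) ≤ |Real.sqrt lam / s| := abs_nonneg _
  refine Fin.addCases (fun i => ?_) (fun j => ?_) o
  · unfold rowW
    rw [Fin.addCases_left]
    unfold shRow
    split_ifs
    · linarith
    · rw [abs_zero]
      linarith
  · unfold rowW
    rw [Fin.addCases_right]
    unfold rowU
    split_ifs
    · rw [pn_as_coef_eq]
      split_ifs
      · have := pn_sb_W_mem s (g' k) κ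
        rw [abs_of_pos this.1]
        linarith [this.2]
      · rw [abs_zero]
        linarith
    · show |(0 : ℝ)| ≤ _
      rw [abs_zero]
      linarith

/-- the rows of the band law confine the constants, whatever the pins `Y`.  A `CompFn` of the refinement is `σ ∘ coarse` on `fine T`, `σ` a `CompFn` (as in `pn_sb_uconf_up`);
`∑_o (..)² = lam ∑_{d ∈ shKb} σ(d)² + ∑_{κ ∈ T \ bdT} σ(κ)²` (`pn_sb_W_sum`; `shCoef s g' κ = sbUp s g' (Pi.single κ 1)`), and `σ(κ) = σ(d)` for a band cell `d` of the component of `κ ∈ bdT`. -/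
theorem pn_as_rowW_uconf (Γ : CGeom n₁ n₂) (Y : Finset (Cell n₁ n₂)) (J : ℕ) {s : ℕ} (hs : 0 < s) {lam : ℝ} (hlam : 0 < lam) (g' : ℕ → DGrid (s * n₁) (s * n₂)) :
    UConf (S23.refine s { Γ with pin := Y }) fun k => rowW Γ J s lam (g' k) := by
  have hs0 : (0 : ℝ) < s := by exact_mod_cast hs
  obtain ⟨C, hC⟩ : ∃ C : ℝ, C = (s : ℝ) ^ 2 / lam + 1 := ⟨_, rfl⟩
  have hC1 : 1 ≤ C := by
    rw [hC]
    have : 0 ≤ (s : ℝ) ^ 2 / lam := by positivity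
    linarith
  have hC2 : (s : ℝ) ^ 2 / lam ≤ C := by
    rw [hC]
    linarith
  obtain ⟨K, hK⟩ : ∃ K : ℝ, K = ((S23.fine s Γ.T).card : ℝ) + 1 := ⟨_, rfl⟩
  have hK0 : 0 < K := by
    rw [hK]
    positivity
  have hC0 : 0 < C := by linarith
  refine ⟨1 / (K * C), by positivity, ?_⟩
  intro k s' hs'
  obtain ⟨σ, hσ⟩ : ∃ σ : Cell n₁ n₂ → ℝ, σ = fun κ => s' (sbCorner s hs κ) := ⟨_, rfl⟩
  have hσC : CompFn { Γ with pin := Y } σ := hσ ▸ pn_sb_comp_down { Γ with pin := Y } hs hs'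
  have hadj : ∀ κ κ', Γ.Adj κ κ' → σ κ = σ κ' := fun κ κ' h => hσC.1 κ κ' h
  have hmem : ∀ κ' ∈ S23.fine s Γ.T, S23.coarse s κ' ∈ Γ.T := fun κ' hκ' => (pn_sb_mem_fine s _ κ').1 hκ'
  have hconst : ∀ κ' ∈ S23.fine s Γ.T, s' κ' = σ (S23.coarse s κ') := by
    intro κ' hκ'
    rw [hσ]
    exact pn_sb_comp_const { Γ with pin := Y } hs hs' _ κ' (hmem κ' hκ') rfl
  show 1 / (K * C) * ∑ κ' ∈ S23.fine s Γ.T, s' κ' ^ 2 ≤ ∑ o, (∑ κ' ∈ S23.fine s Γ.T, rowW Γ J s lam (g' k) o κ' * s' κ') ^ 2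
  obtain ⟨S, hS⟩ : ∃ S : ℝ, S = ∑ o, (∑ κ' ∈ S23.fine s Γ.T, rowW Γ J s lam (g' k) o κ' * s' κ') ^ 2 := ⟨_, rfl⟩
  rw [← hS]
  have hS0 : 0 ≤ S := by
    rw [hS]
    exact Finset.sum_nonneg fun _ _ => sq_nonneg _
  have hone : ∀ o, (∑ κ' ∈ S23.fine s Γ.T, rowW Γ J s lam (g' k) o κ' * s' κ') ^ 2 ≤ S := by
    intro o
    rw [hS]
    exact Finset.single_le_sum (f := fun o => (∑ κ' ∈ S23.fine s Γ.T, rowW Γ J s lam (g' k) o κ' * s' κ') ^ 2) (fun _ _ => sq_nonneg _) (Finset.mem_univ o)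
  have hband : ∀ d ∈ shKb Γ J, σ d ^ 2 ≤ C * S := by
    intro d hd
    have h1 := hone (Fin.castAdd (n₁ * n₂) (finProdFinEquiv (sbCorner s hs d)))
    unfold rowW at h1
    simp only [Fin.addCases_left] at h1
    rw [pn_as_row_band Γ.T (shKb Γ J) hs lam s' hd (Finset.mem_filter.mp hd).1] at h1
    have h2 : (Real.sqrt lam / s * s' (sbCorner s hs d)) ^ 2 = lam / (s : ℝ) ^ 2 * σ d ^ 2 := by
      rw [mul_pow, div_pow, Real.sq_sqrt hlam.le, hσ]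
    rw [h2] at h1
    calc σ d ^ 2 = (s : ℝ) ^ 2 / lam * (lam / (s : ℝ) ^ 2 * σ d ^ 2) := by
          field_simp
      _ ≤ (s : ℝ) ^ 2 / lam * S := mul_le_mul_of_nonneg_left h1 (by positivity)
      _ ≤ C * S := mul_le_mul_of_nonneg_right hC2 hS0
  have hunit : ∀ κ ∈ Γ.T \ bdT Γ J, σ κ ^ 2 ≤ C * S := by
    intro κ hκ
    have h1 := hone (Fin.natAdd ((s * n₁) * (s * n₂)) (finProdFinEquiv κ))
    unfold rowW at h1
    simp only [Fin.addCases_right] at h1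
    unfold rowU at h1
    rw [Equiv.symm_apply_apply, if_pos hκ, pn_as_row_unit Γ.T hs (g' k) s' σ hconst (Finset.mem_sdiff.mp hκ).1] at h1
    calc σ κ ^ 2 ≤ S := h1
      _ = 1 * S := (one_mul S).symm
      _ ≤ C * S := mul_le_mul_of_nonneg_right hC1 hS0
  have hall : ∀ κ ∈ Γ.T, σ κ ^ 2 ≤ C * S := by
    intro κ hκ
    by_cases hb : κ ∈ bdT Γ J
    · obtain ⟨_, d, hd, hc⟩ := Finset.mem_filter.mp hb
      rw [pn_as_comp_conn Γ hadj hc]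
      exact hband d hd
    · exact hunit κ (Finset.mem_sdiff.mpr ⟨hκ, hb⟩)
  have hsum : ∑ κ' ∈ S23.fine s Γ.T, s' κ' ^ 2 ≤ K * (C * S) := by
    calc ∑ κ' ∈ S23.fine s Γ.T, s' κ' ^ 2 ≤ ∑ _κ' ∈ S23.fine s Γ.T, C * S := by
          refine Finset.sum_le_sum fun κ' hκ' => ?_
          rw [hconst κ' hκ']
          exact hall _ (hmem κ' hκ')
      _ = ((S23.fine s Γ.T).card : ℝ) * (C * S) := by
          rw [Finset.sum_const, nsmul_eq_mul]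
      _ ≤ K * (C * S) := mul_le_mul_of_nonneg_right (by rw [hK]; linarith) (by positivity)
  calc 1 / (K * C) * ∑ κ' ∈ S23.fine s Γ.T, s' κ' ^ 2 ≤ 1 / (K * C) * (K * (C * S)) := mul_le_mul_of_nonneg_left hsum (by positivity)
    _ = S := by field_simp

end med

theorem pn_as_ok2_ev (hg : Admissible K g ν) {r₀ s : ℕ} (hr₀ : 0 < r₀) (hs : 0 < s) : ∀ᶠ k in atTop, sbOK2 r₀ s (g k) := by
  filter_upwards [pn_sb_ev hg hr₀, pn_sb_ev (pn_sb_adm hg hr₀) hs] with k h1 h2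
  exact ⟨h1, h2⟩

theorem pn_as_comp2 (ν : ℕ → ℕ) {r₀ s : ℕ} (hr₀ : 0 < r₀) (hs : 0 < s) : Comp ν fun k => sbNu s (sbNu r₀ (ν k)) := by
  obtain ⟨c, hc⟩ := pn_sb_comp ν hr₀
  obtain ⟨c', hc'⟩ := pn_sb_comp (fun k => sbNu r₀ (ν k)) hs
  refine ⟨c * c', fun k => ⟨?_, ?_⟩⟩
  · calc ν k ≤ c * sbNu r₀ (ν k) := (hc k).1
      _ ≤ c * (c' * sbNu s (sbNu r₀ (ν k))) := Nat.mul_le_mul_left _ (hc' k).1
      _ = c * c' * sbNu s (sbNu r₀ (ν k)) := by ring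
  · calc sbNu s (sbNu r₀ (ν k)) ≤ c' * sbNu r₀ (ν k) := (hc' k).2
      _ ≤ c' * (c * ν k) := Nat.mul_le_mul_left _ (hc k).2
      _ = c * c' * ν k := by ring

/-- the band law is a good law -/
theorem pn_as_lawW_gd (Γ : CGeom m₁ m₂) (p : Finset (Cell m₁ m₂)) {r₀ s : ℕ} (hr₀ : 0 < r₀) (hs : 0 < s) (J : ℕ) {lam : ℝ} (hlam : 0 < lam) (g : DGrid m₁ m₂)
    (hok : sbOK2 r₀ s g) {β : ℝ} (hβ : 0 < β) : Gd (lawW Γ p r₀ J s lam g) β := by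
  have h1 : UConf (S23.refine s (S23.refine r₀ Γ)) fun _ : ℕ => rowW (gMed Γ p r₀) J s lam (sbG s (sbG r₀ g)) :=
    pn_as_rowW_uconf (gMed Γ p r₀) (S23.fine r₀ Γ.pin) J hs hlam fun _ => sbG s (sbG r₀ g)
  have h2 := pn_sb_pd_of_uconf _ _ h1 0 (sbG s (sbG r₀ g))
  have h3 := pn_sb_ok_of_pd _ rfl h2 hβ
  have h4 : Gd (lawR (S23.refine s (S23.refine r₀ Γ)) (sbG s (sbG r₀ g)) (rowW (gMed Γ p r₀) J s lam (sbG s (sbG r₀ g)))) β := ⟨hβ, h3.1, h3.2⟩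
  exact (pn_cn_lawW_tr (fun _ _ H => Gd H β) Γ p hr₀ hs J lam g hok).mp h4


/-- **POT-5** (helper53, `pn_pot_band_W`): the Gaussian pin interaction vanishes under the band law. -/
theorem pn_pot_band (h : Std a b ν Γ row K g) (_hpin : Γ.pin = ∅) (A p : Finset (Cell m₁ m₂)) (hsep : C3.Sep A p) (J r₀ : ℕ) (hr₀ : 2 * J + 5 ≤ r₀) :
    ∀ ε > 0, ∃ lam₀ : ℝ, 0 < lam₀ ∧ ∀ lam ≥ lam₀, ∃ s₀ : ℕ, ∀ s ≥ s₀,
      ∀ᶠ k in atTop, (lawW Γ p r₀ J s lam (g k)).gPin a (h.L.P₀ k) (h.st A k) (h.st p k) ≤ ε := fun _ hε =>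
  Pins.pn_pot_band_W Γ K g ν h.hg h.hS.a_pos A p hsep J r₀ hr₀ (fun lam hlam s hs => by
    filter_upwards [pn_as_ok2_ev h.hg (by omega : 0 < r₀) hs] with k hk
    have hG := pn_as_lawW_gd Γ p (by omega : 0 < r₀) hs J hlam (g k) hk (h.b_pos k)
    exact pl_PD_of_ok _ rfl (b k) hG.ok hG.proper) hε

/-- three independent blocks: `V₁ᶜ`, `V₂ ⊆ V₁`, `V₁ \ V₂`; `A` avoids `V₂`, `P` avoids `V₁ \ V₂` -/
theorem pn_as_three {G : HGraph} (H : HLaw G) {β : ℝ} (hG : Gd H β) {P₀ : Set G.V} (hl : H.Λ = HLaw.pinned P₀) (V₁ V₂ : Set G.V)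
    (hE₁ : ∀ e, G.src e ∈ V₁ ↔ G.tgt e ∈ V₁) (hO₁ : ∀ o, (∀ v ∈ V₁, H.B o v = 0) ∨ (∀ v ∉ V₁, H.B o v = 0))
    (hE₂ : ∀ e, G.src e ∈ V₂ ↔ G.tgt e ∈ V₂) (hO₂ : ∀ o, (∀ v ∈ V₂, H.B o v = 0) ∨ (∀ v ∉ V₂, H.B o v = 0))
    (A P : Set G.V) (hA : A ⊆ V₂ᶜ) (hP : P ⊆ V₁ᶜ ∪ V₂) :
    H.dPin β A P = (H.addPin V₁).dPin β A P := by
  rw [pn_dPin_split H hG hl V₁ hE₁ hO₁ A P]
  have g2 : Gd (H.addPin V₁ᶜ) β := pn_gd_addPin H hG _
  have hl2 : (H.addPin V₁ᶜ).Λ = HLaw.pinned (P₀ ∪ V₁ᶜ) := by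
    show H.Λ ⊓ HLaw.pinned V₁ᶜ = _
    rw [hl, pl_pinned_inf]
  have h2 := pn_dPin_split (H.addPin V₁ᶜ) g2 hl2 V₂ hE₂ hO₂ A P
  have g3 : Gd ((H.addPin V₁ᶜ).addPin V₂) β := pn_gd_addPin _ g2 _
  have g4 : Gd ((H.addPin V₁ᶜ).addPin V₂ᶜ) β := pn_gd_addPin _ g2 _
  have hl3 : ((H.addPin V₁ᶜ).addPin V₂).Λ = HLaw.pinned (P₀ ∪ V₁ᶜ ∪ V₂) := by
    show (H.addPin V₁ᶜ).Λ ⊓ HLaw.pinned V₂ = _
    rw [hl2, pl_pinned_inf]
  have hl4 : ((H.addPin V₁ᶜ).addPin V₂ᶜ).Λ = HLaw.pinned (P₀ ∪ V₁ᶜ ∪ V₂ᶜ) := by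
    show (H.addPin V₁ᶜ).Λ ⊓ HLaw.pinned V₂ᶜ = _
    rw [hl2, pl_pinned_inf]
  have z3 : ((H.addPin V₁ᶜ).addPin V₂).dPin β A P = 0 := by
    refine pn_dPin_zero_right _ g3 hl3 A P fun v hv => ?_
    rcases hP hv with h | h
    · exact Or.inl (Or.inr h)
    · exact Or.inr h
  have z4 : ((H.addPin V₁ᶜ).addPin V₂ᶜ).dPin β A P = 0 :=
    pn_dPin_zero_left _ g4 hl4 A P fun v hv => Or.inr (hA hv)
  rw [h2, z3, z4]
  ring

theorem pn_as_mem_region {n₁ n₂ : ℕ} (g : DGrid n₁ n₂) (W : Finset (Cell n₁ n₂)) {κ : Cell n₁ n₂} {z : ℤ × ℤ} (hz : z ∈ g.cell κ) : z ∈ g.region W ↔ κ ∈ W := by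
  unfold DGrid.region
  rw [Finset.mem_biUnion]
  constructor
  · rintro ⟨κ', h1, h2⟩
    rw [Sec.sec_cell_unique g hz h2]
    exact h1
  · exact fun h => ⟨κ, h, hz⟩

theorem pn_as_split_E {n₁ n₂ : ℕ} (Γ : CGeom n₁ n₂) (g : DGrid n₁ n₂) (W : Finset (Cell n₁ n₂)) (hW : ∀ κ κ', Γ.Adj κ κ' → (κ ∈ W ↔ κ' ∈ W)) {e : Bond}
    (he : e ∈ domBonds (g.region Γ.T) (Γ.cutB g)) : e.1 ∈ g.region W ↔ e.snd ∈ g.region W := by
  obtain ⟨κ, hκ, h1⟩ := Finset.mem_biUnion.mp (domBonds_fst he)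
  obtain ⟨κ', hκ', h2⟩ := Finset.mem_biUnion.mp (domBonds_snd he)
  rw [pn_as_mem_region g W h1, pn_as_mem_region g W h2]
  rcases pn_sb_bond_adj Γ g he hκ hκ' h1 h2 with h | h
  · rw [h]
  · exact hW _ _ h

theorem pn_as_rowW_cell {n₁ n₂ : ℕ} (Γ : CGeom n₁ n₂) (J s : ℕ) (lam : ℝ) (gf : DGrid (s * n₁) (s * n₂)) (o : Fin ((s * n₁) * (s * n₂) + n₁ * n₂)) :
    ∃ κ : Cell n₁ n₂, ∀ κf, S23.coarse s κf ≠ κ → rowW Γ J s lam gf o κf = 0 := by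
  refine Fin.addCases (fun i => ?_) (fun j => ?_) o
  · refine ⟨S23.coarse s (finProdFinEquiv.symm i), fun κf h => ?_⟩
    unfold rowW
    rw [Fin.addCases_left]
    unfold shRow
    rw [if_neg]
    rintro ⟨h1, _⟩
    exact h (by rw [h1])
  · refine ⟨finProdFinEquiv.symm j, fun κf h => ?_⟩
    unfold rowW
    rw [Fin.addCases_right]
    unfold rowU
    split_ifs
    · rw [pn_as_coef_eq, if_neg h]
    · rfl

theorem pn_as_CT_cell {n₁ n₂ s : ℕ} {gf : DGrid (s * n₁) (s * n₂)} {gm : DGrid n₁ n₂} (href : S23.Refines s gf gm) (T' : Finset (Cell (s * n₁) (s * n₂)))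
    (t : Cell (s * n₁) (s * n₂) → ℝ) (κ : Cell n₁ n₂) (ht : ∀ κf, S23.coarse s κf ≠ κ → t κf = 0) {z : ℤ × ℤ} (hz : z ∉ gm.cell κ) : sbCT T' gf t z = 0 := by
  unfold sbCT
  refine Finset.sum_eq_zero fun κf _ => ?_
  by_cases h : S23.coarse s κf = κ
  · rw [if_neg, mul_zero]
    intro hz'
    apply hz
    have h0 : z ∈ gf.cell κf := by
      have := Finset.mem_coe.mp hz'
      rwa [pn_sb_region_single] at this
    have h1 : z ∈ gf.region (S23.fine s {κ}) := pn_sb_cell_sub_region gf ((pn_sb_mem_fine s _ κf).2 (Finset.mem_singleton.2 h)) h0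
    rw [pn_sb_region href, pn_sb_region_single] at h1
    exact h1
  · rw [ht κf h, zero_mul]

theorem pn_as_split_O {n₁ n₂ : ℕ} (gm : DGrid n₁ n₂) (W : Finset (Cell n₁ n₂)) (R : ℤ × ℤ → ℝ) (κ : Cell n₁ n₂) (hR : ∀ z ∉ gm.cell κ, R z = 0) :
    (∀ z ∈ gm.region W, R z = 0) ∨ (∀ z ∉ gm.region W, R z = 0) := by
  by_cases h : κ ∈ W
  · right
    intro z hz
    exact hR z fun hc => hz ((pn_as_mem_region gm W hc).2 h)
  · left
    intro z hz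
    exact hR z fun hc => h ((pn_as_mem_region gm W hc).1 hz)

theorem pn_as_far (A p : Finset (Cell m₁ m₂)) (hsep : C3.Sep A p) {r₀ j : ℕ} (hj : j < r₀) {κ : Cell (r₀ * m₁) (r₀ * m₂)} (h1 : κ ∈ S23.fine r₀ A) :
    κ ∉ shBall (S23.fine r₀ p) j := by
  intro hb
  obtain ⟨_, q, hq, l1, l2, l3, l4⟩ := Finset.mem_filter.mp hb
  have hA : S23.coarse r₀ κ ∈ A := (Finset.mem_filter.mp h1).2
  have hp : S23.coarse r₀ q ∈ p := (Finset.mem_filter.mp hq).2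
  have hr : 0 < r₀ := by omega
  have key : ∀ x y : ℕ, x / r₀ + 1 < y / r₀ → x + r₀ < y := by
    intro x y hxy
    have h3 : x < r₀ * (x / r₀ + 1) := Nat.lt_mul_div_succ x hr
    have h4 : r₀ * (y / r₀) ≤ y := Nat.mul_div_le y r₀
    have h5 : r₀ * (x / r₀ + 1 + 1) ≤ r₀ * (y / r₀) := Nat.mul_le_mul_left _ hxy
    have h6 : r₀ * (x / r₀ + 1 + 1) = r₀ * (x / r₀ + 1) + r₀ := by ring
    omega
  rcases hsep _ hA _ hp with h | h | h | h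
  · have := key _ _ h
    omega
  · have := key _ _ h
    omega
  · have := key _ _ h
    omega
  · have := key _ _ h
    omega

/-- **L-PN-B4** (~400 l.).  The components without band cell do not contribute.   `H = lawW ..`, `gm = sbG r₀ g`, `Γm = gMed Γ p r₀`; `g.region Γ.T = gm.region Γm.T` (`pn_sb_region`), `Γ.cutB g = Γm.cutB gm` (`pn_sb_cut`).
`pn_dPin_split` with `V₁ = ` sites of `Γm.T \ bdT`; second term: `pn_dPin_split` again with the sites of `(Γm.T \ bdT) ∩ {d ≤ J+1}`, then `pn_dPin_zero_left` (`A` is at distance `> r₀ ≥ 2J+5`) and `pn_dPin_zero_right` (`p` is at distance `0`).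
Hypotheses `hE`: a bond of the graph joins sites of one medium cell or of two cells with `Γm.Adj` (`pn_gl_cross`), `pn_as_blocks`;  `hO`: every row is carried by one medium cell (`rowW`: a band row by a fine cell of a band cell `⊂ bdT`, a unit row by a cell of `T \ bdT`). -/
theorem pn_as_band_split (Γ : CGeom m₁ m₂) (hpin : Γ.pin = ∅) (A p : Finset (Cell m₁ m₂)) (hsep : C3.Sep A p) {r₀ J s : ℕ} (hr₀ : 2 * J + 5 ≤ r₀) (hs : 0 < s)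
    (lam : ℝ) (g : DGrid m₁ m₂) (hok : sbOK2 r₀ s g) {β : ℝ} (hG : Gd (lawW Γ p r₀ J s lam g) β) :
    (lawW Γ p r₀ J s lam g).dPin β (Γ.sites g A) (Γ.sites g p)
      = ((lawW Γ p r₀ J s lam g).addPin (domSet (↑((sbG r₀ g).region ((gMed Γ p r₀).T \ bdT (gMed Γ p r₀) J)) : Set (ℤ × ℤ)))).dPin β (Γ.sites g A) (Γ.sites g p) := by
  have hr : 0 < r₀ := by omega
  have ref1 : S23.Refines r₀ (sbG r₀ g) g := pn_sb_refines hr hok.1
  have ref2 : S23.Refines s (sbG s (sbG r₀ g)) (sbG r₀ g) := pn_sb_refines hs hok.2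
  have hD : (sbG r₀ g).region (gMed Γ p r₀).T = g.region Γ.T := pn_sb_region ref1 Γ.T
  have hcut : (gMed Γ p r₀).cutB (sbG r₀ g) = Γ.cutB g := pn_sb_cut ref1 Γ
  have hU : ∀ κ κ', (gMed Γ p r₀).Adj κ κ' → (κ ∈ (gMed Γ p r₀).T \ bdT (gMed Γ p r₀) J ↔ κ' ∈ (gMed Γ p r₀).T \ bdT (gMed Γ p r₀) J) := by
    intro κ κ' h
    rw [Finset.mem_sdiff, Finset.mem_sdiff, (pn_as_blocks _ J h).1]
    exact ⟨fun h' => ⟨h.2.1, h'.2⟩, fun h' => ⟨h.1, h'.2⟩⟩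
  have hU₂ : ∀ κ κ', (gMed Γ p r₀).Adj κ κ' → (κ ∈ ((gMed Γ p r₀).T \ bdT (gMed Γ p r₀) J).filter (fun κ => κ ∈ shBall (gMed Γ p r₀).pin (J + 1))
      ↔ κ' ∈ ((gMed Γ p r₀).T \ bdT (gMed Γ p r₀) J).filter (fun κ => κ ∈ shBall (gMed Γ p r₀).pin (J + 1))) := by
    intro κ κ' h
    rw [Finset.mem_filter, Finset.mem_filter, hU κ κ' h]
    constructor
    · rintro ⟨h1, h2⟩
      have hb : κ ∉ bdT (gMed Γ p r₀) J := fun hb => (Finset.mem_sdiff.mp h1).2 ((pn_as_blocks _ J h).1.mp hb)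
      exact ⟨h1, ((pn_as_blocks _ J h).2 hb).mp h2⟩
    · rintro ⟨h1, h2⟩
      have hb : κ ∉ bdT (gMed Γ p r₀) J := fun hb => (Finset.mem_sdiff.mp h1).2 ((pn_as_blocks _ J h).1.mp hb)
      exact ⟨h1, ((pn_as_blocks _ J h).2 hb).mpr h2⟩
  have hrow : ∀ o, ∃ κ : Cell (r₀ * m₁) (r₀ * m₂), ∀ z ∉ (sbG r₀ g).cell κ, rowWz Γ p r₀ J s lam g o z = 0 := by
    intro o
    obtain ⟨κ, hκ⟩ := pn_as_rowW_cell (gMed Γ p r₀) J s lam (sbG s (sbG r₀ g)) o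
    exact ⟨κ, fun z hz => pn_as_CT_cell ref2 _ _ κ hκ hz⟩
  refine pn_as_three (lawW Γ p r₀ J s lam g) hG (P₀ := domSet (↑(g.region Γ.pin) : Set (ℤ × ℤ))) rfl
    (domSet (↑((sbG r₀ g).region ((gMed Γ p r₀).T \ bdT (gMed Γ p r₀) J)) : Set (ℤ × ℤ)))
    (domSet (↑((sbG r₀ g).region (((gMed Γ p r₀).T \ bdT (gMed Γ p r₀) J).filter (fun κ => κ ∈ shBall (gMed Γ p r₀).pin (J + 1)))) : Set (ℤ × ℤ)))
    ?_ ?_ ?_ ?_ _ _ ?_ ?_
  · rintro ⟨e, he⟩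
    have he' : e ∈ domBonds ((sbG r₀ g).region (gMed Γ p r₀).T) ((gMed Γ p r₀).cutB (sbG r₀ g)) := by
      rw [hD, hcut]
      exact he
    exact pn_as_split_E (gMed Γ p r₀) (sbG r₀ g) _ hU he'
  · intro o
    obtain ⟨κ, hκ⟩ := hrow o
    rcases pn_as_split_O (sbG r₀ g) ((gMed Γ p r₀).T \ bdT (gMed Γ p r₀) J) _ κ hκ with h | h
    · exact Or.inl fun v hv => h _ hv
    · exact Or.inr fun v hv => h _ hv
  · rintro ⟨e, he⟩
    have he' : e ∈ domBonds ((sbG r₀ g).region (gMed Γ p r₀).T) ((gMed Γ p r₀).cutB (sbG r₀ g)) := by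
      rw [hD, hcut]
      exact he
    exact pn_as_split_E (gMed Γ p r₀) (sbG r₀ g) _ hU₂ he'
  · intro o
    obtain ⟨κ, hκ⟩ := hrow o
    rcases pn_as_split_O (sbG r₀ g) (((gMed Γ p r₀).T \ bdT (gMed Γ p r₀) J).filter (fun κ => κ ∈ shBall (gMed Γ p r₀).pin (J + 1))) _ κ hκ with h | h
    · exact Or.inl fun v hv => h _ hv
    · exact Or.inr fun v hv => h _ hv
  · intro v hv hv2
    have h1 : domPos v ∈ g.region A := hv
    rw [← pn_sb_region ref1 A] at h1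
    obtain ⟨κ, hκ, hz⟩ := Finset.mem_biUnion.mp h1
    have h2 : domPos v ∈ (sbG r₀ g).region (((gMed Γ p r₀).T \ bdT (gMed Γ p r₀) J).filter (fun κ => κ ∈ shBall (gMed Γ p r₀).pin (J + 1))) := hv2
    rw [pn_as_mem_region _ _ hz] at h2
    exact pn_as_far A p hsep (j := J + 1) (by omega) hκ (Finset.mem_filter.mp h2).2
  · intro v hv
    have h1 : domPos v ∈ g.region p := hv
    rw [← pn_sb_region ref1 p] at h1
    obtain ⟨κ, hκ, hz⟩ := Finset.mem_biUnion.mp h1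
    by_cases h2 : domPos v ∈ (sbG r₀ g).region ((gMed Γ p r₀).T \ bdT (gMed Γ p r₀) J)
    · right
      show domPos v ∈ (sbG r₀ g).region (((gMed Γ p r₀).T \ bdT (gMed Γ p r₀) J).filter (fun κ => κ ∈ shBall (gMed Γ p r₀).pin (J + 1)))
      rw [pn_as_mem_region _ _ hz] at h2 ⊢
      refine Finset.mem_filter.mpr ⟨h2, Finset.mem_filter.mpr ⟨Finset.mem_univ _, κ, hκ, ?_⟩⟩
      exact ⟨by omega, by omega, by omega, by omega⟩
    · left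
      exact h2

theorem pn_as_b5_mem_region {n₁ n₂ : ℕ} (g : DGrid n₁ n₂) (X : Finset (Cell n₁ n₂)) (z : ℤ × ℤ) :
    z ∈ g.region X ↔ ∃ κ ∈ X, z ∈ g.cell κ := by
  unfold DGrid.region
  exact Finset.mem_biUnion

theorem pn_as_b5_region_sdiff {n₁ n₂ : ℕ} (g : DGrid n₁ n₂) (X Y : Finset (Cell n₁ n₂)) :
    g.region (X \ Y) = g.region X \ g.region Y := by
  ext z
  simp only [pn_as_b5_mem_region, Finset.mem_sdiff]
  constructor
  · rintro ⟨κ, ⟨h1, h2⟩, hz⟩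
    exact ⟨⟨κ, h1, hz⟩, fun ⟨κ', h3, hz'⟩ => h2 (Sec.sec_cell_unique g hz hz' ▸ h3)⟩
  · rintro ⟨⟨κ, h1, hz⟩, h2⟩
    exact ⟨κ, ⟨h1, fun h3 => h2 ⟨κ, h3, hz⟩⟩, hz⟩

theorem pn_as_b5_region_inter {n₁ n₂ : ℕ} (g : DGrid n₁ n₂) (X Y : Finset (Cell n₁ n₂)) :
    g.region (X ∩ Y) = g.region X ∩ g.region Y := by
  ext z
  simp only [pn_as_b5_mem_region, Finset.mem_inter]
  constructor
  · rintro ⟨κ, ⟨h1, h2⟩, hz⟩
    exact ⟨⟨κ, h1, hz⟩, ⟨κ, h2, hz⟩⟩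
  · rintro ⟨⟨κ, h1, hz⟩, ⟨κ', h2, hz'⟩⟩
    exact ⟨κ, ⟨h1, Sec.sec_cell_unique g hz hz' ▸ h2⟩, hz⟩

theorem pn_as_b5_region_mono {n₁ n₂ : ℕ} (g : DGrid n₁ n₂) {X Y : Finset (Cell n₁ n₂)} (h : X ⊆ Y) :
    g.region X ⊆ g.region Y := by
  intro z hz
  rw [pn_as_b5_mem_region] at hz ⊢
  obtain ⟨κ, h1, h2⟩ := hz
  exact ⟨κ, h h1, h2⟩

theorem pn_as_b5_bdT_sub {n₁ n₂ : ℕ} (Γ : CGeom n₁ n₂) (J : ℕ) : bdT Γ J ⊆ Γ.T := Finset.filter_subset _ _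

/-- the blocks are not joined by a bond -/
theorem pn_as_b5_sep {n₁ n₂ : ℕ} (Γ : CGeom n₁ n₂) (J : ℕ) (g : DGrid n₁ n₂) :
    ∀ e ∈ domBonds (g.region Γ.T) (Γ.cutB g), (e.1 ∈ g.region (bdT Γ J) ↔ e.snd ∈ g.region (bdT Γ J)) := by
  intro e he
  obtain ⟨κ, hκ, h1⟩ := (pn_as_b5_mem_region g _ _).1 (domBonds_fst he)
  obtain ⟨κ', hκ', h2⟩ := (pn_as_b5_mem_region g _ _).1 (domBonds_snd he)
  have e1 : e.1 ∈ g.region (bdT Γ J) ↔ κ ∈ bdT Γ J := by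
    rw [pn_as_b5_mem_region]
    exact ⟨fun ⟨κ₁, a1, a2⟩ => Sec.sec_cell_unique g a2 h1 ▸ a1, fun a1 => ⟨κ, a1, h1⟩⟩
  have e2 : e.snd ∈ g.region (bdT Γ J) ↔ κ' ∈ bdT Γ J := by
    rw [pn_as_b5_mem_region]
    exact ⟨fun ⟨κ₁, a1, a2⟩ => Sec.sec_cell_unique g a2 h2 ▸ a1, fun a1 => ⟨κ', a1, h2⟩⟩
  rw [e1, e2]
  rcases pn_sb_bond_adj Γ g he hκ hκ' h1 h2 with h | h
  · rw [h]
  · exact (pn_as_blocks Γ J h).1

/-- the rows: quadratic forms agree on the fields carried by the band components -/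
theorem pn_as_b5_rows {n₁ n₂ : ℕ} (Γ : CGeom n₁ n₂) (J : ℕ) {s : ℕ} (lam : ℝ) (gm : DGrid n₁ n₂) (gf : DGrid (s * n₁) (s * n₂))
    (h : S23.Refines s gf gm) (u : ℤ × ℤ → ℝ) (hu : ∀ z ∉ gm.region (bdT Γ J), u z = 0) :
    ∑ o, (∑ z ∈ gm.region Γ.T, sbCT (S23.fine s Γ.T) gf (rowW Γ J s lam gf o) z * u z) ^ 2
      = ∑ o, (∑ z ∈ gm.region (bdT Γ J), sbCT (S23.fine s (bdT Γ J)) gf (shRow s (shKb (gBd Γ J) J) lam o) z * u z) ^ 2 := by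
  have hsub := pn_as_b5_region_mono gm (pn_as_b5_bdT_sub Γ J)
  have hfind : ∀ z ∈ gm.region (bdT Γ J), ∃ κ', S23.coarse s κ' ∈ bdT Γ J ∧ z ∈ gf.cell κ' := by
    intro z hz
    obtain ⟨κ, hκ, h1⟩ := (pn_as_b5_mem_region gm _ _).1 hz
    obtain ⟨κ', h2, h3⟩ := Sec.sec_gr_cell_find h κ h1
    exact ⟨κ', h2 ▸ hκ, h3⟩
  rw [Fin.sum_univ_add]
  have hU : ∀ j, ∑ z ∈ gm.region Γ.T, sbCT (S23.fine s Γ.T) gf (rowW Γ J s lam gf (Fin.natAdd _ j)) z * u z = 0 := by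
    intro j
    refine Finset.sum_eq_zero fun z _ => ?_
    by_cases hz : z ∈ gm.region (bdT Γ J)
    · obtain ⟨κ', h1, h2⟩ := hfind z hz
      rw [pn_sb_CT_eval _ gf _ h2]
      have : rowW Γ J s lam gf (Fin.natAdd _ j) κ' = 0 := by
        unfold rowW
        rw [Fin.addCases_right]
        unfold rowU
        split_ifs with hc
        · unfold shCoef
          rw [if_neg]
          intro hc'
          exact (Finset.mem_sdiff.1 hc).2 (hc' ▸ h1)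
        · rfl
      rw [this, zero_mul, zero_mul]
    · rw [hu z hz, mul_zero]
  rw [Finset.sum_eq_zero (s := Finset.univ) (f := fun j => (∑ z ∈ gm.region Γ.T, sbCT (S23.fine s Γ.T) gf (rowW Γ J s lam gf (Fin.natAdd _ j)) z * u z) ^ 2)
    (fun j _ => by rw [hU j]; ring), add_zero]
  refine Finset.sum_congr rfl fun o _ => ?_
  congr 1
  rw [← Finset.sum_subset hsub (fun z _ hz => by rw [hu z hz, mul_zero])]
  refine Finset.sum_congr rfl fun z hz => ?_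
  congr 1
  obtain ⟨κ', h1, h2⟩ := hfind z hz
  rw [pn_sb_CT_eval _ gf _ h2, pn_sb_CT_eval _ gf _ h2]
  have e1 : ({κ'} : Finset (Cell (s * n₁) (s * n₂))) ∩ S23.fine s Γ.T = {κ'} :=
    Finset.inter_eq_left.2 (Finset.singleton_subset_iff.2 ((pn_sb_mem_fine s Γ.T κ').2 (pn_as_b5_bdT_sub Γ J h1)))
  have e2 : ({κ'} : Finset (Cell (s * n₁) (s * n₂))) ∩ S23.fine s (bdT Γ J) = {κ'} :=
    Finset.inter_eq_left.2 (Finset.singleton_subset_iff.2 ((pn_sb_mem_fine s (bdT Γ J) κ').2 h1))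
  rw [e1, e2, pn_as_gBd_kb]
  unfold rowW
  rw [Fin.addCases_left]

/-- **L-PN-B5** (~400 l.).  The remaining part is helper249's band law of `gBd (gMed Γ p r₀) J`.   `pn_cn_sbLaw_addPin`, `pn_as_subdom` with `D = g.region Γ.T`, `D' = gm.region (bdT Γm J)` (`D \ D' = gm.region (Γm.T \ bdT)`: cells are disjoint),
`R = rowWz ..`, `R' o = sbCT (S23.fine s (bdT Γm J)) gf (shRow s (shKb Γm J) lam o)`, `gf = sbG s gm` (unit rows vanish on `D'`; a band row is the same function in both charts: `pn_as_gBd_kb`);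
then `pn_cn_tr3` (`S23.Refines s gf gm`) for the geometry `shFree (gBd Γm J)`; the sites: `pn_sb_region`, `g.region A ∩ D' = gm.region (fine r₀ A ∩ bdT)`. -/
theorem pn_as_band_sub (Γ : CGeom m₁ m₂) (hpin : Γ.pin = ∅) (A p : Finset (Cell m₁ m₂)) {r₀ J s : ℕ} (hr₀ : 0 < r₀) (hs : 0 < s)
    (lam : ℝ) (g : DGrid m₁ m₂) (hok : sbOK2 r₀ s g) {β : ℝ} (hβ : 0 < β) :
    ((lawW Γ p r₀ J s lam g).addPin (domSet (↑((sbG r₀ g).region ((gMed Γ p r₀).T \ bdT (gMed Γ p r₀) J)) : Set (ℤ × ℤ)))).dPin β (Γ.sites g A) (Γ.sites g p)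
      = (shLaw s (gBd (gMed Γ p r₀) J) J lam (sbG s (sbG r₀ g))).dPin β
          (shSites s (gBd (gMed Γ p r₀) J) (sbG s (sbG r₀ g)) (S23.fine r₀ A ∩ bdT (gMed Γ p r₀) J))
          (shSites s (gBd (gMed Γ p r₀) J) (sbG s (sbG r₀ g)) (gBd (gMed Γ p r₀) J).pin) := by
  have hR0 : S23.Refines r₀ (sbG r₀ g) g := pn_sb_refines hr₀ hok.1
  have hR1 : S23.Refines s (sbG s (sbG r₀ g)) (sbG r₀ g) := pn_sb_refines hs hok.2
  have eD : g.region Γ.T = (sbG r₀ g).region (gMed Γ p r₀).T := (pn_sb_region hR0 Γ.T).symm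
  have ecut : Γ.cutB g = (gMed Γ p r₀).cutB (sbG r₀ g) := (pn_sb_cut hR0 Γ).symm
  -- the left side
  have L1 : ((lawW Γ p r₀ J s lam g).addPin (domSet (↑((sbG r₀ g).region ((gMed Γ p r₀).T \ bdT (gMed Γ p r₀) J)) : Set (ℤ × ℤ)))).dPin β (Γ.sites g A) (Γ.sites g p)
      = (sbLaw (g.region Γ.T) (Γ.cutB g) ((↑(g.region Γ.pin) : Set (ℤ × ℤ)) ∪ ↑((sbG r₀ g).region ((gMed Γ p r₀).T \ bdT (gMed Γ p r₀) J))) (rowWz Γ p r₀ J s lam g)).dPin β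
          (domSet (↑(g.region A) : Set (ℤ × ℤ))) (domSet (↑(g.region p) : Set (ℤ × ℤ))) := by
    rw [← pn_cn_sbLaw_addPin]
    rfl
  rw [L1]
  have eP : ((↑(g.region Γ.pin) : Set (ℤ × ℤ)) ∪ ↑((sbG r₀ g).region ((gMed Γ p r₀).T \ bdT (gMed Γ p r₀) J)))
      = ↑((sbG r₀ g).region (gMed Γ p r₀).T \ (sbG r₀ g).region (bdT (gMed Γ p r₀) J)) := by
    rw [hpin, pn_as_b5_region_sdiff]
    simp [DGrid.region]
  rw [eP, eD, ecut]
  rw [pn_as_subdom _ _ (pn_as_b5_region_mono _ (pn_as_b5_bdT_sub _ J)) _ (pn_as_b5_sep (gMed Γ p r₀) J (sbG r₀ g))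
    (rowWz Γ p r₀ J s lam g)
    (fun o => sbCT (S23.fine s (bdT (gMed Γ p r₀) J)) (sbG s (sbG r₀ g)) (shRow s (shKb (gBd (gMed Γ p r₀) J) J) lam o))
    (fun u hu => pn_as_b5_rows (gMed Γ p r₀) J lam (sbG r₀ g) (sbG s (sbG r₀ g)) hR1 u hu) hβ]
  -- the right side
  have R1 := pn_cn_tr3 (fun D cut P => (sbLaw D cut (↑P : Set (ℤ × ℤ))
      (fun o => sbCT (S23.fine s (bdT (gMed Γ p r₀) J)) (sbG s (sbG r₀ g)) (shRow s (shKb (gBd (gMed Γ p r₀) J) J) lam o))).dPin β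
      (domSet (↑((sbG r₀ g).region (S23.fine r₀ A ∩ bdT (gMed Γ p r₀) J)) : Set (ℤ × ℤ)))
      (domSet (↑((sbG r₀ g).region (S23.fine r₀ p)) : Set (ℤ × ℤ)))) hR1 (shFree (gBd (gMed Γ p r₀) J))
  have R2 : (shLaw s (gBd (gMed Γ p r₀) J) J lam (sbG s (sbG r₀ g))).dPin β
          (shSites s (gBd (gMed Γ p r₀) J) (sbG s (sbG r₀ g)) (S23.fine r₀ A ∩ bdT (gMed Γ p r₀) J))
          (shSites s (gBd (gMed Γ p r₀) J) (sbG s (sbG r₀ g)) (gBd (gMed Γ p r₀) J).pin)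
      = (sbLaw ((sbG s (sbG r₀ g)).region (S23.refine s (shFree (gBd (gMed Γ p r₀) J))).T) ((S23.refine s (shFree (gBd (gMed Γ p r₀) J))).cutB (sbG s (sbG r₀ g)))
          (↑((sbG s (sbG r₀ g)).region (S23.refine s (shFree (gBd (gMed Γ p r₀) J))).pin) : Set (ℤ × ℤ))
          (fun o => sbCT (S23.fine s (bdT (gMed Γ p r₀) J)) (sbG s (sbG r₀ g)) (shRow s (shKb (gBd (gMed Γ p r₀) J) J) lam o))).dPin β
          (domSet (↑((sbG r₀ g).region (S23.fine r₀ A ∩ bdT (gMed Γ p r₀) J)) : Set (ℤ × ℤ)))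
          (domSet (↑((sbG r₀ g).region (S23.fine r₀ p)) : Set (ℤ × ℤ))) := by
    rw [← pn_sb_region hR1 (S23.fine r₀ A ∩ bdT (gMed Γ p r₀) J), ← pn_sb_region hR1 (S23.fine r₀ p)]
    rfl
  rw [R2, R1]
  have eA : (domSet (D := (sbG r₀ g).region (bdT (gMed Γ p r₀) J)) (cut := (gMed Γ p r₀).cutB (sbG r₀ g)) (↑(g.region A) : Set (ℤ × ℤ)))
      = domSet (↑((sbG r₀ g).region (S23.fine r₀ A ∩ bdT (gMed Γ p r₀) J)) : Set (ℤ × ℤ)) := by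
    ext v
    have hv : domPos v ∈ (sbG r₀ g).region (bdT (gMed Γ p r₀) J) := v.2
    show domPos v ∈ (↑(g.region A) : Set (ℤ × ℤ)) ↔ domPos v ∈ (↑((sbG r₀ g).region (S23.fine r₀ A ∩ bdT (gMed Γ p r₀) J)) : Set (ℤ × ℤ))
    rw [pn_as_b5_region_inter, pn_sb_region hR0 A, Finset.mem_coe, Finset.mem_coe, Finset.mem_inter]
    exact ⟨fun h => ⟨h, hv⟩, fun h => h.1⟩
  have e0 : (↑((sbG r₀ g).region (∅ : Finset (Cell (r₀ * m₁) (r₀ * m₂)))) : Set (ℤ × ℤ)) = ∅ := by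
    simp [DGrid.region]
  rw [eA, ← pn_sb_region hR0 p, ← e0]
  rfl

/-- the core is in the target layer -/
theorem pn_as_target (Γ : CGeom m₁ m₂) (A p : Finset (Cell m₁ m₂)) (hsep : C3.Sep A p) {r₀ J : ℕ} (hr₀ : 2 * J + 5 ≤ r₀) :
    S23.fine r₀ A ∩ bdT (gMed Γ p r₀) J ⊆ shTg (gBd (gMed Γ p r₀) J) J := by
  intro κ hκ
  obtain ⟨h1, h2⟩ := Finset.mem_inter.mp hκ
  refine Finset.mem_filter.mpr ⟨h2, fun hb => ?_⟩
  obtain ⟨_, q, hq, l1, l2, l3, l4⟩ := Finset.mem_filter.mp hb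
  have hA : S23.coarse r₀ κ ∈ A := (Finset.mem_filter.mp h1).2
  have hp : S23.coarse r₀ q ∈ p := (Finset.mem_filter.mp hq).2
  have hr : 0 < r₀ := by omega
  have key : ∀ x y : ℕ, x / r₀ + 1 < y / r₀ → x + r₀ < y := by
    intro x y hxy
    have h3 : x < r₀ * (x / r₀ + 1) := Nat.lt_mul_div_succ x hr
    have h4 : r₀ * (y / r₀) ≤ y := Nat.mul_div_le y r₀
    have h5 : r₀ * (x / r₀ + 1 + 1) ≤ r₀ * (y / r₀) := Nat.mul_le_mul_left _ hxy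
    have h6 : r₀ * (x / r₀ + 1 + 1) = r₀ * (x / r₀ + 1) + r₀ := by ring
    omega
  rcases hsep _ hA _ hp with h | h | h | h
  · have := key _ _ h
    omega
  · have := key _ _ h
    omega
  · have := key _ _ h
    omega
  · have := key _ _ h
    omega

end

end Claimed.Agent.R285.Pins.T32
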