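import Claimed.Agent.R285.Pot.LinCond
import Claimed.Agent.R285.Pot.LinMeas
import Claimed.Agent.R285.Pot.LinMean
import Claimed.Agent.R285.Pot.LinLaw
import Claimed.Agent.R285.Pot.LinMarkov
import Claimed.Agent.R285.Pot.LinFub
import Claimed.Agent.R285.Pot.LinOk
import Claimed.Agent.R285.Pot.LinDet
import Claimed.Agent.R285.Pins.T32Lat

/-!
# ROW 285, PINS, T3.2 package (architect helper178).  FILE 3: ONE GAUSSIAN REFERENCE, EXACT.   PAPER-FREE.

On top of POT-LIN (helper83, `R285/Pot/Lin*.lean`: `plMeas`, `plHarm`, `plEn`, `plGap`, `plGf`, `plCov`, `pl_cLap_eq`, `pl_rPin_eq`, `pl_rPin_mean`, `pl_meas_shift`, `pl_meas_map_pair`, `pl_meas_markov`, `pl_Z_fubini`, `pl_Z_data`, ...).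
`plZ, plcLap, plrPin, plExT` are `C3.gZ, C3.gcLap, C3.grPin, C3.gExT` definitionally (`rfl`).     Every `sorry` is a leaf `L-PN-G*`.  Statements frozen; helper lemmas: prefix `pn_`.
-/

set_option autoImplicit false

namespace Claimed.Agent.R285.Pins.T32

open Filter Topology MeasureTheory
open Claimed.Agent.R285.Pot
open scoped Classical

noncomputable section

variable {G : HGraph} (H : HLaw G)

/-! ## 0. Definitions -/

/-- BALAYAGE of the test `f` onto `P`: the row vector of `u ↦ ⟨f, harm_P u⟩` = the reference predictor of `⟨f, φ⟩` given `φ_P` -/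
def bal (a : ℝ) (P : Set G.V) (f : G.V → ℝ) : G.V → ℝ := fun x => HLaw.pair f (plHarm H a P (Pi.single x 1))

/-- the Gaussian reference law with pins `P₀`, tilted by `e^{⟨fL, φ⟩}` (= shifted by `G fL`: Cameron-Martin) -/
def gauM (a : ℝ) (P₀ : Set G.V) (fL : G.V → ℝ) : Measure (G.V → ℝ) := (plMeas H a P₀).map fun φ => φ + plGf H a P₀ fL

/-- `Ψ` depends only on the data on `P` -/
def LocR (P : Set G.V) (Ψ : (G.V → ℝ) → ℝ) : Prop := ∀ φ, Ψ (C3.resR P φ) = Ψ φ

/-- the quadratic form of a matrix of coefficients -/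
def qd {n : ℕ} (Sg : Fin n → Fin n → ℝ) (τ : Fin n → ℝ) : ℝ := ∑ d, ∑ d', τ d * τ d' * Sg d d'

/-- `E exp(-|Y|²/2)` for `Y ~ N(m, Σ)`, in Fourier form (total in `Σ`: the negative part of the form is cut) -/
def FQ {n : ℕ} (Sg : Fin n → Fin n → ℝ) (m : Fin n → ℝ) : ℝ :=
  ∫ τ, Real.exp (-(max 0 (qd Sg τ)) / 2) * Real.cos (∑ d, τ d * m d) ∂(stdG n)

/-- Gaussian restoration factor of additional rows at the data `u` on `P` -/
def gzr {n : ℕ} (R : Fin n → G.V → ℝ) (a : ℝ) (P : Set G.V) (u : G.V → ℝ) : ℝ :=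
  C3.gZ (addRows H R) a P u (fun _ => 1) / C3.gZ H a P u fun _ => 1

/-- `r_Δ^g` -/
def grr {n : ℕ} (R : Fin n → G.V → ℝ) (a : ℝ) (P : Set G.V) (u : G.V → ℝ) : ℝ := gzr H R a P u / gzr H R a P 0

/-- the reference covariance matrix of a finite family of tests under the pins `P` -/
def covM {n : ℕ} (R : Fin n → G.V → ℝ) (a : ℝ) (P : Set G.V) : Fin n → Fin n → ℝ := fun d d' => plCov (plPin H P) a (R d) (R d')

/-! ## 1. Balayage -/

/-- **L-PN-G1** (~200 l. for the block `pn_bal_pair` .. `pn_gVar_sum`). -/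
theorem pn_bal_pair {a : ℝ} (ha : 0 < a) {P : Set G.V} (h : plPD H P) (f u : G.V → ℝ) :
    HLaw.pair (bal H a P f) u = HLaw.pair f (plHarm H a P u) := by
  exact (pl_pair_pull (plHarmL H ha h) f u).symm

theorem pn_bal_supp (a : ℝ) (P : Set G.V) (f : G.V → ℝ) : ∀ x ∉ P, bal H a P f x = 0 := by
  intro x hx
  have h0 : plRes P (Pi.single x (1 : ℝ) : G.V → ℝ) = 0 := by
    funext v
    unfold plRes
    split_ifs with hv
    · have : v ≠ x := fun e => hx (e ▸ hv)
      simp [this]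
    · rfl
  have h1 : plHarm H a P (Pi.single x (1 : ℝ)) = 0 := by
    funext v
    unfold plHarm
    rw [h0]
    simp
  unfold bal
  rw [h1, pl_pair_zero_right]

theorem pn_bal_sum (a : ℝ) (P : Set G.V) {ι : Type} [Fintype ι] (c : ι → ℝ) (F : ι → G.V → ℝ) :
    bal H a P (∑ i, c i • F i) = ∑ i, c i • bal H a P (F i) := by
  funext x
  unfold bal
  simp only [Finset.sum_apply, Pi.smul_apply, smul_eq_mul]
  unfold HLaw.pair
  simp only [Finset.sum_apply, Pi.smul_apply, smul_eq_mul, Finset.sum_mul, Finset.mul_sum]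
  rw [Finset.sum_comm]
  exact Finset.sum_congr rfl fun i _ => Finset.sum_congr rfl fun y _ => by ring

/-- the residual has the conditional variance.  (The optimiser of `f - bal f` under the pins `P₀` is `plGf H a P f`: `B(G_P f, w) = B(G_P f, w - harm_P w) = ⟨f, w⟩ - ⟨bal f, w⟩`.) -/
theorem pn_bal_var {a : ℝ} (ha : 0 < a) {P₀ P : Set G.V} (h : plPD H P₀) (hP : P₀ ⊆ P) (f : G.V → ℝ) :
    (plPin H P₀).gVar a (f - bal H a P f) = (plPin H P).gVar a f := by
  have hP' : plPD H P := pl_PD_mono H h hP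
  have hopt := pl_Gf_opt H ha hP' f
  have hv0 : ∀ x ∈ P, plGf H a P f x = 0 := (pl_mem_rspan_pin H P _).1 hopt.1
  have hopt0 : plIsOpt (plPin H P₀) a (f - bal H a P f) (plGf H a P f) := by
    refine ⟨(pl_mem_rspan_pin H P₀ _).2 fun x hx => hv0 x (hP hx), fun w _ => ?_⟩
    rw [pl_pin_B]
    have e : w = (w - plHarm H a P w) + plHarm H a P w := by abel
    have h1 : plB H a (plGf H a P f) (plHarm H a P w) = 0 := by
      rw [pl_B_comm]
      exact pl_harm_orth H ha hP' w hv0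
    have h2 : plB H a (plGf H a P f) (w - plHarm H a P w) = HLaw.pair f (w - plHarm H a P w) := by
      have := hopt.2 (w - plHarm H a P w) ((pl_mem_rspan_pin H P _).2 fun x hx => by
        simp [pl_harm_of_mem H a w hx])
      rwa [pl_pin_B] at this
    calc plB H a (plGf H a P f) w = plB H a (plGf H a P f) ((w - plHarm H a P w) + plHarm H a P w) := by rw [← e]
      _ = HLaw.pair f (w - plHarm H a P w) := by rw [pl_B_add_right, h1, h2, add_zero]
      _ = HLaw.pair (f - bal H a P f) w := by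
          rw [pl_pair_sub_right, pl_pair_sub_left, pn_bal_pair H ha hP']
  rw [pl_gVar_eq_form (plPin H P₀) ha hopt0, pl_gVar_eq_form (plPin H P) ha hopt, pl_pin_form, pl_pin_form]

/-- the Gaussian conditional log-Laplace transform is affine in the data -/
theorem pn_gcLap_eq {a : ℝ} (ha : 0 < a) {P : Set G.V} (h : plPD H P) (f u : G.V → ℝ) :
    C3.gcLap H a P f u = HLaw.pair (bal H a P f) u + (plPin H P).gVar a f / 2 := by
  rw [pn_bal_pair H ha h]
  exact pl_cLap_eq H ha h f u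

/-- `gVar` is the quadratic form of `covM` (`pl_gVar_green`, `pl_cov_green`) -/
theorem pn_gVar_sum {a : ℝ} (ha : 0 < a) {P : Set G.V} (h : plPD H P) {n : ℕ} (R : Fin n → G.V → ℝ) (τ : Fin n → ℝ) :
    (plPin H P).gVar a (∑ d, τ d • R d) = qd (covM H R a P) τ := by
  rw [pl_gVar_green H ha h]
  unfold qd covM
  simp only [pl_cov_green H ha h, Finset.sum_apply, Pi.smul_apply, smul_eq_mul, Finset.sum_mul, Finset.mul_sum]
  calc ∑ x, ∑ y, ∑ d', ∑ d, τ d * R d x * plGreen H a P x y * (τ d' * R d' y)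
      = ∑ x, ∑ d', ∑ y, ∑ d, τ d * R d x * plGreen H a P x y * (τ d' * R d' y) :=
        Finset.sum_congr rfl fun x _ => Finset.sum_comm
    _ = ∑ d', ∑ x, ∑ y, ∑ d, τ d * R d x * plGreen H a P x y * (τ d' * R d' y) := Finset.sum_comm
    _ = ∑ d', ∑ x, ∑ d, ∑ y, τ d * R d x * plGreen H a P x y * (τ d' * R d' y) :=
        Finset.sum_congr rfl fun d' _ => Finset.sum_congr rfl fun x _ => Finset.sum_comm
    _ = ∑ d', ∑ d, ∑ x, ∑ y, τ d * R d x * plGreen H a P x y * (τ d' * R d' y) :=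
        Finset.sum_congr rfl fun d' _ => Finset.sum_comm
    _ = ∑ d, ∑ d', ∑ x, ∑ y, τ d * R d x * plGreen H a P x y * (τ d' * R d' y) := Finset.sum_comm
    _ = _ := Finset.sum_congr rfl fun d _ => Finset.sum_congr rfl fun d' _ => Finset.sum_congr rfl fun x _ =>
        Finset.sum_congr rfl fun y _ => by ring

/-! ## 2. The tilted reference law -/

/-- **L-PN-G2** (~200 l. for the block `pn_gauM_prob` .. `pn_gau_tilt_event`). -/
theorem pn_gauM_prob {a : ℝ} (ha : 0 < a) {P₀ : Set G.V} (h : plPD H P₀) (fL : G.V → ℝ) : IsProbabilityMeasure (gauM H a P₀ fL) := by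
  have := pl_meas_prob H ha h
  unfold gauM
  exact Measure.isProbabilityMeasure_map (measurable_id.add_const _).aemeasurable

theorem pn_gauM_zero {a : ℝ} (P₀ : Set G.V) : gauM H a P₀ 0 = plMeas H a P₀ := by
  have h0 : plGf H a P₀ 0 = 0 := by
    funext x
    simp [plGf]
  unfold gauM
  rw [h0]
  simp

theorem pn_gauM_integral (a : ℝ) (P₀ : Set G.V) (fL : G.V → ℝ) (Ψ : (G.V → ℝ) → ℝ) :
    ∫ φ, Ψ φ ∂(gauM H a P₀ fL) = ∫ φ, Ψ (φ + plGf H a P₀ fL) ∂plMeas H a P₀ := by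
  unfold gauM
  exact (MeasurableEquiv.addRight (plGf H a P₀ fL)).measurableEmbedding.integral_map Ψ

theorem pn_gauM_integrable (a : ℝ) (P₀ : Set G.V) (fL : G.V → ℝ) (Ψ : (G.V → ℝ) → ℝ) :
    Integrable Ψ (gauM H a P₀ fL) ↔ Integrable (fun φ => Ψ (φ + plGf H a P₀ fL)) (plMeas H a P₀) := by
  unfold gauM
  exact (MeasurableEquiv.addRight (plGf H a P₀ fL)).measurableEmbedding.integrable_map_iff

/-- (`pl_ExT_eq`; a translation is a measurable embedding, so no measurability of `Ψ` is needed) -/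
theorem pn_gExT_eq {a : ℝ} (ha : 0 < a) {P₀ : Set G.V} (h : plPD H P₀) (fL : G.V → ℝ) (Ψ : (G.V → ℝ) → ℝ) :
    C3.gExT H a P₀ fL Ψ = ∫ φ, Ψ φ ∂(gauM H a P₀ fL) := by
  have h1 : C3.gExT H a P₀ fL Ψ = ∫ φ, Ψ (φ + plGf H a P₀ fL) ∂plMeas H a P₀ := pl_ExT_eq H ha h fL Ψ
  rw [h1, pn_gauM_integral]

theorem pn_mgf_gauM {a : ℝ} (ha : 0 < a) {P₀ : Set G.V} (h : plPD H P₀) (fL f : G.V → ℝ) :
    Integrable (fun φ => Real.exp (HLaw.pair f φ)) (gauM H a P₀ fL) ∧
    ∫ φ, Real.exp (HLaw.pair f φ) ∂(gauM H a P₀ fL)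
      = Real.exp (((plPin H P₀).gVar a (fL + f) - (plPin H P₀).gVar a fL) / 2) := by
  have hadm : ∀ g, plAdm (plPin H P₀) g := pl_adm_of_PD H h
  have e : ∀ φ : G.V → ℝ, Real.exp (HLaw.pair f (φ + plGf H a P₀ fL)) =
      Real.exp (HLaw.pair f (plGf H a P₀ fL)) * Real.exp (HLaw.pair f φ) := by
    intro φ
    rw [pl_pair_add_right, add_comm, Real.exp_add]
  constructor
  · rw [pn_gauM_integrable]
    simp only [e]
    exact (pl_meas_exp_integrable H ha h f).const_mul _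
  · rw [pn_gauM_integral]
    simp only [e]
    rw [integral_const_mul, pl_meas_mgf H ha h, ← Real.exp_add, pl_gVar_add (plPin H P₀) ha (hadm fL) (hadm f),
      pl_cov_comm (plPin H P₀) ha, pl_cov_eq_pair (plPin H P₀) ha (hadm f) (pl_Gf_opt H ha h fL)]
    congr 1
    ring

/-- Cauchy-Schwarz (`pl_meas_shift` with `F = 1_E`, `pl_meas_mgf` for `2 fL`) -/
theorem pn_gau_tilt_event {a : ℝ} (ha : 0 < a) {P₀ : Set G.V} (h : plPD H P₀) (fL : G.V → ℝ) (E : Set (G.V → ℝ)) (hE : MeasurableSet E) :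
    (gauM H a P₀ fL).real E ≤ Real.exp ((plPin H P₀).gVar a fL / 2) * Real.sqrt ((plMeas H a P₀).real E) := by
  have hprob := pl_meas_prob H ha h
  obtain ⟨g, hg⟩ : ∃ g, g = (plPin H P₀).gVar a fL := ⟨_, rfl⟩
  rw [← hg]
  have hρm : Measurable fun φ : G.V → ℝ => Real.exp (HLaw.pair fL φ - g / 2) :=
    (Real.continuous_exp.comp ((pl_pair_continuous fL).sub continuous_const)).measurable
  have hsq : ∀ φ : G.V → ℝ, Real.exp (HLaw.pair fL φ - g / 2) ^ 2 =
      Real.exp (-g) * Real.exp (HLaw.pair ((2 : ℝ) • fL) φ) := by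
    intro φ
    rw [← Real.exp_nat_mul, ← Real.exp_add, pl_pair_smul_left]
    congr 1
    push_cast
    ring
  have hint2 : Integrable (fun φ : G.V → ℝ => Real.exp (HLaw.pair fL φ - g / 2) ^ 2) (plMeas H a P₀) := by
    simp only [hsq]
    exact (pl_meas_exp_integrable H ha h _).const_mul _
  have hval : ∫ φ, Real.exp (HLaw.pair fL φ - g / 2) ^ 2 ∂plMeas H a P₀ ≤ Real.exp (g / 2) ^ 2 := by
    simp only [hsq]
    rw [integral_const_mul, pl_meas_mgf H ha h, pl_gVar_smul (plPin H P₀) ha, ← hg, ← Real.exp_add, ← Real.exp_nat_mul]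
    apply le_of_eq
    congr 1
    push_cast
    ring
  have key := pn_cs_event (plMeas H a P₀) (fun φ => Real.exp (HLaw.pair fL φ - g / 2)) (fun _ => (Real.exp_pos _).le) hρm
    hint2 (Real.exp (g / 2)) hval (Real.exp_pos _).le E hE
  refine le_trans (le_of_eq ?_) key
  -- the two measures of `E` agree
  have hint1 : Integrable (fun φ : G.V → ℝ => Real.exp (HLaw.pair fL φ - g / 2)) (plMeas H a P₀) := by
    have e : ∀ φ : G.V → ℝ, Real.exp (HLaw.pair fL φ - g / 2) = Real.exp (-(g / 2)) * Real.exp (HLaw.pair fL φ) := by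
      intro φ
      rw [← Real.exp_add]
      congr 1
      ring
    simp only [e]
    exact (pl_meas_exp_integrable H ha h _).const_mul _
  have hL : (gauM H a P₀ fL).real E = ∫ φ, E.indicator (fun _ => (1 : ℝ)) (φ + plGf H a P₀ fL) ∂plMeas H a P₀ := by
    rw [← pn_gauM_integral, integral_indicator hE, setIntegral_const, smul_eq_mul, mul_one]
  have hR : ((plMeas H a P₀).withDensity fun φ => ENNReal.ofReal (Real.exp (HLaw.pair fL φ - g / 2))).real E =
      (∫ φ, E.indicator (fun _ => (1 : ℝ)) φ * Real.exp (HLaw.pair fL φ) ∂plMeas H a P₀) * Real.exp (-(g / 2)) := by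
    rw [Measure.real, withDensity_apply _ hE,
      ← ofReal_integral_eq_lintegral_ofReal hint1.integrableOn (Filter.Eventually.of_forall fun _ => (Real.exp_pos _).le),
      ENNReal.toReal_ofReal (integral_nonneg fun _ => (Real.exp_pos _).le), ← integral_indicator hE, ← integral_mul_const]
    refine integral_congr_ae (Filter.Eventually.of_forall fun φ => ?_)
    by_cases hφ : φ ∈ E
    · simp only [Set.indicator_of_mem hφ, one_mul]
      rw [← Real.exp_add]
      congr 1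
    · simp only [Set.indicator_of_notMem hφ, zero_mul]
  rw [hL, hR, pl_meas_shift H ha h, ← hg]
  have : Real.exp (g / 2) * Real.exp (-(g / 2)) = 1 := by
    rw [← Real.exp_add]
    simp
  linear_combination (-(∫ φ, E.indicator (fun _ => (1 : ℝ)) (φ + plGf H a P₀ fL) ∂plMeas H a P₀)) * this

/-! ## 3. The function `FQ`  (MATHLIB ONLY) -/

theorem pn_stdG_prob (n : ℕ) : IsProbabilityMeasure (stdG n) := by
  unfold stdG
  infer_instance

theorem pn_FQ_int_le {n : ℕ} (Sg : Fin n → Fin n → ℝ) (m τ : Fin n → ℝ) :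
    ‖Real.exp (-(max 0 (qd Sg τ)) / 2) * Real.cos (∑ d, τ d * m d)‖ ≤ 1 := by
  rw [norm_mul, Real.norm_eq_abs, Real.norm_eq_abs, abs_of_pos (Real.exp_pos _)]
  have h1 : Real.exp (-(max 0 (qd Sg τ)) / 2) ≤ 1 := by
    rw [Real.exp_le_one_iff]
    have := le_max_left 0 (qd Sg τ)
    linarith
  calc Real.exp (-(max 0 (qd Sg τ)) / 2) * |Real.cos (∑ d, τ d * m d)| ≤ 1 * 1 :=
        mul_le_mul h1 (Real.abs_cos_le_one _) (abs_nonneg _) zero_le_one
    _ = 1 := one_mul 1

/-- **L-PN-G3** (~200 l. for the block; Mathlib only: dominated convergence under the probability `stdG n`). -/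
theorem pn_FQ_continuous (n : ℕ) : Continuous fun x : (Fin n → Fin n → ℝ) × (Fin n → ℝ) => FQ x.1 x.2 := by
  have := pn_stdG_prob n
  unfold FQ
  refine continuous_of_dominated (bound := fun _ => 1) (fun x => ?_) (fun x => ?_) (integrable_const 1) ?_
  · have hc : Continuous fun τ : Fin n → ℝ =>
        Real.exp (-(max 0 (qd x.1 τ)) / 2) * Real.cos (∑ d, τ d * x.2 d) := by
      unfold qd
      fun_prop
    exact hc.aestronglyMeasurable
  · exact Filter.Eventually.of_forall fun τ => pn_FQ_int_le x.1 x.2 τ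
  · refine Filter.Eventually.of_forall fun τ => ?_
    unfold qd
    fun_prop

theorem pn_FQ_abs_le {n : ℕ} (Sg : Fin n → Fin n → ℝ) (m : Fin n → ℝ) : |FQ Sg m| ≤ 1 := by
  have := pn_stdG_prob n
  have := norm_integral_le_of_norm_le_const (μ := stdG n) (C := 1)
    (Filter.Eventually.of_forall fun τ => pn_FQ_int_le Sg m τ)
  simpa [FQ] using this

theorem pn_FQ_zero_pos {n : ℕ} (Sg : Fin n → Fin n → ℝ) : 0 < FQ Sg 0 := by
  have := pn_stdG_prob n
  have e : FQ Sg 0 = ∫ τ, Real.exp (-(max 0 (qd Sg τ)) / 2) ∂(stdG n) := by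
    unfold FQ
    simp
  rw [e]
  apply integral_exp_pos
  have hc : Continuous fun τ : Fin n → ℝ => Real.exp (-(max 0 (qd Sg τ)) / 2) := by
    unfold qd
    fun_prop
  refine Integrable.mono' (integrable_const (1 : ℝ)) hc.aestronglyMeasurable
    (Filter.Eventually.of_forall fun τ => ?_)
  have := pn_FQ_int_le Sg 0 τ
  simpa using this

/-- uniform lower bound on bounded sets of coefficients (continuity + compactness, or `qd Sg τ ≤ C (∑ |τ d|)²`) -/
theorem pn_FQ_zero_lower (n : ℕ) (C : ℝ) : ∃ c > 0, ∀ Sg : Fin n → Fin n → ℝ, (∀ d d', |Sg d d'| ≤ C) → c ≤ FQ Sg 0 := by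
  obtain ⟨K, hKd⟩ : ∃ K : Set (Fin n → Fin n → ℝ), K = {Sg | ∀ d d', |Sg d d'| ≤ C} := ⟨_, rfl⟩
  have hK : IsCompact K := by
    have e : K = Set.pi Set.univ fun _ : Fin n => Set.pi Set.univ fun _ : Fin n => Set.Icc (-C) C := by
      rw [hKd]
      ext Sg
      simp only [Set.mem_ofPred_eq, Set.mem_pi, Set.mem_univ, true_implies, Set.mem_Icc, abs_le]
    rw [e]
    exact isCompact_univ_pi fun _ => isCompact_univ_pi fun _ => isCompact_Icc
  have hcont : Continuous fun Sg : Fin n → Fin n → ℝ => FQ Sg 0 := by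
    have h1 : Continuous fun Sg : Fin n → Fin n → ℝ => (Sg, (0 : Fin n → ℝ)) := by fun_prop
    obtain ⟨g, hg⟩ : ∃ g : (Fin n → Fin n → ℝ) × (Fin n → ℝ) → ℝ, g = fun x => FQ x.1 x.2 := ⟨_, rfl⟩
    have hgc : Continuous g := by rw [hg]; exact pn_FQ_continuous n
    have e : (fun Sg : Fin n → Fin n → ℝ => FQ Sg 0) = fun Sg => g (Sg, 0) := by rw [hg]
    rw [e]
    exact hgc.comp h1
  rcases K.eq_empty_or_nonempty with hne | hne
  · refine ⟨1, one_pos, fun Sg h => ?_⟩
    have : Sg ∈ K := by rw [hKd]; exact h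
    rw [hne] at this
    exact absurd this (Set.notMem_empty _)
  · obtain ⟨S0, _, hmin⟩ := hK.exists_isMinOn hne hcont.continuousOn
    refine ⟨FQ S0 0, pn_FQ_zero_pos S0, fun Sg h => ?_⟩
    have : Sg ∈ K := by rw [hKd]; exact h
    exact isMinOn_iff.1 hmin Sg this

/-! ## 4. Additional rows supported in the core -/

theorem pn_gauss_cexp (v : NNReal) (t : ℝ) :
    ∫ x, Complex.exp (t * x * Complex.I) ∂(ProbabilityTheory.gaussianReal 0 v) = ((Real.exp (-(v * t ^ 2 / 2)) : ℝ) : ℂ) := by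
  rw [← charFun_apply_real, ProbabilityTheory.charFun_gaussianReal, Complex.ofReal_exp]
  congr 1
  push_cast
  ring

theorem pn_gauss_cos1 (v : NNReal) (c t : ℝ) :
    ∫ x, Real.cos (c + t * x) ∂(ProbabilityTheory.gaussianReal 0 v) = Real.cos c * Real.exp (-(v * t ^ 2 / 2)) := by
  have hint : Integrable (fun x : ℝ => Complex.exp (c * Complex.I) * Complex.exp (t * x * Complex.I)) (ProbabilityTheory.gaussianReal 0 v) := by
    refine Integrable.const_mul ?_ _
    refine Integrable.mono' (integrable_const (1 : ℝ)) (by fun_prop) (Filter.Eventually.of_forall fun x => ?_)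
    have : (t : ℂ) * x * Complex.I = ((t * x : ℝ) : ℂ) * Complex.I := by push_cast; ring
    rw [this, Complex.norm_exp_ofReal_mul_I]
  have e : ∀ x : ℝ, Real.cos (c + t * x) = (Complex.exp (c * Complex.I) * Complex.exp (t * x * Complex.I)).re := by
    intro x
    rw [← Complex.exp_add]
    have : (c : ℂ) * Complex.I + t * x * Complex.I = ((c + t * x : ℝ) : ℂ) * Complex.I := by push_cast; ring
    rw [this, Complex.exp_ofReal_mul_I_re]
  simp only [e]
  have h1 := integral_re hint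
  simp only [RCLike.re_to_complex] at h1
  rw [h1, integral_const_mul, pn_gauss_cexp, Complex.re_mul_ofReal, Complex.exp_ofReal_mul_I_re]

theorem pn_gauss_cosn {n : ℕ} (y : Fin n → ℝ) :
    ∫ τ, Real.cos (∑ d, τ d * y d) ∂(stdG n) = Real.exp (-(∑ d, y d ^ 2) / 2) := by
  have hprob := pn_stdG_prob n
  have e : ∀ τ : Fin n → ℝ, Real.cos (∑ d, τ d * y d) = (∏ d, Complex.exp (y d * τ d * Complex.I)).re := by
    intro τ
    rw [← Complex.exp_sum]
    have : ∑ d, (y d : ℂ) * τ d * Complex.I = ((∑ d, τ d * y d : ℝ) : ℂ) * Complex.I := by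
      push_cast
      rw [Finset.sum_mul]
      exact Finset.sum_congr rfl fun d _ => by ring
    rw [this, Complex.exp_ofReal_mul_I_re]
  have hint : Integrable (fun τ : Fin n → ℝ => ∏ d, Complex.exp (y d * τ d * Complex.I)) (stdG n) := by
    have hc : Continuous fun τ : Fin n → ℝ => ∏ d, Complex.exp (y d * τ d * Complex.I) := by fun_prop
    refine Integrable.mono' (integrable_const (1 : ℝ)) hc.aestronglyMeasurable (Filter.Eventually.of_forall fun τ => ?_)
    rw [norm_prod]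
    refine le_of_eq (Finset.prod_eq_one fun d _ => ?_)
    have : (y d : ℂ) * τ d * Complex.I = ((y d * τ d : ℝ) : ℂ) * Complex.I := by push_cast; ring
    rw [this, Complex.norm_exp_ofReal_mul_I]
  simp only [e]
  have h1 := integral_re hint
  simp only [RCLike.re_to_complex] at h1
  rw [h1]
  unfold stdG
  rw [integral_fintype_prod_eq_prod (𝕜 := ℂ) (fun d (x : ℝ) => Complex.exp (y d * x * Complex.I))]
  simp only [pn_gauss_cexp]
  rw [← Complex.ofReal_prod, Complex.ofReal_re, ← Real.exp_sum]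
  congr 1
  rw [neg_div, Finset.sum_div, ← Finset.sum_neg_distrib]
  exact Finset.sum_congr rfl fun d _ => by simp

theorem pn_addRows_form {n : ℕ} (R : Fin n → G.V → ℝ) (a : ℝ) (v : G.V → ℝ) :
    (addRows H R).form a v = H.form a v + ∑ d, HLaw.pair (R d) v ^ 2 := by
  unfold HLaw.form
  have : ∑ o, (addRows H R).obs v o ^ 2 = ∑ o, H.obs v o ^ 2 + ∑ d, HLaw.pair (R d) v ^ 2 :=
    Fintype.sum_sum_type _
  rw [this, add_assoc]

theorem pn_addRows_PD {n : ℕ} (R : Fin n → G.V → ℝ) {P : Set G.V} (h : plPD H P) : plPD (addRows H R) P :=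
  fun v hv h1 h2 => h v hv h1 fun o => h2 (Sum.inl o)

theorem pn_addRows_Z {n : ℕ} (R : Fin n → G.V → ℝ) (a : ℝ) (P : Set G.V) (u : G.V → ℝ) (F : (G.V → ℝ) → ℝ) :
    plZ (addRows H R) a P u F = plZ H a P u fun φ => F φ * Real.exp (-(∑ d, HLaw.pair (R d) φ ^ 2) / 2) := by
  unfold plZ
  refine integral_congr_ae (Filter.Eventually.of_forall fun v => ?_)
  simp only
  rw [pn_addRows_form, mul_assoc, ← Real.exp_add]
  congr 2
  ring

theorem pn_gzr_def {n : ℕ} (R : Fin n → G.V → ℝ) (a : ℝ) (P : Set G.V) (u : G.V → ℝ) :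
    gzr H R a P u = plZ (addRows H R) a P u (fun _ => 1) / plZ H a P u fun _ => 1 := rfl

theorem pn_gzr_pos {a : ℝ} (ha : 0 < a) {P : Set G.V} (h : plPD H P) {n : ℕ} (R : Fin n → G.V → ℝ) (u : G.V → ℝ) :
    0 < gzr H R a P u := by
  rw [pn_gzr_def]
  exact div_pos (pl_Z_data_one_pos (addRows H R) ha (pn_addRows_PD H R h) u) (pl_Z_data_one_pos H ha h u)

theorem pn_grr_eq {a : ℝ} (ha : 0 < a) {P : Set G.V} (h : plPD H P) {n : ℕ} (R : Fin n → G.V → ℝ) (u : G.V → ℝ) :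
    grr H R a P u = Real.exp (-(plEn (addRows H R) a P u - plEn H a P u) / 2) := by
  have h' := pn_addRows_PD H R h
  have z1 := pl_Z_one_pos H ha h
  have z2 := pl_Z_one_pos (addRows H R) ha h'
  unfold grr
  rw [pn_gzr_def, pn_gzr_def, pl_Z_data_one (addRows H R) ha h' u, pl_Z_data_one H ha h u]
  have e : Real.exp (-(plEn (addRows H R) a P u - plEn H a P u) / 2) =
      Real.exp (-(plEn (addRows H R) a P u) / 2) / Real.exp (-(plEn H a P u) / 2) := by
    rw [← Real.exp_sub]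
    congr 1
    ring
  rw [e]
  have e1 := (Real.exp_pos (-(plEn H a P u) / 2)).ne'
  field_simp

/-- **L-PN-G4** (~300 l.).  The conditional expectation of the Gaussian weight of the new rows, in Fourier form.
PROOF: `(addRows H R).form a v = H.form a v + ∑_d ⟨R d, v⟩²`; `pl_Z_data`: the ratio is `∫ exp(-∑_d (m_d + ⟨R d, ψ⟩)²/2) d plMeas H a P (ψ)`, `m_d = ⟨R d, harm u⟩ = ⟨bal (R d), u⟩`;
`e^{-|y|²/2} = ∫ cos(τ·y) γ(dτ)` (as in `pn_rows_fourier`); Fubini; `∫ cos(c + ⟨g, ψ⟩) d plMeas = cos c · exp(-gVar g / 2)` from `pl_meas_map_pair` + `charFun_gaussianReal`; `pn_gVar_sum`. -/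
theorem pn_gzr_eq_FQ {a : ℝ} (ha : 0 < a) {P : Set G.V} (h : plPD H P) {n : ℕ} (R : Fin n → G.V → ℝ) (u : G.V → ℝ) :
    gzr H R a P u = FQ (covM H R a P) fun d => HLaw.pair (bal H a P (R d)) u := by
  have hprob := pl_meas_prob H ha h
  have hprobG := pn_stdG_prob n
  obtain ⟨m, hm⟩ : ∃ m : Fin n → ℝ, m = fun d => HLaw.pair (bal H a P (R d)) u := ⟨_, rfl⟩
  rw [← hm]
  have hmd : ∀ d, HLaw.pair (R d) (plHarm H a P u) = m d := fun d => by
    rw [hm]; exact (pn_bal_pair H ha h (R d) u).symm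
  -- step 1
  have s1 : gzr H R a P u =
      ∫ ψ, Real.exp (-(∑ d, (m d + HLaw.pair (R d) ψ) ^ 2) / 2) ∂plMeas H a P := by
    rw [pn_gzr_def, pn_addRows_Z, pl_mk_Z_cond H ha h, mul_div_assoc, div_self (pl_Z_data_one_pos H ha h u).ne', mul_one]
    refine integral_congr_ae (Filter.Eventually.of_forall fun ψ => ?_)
    simp only [one_mul, pl_pair_add_right, hmd]
  -- step 2
  have s2 : ∀ ψ : G.V → ℝ, Real.exp (-(∑ d, (m d + HLaw.pair (R d) ψ) ^ 2) / 2) =
      ∫ τ, Real.cos (∑ d, τ d * (m d + HLaw.pair (R d) ψ)) ∂(stdG n) := fun ψ => (pn_gauss_cosn _).symm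
  simp only [s2] at s1
  -- step 3
  have hcont : Continuous fun z : (G.V → ℝ) × (Fin n → ℝ) => Real.cos (∑ d, z.2 d * (m d + HLaw.pair (R d) z.1)) := by
    have : ∀ d, Continuous fun z : (G.V → ℝ) × (Fin n → ℝ) => HLaw.pair (R d) z.1 := fun d =>
      (pl_pair_continuous (R d)).comp continuous_fst
    fun_prop
  have hint : Integrable (Function.uncurry fun (ψ : G.V → ℝ) (τ : Fin n → ℝ) =>
      Real.cos (∑ d, τ d * (m d + HLaw.pair (R d) ψ))) ((plMeas H a P).prod (stdG n)) :=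
    Integrable.mono' (integrable_const (1 : ℝ)) hcont.aestronglyMeasurable
      (Filter.Eventually.of_forall fun z => Real.abs_cos_le_one _)
  rw [s1, integral_integral_swap hint]
  unfold FQ
  refine integral_congr_ae (Filter.Eventually.of_forall fun τ => ?_)
  -- step 4
  obtain ⟨g, hg⟩ : ∃ g : G.V → ℝ, g = ∑ d, τ d • R d := ⟨_, rfl⟩
  have hpg : ∀ ψ : G.V → ℝ, ∑ d, τ d * (m d + HLaw.pair (R d) ψ) = (∑ d, τ d * m d) + 1 * HLaw.pair g ψ := by
    intro ψ
    have : HLaw.pair g ψ = ∑ d, τ d * HLaw.pair (R d) ψ := by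
      rw [hg]
      unfold HLaw.pair
      simp only [Finset.sum_apply, Pi.smul_apply, smul_eq_mul, Finset.sum_mul, Finset.mul_sum]
      rw [Finset.sum_comm]
      exact Finset.sum_congr rfl fun i _ => Finset.sum_congr rfl fun y _ => by ring
    rw [this, one_mul, ← Finset.sum_add_distrib]
    exact Finset.sum_congr rfl fun d _ => by ring
  simp only [hpg]
  have hmap : ∫ ψ, Real.cos ((∑ d, τ d * m d) + 1 * HLaw.pair g ψ) ∂plMeas H a P =
      ∫ x, Real.cos ((∑ d, τ d * m d) + 1 * x) ∂((plMeas H a P).map fun φ => HLaw.pair g φ) := by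
    rw [integral_map (pl_pair_continuous g).measurable.aemeasurable]
    exact (by fun_prop : Continuous fun x : ℝ => Real.cos ((∑ d, τ d * m d) + 1 * x)).aestronglyMeasurable
  rw [hmap, pl_meas_map_pair H ha h, pn_gauss_cos1, mul_comm]
  have hq : qd (covM H R a P) τ = (plPin H P).gVar a g := by rw [hg, pn_gVar_sum H ha h]
  have hq0 : 0 ≤ (plPin H P).gVar a g := pl_gVar_nonneg _ ha g
  rw [hq, max_eq_right hq0, Real.coe_toNNReal _ hq0]
  congr 2
  ring

/-- **L-PN-G5** (~200 l.).  `r_A^g ≤ r_Δ^g ≤ 1`:  `grr = exp(-(plEn⁺ - plEn)/2)` (`pl_Z_data_one` for both laws), `plEn ≤ plEn⁺` (`pl_en_le`, `form ≤ form⁺`), `plEn⁺ P u ≤ form⁺ (harm_{P ∪ A} (res u)) = plEn (P ∪ A) (res u)`. -/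
theorem pn_grr_sandwich {a : ℝ} (ha : 0 < a) {P : Set G.V} (h : plPD H P) (A : Set G.V) (hd : Disjoint A P) {n : ℕ} (R : Fin n → G.V → ℝ)
    (hR : ∀ d, ∀ x ∉ A, R d x = 0) (u : G.V → ℝ) :
    C3.grPin H a P A u ≤ grr H R a P u ∧ grr H R a P u ≤ 1 ∧ 0 < gzr H R a P u := by
  have h' := pn_addRows_PD H R h
  have hPA : plPD H (P ∪ A) := pl_PD_mono H h Set.subset_union_left
  refine ⟨?_, ?_, pn_gzr_pos H ha h R u⟩
  · have e1 : C3.grPin H a P A u = Real.exp (-(plGap H a P A u) / 2) := pl_rPin_eq H ha h A u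
    rw [e1, pn_grr_eq H ha h]
    apply Real.exp_le_exp.2
    have hw : ∀ x ∈ P, plHarm H a (P ∪ A) (plRes P u) x = u x := fun x hx => by
      rw [pl_harm_of_mem H a _ (Or.inl hx), pl_res_of_mem u hx]
    have hwA : ∀ x ∈ A, plHarm H a (P ∪ A) (plRes P u) x = 0 := fun x hx => by
      rw [pl_harm_of_mem H a _ (Or.inr hx), pl_res_of_not_mem u (fun hxP => Set.disjoint_left.1 hd hx hxP)]
    have h1 : plEn (addRows H R) a P u ≤ (addRows H R).form a (plHarm H a (P ∪ A) (plRes P u)) :=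
      pl_en_le (addRows H R) ha h' u hw
    have h2 : (addRows H R).form a (plHarm H a (P ∪ A) (plRes P u)) = plEn H a (P ∪ A) (plRes P u) := by
      rw [pn_addRows_form]
      have : ∀ d, HLaw.pair (R d) (plHarm H a (P ∪ A) (plRes P u)) = 0 := by
        intro d
        unfold HLaw.pair
        refine Finset.sum_eq_zero fun x _ => ?_
        by_cases hx : x ∈ A
        · rw [hwA x hx, mul_zero]
        · rw [hR d x hx, zero_mul]
      simp only [this]
      simp [plEn]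
    unfold plGap
    linarith
  · rw [pn_grr_eq H ha h, Real.exp_le_one_iff]
    have h1 : plEn H a P u ≤ H.form a (plHarm (addRows H R) a P u) :=
      pl_en_le H ha h u fun x hx => pl_harm_of_mem (addRows H R) a u hx
    have h2 : H.form a (plHarm (addRows H R) a P u) ≤ plEn (addRows H R) a P u := by
      unfold plEn
      rw [pn_addRows_form]
      have : 0 ≤ ∑ d, HLaw.pair (R d) (plHarm (addRows H R) a P u) ^ 2 := Finset.sum_nonneg fun _ _ => sq_nonneg _
      linarith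
    linarith

theorem pn_gzr_eq_int {a : ℝ} (ha : 0 < a) {P : Set G.V} (h : plPD H P) {n : ℕ} (R : Fin n → G.V → ℝ) (u : G.V → ℝ) :
    gzr H R a P u = ∫ ψ, Real.exp (-(∑ d, HLaw.pair (R d) (plHarm H a P u + ψ) ^ 2) / 2) ∂plMeas H a P := by
  rw [pn_gzr_def, pn_addRows_Z, pl_mk_Z_cond H ha h, mul_div_assoc, div_self (pl_Z_data_one_pos H ha h u).ne', mul_one]
  refine integral_congr_ae (Filter.Eventually.of_forall fun ψ => ?_)
  simp only [one_mul]

/-- **L-PN-G6** (~250 l.).  Change of the guard marginal (`pl_Z_fubini` with `D = p \ P₀` for both laws; or `pl_meas_markov`). -/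
theorem pn_gau_density {a : ℝ} (ha : 0 < a) {P₀ : Set G.V} (h : plPD H P₀) (p : Set G.V) {n : ℕ} (R : Fin n → G.V → ℝ)
    (Ψ : (G.V → ℝ) → ℝ) (hΨ : LocR (P₀ ∪ p) Ψ) (hm : Measurable Ψ) (C : ℝ) (hC : ∀ φ, |Ψ φ| ≤ C) :
    ∫ φ, Ψ φ ∂(plMeas (addRows H R) a P₀) = (∫ φ, Ψ φ * gzr H R a (P₀ ∪ p) φ ∂(plMeas H a P₀)) / gzr H R a P₀ 0 := by
  have h' : plPD H (P₀ ∪ p) := pl_PD_mono H h Set.subset_union_left
  have hprob := pl_meas_prob H ha h
  have hplus := pn_addRows_PD H R h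
  have hZ := pl_Z_one_pos H ha h
  have hg0 := pn_gzr_pos H ha h R 0
  have hWc : Continuous fun φ : G.V → ℝ => Real.exp (-(∑ d, HLaw.pair (R d) φ ^ 2) / 2) := by
    have : ∀ d, Continuous fun φ : G.V → ℝ => HLaw.pair (R d) φ := fun d => pl_pair_continuous (R d)
    fun_prop
  have hW1 : ∀ φ : G.V → ℝ, Real.exp (-(∑ d, HLaw.pair (R d) φ ^ 2) / 2) ≤ 1 := by
    intro φ
    rw [Real.exp_le_one_iff]
    have : 0 ≤ ∑ d, HLaw.pair (R d) φ ^ 2 := Finset.sum_nonneg fun _ _ => sq_nonneg _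
    linarith
  have hint : Integrable (fun φ : G.V → ℝ => Ψ φ * Real.exp (-(∑ d, HLaw.pair (R d) φ ^ 2) / 2)) (plMeas H a P₀) := by
    refine Integrable.mono' (integrable_const C) (hm.mul hWc.measurable).aestronglyMeasurable
      (Filter.Eventually.of_forall fun φ => ?_)
    rw [norm_mul, Real.norm_eq_abs, Real.norm_eq_abs, abs_of_pos (Real.exp_pos _)]
    calc |Ψ φ| * Real.exp (-(∑ d, HLaw.pair (R d) φ ^ 2) / 2) ≤ |Ψ φ| * 1 :=
          mul_le_mul_of_nonneg_left (hW1 φ) (abs_nonneg _)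
      _ ≤ C := by rw [mul_one]; exact hC φ
  -- (1)
  have s1 : ∫ φ, Ψ φ ∂(plMeas (addRows H R) a P₀) =
      (∫ φ, Ψ φ * Real.exp (-(∑ d, HLaw.pair (R d) φ ^ 2) / 2) ∂plMeas H a P₀) / gzr H R a P₀ 0 := by
    rw [pl_meas_integral (addRows H R) ha hplus, pn_addRows_Z, pl_meas_integral H ha h, pn_gzr_def]
    have := pl_Z_one_pos (addRows H R) ha hplus
    field_simp
  rw [s1]
  congr 1
  -- (2)
  rw [pl_meas_markov H ha h Set.subset_union_left _ hint]
  refine integral_congr_ae (Filter.Eventually.of_forall fun φ => ?_)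
  -- (3)
  simp only
  rw [pn_gzr_eq_int H ha h', ← integral_const_mul]
  refine integral_congr_ae ?_
  filter_upwards [pl_meas_ae_pin H a (P₀ ∪ p)] with ψ hψ
  have e : Ψ (plHarm H a (P₀ ∪ p) φ + ψ) = Ψ φ := by
    rw [← hΨ (plHarm H a (P₀ ∪ p) φ + ψ), ← hΨ φ]
    congr 1
    funext x
    unfold C3.resR
    split_ifs with hx
    · rw [Pi.add_apply, pl_harm_of_mem H a φ hx, hψ x hx, add_zero]
    · rfl
  rw [e]

/-- **L-PN-G7** (~200 l., from G5, G6, `pl_rPin_mean`). -/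
theorem pn_grr_mean {a : ℝ} (ha : 0 < a) {P₀ : Set G.V} (h : plPD H P₀) (p : Set G.V) {n : ℕ} (R : Fin n → G.V → ℝ) :
    ∫ φ, grr H R a (P₀ ∪ p) φ ∂(plMeas H a P₀) = gzr H R a P₀ 0 / gzr H R a (P₀ ∪ p) 0 := by
  have h' : plPD H (P₀ ∪ p) := pl_PD_mono H h Set.subset_union_left
  have hplus := pn_addRows_PD H R h
  have hprob' := pl_meas_prob (addRows H R) ha hplus
  have hg0 := pn_gzr_pos H ha h R 0
  have hg1 := pn_gzr_pos H ha h' R 0
  have key := pn_gau_density H ha h p R (fun _ => 1) (fun _ => rfl) measurable_const 1 (fun _ => by simp)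
  simp only [integral_const, one_mul, probReal_univ, smul_eq_mul, mul_one] at key
  unfold grr
  rw [integral_div]
  have k2 : ∫ φ, gzr H R a (P₀ ∪ p) φ ∂(plMeas H a P₀) = gzr H R a P₀ 0 := by
    field_simp at key
    linarith
  rw [k2]

theorem pn_gau_upper {a : ℝ} (ha : 0 < a) {P₀ : Set G.V} (h : plPD H P₀) (p A : Set G.V) (hd : Disjoint A (P₀ ∪ p)) {n : ℕ} (R : Fin n → G.V → ℝ)
    (hR : ∀ d, ∀ x ∉ A, R d x = 0) (Ψ : (G.V → ℝ) → ℝ) (hΨ : LocR (P₀ ∪ p) Ψ) (hm : Measurable Ψ) (h01 : ∀ φ, 0 ≤ Ψ φ ∧ Ψ φ ≤ 1) :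
    ∫ φ, Ψ φ ∂(plMeas (addRows H R) a P₀) ≤ Real.exp (H.gPin a P₀ A p) * ∫ φ, Ψ φ ∂(plMeas H a P₀) := by
  have h' : plPD H (P₀ ∪ p) := pl_PD_mono H h Set.subset_union_left
  have hprob := pl_meas_prob H ha h
  have hg0 := pn_gzr_pos H ha h R 0
  have hg1 := pn_gzr_pos H ha h' R 0
  have hsw := pn_grr_sandwich H ha h' A hd R hR
  have hgc : Continuous (grr H R a (P₀ ∪ p)) := by
    have e : grr H R a (P₀ ∪ p) = fun u => Real.exp (-(plEn (addRows H R) a (P₀ ∪ p) u - plEn H a (P₀ ∪ p) u) / 2) :=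
      funext fun u => pn_grr_eq H ha h' R u
    rw [e]
    exact Real.continuous_exp.comp ((((pl_en_continuous (addRows H R) a (P₀ ∪ p)).sub (pl_en_continuous H a (P₀ ∪ p))).neg).div_const 2)
  have hg_pos : ∀ u, 0 < grr H R a (P₀ ∪ p) u := fun u => div_pos (pn_gzr_pos H ha h' R u) hg1
  have hgi : Integrable (grr H R a (P₀ ∪ p)) (plMeas H a P₀) :=
    Integrable.mono' (integrable_const (1 : ℝ)) hgc.aestronglyMeasurable
      (Filter.Eventually.of_forall fun u => by
        rw [Real.norm_eq_abs, abs_of_pos (hg_pos u)]; exact (hsw u).2.1)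
  have hΨi : Integrable Ψ (plMeas H a P₀) :=
    Integrable.mono' (integrable_const (1 : ℝ)) hm.aestronglyMeasurable
      (Filter.Eventually.of_forall fun u => by
        rw [Real.norm_eq_abs, abs_of_nonneg (h01 u).1]; exact (h01 u).2)
  have hΨgi : Integrable (fun φ => Ψ φ * grr H R a (P₀ ∪ p) φ) (plMeas H a P₀) :=
    Integrable.mono' (integrable_const (1 : ℝ)) (hm.mul hgc.measurable).aestronglyMeasurable
      (Filter.Eventually.of_forall fun u => by
        rw [Real.norm_eq_abs, abs_of_nonneg (mul_nonneg (h01 u).1 (hg_pos u).le)]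
        calc Ψ u * grr H R a (P₀ ∪ p) u ≤ 1 * 1 := mul_le_mul (h01 u).2 (hsw u).2.1 (hg_pos u).le zero_le_one
          _ = 1 := one_mul 1)
  have hpc : Continuous (C3.grPin H a (P₀ ∪ p) A) := by
    have e : C3.grPin H a (P₀ ∪ p) A = fun u => Real.exp (-(plGap H a (P₀ ∪ p) A u) / 2) :=
      funext fun u => pl_rPin_eq H ha h' A u
    rw [e]
    exact Real.continuous_exp.comp ((pl_gap_continuous H a (P₀ ∪ p) A).neg.div_const 2)
  have hp_pos : ∀ u, 0 < C3.grPin H a (P₀ ∪ p) A u := fun u => by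
    have e : C3.grPin H a (P₀ ∪ p) A u = Real.exp (-(plGap H a (P₀ ∪ p) A u) / 2) := pl_rPin_eq H ha h' A u
    rw [e]; exact Real.exp_pos _
  have hpi : Integrable (C3.grPin H a (P₀ ∪ p) A) (plMeas H a P₀) :=
    Integrable.mono' (integrable_const (1 : ℝ)) hpc.aestronglyMeasurable
      (Filter.Eventually.of_forall fun u => by
        rw [Real.norm_eq_abs, abs_of_pos (hp_pos u)]; exact (hsw u).1.trans (hsw u).2.1)
  have hmean : ∫ φ, C3.grPin H a (P₀ ∪ p) A φ ∂plMeas H a P₀ = Real.exp (-(H.gPin a P₀ A p)) :=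
    pl_rPin_mean H ha h A p (fun x hx => ((Set.disjoint_left.1 hd hx.1) (Or.inr hx.2)).elim)
  have hlow : Real.exp (-(H.gPin a P₀ A p)) ≤ ∫ φ, grr H R a (P₀ ∪ p) φ ∂(plMeas H a P₀) := by
    rw [← hmean]
    exact integral_mono hpi hgi fun u => (hsw u).1
  have hup : ∫ φ, Ψ φ * grr H R a (P₀ ∪ p) φ ∂(plMeas H a P₀) ≤ ∫ φ, Ψ φ ∂(plMeas H a P₀) :=
    integral_mono hΨgi hΨi fun u => by
      calc Ψ u * grr H R a (P₀ ∪ p) u ≤ Ψ u * 1 := mul_le_mul_of_nonneg_left (hsw u).2.1 (h01 u).1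
        _ = Ψ u := mul_one _
  have hΨ0 : 0 ≤ ∫ φ, Ψ φ ∂(plMeas H a P₀) := integral_nonneg fun u => (h01 u).1
  have hΨg0 : 0 ≤ ∫ φ, Ψ φ * grr H R a (P₀ ∪ p) φ ∂(plMeas H a P₀) :=
    integral_nonneg fun u => mul_nonneg (h01 u).1 (hg_pos u).le
  have hden := pn_gau_density H ha h p R Ψ hΨ hm 1 (fun u => by rw [abs_of_nonneg (h01 u).1]; exact (h01 u).2)
  have e1 : ∫ φ, Ψ φ * gzr H R a (P₀ ∪ p) φ ∂(plMeas H a P₀) =
      (∫ φ, Ψ φ * grr H R a (P₀ ∪ p) φ ∂(plMeas H a P₀)) * gzr H R a (P₀ ∪ p) 0 := by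
    rw [← integral_mul_const]
    refine integral_congr_ae (Filter.Eventually.of_forall fun u => ?_)
    simp only
    unfold grr
    field_simp
  rw [pn_grr_mean H ha h p R] at hlow
  rw [hden, e1]
  obtain ⟨I1, hI1⟩ : ∃ I, I = ∫ φ, Ψ φ * grr H R a (P₀ ∪ p) φ ∂(plMeas H a P₀) := ⟨_, rfl⟩
  obtain ⟨I2, hI2⟩ : ∃ I, I = ∫ φ, Ψ φ ∂(plMeas H a P₀) := ⟨_, rfl⟩
  rw [← hI1] at hup hΨg0 ⊢
  rw [← hI2] at hup hΨ0 ⊢
  obtain ⟨g, hg⟩ : ∃ g, g = H.gPin a P₀ A p := ⟨_, rfl⟩
  rw [← hg] at hlow ⊢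
  -- z1/z0 ≤ exp g
  have hr : gzr H R a (P₀ ∪ p) 0 / gzr H R a P₀ 0 ≤ Real.exp g := by
    rw [div_le_iff₀ hg0]
    rw [le_div_iff₀ hg1] at hlow
    have : Real.exp g * (Real.exp (-g) * gzr H R a (P₀ ∪ p) 0) ≤ Real.exp g * gzr H R a P₀ 0 :=
      mul_le_mul_of_nonneg_left hlow (Real.exp_pos g).le
    rw [← mul_assoc, ← Real.exp_add, add_neg_cancel, Real.exp_zero, one_mul] at this
    exact this
  calc I1 * gzr H R a (P₀ ∪ p) 0 / gzr H R a P₀ 0 = (gzr H R a (P₀ ∪ p) 0 / gzr H R a P₀ 0) * I1 := by ring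
    _ ≤ Real.exp g * I1 := mul_le_mul_of_nonneg_right hr hΨg0
    _ ≤ Real.exp g * I2 := mul_le_mul_of_nonneg_left hup (Real.exp_pos g).le

/-- measurability of the Gaussian conditional quantities (continuity: `pl_rPin_eq`, `plGap` is a polynomial in the data) -/
theorem pn_grPin_measurable {a : ℝ} (ha : 0 < a) {P : Set G.V} (h : plPD H P) (A : Set G.V) : Measurable (C3.grPin H a P A) := by
  have e : C3.grPin H a P A = fun u => Real.exp (-(plGap H a P A u) / 2) := funext fun u => pl_rPin_eq H ha h A u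
  rw [e]
  exact (Real.continuous_exp.comp ((pl_gap_continuous H a P A).neg.div_const 2)).measurable

theorem pn_grPin_loc (a : ℝ) (P A : Set G.V) : LocR P (C3.grPin H a P A) := by
  intro φ
  have e1 : C3.resR P (C3.resR P φ) = C3.resR P φ := by
    funext x
    unfold C3.resR
    split_ifs <;> rfl
  have e2 : ∀ v, C3.ext P (C3.resR P φ) v = C3.ext P φ v := by
    intro v
    funext x
    unfold C3.ext C3.resR
    split_ifs <;> rfl
  have e3 : ∀ F, C3.gZ H a P (C3.resR P φ) F = C3.gZ H a P φ F := by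
    intro F
    unfold C3.gZ
    simp only [e2]
  unfold C3.grPin C3.gcPin
  rw [e1, e3]

end

end Claimed.Agent.R285.Pins.T32
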