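import Claimed.Agent.R285.Pins.PotGeo
import Claimed.Agent.R285.Pins.T32Glue

/-!
# ROW 285, PINS, T3.2 package: THE POT INPUTS (architect helper53; consumer helper178 `T32Asy`, helper249 `Shift*`).   PAPER-FREE: deterministic facts on the discrete Gaussian references, from `Pot/Strip*.lean`.

Data of `C3` s3-4: `Γ` (cut geometry), rows `row`, admissible grids `g k` at scale `ν k`, core `A`, guard `p`, `C3.Sep A p`; restored geometry `C3.uncut Γ F` with rows `row'`.   `H k = C3.lawR Γ (g k) row`, `P₀ k = Γ.sites (g k) Γ.pin`.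
EXPORTS
* `pn_pot_coer`        uniform coercivity `∑ v² ≤ C ν² form v`  (P5);
* `pn_pot_gapB`        `Two.In.gapB`: bounded mean energy gap (P4);      `pn_pot_gPin_bdd`: the Gaussian pin interaction is bounded (P6);
* `pn_pot_ea_bal`      `Scale.EA (L.bal a P f)` for every sequence of tests with bounded densities (P1);      `pn_pot_ea_bal_res`: the same for the balayage of the RESTORED law, the cost still measured by the CUT law;
* `pn_pot_probe`       the field `gap` of `ProbeOK` for the probes `ppProbe` = `w ·` (averages over the level-`r` cells of `A`) (P2);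
* `pn_pot_band`        the Gaussian pin interaction of the band law tends to `0` (P3), on any graph `domG D cut` with a chart, rows `shRow` of helper249.
Level-`r` cell tests on the coarse graph: `domFn (sbCT (S23.fine r Γ.T) (sbG r (g k)) t)` (`Pins/Sub.lean`).
Every `sorry` is a leaf `L-PP-*`.  Statements frozen; helper lemmas: prefix `pn_pot_`.
-/

set_option autoImplicit false

namespace Claimed.Agent.R285.Pins

open Filter Topology MeasureTheory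
open Claimed.Agent.R285.C3 (Cell lawR)
open Claimed.Agent.R285.Pot
open scoped Classical

noncomputable section

variable {m₁ m₂ n₁ n₂ : ℕ}

/-! ## 0. Any graph -/

section Abs

variable {G : HGraph} (H : HLaw G)

/-- **L-PP-A1** (~60 l.).  The balayage is the test minus the row vector of the optimiser under the pins.   Evaluate at `x`: pair both sides with `u = Pi.single x 1`;  `⟨psT v, u⟩ = B(v,u)` (`ps_pair_T`);
`B(G_P f, u) = B(G_P f, u - harm_P u) + B(G_P f, harm_P u) = ⟨f, u - harm_P u⟩ + 0` (as in the proof of `T32.pn_bal_var`). -/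
theorem pn_pot_bal_eq {a : ℝ} (ha : 0 < a) {P : Set G.V} (h : plPD H P) (f : G.V → ℝ) :
    T32.bal H a P f = f - psT H a (plGf H a P f) := by
  have hopt := pl_Gf_opt H ha h f
  have hv0 : ∀ x ∈ P, plGf H a P f x = 0 := (pl_mem_rspan_pin H P _).1 hopt.1
  have hsingle : ∀ (g : G.V → ℝ) (x : G.V), HLaw.pair g (Pi.single x 1) = g x := by
    intro g x
    unfold HLaw.pair
    rw [Finset.sum_eq_single x]
    · simp
    · intro y _ hy
      simp [Pi.single_eq_of_ne hy]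
    · intro hx
      exact absurd (Finset.mem_univ x) hx
  funext x
  set w : G.V → ℝ := Pi.single x 1 with hw
  have e : w = (w - plHarm H a P w) + plHarm H a P w := by abel
  have h1 : plB H a (plGf H a P f) (plHarm H a P w) = 0 := by
    rw [pl_B_comm]
    exact pl_harm_orth H ha h w hv0
  have h2 : plB H a (plGf H a P f) (w - plHarm H a P w) = HLaw.pair f (w - plHarm H a P w) := by
    have := hopt.2 (w - plHarm H a P w) ((pl_mem_rspan_pin H P _).2 fun x hx => by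
      simp [pl_harm_of_mem H a w hx])
    rwa [pl_pin_B] at this
  have h3 : plB H a (plGf H a P f) w = HLaw.pair f (w - plHarm H a P w) := by
    calc plB H a (plGf H a P f) w = plB H a (plGf H a P f) ((w - plHarm H a P w) + plHarm H a P w) := by rw [← e]
      _ = HLaw.pair f (w - plHarm H a P w) := by rw [pl_B_add_right, h1, h2, add_zero]
  have h4 : (f - psT H a (plGf H a P f)) x = HLaw.pair (f - psT H a (plGf H a P f)) w := (hsingle _ x).symm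
  rw [h4, pl_pair_sub_left, ps_pair_T, h3, pl_pair_sub_right]
  unfold T32.bal
  ring

/-- **L-PP-A2** (~80 l.; copy the proof of `pl_gVar_le_max`).   `form 1 v ≥ min a 1 · form a v`. -/
theorem pn_pot_gVar_one_le {a : ℝ} (ha : 0 < a) (f : G.V → ℝ) : H.gVar 1 f ≤ max a⁻¹ 1 * H.gVar a f := by
  have h := pl_min_gVar_le H ha f
  have hm : max a⁻¹ 1 * min a 1 = 1 := by
    rcases le_total a 1 with h1 | h1
    · rw [min_eq_left h1, max_eq_left ((one_le_inv₀ ha).2 h1), inv_mul_cancel₀ ha.ne']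
    · rw [min_eq_right h1, max_eq_right (inv_le_one_of_one_le₀ h1), one_mul]
  have h0 : (0 : ℝ) ≤ max a⁻¹ 1 := le_trans zero_le_one (le_max_right _ _)
  calc H.gVar 1 f = max a⁻¹ 1 * (min a 1 * H.gVar 1 f) := by rw [← mul_assoc, hm, one_mul]
    _ ≤ max a⁻¹ 1 * H.gVar a f := mul_le_mul_of_nonneg_left h h0

/-- **L-PP-A3** (~100 l. for the two).  More rows: smaller variance (`pl_gVar_compare` with `φ = id`, `ps_add_form`, `pl_adm_of_PD`). -/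
theorem pn_pot_gVar_add_le {ι : Type} [Fintype ι] (R : ι → G.V → ℝ) {a : ℝ} (ha : 0 < a) {P : Set G.V} (h : plPD H P) (f : G.V → ℝ) :
    (plPin (psAdd H R) P).gVar a f ≤ (plPin H P).gVar a f := by
  refine pl_gVar_compare (plPin H P) (plPin (psAdd H R) P) ha (pl_adm_of_PD H h f) f id (fun v hv => ?_) (fun v _ => ?_) (fun v _ => rfl)
  · exact (pl_mem_rspan_pin H P v).2 ((pl_mem_rspan_pin (psAdd H R) P v).1 hv)
  · rw [pl_pin_form, pl_pin_form, ps_add_form]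
    have : 0 ≤ ∑ i, (∑ x, R i x * v x) ^ 2 := Finset.sum_nonneg fun _ _ => sq_nonneg _
    simpa using this

/-- the multipliers of the soft rows are bounded:  `form' (G' f) = gVar' f` (`pl_Gf_opt`, `pl_gVar_eq_form`, `ps_probe_PD`), `form' = form + ∑_i (R_i v)²` (`ps_add_form`). -/
theorem pn_pot_mult_le {ι : Type} [Fintype ι] (R : ι → G.V → ℝ) {a : ℝ} (ha : 0 < a) {P : Set G.V} (h : plPD H P) (f : G.V → ℝ) (i : ι) :
    (∑ y, R i y * plGf (psAdd H R) a P f y) ^ 2 ≤ (plPin H P).gVar a f := by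
  have h' := ps_probe_PD H R h
  have h1 := pl_gVar_eq_form (plPin (psAdd H R) P) ha (pl_Gf_opt (psAdd H R) ha h' f)
  rw [pl_pin_form, ps_add_form] at h1
  have h2 := pn_pot_gVar_add_le H R ha h f
  have h3 : 0 ≤ H.form a (plGf (psAdd H R) a P f) := pl_form_nonneg H ha _
  have h4 : (∑ y, R i y * plGf (psAdd H R) a P f y) ^ 2 ≤ ∑ i, (∑ x, R i x * plGf (psAdd H R) a P f x) ^ 2 :=
    Finset.single_le_sum (f := fun i => (∑ x, R i x * plGf (psAdd H R) a P f x) ^ 2) (fun _ _ => sq_nonneg _) (Finset.mem_univ i)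
  linarith

/-- **L-PP-A4** (~80 l.).  The field `gap` of `ProbeOK` from the pin interaction of the law with the probes.   `T32.addRows H R = psAdd H R`, `C3.gZ = plZ` (`rfl`); `ps_probe_ratio`;
`e^{-D}(e^{D'} - 1) ≤ e^{D'} - 1 ≤ e^ε - 1` with `D, D' ≥ 0` (`pl_gPin_nonneg`, `ps_probe_PD`). -/
theorem pn_pot_gzr {n : ℕ} (R : Fin n → G.V → ℝ) {a : ℝ} (ha : 0 < a) {P : Set G.V} (h : plPD H P) (A p : Set G.V)
    (hR : ∀ i x, R i x ≠ 0 → x ∈ A) (hd : A ∩ p ⊆ P) {ε : ℝ} (hε : (psAdd H R).gPin a P A p ≤ ε) :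
    T32.gzr H R a P 0 / T32.gzr H R a (P ∪ p) 0 - Real.exp (-(H.gPin a P A p)) ≤ Real.exp ε - 1 := by
  have h1 := ps_probe_ratio H R ha h A p hR
  have e : T32.gzr H R a P 0 / T32.gzr H R a (P ∪ p) 0
      = (plZ (psAdd H R) a P 0 (fun _ => 1) / plZ H a P 0 fun _ => 1) / (plZ (psAdd H R) a (P ∪ p) 0 (fun _ => 1) / plZ H a (P ∪ p) 0 fun _ => 1) := rfl
  rw [e, h1]
  have d0 := pl_gPin_nonneg H ha h A p hd
  have d1 := pl_gPin_nonneg (psAdd H R) ha (ps_probe_PD H R h) A p hd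
  have x1 : Real.exp (-(H.gPin a P A p)) ≤ 1 := Real.exp_le_one_iff.2 (by linarith)
  have x0 : 0 < Real.exp (-(H.gPin a P A p)) := Real.exp_pos _
  have y1 : 1 ≤ Real.exp ((psAdd H R).gPin a P A p) := Real.one_le_exp d1
  have y2 : Real.exp ((psAdd H R).gPin a P A p) ≤ Real.exp ε := Real.exp_le_exp.2 hε
  have key : Real.exp (-(H.gPin a P A p)) * (Real.exp ((psAdd H R).gPin a P A p) - 1) ≤ 1 * (Real.exp ((psAdd H R).gPin a P A p) - 1) :=
    mul_le_mul_of_nonneg_right x1 (by linarith)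
  have e2 : Real.exp (-(H.gPin a P A p)) * Real.exp ((psAdd H R).gPin a P A p) - Real.exp (-(H.gPin a P A p))
      = Real.exp (-(H.gPin a P A p)) * (Real.exp ((psAdd H R).gPin a P A p) - 1) := by ring
  rw [e2]
  linarith

/-- more precision keeps real properness -/
theorem pn_pot_ext_PD {G' : HGraph} {H : HLaw G} {H' : HLaw G'} {A : Set G.V} (x : T32.Ext H H' A) {P : Set G.V} (h : plPD H P) :
    plPD H' (x.e ⁻¹' P) := by
  intro v' h0 h1 h2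
  have key : (fun y => v' (x.e.symm y)) = 0 := by
    refine h _ (fun y hy => h0 _ (by simpa using hy)) (fun e => ?_) (fun o => ?_)
    · have := h1 (x.iE e)
      unfold plGrad at this ⊢
      rw [← x.tgt_eq e, ← x.src_eq e]
      simpa using this
    · have := h2 (x.iO o)
      unfold HLaw.obs at this ⊢
      rw [← this, ← Equiv.sum_comp x.e]
      exact Finset.sum_congr rfl fun y _ => by simp [x.row_eq]
  funext y
  have := congrFun key (x.e y)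
  simpa using this

/-- the rows of an extension on a transported field -/
theorem pn_pot_ext_obs {G' : HGraph} {H' : HLaw G'} {A : Set G.V} (x : T32.Ext H H' A) (u : G.V → ℝ) (o : H.O) :
    H'.obs (u ∘ x.e) (x.iO o) = H.obs u o := by
  unfold HLaw.obs
  rw [← Equiv.sum_comp x.e]
  exact Finset.sum_congr rfl fun v _ => by rw [x.row_eq]; rfl

/-- the form of an extension on a field which vanishes on `A` -/
theorem pn_pot_ext_form {G' : HGraph} {H' : HLaw G'} {A : Set G.V} (x : T32.Ext H H' A) (a : ℝ) (u : G.V → ℝ) (hu : ∀ y ∈ A, u y = 0) :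
    H'.form a (u ∘ x.e) = H.form a u := by
  unfold HLaw.form HLaw.en
  congr 1
  · congr 1
    rw [T32.pn_sum_emb x.iE]
    have h0 : ∑ y : {y // y ∉ Set.range x.iE}, ((u ∘ x.e) (G'.tgt y.1) - (u ∘ x.e) (G'.src y.1) + (0 : G'.E → ℝ) y.1) ^ 2 = 0 := by
      refine Finset.sum_eq_zero fun y _ => ?_
      obtain ⟨h1, h2⟩ := x.newE y.1 y.2
      simp only [Function.comp_apply, hu _ h1, hu _ h2, Pi.zero_apply]
      norm_num
    rw [h0, add_zero]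
    exact Finset.sum_congr rfl fun e _ => by simp only [Function.comp_apply, x.src_eq, x.tgt_eq, Pi.zero_apply]
  · rw [T32.pn_sum_emb x.iO]
    have h0 : ∑ y : {y // y ∉ Set.range x.iO}, H'.obs (u ∘ x.e) y.1 ^ 2 = 0 := by
      refine Finset.sum_eq_zero fun y _ => ?_
      have : H'.obs (u ∘ x.e) y.1 = 0 := by
        unfold HLaw.obs
        refine Finset.sum_eq_zero fun v _ => ?_
        by_cases hv : x.e v ∈ A
        · rw [Function.comp_apply, hu _ hv, mul_zero]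
        · rw [x.newO y.1 y.2 v hv, zero_mul]
      rw [this]
      norm_num
    rw [h0, add_zero]
    exact Finset.sum_congr rfl fun o _ => by rw [pn_pot_ext_obs]

/-- **L-PP-A5** (~150 l.).  MORE PRECISION INSIDE `A` DOES NOT HELP TESTS CARRIED FAR FROM `A`.   `v` = optimiser of `h` for `H` under `P₀` (`pl_Gf_opt`), `V = gVar h = ⟨h,v⟩ = form v`;  `u = χ v` vanishes on `A` and on `P₀`, `⟨h,u⟩ = ⟨h,v⟩`;
`form' (u ∘ e) = form u` (new bonds have both ends in `A`, new rows are carried by `A`: split the sums along `x.iE`, `x.iO`: `T32.pn_sum_emb`) `≤ C form v`;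
`gVar' (h ∘ e) ≥ 2 t ⟨h,u⟩ - t² form' (u ∘ e)` (`pl_le_gVar`, admissibility from `plPD`, which passes to `H'`: `pn_pot_ext_PD`) with `t = 1/C`:  `≥ V / C`.   (`V = 0`: trivial, `pl_gVar_nonneg`.) -/
theorem pn_pot_ext_cost {G' : HGraph} {H' : HLaw G'} {A : Set G.V} (x : T32.Ext H H' A) {a : ℝ} (ha : 0 < a) {P₀ : Set G.V} (hPD : plPD H P₀)
    {C : ℝ} (hC : 1 ≤ C) (χ : G.V → ℝ) (hχ : ∀ v ∈ A, χ v = 0) (hf : ∀ v : G.V → ℝ, (∀ y ∈ P₀, v y = 0) → H.form a (χ * v) ≤ C * H.form a v)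
    (h : G.V → ℝ) (hh : ∀ y, h y ≠ 0 → y ∈ P₀ ∨ χ y = 1) :
    (plPin H P₀).gVar a h ≤ C * (plPin H' (x.e ⁻¹' P₀)).gVar a (h ∘ x.e) := by
  obtain ⟨v, hv⟩ : ∃ v, v = plGf H a P₀ h := ⟨_, rfl⟩
  have hopt : plIsOpt (plPin H P₀) a h v := by rw [hv]; exact pl_Gf_opt H ha hPD h
  have hv0 : ∀ y ∈ P₀, v y = 0 := (pl_mem_rspan_pin H P₀ v).1 hopt.1
  have hV1 := pl_gVar_eq_form (plPin H P₀) ha hopt
  have hV2 := pl_gVar_eq_pair (plPin H P₀) ha hopt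
  rw [pl_pin_form] at hV1
  obtain ⟨V, hV⟩ : ∃ V, V = (plPin H P₀).gVar a h := ⟨_, rfl⟩
  rw [← hV] at hV1 hV2 ⊢
  have hV0 : 0 ≤ V := by rw [hV1]; exact pl_form_nonneg H ha v
  have huA : ∀ y ∈ A, (χ * v) y = 0 := fun y hy => by rw [Pi.mul_apply, hχ y hy, zero_mul]
  have huP : ∀ y ∈ P₀, (χ * v) y = 0 := fun y hy => by rw [Pi.mul_apply, hv0 y hy, mul_zero]
  have hpair : HLaw.pair h (χ * v) = V := by
    rw [hV2]
    unfold HLaw.pair
    refine Finset.sum_congr rfl fun y _ => ?_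
    by_cases h0 : h y = 0
    · rw [h0, zero_mul, zero_mul]
    · rcases hh y h0 with h1 | h1
      · rw [huP y h1, hv0 y h1]
      · rw [Pi.mul_apply, h1, one_mul]
  have hform : H'.form a ((χ * v) ∘ x.e) ≤ C * V := by
    rw [pn_pot_ext_form H x a _ huA, hV1]
    exact hf v hv0
  have hpair' : HLaw.pair (h ∘ x.e) ((χ * v) ∘ x.e) = V := by
    rw [← hpair]
    unfold HLaw.pair
    exact Equiv.sum_comp x.e fun y => h y * (χ * v) y
  have hmem : (χ * v) ∘ x.e ∈ (plPin H' (x.e ⁻¹' P₀)).rspan :=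
    (pl_mem_rspan_pin H' _ _).2 fun y hy => huP _ hy
  have hC0 : 0 < C := by linarith
  have key := pl_le_gVar (plPin H' (x.e ⁻¹' P₀)) ha (pl_adm_of_PD H' (pn_pot_ext_PD x hPD) (h ∘ x.e))
    ((plPin H' (x.e ⁻¹' P₀)).rspan.smul_mem C⁻¹ hmem)
  rw [pl_pair_smul_right, pl_form_smul, pl_pin_form, hpair'] at key
  have h3 : C⁻¹ ^ 2 * H'.form a ((χ * v) ∘ x.e) ≤ C⁻¹ ^ 2 * (C * V) := mul_le_mul_of_nonneg_left hform (by positivity)
  have h4 : C⁻¹ ^ 2 * (C * V) = C⁻¹ * V := by field_simp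
  have h5 : C⁻¹ * V ≤ (plPin H' (x.e ⁻¹' P₀)).gVar a (h ∘ x.e) := by linarith
  have h6 : C * (C⁻¹ * V) ≤ C * (plPin H' (x.e ⁻¹' P₀)).gVar a (h ∘ x.e) := mul_le_mul_of_nonneg_left h5 hC0.le
  rwa [← mul_assoc, mul_inv_cancel₀ hC0.ne', one_mul] at h6

/-- a sequence which is eventually bounded is bounded -/
theorem pn_pot_ev_bdd {f : ℕ → ℝ} {C : ℝ} (h : ∀ᶠ k in atTop, f k ≤ C) : ∃ C' : ℝ, ∀ k, f k ≤ C' := by
  obtain ⟨k₀, hk₀⟩ := eventually_atTop.1 h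
  obtain ⟨M, hM⟩ := ((Finset.range k₀).image f).exists_le
  refine ⟨max C M, fun k => ?_⟩
  by_cases hk : k₀ ≤ k
  · exact (hk₀ k hk).trans (le_max_left _ _)
  · exact (hM (f k) (Finset.mem_image_of_mem f (Finset.mem_range.2 (not_le.1 hk)))).trans (le_max_right _ _)

end Abs

/-! ## 1. Coercivity (P5) -/

/-- uniform coercivity of the laws of a geometry with fixed rows, from real properness on ONE grid -/
theorem pn_pot_coer (Γ : CGeom m₁ m₂) {N : ℕ} (row : Fin N → Cell m₁ m₂ → ℝ) (K : ℕ) {a : ℝ} (ha : 0 < a) (g₀ : DGrid m₁ m₂)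
    (hPD : plPD (lawR Γ g₀ row) (Γ.sites g₀ Γ.pin)) :
    ∃ C : ℝ, 0 ≤ C ∧ ∀ (g : DGrid m₁ m₂) (ν : ℕ), 1 ≤ ν → g.SideGe ν → g.SideLe (K * ν) → ∀ v : (Γ.graph g).V → ℝ,
      (∀ x ∈ Γ.sites g Γ.pin, v x = 0) → ∑ x, v x ^ 2 ≤ C * (ν : ℝ) ^ 2 * (lawR Γ g row).form a v := by
  have hdef := ps_coarse_def Γ g₀ (lawR Γ g₀ row) row (fun _ _ => rfl) Γ.pin hPD
  obtain ⟨c₀, hc0, hc⟩ := ps_coarse_coer Γ Γ.pin row hdef
  obtain ⟨C, hC0, hC⟩ := ps_coer K ha hc0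
  exact ⟨C, hC0, fun g ν h1 h2 h3 v hv => hC m₁ m₂ Γ g ν h1 h2 h3 (lawR Γ g row) row (fun _ _ => rfl) Γ.pin hc v hv⟩

/-- **L-PP-B1** (~120 l.).  Tests with bounded densities have bounded reference variances:  `ps_gVar_le_coer`, `∑_x f² ≤ |D| Cf²/ν⁴`, `|D| ≤ m₁ m₂ K² ν²` (`pn_pg_region_card_le`; `Fintype.card` of the vertices `= (g.region Γ.T).card`). -/
theorem pn_pot_var_le (Γ : CGeom m₁ m₂) (g : DGrid m₁ m₂) {ν K : ℕ} (h1 : 1 ≤ ν) (hK : g.SideLe (K * ν)) (H : HLaw (Γ.graph g)) {a : ℝ} (ha : 0 < a)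
    {P : Set (Γ.graph g).V} {Cc : ℝ} (hCc : 0 ≤ Cc) (hco : ∀ v : (Γ.graph g).V → ℝ, (∀ x ∈ P, v x = 0) → ∑ x, v x ^ 2 ≤ Cc * (ν : ℝ) ^ 2 * H.form a v)
    (f : (Γ.graph g).V → ℝ) {Cf : ℝ} (hf : ∀ x, |f x| ≤ Cf / (ν : ℝ) ^ 2) :
    (plPin H P).gVar a f ≤ Cc * ((m₁ * m₂ : ℕ) * (K : ℝ) ^ 2) * Cf ^ 2 := by
  have hν : (0 : ℝ) < ν := by exact_mod_cast h1
  have h0 := ps_gVar_le_coer H ha (P := P) (C := Cc * (ν : ℝ) ^ 2) (by positivity) hco f
  refine h0.trans ?_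
  have hcard : (Fintype.card (Γ.graph g).V : ℝ) ≤ (m₁ * m₂ : ℕ) * ((K * ν : ℕ) : ℝ) ^ 2 := by
    have e : Fintype.card (Γ.graph g).V = (g.region Γ.T).card :=
      Fintype.card_of_subtype (g.region Γ.T) (fun _ => Iff.rfl)
    rw [e]
    exact pn_pg_region_card_le g Γ.T hK
  have hsum : ∑ x, f x ^ 2 ≤ (Fintype.card (Γ.graph g).V : ℝ) * (Cf / (ν : ℝ) ^ 2) ^ 2 := by
    calc ∑ x, f x ^ 2 ≤ ∑ _x : (Γ.graph g).V, (Cf / (ν : ℝ) ^ 2) ^ 2 := Finset.sum_le_sum fun x _ => by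
          rw [← sq_abs]
          exact pow_le_pow_left₀ (abs_nonneg _) (hf x) 2
      _ = _ := by rw [Finset.sum_const, Finset.card_univ, nsmul_eq_mul]
  calc Cc * (ν : ℝ) ^ 2 * ∑ x, f x ^ 2
      ≤ Cc * (ν : ℝ) ^ 2 * (((m₁ * m₂ : ℕ) : ℝ) * ((K * ν : ℕ) : ℝ) ^ 2 * (Cf / (ν : ℝ) ^ 2) ^ 2) := by
        refine mul_le_mul_of_nonneg_left (hsum.trans ?_) (by positivity)
        exact mul_le_mul_of_nonneg_right hcard (sq_nonneg _)
    _ = Cc * ((m₁ * m₂ : ℕ) * (K : ℝ) ^ 2) * Cf ^ 2 := by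
        push_cast
        field_simp

/-- **L-PP-B2** (~200 l.).  THE CUTOFF COSTS A BOUNDED FACTOR (any `D`, `cut`; the grid only defines the cutoff).   `χ = psFarZ g J ν`, `0 ≤ χ ≤ 1` (`ps_farZ_mem`), `|∇_e χ| ≤ 3/ν` (`ps_farZ_lip`, `ps_fz_snd`).
`∇(χ v) = χ(tgt) ∇v + v(src) ∇χ`:  `en (χ v) ≤ 2 en v + 2 (9/ν²) ∑_e v(src e)²`, every vertex is the source of at most two edges (`ps_sum_src`/`ps_deg4` give `4`);
`obs (χ v) o ² ≤ (∑_x B o x²)(∑_x v²)` (Cauchy-Schwarz);  then `hco`. -/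
theorem pn_pot_cutoff {D : Finset (ℤ × ℤ)} {cut : Set Bond} (g : DGrid n₁ n₂) (J : Finset (Cell n₁ n₂)) {ν : ℕ} (h1 : 1 ≤ ν) (H : HLaw (domG D cut))
    {a : ℝ} (ha : 0 < a) {CB Cc : ℝ} (hCB : ∑ o, ∑ x, H.B o x ^ 2 ≤ CB / (ν : ℝ) ^ 2) {P : Set (domG D cut).V}
    (hco : ∀ v : (domG D cut).V → ℝ, (∀ x ∈ P, v x = 0) → ∑ x, v x ^ 2 ≤ Cc * (ν : ℝ) ^ 2 * H.form a v)
    (v : (domG D cut).V → ℝ) (hv : ∀ x ∈ P, v x = 0) :
    H.form a (domFn (psFarZ g J ν) * v) ≤ (2 + (72 / a + CB) * Cc) * H.form a v := by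
  have hν : (0 : ℝ) < ν := by exact_mod_cast h1
  set χ : (domG D cut).V → ℝ := domFn (psFarZ g J ν) with hχ
  have hχ01 : ∀ x, 0 ≤ χ x ∧ χ x ≤ 1 := fun x => ps_farZ_mem g J ν _
  have hgrad : ∀ e : (domG D cut).E, |χ ((domG D cut).tgt e) - χ ((domG D cut).src e)| ≤ 3 / (ν : ℝ) := by
    intro e
    have h2 := ps_farZ_lip g J ν h1 (domBond e).snd (domBond e).1
    obtain ⟨a1, a2, a3, a4⟩ := ps_fz_snd (domBond e)
    refine le_trans h2 ?_
    have h3 : max |(((domBond e).snd.1 - (domBond e).1.1 : ℤ) : ℝ)| |(((domBond e).snd.2 - (domBond e).1.2 : ℤ) : ℝ)| ≤ 1 := by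
      apply max_le
      · rw [← Int.cast_abs]
        have : |(domBond e).snd.1 - (domBond e).1.1| ≤ 1 := abs_le.2 ⟨by omega, by omega⟩
        exact_mod_cast this
      · rw [← Int.cast_abs]
        have : |(domBond e).snd.2 - (domBond e).1.2| ≤ 1 := abs_le.2 ⟨by omega, by omega⟩
        exact_mod_cast this
    calc 3 / (ν : ℝ) * _ ≤ 3 / (ν : ℝ) * 1 := mul_le_mul_of_nonneg_left h3 (by positivity)
      _ = 3 / (ν : ℝ) := mul_one _
  set S : ℝ := ∑ x, v x ^ 2 with hS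
  have hS0 : 0 ≤ S := Finset.sum_nonneg fun _ _ => sq_nonneg _
  have hSle := hco v hv
  -- the energy
  have hsrc : ∑ e : (domG D cut).E, v ((domG D cut).src e) ^ 2 ≤ 4 * S := by
    rw [ps_sum_src (G := domG D cut) (fun x => v x ^ 2), hS, Finset.mul_sum]
    refine Finset.sum_le_sum fun x _ => mul_le_mul_of_nonneg_right ?_ (sq_nonneg _)
    have := ps_deg4 D cut x
    have h4 : (Finset.univ.filter fun e : (domG D cut).E => (domG D cut).src e = x).card ≤ 4 := by omega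
    exact_mod_cast h4
  have hen : HLaw.en (χ * v) 0 ≤ 2 * HLaw.en v 0 + 72 / (ν : ℝ) ^ 2 * S := by
    have hpt : ∀ e : (domG D cut).E, ((χ * v) ((domG D cut).tgt e) - (χ * v) ((domG D cut).src e) + (0 : (domG D cut).E → ℝ) e) ^ 2
        ≤ 2 * (v ((domG D cut).tgt e) - v ((domG D cut).src e) + (0 : (domG D cut).E → ℝ) e) ^ 2
          + 18 / (ν : ℝ) ^ 2 * v ((domG D cut).src e) ^ 2 := by
      intro e
      simp only [Pi.mul_apply, Pi.zero_apply, add_zero]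
      set ct := χ ((domG D cut).tgt e)
      set cs := χ ((domG D cut).src e)
      set vt := v ((domG D cut).tgt e)
      set vs := v ((domG D cut).src e)
      have e1 : ct * vt - cs * vs = ct * (vt - vs) + vs * (ct - cs) := by ring
      have b1 : (ct * (vt - vs)) ^ 2 ≤ (vt - vs) ^ 2 := by
        rw [mul_pow]
        have : ct ^ 2 ≤ 1 := pow_le_one₀ (hχ01 _).1 (hχ01 _).2
        nlinarith [sq_nonneg (vt - vs)]
      have b2 : (vs * (ct - cs)) ^ 2 ≤ 9 / (ν : ℝ) ^ 2 * vs ^ 2 := by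
        rw [mul_pow]
        have : (ct - cs) ^ 2 ≤ (3 / (ν : ℝ)) ^ 2 := by
          rw [← sq_abs]
          exact pow_le_pow_left₀ (abs_nonneg _) (hgrad e) 2
        have e2 : (3 / (ν : ℝ)) ^ 2 = 9 / (ν : ℝ) ^ 2 := by rw [div_pow]; norm_num
        rw [e2] at this
        nlinarith [sq_nonneg vs]
      rw [e1]
      have b3 : (ct * (vt - vs) + vs * (ct - cs)) ^ 2 ≤ 2 * (ct * (vt - vs)) ^ 2 + 2 * (vs * (ct - cs)) ^ 2 := by
        nlinarith [sq_nonneg (ct * (vt - vs) - vs * (ct - cs))]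
      have e3 : 18 / (ν : ℝ) ^ 2 * vs ^ 2 = 2 * (9 / (ν : ℝ) ^ 2 * vs ^ 2) := by ring
      rw [e3]
      linarith
    unfold HLaw.en
    refine (Finset.sum_le_sum fun e _ => hpt e).trans ?_
    rw [Finset.sum_add_distrib, ← Finset.mul_sum, ← Finset.mul_sum]
    have : 18 / (ν : ℝ) ^ 2 * ∑ e : (domG D cut).E, v ((domG D cut).src e) ^ 2 ≤ 18 / (ν : ℝ) ^ 2 * (4 * S) :=
      mul_le_mul_of_nonneg_left hsrc (by positivity)
    have e4 : 18 / (ν : ℝ) ^ 2 * (4 * S) = 72 / (ν : ℝ) ^ 2 * S := by ring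
    linarith
  -- the rows
  have hobs : ∑ o, H.obs (χ * v) o ^ 2 ≤ CB / (ν : ℝ) ^ 2 * S := by
    have hpt : ∀ o, H.obs (χ * v) o ^ 2 ≤ (∑ x, H.B o x ^ 2) * S := by
      intro o
      unfold HLaw.obs
      refine (Finset.sum_mul_sq_le_sq_mul_sq _ _ _).trans (mul_le_mul_of_nonneg_left ?_ (Finset.sum_nonneg fun _ _ => sq_nonneg _))
      refine Finset.sum_le_sum fun x _ => ?_
      simp only [Pi.mul_apply, mul_pow]
      have : χ x ^ 2 ≤ 1 := pow_le_one₀ (hχ01 _).1 (hχ01 _).2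
      nlinarith [sq_nonneg (v x)]
    refine (Finset.sum_le_sum fun o _ => hpt o).trans ?_
    rw [← Finset.sum_mul]
    exact mul_le_mul_of_nonneg_right hCB hS0
  have hCB0 : 0 ≤ CB := by
    have h5 : 0 ≤ CB / (ν : ℝ) ^ 2 := le_trans (Finset.sum_nonneg fun _ _ => Finset.sum_nonneg fun _ _ => sq_nonneg _) hCB
    have h6 : CB = CB / (ν : ℝ) ^ 2 * (ν : ℝ) ^ 2 := by field_simp
    rw [h6]
    positivity
  have hF : H.form a v = a⁻¹ * HLaw.en v 0 + ∑ o, H.obs v o ^ 2 := rfl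
  have hF' : H.form a (χ * v) = a⁻¹ * HLaw.en (χ * v) 0 + ∑ o, H.obs (χ * v) o ^ 2 := rfl
  have hob0 : 0 ≤ ∑ o, H.obs v o ^ 2 := Finset.sum_nonneg fun _ _ => sq_nonneg _
  have ha' : 0 < a⁻¹ := inv_pos.2 ha
  have k1 : a⁻¹ * HLaw.en (χ * v) 0 ≤ a⁻¹ * (2 * HLaw.en v 0 + 72 / (ν : ℝ) ^ 2 * S) := mul_le_mul_of_nonneg_left hen ha'.le
  have k2 : (72 / a + CB) / (ν : ℝ) ^ 2 * S ≤ (72 / a + CB) / (ν : ℝ) ^ 2 * (Cc * (ν : ℝ) ^ 2 * H.form a v) :=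
    mul_le_mul_of_nonneg_left hSle (by positivity)
  have k3 : (72 / a + CB) / (ν : ℝ) ^ 2 * (Cc * (ν : ℝ) ^ 2 * H.form a v) = (72 / a + CB) * Cc * H.form a v := by
    field_simp
  have k4 : a⁻¹ * (2 * HLaw.en v 0 + 72 / (ν : ℝ) ^ 2 * S) + CB / (ν : ℝ) ^ 2 * S
      = 2 * (a⁻¹ * HLaw.en v 0) + (72 / a + CB) / (ν : ℝ) ^ 2 * S := by
    field_simp
    ring
  rw [hF']
  have k5 : 2 * (a⁻¹ * HLaw.en v 0) ≤ 2 * H.form a v := by rw [hF]; linarith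
  calc a⁻¹ * HLaw.en (χ * v) 0 + ∑ o, H.obs (χ * v) o ^ 2
      ≤ a⁻¹ * (2 * HLaw.en v 0 + 72 / (ν : ℝ) ^ 2 * S) + CB / (ν : ℝ) ^ 2 * S := add_le_add k1 hobs
    _ = 2 * (a⁻¹ * HLaw.en v 0) + (72 / a + CB) / (ν : ℝ) ^ 2 * S := k4
    _ ≤ 2 * H.form a v + (72 / a + CB) * Cc * H.form a v := by rw [← k3]; exact add_le_add k5 k2
    _ = _ := by ring

/-! ## 2. Bounded interaction of separated pins (P4, P6) -/

/-- **L-PP-C1** (~250 l.).  ONE GRID.   `g₂ = sbG 2 g` (`pn_sb_ok`, `pn_sb_refines`), `ν₂ = ν / 2 ≥ 3`, `ν ≤ 3 ν₂`, `g₂.SideGe ν₂`, `g₂.SideLe ((2K+1) ν₂)` (`Sec.sec_gr_div_gap` as in `pn_sb_adm1`, or `pn_sb_adm` for the constant sequence);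
chart `pn_pg_chart`, layers `pn_pg_lay (S23.refine 2 Γ) (S23.fine 2 X) 0`, `pn_pg_far` with `pn_pg_sep_ball` (`j = 2 ≤ r = 2`), `pn_pg_sub_ball`, `pn_pg_sites`, `pn_pg_sitesD_mono`, `pn_pg_sitesD_notMem`;
`ps_pin_bdd_chart` with `A := Γ.sites g Y`, `p := Γ.sites g X`, `CB = ∑ row²` (`pn_pg_row_l2`, `ν₂ ≤ ν`), `Cc := 9 Cc`;  cards `≤ (2 m₁)(2 m₂)`, `Fintype.card (Fin N) = N`. -/
theorem pn_pot_trace (Γ : CGeom m₁ m₂) {N : ℕ} (row : Fin N → Cell m₁ m₂ → ℝ) (K : ℕ) {a : ℝ} (ha : 0 < a) (X Y : Finset (Cell m₁ m₂))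
    (hsep : C3.Sep X Y) {Cc : ℝ} (hCc : 0 ≤ Cc) :
    ∃ C : ℝ, ∀ (g : DGrid m₁ m₂) (ν : ℕ), 6 ≤ ν → g.SideGe ν → g.SideLe (K * ν) →
      (∀ v : (Γ.graph g).V → ℝ, (∀ x ∈ Γ.sites g Γ.pin, v x = 0) → ∑ x, v x ^ 2 ≤ Cc * (ν : ℝ) ^ 2 * (lawR Γ g row).form a v) →
      ∀ (n : ℕ) (u : Fin n → (Γ.graph g).V → ℝ), psON (lawR Γ g row) a (Γ.sites g Γ.pin) (Γ.sites g Γ.pin ∪ Γ.sites g Y) u →
        ∑ j, plGap (lawR Γ g row) a (Γ.sites g Γ.pin ∪ Γ.sites g Y) (Γ.sites g X) (u j) ≤ C := by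
  set CB : ℝ := ∑ o, ∑ κ, row o κ ^ 2 with hCBdef
  have hCB0 : 0 ≤ CB := Finset.sum_nonneg fun _ _ => Finset.sum_nonneg fun _ _ => sq_nonneg _
  set Q : ℝ := 4 / 3 * (9 * Cc) + 16 / 3 * (4 * ((2 * K + 1 : ℕ) : ℝ) ^ 4 * a * (18 + a * CB)) with hQ
  have hQ0 : 0 ≤ Q := by positivity
  refine ⟨18 / a * ((((2 * m₁) * (2 * m₂) + N : ℕ) : ℝ) * Q) + 2 * (9 * Cc) * CB, ?_⟩
  intro g ν h6 h1 h2 hco n u hu
  have hok : sbOK 2 g := pn_sb_ok (by norm_num) (pn_sb_sideGe_mono (by omega) h1)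
  have href : S23.Refines 2 (sbG 2 g) g := pn_sb_refines (by norm_num) hok
  obtain ⟨ν₂, hν₂⟩ : ∃ ν₂ : ℕ, ν₂ = sbNu 2 ν := ⟨_, rfl⟩
  have hν₂' : ν₂ = ν / 2 := by
    rw [hν₂]
    unfold sbNu
    rw [if_pos (by omega)]
  have h3 : 3 ≤ ν₂ := by omega
  have hle : ν₂ ≤ ν := by omega
  have hle3 : ν ≤ 3 * ν₂ := by omega
  have A1 := pn_sb_adm1 (r := 2) (by norm_num) g.x₁ hok.1 K ν h1.1 h2.1
  have B1 := pn_sb_adm1 (r := 2) (by norm_num) g.x₂ hok.2 K ν h1.2 h2.2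
  rw [← hν₂] at A1 B1
  have hge : (sbG 2 g).SideGe ν₂ := by
    refine ⟨fun i => ?_, fun j => ?_⟩
    · rw [pn_sb_x₁ hok, pn_sb_x₁ hok]
      exact (A1 i).1
    · rw [pn_sb_x₂ hok, pn_sb_x₂ hok]
      exact (B1 j).1
  have hleS : (sbG 2 g).SideLe ((2 * K + 1) * ν₂) := by
    refine ⟨fun i => ?_, fun j => ?_⟩
    · rw [pn_sb_x₁ hok, pn_sb_x₁ hok]
      exact (A1 i).2
    · rw [pn_sb_x₂ hok, pn_sb_x₂ hok]
      exact (B1 j).2
  have hν0 : (0 : ℝ) < ν := by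
    have : 0 < ν := by omega
    exact_mod_cast this
  have hν₂0 : (0 : ℝ) < ν₂ := by
    have : 0 < ν₂ := by omega
    exact_mod_cast this
  have hleR : (ν₂ : ℝ) ≤ ν := by exact_mod_cast hle
  have hle3R : (ν : ℝ) ≤ 3 * ν₂ := by exact_mod_cast hle3
  have hCB : ∑ o, ∑ x, (lawR Γ g row).B o x ^ 2 ≤ CB / (ν₂ : ℝ) ^ 2 := by
    refine (pn_pg_row_l2 Γ g row (by omega) h1).trans ?_
    exact div_le_div_of_nonneg_left hCB0 (by positivity) (pow_le_pow_left₀ hν₂0.le hleR 2)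
  have hco' : ∀ v : (Γ.graph g).V → ℝ, (∀ x ∈ Γ.sites g Γ.pin, v x = 0) →
      ∑ x, v x ^ 2 ≤ 9 * Cc * (ν₂ : ℝ) ^ 2 * (lawR Γ g row).form a v := by
    intro v hv
    refine (hco v hv).trans ?_
    refine mul_le_mul_of_nonneg_right ?_ (pl_form_nonneg _ ha v)
    have : (ν : ℝ) ^ 2 ≤ (3 * ν₂) ^ 2 := pow_le_pow_left₀ hν0.le hle3R 2
    nlinarith
  have hfar := pn_pg_far (S23.refine 2 Γ) (S23.fine 2 X) 0 (A := S23.fine 2 Y)
    (pn_pg_sep_ball (pn_pg_sep_symm hsep) (r := 2) (j := 0 + 2) le_rfl)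
  have hp : Γ.sites g X ⊆ psSitesD (D := g.region Γ.T) (cut := Γ.cutB g) (sbG 2 g) (shBall (S23.fine 2 X) 0) := by
    rw [← pn_pg_sites href Γ X]
    exact pn_pg_sitesD_mono _ (pn_pg_sub_ball _ 0)
  have hA : ∀ x ∈ Γ.sites g Y, x ∈ psSitesD (D := g.region Γ.T) (cut := Γ.cutB g) (sbG 2 g) (pgOut (S23.fine 2 X) 0) ∧
      x ∉ psSitesD (D := g.region Γ.T) (cut := Γ.cutB g) (sbG 2 g)
        (pgKb (S23.refine 2 Γ) (S23.fine 2 X) 0 ∪ psShell (S23.refine 2 Γ) (pgKb (S23.refine 2 Γ) (S23.fine 2 X) 0)) := by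
    intro x hx
    rw [← pn_pg_sites href Γ Y] at hx
    exact ⟨pn_pg_sitesD_mono _ hfar.1 hx, pn_pg_sitesD_notMem _ hfar.2 hx⟩
  have key := ps_pin_bdd_chart (pn_pg_chart href Γ) (pn_pg_lay (S23.refine 2 Γ) (S23.fine 2 X) 0) h3 hge hleS
    (lawR Γ g row) hCB ha (P := Γ.sites g Γ.pin) (A := Γ.sites g Y) (p := Γ.sites g X) (Cc := 9 * Cc) (by positivity) hco' hp hA hu
  refine key.trans ?_
  have hcard : (pgKb (S23.refine 2 Γ) (S23.fine 2 X) 0 ∪ psShell (S23.refine 2 Γ) (pgKb (S23.refine 2 Γ) (S23.fine 2 X) 0)).card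
      + Fintype.card (lawR Γ g row).O ≤ (2 * m₁) * (2 * m₂) + N := by
    have c1 : (pgKb (S23.refine 2 Γ) (S23.fine 2 X) 0 ∪ psShell (S23.refine 2 Γ) (pgKb (S23.refine 2 Γ) (S23.fine 2 X) 0)).card
        ≤ (2 * m₁) * (2 * m₂) := by
      refine (Finset.card_le_univ _).trans (le_of_eq ?_)
      rw [Fintype.card_prod, Fintype.card_fin, Fintype.card_fin]
    have c2 : Fintype.card (lawR Γ g row).O = N := Fintype.card_fin N
    omega
  have hcardR : (((pgKb (S23.refine 2 Γ) (S23.fine 2 X) 0 ∪ psShell (S23.refine 2 Γ) (pgKb (S23.refine 2 Γ) (S23.fine 2 X) 0)).card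
      + Fintype.card (lawR Γ g row).O : ℕ) : ℝ) ≤ (((2 * m₁) * (2 * m₂) + N : ℕ) : ℝ) := by exact_mod_cast hcard
  exact add_le_add (mul_le_mul_of_nonneg_left (mul_le_mul_of_nonneg_right hcardR hQ0) (show 0 ≤ 18 / a by positivity)) le_rfl

/-- **`Two.In.gapB`** -/
theorem pn_pot_gapB (Γ : CGeom m₁ m₂) {N : ℕ} (row : Fin N → Cell m₁ m₂ → ℝ) (K : ℕ) (g : ℕ → DGrid m₁ m₂) (ν : ℕ → ℕ) (hg : Admissible K g ν)
    {a : ℝ} (ha : 0 < a) (hPD : ∀ k, plPD (lawR Γ (g k) row) (Γ.sites (g k) Γ.pin)) (A p : Finset (Cell m₁ m₂)) (hsep : C3.Sep A p) :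
    ∃ C : ℝ, ∀ k, ∫ φ, plGap (lawR Γ (g k) row) a (Γ.sites (g k) Γ.pin ∪ Γ.sites (g k) p) (Γ.sites (g k) A) φ
      ∂(plMeas (lawR Γ (g k) row) a (Γ.sites (g k) Γ.pin)) ≤ C := by
  obtain ⟨Cc, hCc, hco⟩ := pn_pot_coer Γ row K ha (g 0) (hPD 0)
  obtain ⟨C, hC⟩ := pn_pot_trace Γ row K ha A p hsep hCc
  refine pn_pot_ev_bdd (C := C) ?_
  filter_upwards [hg.1.eventually_ge_atTop 6] with k hk
  exact ps_gap_mean_le _ ha (hPD k) _ _ fun n u hu =>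
    hC (g k) (ν k) hk (hg.2 k).1 (hg.2 k).2 (hco (g k) (ν k) (by omega) (hg.2 k).1 (hg.2 k).2) n u hu

/-- the Gaussian pin interaction of separated pins is bounded -/
theorem pn_pot_gPin_bdd (Γ : CGeom m₁ m₂) {N : ℕ} (row : Fin N → Cell m₁ m₂ → ℝ) (K : ℕ) (g : ℕ → DGrid m₁ m₂) (ν : ℕ → ℕ) (hg : Admissible K g ν)
    {a : ℝ} (ha : 0 < a) (hPD : ∀ k, plPD (lawR Γ (g k) row) (Γ.sites (g k) Γ.pin)) (A p : Finset (Cell m₁ m₂)) (hsep : C3.Sep A p) :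
    ∃ C : ℝ, ∀ k, (lawR Γ (g k) row).gPin a (Γ.sites (g k) Γ.pin) (Γ.sites (g k) A) (Γ.sites (g k) p) ≤ C := by
  obtain ⟨Cc, hCc, hco⟩ := pn_pot_coer Γ row K ha (g 0) (hPD 0)
  obtain ⟨C, hC⟩ := pn_pot_trace Γ row K ha p A (pn_pg_sep_symm hsep) hCc
  refine pn_pot_ev_bdd (C := C / 2) ?_
  filter_upwards [hg.1.eventually_ge_atTop 6] with k hk
  have hdis : Disjoint A p := by
    rw [Finset.disjoint_left]
    intro κ h1 h2
    have := hsep κ h1 κ h2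
    omega
  refine ps_gPin_le_trace _ ha (hPD k) _ _ ?_ fun n u hu =>
    hC (g k) (ν k) hk (hg.2 k).1 (hg.2 k).2 (hco (g k) (ν k) (by omega) (hg.2 k).1 (hg.2 k).2) n u hu
  rw [pn_pg_sites_disj Γ (g k) hdis]
  exact Set.empty_subset _

/-! ## 3. Balayage (P1) -/

/-- one grid, any law with bounded row densities -/
theorem pn_pot_bal_one (Γ : CGeom m₁ m₂) (hΓ : Γ.NoDiag) (K : ℕ) {a : ℝ} (ha : 0 < a) (CB : ℝ) {ε : ℝ} (hε : 0 < ε) :
    ∃ lam σ : ℝ, 0 < lam ∧ 0 < σ ∧ ∀ (g : DGrid m₁ m₂) (ν : ℕ), g.SideGe ν → g.SideLe (K * ν) → ∀ H : HLaw (Γ.graph g),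
    (∀ x, ∑ o, H.B o x ^ 2 ≤ CB / (ν : ℝ) ^ 4) → ∀ p : Finset (Cell m₁ m₂), p ⊆ Γ.T → ∀ P : Set (Γ.graph g).V, plPD H P →
    ∀ (ι : Type) [Fintype ι] (b : ι → PsBox) (w : ι → ℝ) (s : ℕ), psIsPart g p s b → (s : ℝ) ≤ σ * ν →
    (∀ i, lam * (b i).set.card ≤ w i ^ 2 * (ν : ℝ) ^ 2) → ∀ (f : (Γ.graph g).V → ℝ) (Cf : ℝ), (∀ x, |f x| ≤ Cf / (ν : ℝ) ^ 2) →
    (plPin H P).gVar a (T32.bal H a (P ∪ Γ.sites g p) f
        - fun x => ∑ i, (∑ y, psSoft Γ g b w i y * plGf (psAdd H (psSoft Γ g b w)) a P f y) * psSoft Γ g b w i x)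
      ≤ ε * ((plPin H P).gVar a f + Cf ^ 2) := by
  obtain ⟨lam, σ, h1, h2, h⟩ := ps_soft_hard_chart Γ hΓ K ha CB hε
  refine ⟨lam, σ, h1, h2, fun g ν hg hK H hB p hp P hPD ι _ b w s hb hs hw f Cf hf => ?_⟩
  have hPD' : plPD (psAdd H (psSoft Γ g b w)) P := ps_probe_PD H (psSoft Γ g b w) hPD
  have hs' := pl_Gf_opt (psAdd H (psSoft Γ g b w)) ha hPD' f
  have hPDu : plPD H (P ∪ Γ.sites g p) := pl_PD_mono H hPD Set.subset_union_left
  have hh := pl_Gf_opt H ha hPDu f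
  have key := ps_balayage H (psSoft Γ g b w) ha hs' hh (fun i x hx => ps_soft_supp Γ g hb w i x hx)
  rw [pn_pot_bal_eq H ha hPDu f]
  have h3 := h (g.region Γ.T) (Γ.cutB g) g (psChart_self Γ g) ν hg hK H hB p hp P ι b w s hb hs hw f Cf (pl_adm_of_PD _ hPD' f) hf
  exact key.trans (h3.trans (mul_le_mul_of_nonneg_left (add_le_add_left (pn_pot_gVar_add_le H _ ha hPD f) _) hε.le))

end

end Claimed.Agent.R285.Pins
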