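import Claimed.Agent.R285.Pins.T32Glue

/-!
# ROW 285, PINS, T3.2 package.  FILE 7 (second architect helper122): ASSEMBLY of `C3.cond_transfer` and `C3.restoration_transfer` from the abstract exits of `T32Two.lean`.

* `AsOk`, `asL`, `asW` = the concrete `LSeq` / `Two` of `(Γ, g k, row)` and `(uncut Γ F, g k, row')`, guard `p`, core `A`.
* `AsIn` = ALL asymptotic inputs, for an arbitrary scale `S` of tests on the cut laws (`Two.In`, energy approximability of the cell tests);  `AsIn'` = the additional inputs on the restored laws (only `cond_transfer`).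
* `pn_as_cond` = the conclusion of `C3.cond_transfer` VERBATIM from `AsIn`, `AsIn'`;   `pn_as_rest` = the conclusion of `C3.restoration_transfer` VERBATIM from `AsIn`.
No sorry in this file.
-/

set_option autoImplicit false

namespace Claimed.Agent.R285.Pins.T32

open Filter Topology MeasureTheory
open Claimed.Agent.R285.Pot
open Claimed.Agent.R285.C3
open scoped Classical

noncomputable section

variable {m₁ m₂ : ℕ} (Γ : CGeom m₁ m₂) {N : ℕ} (row : Fin N → Cell m₁ m₂ → ℝ)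

/-- the standing hypotheses on a concrete sequence of laws -/
structure AsOk (g : ℕ → DGrid m₁ m₂) (b : ℕ → ℝ) : Prop where
  b_pos : ∀ k, 0 < b k
  b_le : ∃ b₁ : ℝ, ∀ k, b k ≤ b₁
  proper : ∀ k, (lawR Γ (g k) row).Proper
  ok : ∀ k, ((lawR Γ (g k) row).sys (b k)).Ok

theorem pn_as_ok {a : ℝ} {b : ℕ → ℝ} {ν : ℕ → ℕ} (hS : Scen a b ν) (g : ℕ → DGrid m₁ m₂)
    (hP : ∀ k, (lawR Γ (g k) row).Proper) (hOk : ∀ k, ((lawR Γ (g k) row).sys (b k)).Ok) : AsOk Γ row g b := by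
  obtain ⟨b₀, b₁, h0, h1⟩ := hS.b_cpt
  exact ⟨fun k => lt_of_lt_of_le h0 (h1 k).1, ⟨b₁, fun k => (h1 k).2⟩, hP, hOk⟩

variable {Γ row}

/-- the concrete sequence of laws -/
def asL {g : ℕ → DGrid m₁ m₂} {b : ℕ → ℝ} (h : AsOk Γ row g b) : LSeq where
  G k := Γ.graph (g k)
  H k := lawR Γ (g k) row
  b := b
  P₀ k := Γ.sites (g k) Γ.pin
  gd k := ⟨h.b_pos k, h.proper k, h.ok k⟩
  lam _ := rfl
  bmax := h.b_le.choose
  b_le := h.b_le.choose_spec

/-- the data of a restoration inside the core `A`, guard `p` -/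
structure AsRes (Γ : CGeom m₁ m₂) {N : ℕ} (row : Fin N → Cell m₁ m₂ → ℝ) (F : Finset (Cell m₁ m₂ × Bool)) {N' : ℕ}
    (row' : Fin (N + N') → Cell m₁ m₂ → ℝ) (A p : Finset (Cell m₁ m₂)) : Prop where
  dis : Disjoint A p
  face : ∀ f ∈ F, FaceIn A f
  old : ∀ o, row' (Fin.castAdd N' o) = row o
  new : ∀ o, ∀ κ ∉ A, row' (Fin.natAdd N o) κ = 0

theorem pn_rs_sep_disj {A p : Finset (Cell m₁ m₂)} (h : C3.Sep A p) : Disjoint A p := by
  rw [Finset.disjoint_left]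
  intro κ h1 h2
  have := h κ h1 κ h2
  omega

variable {F : Finset (Cell m₁ m₂ × Bool)} {N' : ℕ} {row' : Fin (N + N') → Cell m₁ m₂ → ℝ} {A p : Finset (Cell m₁ m₂)}

/-- the concrete pair (cut laws, restored laws) -/
def asW {g : ℕ → DGrid m₁ m₂} {b : ℕ → ℝ} (h : AsOk Γ row g b) (R : AsRes Γ row F row' A p) : Two where
  L := asL h
  E' k := ((uncut Γ F).graph (g k)).E
  fE' k := ((uncut Γ F).graph (g k)).fE
  src' k := ((uncut Γ F).graph (g k)).src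
  tgt' k := ((uncut Γ F).graph (g k)).tgt
  H' k := lawR (uncut Γ F) (g k) row'
  P k := Γ.sites (g k) p
  A k := Γ.sites (g k) A
  x k := extU Γ row F row' (g k) A R.face R.old R.new
  xe _ _ := rfl
  dis k := pn_gl_disj Γ (g k) R.dis

/-- sequences of cell tests with bounded coefficients -/
def asT (Γ : CGeom m₁ m₂) (g : ℕ → DGrid m₁ m₂) (t : ℕ → Cell m₁ m₂ → ℝ) : ∀ k, (Γ.graph (g k)).V → ℝ := fun k => Γ.cellTest (g k) (t k)

/-- more precision: smaller reference cost -/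
theorem pn_as_gVar_res (W : Two) (k : ℕ) (f : (W.L.G k).V → ℝ) : (W.H' k).gVar 1 f ≤ (W.L.H k).gVar 1 f := by
  refine pl_gVar_compare (W.L.H k) (W.H' k) one_pos (pn_adm W.L k _) _ id (fun v hv => ?_) (fun v _ => ?_) fun v _ => rfl
  · have e1 : (W.H' k).Λ = HLaw.pinned (W.L.P₀ k) := W.L'.lam k
    have e2 := W.L.lam k
    unfold HLaw.rspan at hv ⊢
    rw [e1] at hv
    rw [e2]
    exact hv
  · have e : v ∘ (W.x k).e = v := funext fun y => congrArg v (W.xe k y)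
    have h3 := pn_ext_form_aux (W.x k) one_pos v
    rw [e] at h3
    rw [h3]
    have : 0 ≤ ∑ j, HLaw.pair (pn_extRow (W.x k) 1 j) v ^ 2 := Finset.sum_nonneg fun j _ => sq_nonneg _
    simpa using this

theorem pn_as_bd_res (W : Two) (f : W.L.T) (h : W.L.Bd f) : W.L'.Bd f := by
  obtain ⟨C, hC⟩ := h
  exact ⟨C, fun k => (pn_as_gVar_res W k (f k)).trans (hC k)⟩

section main

variable {g : ℕ → DGrid m₁ m₂} {b : ℕ → ℝ} (h : AsOk Γ row g b) (R : AsRes Γ row F row' A p)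

/-- ALL asymptotic inputs on the CUT laws -/
structure AsIn (a : ℝ) (S : Scale (asW h R).L) : Prop where
  two : (asW h R).In a S
  /-- cell tests with bounded coefficients are energy-approximable -/
  ea : ∀ (t : ℕ → Cell m₁ m₂ → ℝ) (Tb : ℝ), (∀ k κ, |t k κ| ≤ Tb) → S.EA (asT Γ g t)

/-- the additional inputs of the transfer principle -/
structure AsIn' (a : ℝ) (S : Scale (asW h R).L) : Prop where
  /-- [C]T3.1 at every level for the RESTORED laws, without and with the guard pinned -/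
  lim' : ((asW h R).S' S).Lim a
  limP' : (((asW h R).S' S).pin (asW h R).P).Lim a
  /-- POT: the balayage of a cell test onto the guard is energy-approximable, in both topologies -/
  ea_bal : ∀ (t : ℕ → Cell m₁ m₂ → ℝ) (Tb : ℝ), (∀ k κ, |t k κ| ≤ Tb) → S.EA ((asW h R).L.bal a (asW h R).P (asT Γ g t))
  ea_bal' : ∀ (t : ℕ → Cell m₁ m₂ → ℝ) (Tb : ℝ), (∀ k κ, |t k κ| ≤ Tb) → S.EA ((asW h R).L'.bal a (asW h R).P (asT Γ g t))

/-- **L3.9, two-way transfer**: the conclusion of `C3.restoration_transfer`, verbatim. -/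
theorem pn_as_rest {a : ℝ} {S : Scale (asW h R).L} (I : AsIn h R a S)
    (tL tL' : ℕ → Cell m₁ m₂ → ℝ) (Tb : ℝ) (hL : ∀ k κ, |tL k κ| ≤ Tb) (hL' : ∀ k κ, |tL' k κ| ≤ Tb)
    (Ψ : ∀ k, ((Γ.graph (g k)).V → ℤ) → ℝ) (h01 : ∀ k h, 0 ≤ Ψ k h ∧ Ψ k h ≤ 1)
    (hloc : ∀ k h, Ψ k h = Ψ k (resZ (Γ.sites (g k) p) h)) :
    Tendsto (fun k => ExT (lawR Γ (g k) row) (b k) (Γ.cellTest (g k) (tL k)) (Ψ k)) atTop (𝓝 0) ↔
      Tendsto (fun k => ExU Γ F (g k) row' (b k) (Γ.cellTest (g k) (tL' k)) (Ψ k)) atTop (𝓝 0) := by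
  have b1 : (asW h R).L.Bd (asT Γ g tL) := pn_ea_bd S I.two.lim _ (I.ea tL Tb hL)
  have b2 : (asW h R).L'.Bd (asT Γ g tL') := pn_as_bd_res _ _ (pn_ea_bd S I.two.lim _ (I.ea tL' Tb hL'))
  have key := pn_transfer_abs (asW h R) (asT Γ g tL) I.two (asT Γ g tL') b1 b2 Ψ h01 hloc
  have e1 : (fun k => ExT (lawR Γ (g k) row) (b k) (Γ.cellTest (g k) (tL k)) (Ψ k))
      = fun k => ∫ h', Ψ k h' ∂((asW h R).L.muT (asT Γ g tL) k) :=
    funext fun k => pn_ExT_eq _ ((asW h R).L.gd k) _ _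
  have e2 : (fun k => ExU Γ F (g k) row' (b k) (Γ.cellTest (g k) (tL' k)) (Ψ k))
      = fun k => ∫ h', Ψ k h' ∂((asW h R).L'.muT (asT Γ g tL') k) :=
    funext fun k => pn_ExT_eq _ ((asW h R).L'.gd k) _ _
  rw [e1, e2]
  exact key

/-- repacking of the test function -/
def asPhi {J J' : ℕ} (Φ : (Fin J → ℝ) × (Fin J' → ℝ) × ℝ → ℝ) : (Fin J ⊕ Fin J' → ℝ) × ℝ → ℝ :=
  fun x => Φ (fun i => x.1 (Sum.inl i), fun i => x.1 (Sum.inr i), x.2)

theorem pn_as_phi_cont {J J' : ℕ} {Φ : (Fin J → ℝ) × (Fin J' → ℝ) × ℝ → ℝ} (hΦ : Continuous Φ) : Continuous (asPhi Φ) := by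
  unfold asPhi
  fun_prop

/-- **T3.2, transfer principle**: the conclusion of `C3.cond_transfer`, verbatim. -/
theorem pn_as_cond {a : ℝ} {S : Scale (asW h R).L} (I : AsIn h R a S) (I' : AsIn' h R a S)
    (top : Bool) {J J' : ℕ} (tX : Fin J → ℕ → Cell m₁ m₂ → ℝ) (tX' : Fin J' → ℕ → Cell m₁ m₂ → ℝ) (tL : ℕ → Cell m₁ m₂ → ℝ)
    (Tb : ℝ) (hX : ∀ i k κ, |tX i k κ| ≤ Tb) (hX' : ∀ i k κ, |tX' i k κ| ≤ Tb) (hL : ∀ k κ, |tL k κ| ≤ Tb)
    (Φ : (Fin J → ℝ) × (Fin J' → ℝ) × ℝ → ℝ) (hΦ : Continuous Φ) (hΦb : ∃ C, ∀ x, |Φ x| ≤ C) :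
    Tendsto (fun k =>
      (if top then ExU Γ F (g k) row' (b k) (Γ.cellTest (g k) (tL k)) else
          ExT (lawR Γ (g k) row) (b k) (Γ.cellTest (g k) (tL k)))
        (fun h => Φ (fun i => cLap (lawR Γ (g k) row) (b k) (Γ.sites (g k) p) (Γ.cellTest (g k) (tX i k)) h,
          fun i => cLapU Γ F (g k) row' (b k) (Γ.sites (g k) p) (Γ.cellTest (g k) (tX' i k)) h,
          rPin (lawR Γ (g k) row) (b k) (Γ.sites (g k) p) (Γ.sites (g k) A) h))
      - (if top then gExU Γ F (g k) row' a (Γ.sites (g k) Γ.pin) (Γ.cellTest (g k) (tL k)) else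
          gExT (lawR Γ (g k) row) a (Γ.sites (g k) Γ.pin) (Γ.cellTest (g k) (tL k)))
        (fun φ => Φ (fun i => gcLap (lawR Γ (g k) row) a (Γ.sites (g k) Γ.pin ∪ Γ.sites (g k) p) (Γ.cellTest (g k) (tX i k)) φ,
          fun i => gcLapU Γ F (g k) row' a (Γ.sites (g k) Γ.pin ∪ Γ.sites (g k) p) (Γ.cellTest (g k) (tX' i k)) φ,
          grPin (lawR Γ (g k) row) a (Γ.sites (g k) Γ.pin ∪ Γ.sites (g k) p) (Γ.sites (g k) A) φ))) atTop (𝓝 0) := by
  have ha := I.two.a_pos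
  have hΦb' : ∃ C : ℝ, ∀ x, |asPhi Φ x| ≤ C := by
    obtain ⟨C, hC⟩ := hΦb
    exact ⟨C, fun x => hC _⟩
  have aX : ∀ i, S.EA (asT Γ g (tX i)) ∧ S.EA ((asW h R).L.bal a (asW h R).P (asT Γ g (tX i))) := fun i =>
    ⟨I.ea _ Tb (hX i), I'.ea_bal _ Tb (hX i)⟩
  have aX' : ∀ i, S.EA (asT Γ g (tX' i)) ∧ S.EA ((asW h R).L'.bal a (asW h R).P (asT Γ g (tX' i))) := fun i =>
    ⟨I.ea _ Tb (hX' i), I'.ea_bal' _ Tb (hX' i)⟩
  cases top with
  | false =>
    have key := pn_ct_cut (asW h R) (fun i => asT Γ g (tX i)) (fun i => asT Γ g (tX' i)) (asT Γ g tL) I.two I'.lim' I'.limP' aX aX'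
      (I.ea _ Tb hL) (asPhi Φ) (pn_as_phi_cont hΦ) hΦb'
    refine key.congr fun k => ?_
    simp only [Bool.false_eq_true, if_false]
    have e1 := pn_ExT_eq _ ((asW h R).L.gd k) (Γ.cellTest (g k) (tL k))
      (fun h => Φ (fun i => cLap (lawR Γ (g k) row) (b k) (Γ.sites (g k) p) (Γ.cellTest (g k) (tX i k)) h,
          fun i => cLapU Γ F (g k) row' (b k) (Γ.sites (g k) p) (Γ.cellTest (g k) (tX' i k)) h,
          rPin (lawR Γ (g k) row) (b k) (Γ.sites (g k) p) (Γ.sites (g k) A) h))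
    have e2 := pn_gExT_eq _ ha (pn_pd (asW h R).L k) (Γ.cellTest (g k) (tL k))
      (fun φ => Φ (fun i => gcLap (lawR Γ (g k) row) a (Γ.sites (g k) Γ.pin ∪ Γ.sites (g k) p) (Γ.cellTest (g k) (tX i k)) φ,
          fun i => gcLapU Γ F (g k) row' a (Γ.sites (g k) Γ.pin ∪ Γ.sites (g k) p) (Γ.cellTest (g k) (tX' i k)) φ,
          grPin (lawR Γ (g k) row) a (Γ.sites (g k) Γ.pin ∪ Γ.sites (g k) p) (Γ.sites (g k) A) φ))
    exact (congrArg₂ (· - ·) e1 e2).symm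
  | true =>
    have key := pn_ct_res (asW h R) (fun i => asT Γ g (tX i)) (fun i => asT Γ g (tX' i)) (asT Γ g tL) I.two I'.lim' I'.limP' aX aX'
      (I.ea _ Tb hL) (asPhi Φ) (pn_as_phi_cont hΦ) hΦb'
    refine key.congr fun k => ?_
    simp only [if_true]
    have e1 := pn_ExT_eq _ ((asW h R).L'.gd k) (Γ.cellTest (g k) (tL k))
      (fun h => Φ (fun i => cLap (lawR Γ (g k) row) (b k) (Γ.sites (g k) p) (Γ.cellTest (g k) (tX i k)) h,
          fun i => cLapU Γ F (g k) row' (b k) (Γ.sites (g k) p) (Γ.cellTest (g k) (tX' i k)) h,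
          rPin (lawR Γ (g k) row) (b k) (Γ.sites (g k) p) (Γ.sites (g k) A) h))
    have e2 := pn_gExT_eq _ ha (pn_pd (asW h R).L' k) (Γ.cellTest (g k) (tL k))
      (fun φ => Φ (fun i => gcLap (lawR Γ (g k) row) a (Γ.sites (g k) Γ.pin ∪ Γ.sites (g k) p) (Γ.cellTest (g k) (tX i k)) φ,
          fun i => gcLapU Γ F (g k) row' a (Γ.sites (g k) Γ.pin ∪ Γ.sites (g k) p) (Γ.cellTest (g k) (tX' i k)) φ,
          grPin (lawR Γ (g k) row) a (Γ.sites (g k) Γ.pin ∪ Γ.sites (g k) p) (Γ.sites (g k) A) φ))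
    exact (congrArg₂ (· - ·) e1 e2).symm

end main

end

end Claimed.Agent.R285.Pins.T32
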