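import Claimed.Agent.R285.Pins.T32Gau
import Claimed.Agent.R285.Pins.T31Law

/-!
# ROW 285, PINS, T3.2 package (architect helper178).  FILE 4: SEQUENCES OF LAWS (one topology).   PAPER-FREE.

`LSeq` = a sequence of finite laws with coordinate pins (any graphs).  The ONLY asymptotic input is `GLap`: "log-Laplace transform minus half the reference variance tends to 0", for a class of test sequences
(`Scale.Lim` = [C]T3.1 for level-`r` cell tests; `Scale.EA` = energy-approximable tests).  Everything else (characteristic coefficients, conditional Laplace transforms at typical data, the pin ratio) is DERIVED here.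
  Step B `pn_stepB`   : conditional log-Laplace transform = reference predictor + half the conditional reference variance, in probability.
  Step A `pn_stepA`   : conditional characters, exact `L²` inequality.
  Step C `pn_stepC*`  : soft probes through the Fourier representation;  `pn_probe_gap`, `pn_r_near`: the hard pin ratio by the `L¹` squeeze `r ≤ R_Q ≤ 1`.
  `pn_ct_final`       : the joint law (pure probability, from `pn_assembly`).
Every `sorry` is a leaf `L-PN-S*`.  Statements frozen; helper lemmas: prefix `pn_`.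
-/

set_option autoImplicit false

namespace Claimed.Agent.R285.Pins.T32

open Filter Topology MeasureTheory
open Claimed.Agent.R285.Pot
open scoped Classical

noncomputable section

/-! ## 0. Contiguity (pure probability) -/

section contig

variable {Ω : ℕ → Type} [∀ k, MeasurableSpace (Ω k)]

/-- `m'` is contiguous with respect to `m` on the classes of events `𝒢 k` -/
def Contig (m m' : ∀ k, Measure (Ω k)) (𝒢 : ∀ k, Set (Set (Ω k))) : Prop :=
  ∀ δ > 0, ∃ δ' > 0, ∀ E : ∀ k, Set (Ω k), (∀ k, E k ∈ 𝒢 k) →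
    (∀ᶠ k in atTop, (m k).real (E k) ≤ δ') → ∀ᶠ k in atTop, (m' k).real (E k) ≤ δ

/-- **L-PN-S1** (~200 l. for the whole section `contig`; Mathlib only). -/
theorem pn_contig_trans {m m' m'' : ∀ k, Measure (Ω k)} {𝒢 : ∀ k, Set (Set (Ω k))} (h : Contig m m' 𝒢) (h' : Contig m' m'' 𝒢) :
    Contig m m'' 𝒢 := by
  intro δ hδ
  obtain ⟨δ₁, hδ₁, h1⟩ := h' δ hδ
  obtain ⟨δ₂, hδ₂, h2⟩ := h δ₁ hδ₁
  exact ⟨δ₂, hδ₂, fun E hE hm => h1 E hE (h2 E hE hm)⟩

theorem pn_contig_mono {m m' : ∀ k, Measure (Ω k)} {𝒢 𝒢' : ∀ k, Set (Set (Ω k))} (h : Contig m m' 𝒢) (hs : ∀ k, 𝒢' k ⊆ 𝒢 k) :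
    Contig m m' 𝒢' := by
  intro δ hδ
  obtain ⟨δ₁, hδ₁, h1⟩ := h δ hδ
  exact ⟨δ₁, hδ₁, fun E hE hm => h1 E (fun k => hs k (hE k)) hm⟩

theorem pn_contig_tends {m m' : ∀ k, Measure (Ω k)} {𝒢 : ∀ k, Set (Set (Ω k))} (h : Contig m m' 𝒢) (X : ∀ k, Ω k → ℝ)
    (hX : ∀ k (ε : ℝ), {ω | ε < ‖X k ω‖} ∈ 𝒢 k) (ht : TendsP m X) : TendsP m' X := by
  intro ε hε
  refine tendsto_order.2 ⟨fun a ha => Eventually.of_forall fun k => lt_of_lt_of_le ha measureReal_nonneg,
    fun a ha => ?_⟩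
  obtain ⟨δ', hδ', h1⟩ := h (a / 2) (by positivity)
  have h2 : ∀ᶠ k in atTop, (m k).real {ω | ε < ‖X k ω‖} ≤ δ' :=
    ((tendsto_order.1 (ht ε hε)).2 δ' hδ').mono fun k hk => hk.le
  exact (h1 (fun k => {ω | ε < ‖X k ω‖}) (fun k => hX k ε) h2).mono fun k hk => lt_of_le_of_lt hk (by linarith)

theorem pn_contig_near {m m' : ∀ k, Measure (Ω k)} [∀ k, IsFiniteMeasure (m k)] {𝒢 : ∀ k, Set (Set (Ω k))}
    (h : Contig m m' 𝒢) (ε : ℝ) (hε : 0 < ε) :
    ∃ ε' > 0, ∀ X : ∀ k, Ω k → ℝ, (∀ k (ε : ℝ), {ω | ε < ‖X k ω‖} ∈ 𝒢 k) → NearP m X ε' → NearP m' X ε := by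
  obtain ⟨δ', hδ', h1⟩ := h ε hε
  refine ⟨min δ' ε, lt_min hδ' hε, fun X hX hn => ?_⟩
  refine h1 (fun k => {ω | ε < ‖X k ω‖}) (fun k => hX k ε) (hn.mono fun k hk => ?_)
  refine (measureReal_mono (fun ω hω => ?_)).trans (hk.trans (min_le_left _ _))
  have hω' : ε < ‖X k ω‖ := hω
  exact lt_of_le_of_lt (min_le_right _ _) hω'

theorem pn_contig_of_le {m m' : ∀ k, Measure (Ω k)} {𝒢 : ∀ k, Set (Set (Ω k))} (C : ℝ)
    (h : ∀ᶠ k in atTop, ∀ E ∈ 𝒢 k, (m' k).real E ≤ C * (m k).real E) : Contig m m' 𝒢 := by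
  intro δ hδ
  have hC : 0 < |C| + 1 := by positivity
  refine ⟨δ / (|C| + 1), by positivity, fun E hE hm => ?_⟩
  filter_upwards [h, hm] with k h1 h2
  have h3 : (0 : ℝ) ≤ (m k).real (E k) := measureReal_nonneg
  calc (m' k).real (E k) ≤ C * (m k).real (E k) := h1 _ (hE k)
    _ ≤ (|C| + 1) * (m k).real (E k) := mul_le_mul_of_nonneg_right (by linarith [le_abs_self C]) h3
    _ ≤ (|C| + 1) * (δ / (|C| + 1)) := mul_le_mul_of_nonneg_left h2 hC.le
    _ = δ := by field_simp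

theorem pn_contig_of_sqrt {m m' : ∀ k, Measure (Ω k)} {𝒢 : ∀ k, Set (Set (Ω k))} (C : ℝ)
    (h : ∀ᶠ k in atTop, ∀ E ∈ 𝒢 k, (m' k).real E ≤ C * Real.sqrt ((m k).real E)) : Contig m m' 𝒢 := by
  intro δ hδ
  have hC : 0 < |C| + 1 := by positivity
  refine ⟨(δ / (|C| + 1)) ^ 2, by positivity, fun E hE hm => ?_⟩
  filter_upwards [h, hm] with k h1 h2
  have h3 : Real.sqrt ((m k).real (E k)) ≤ δ / (|C| + 1) :=
    (Real.sqrt_le_sqrt h2).trans (le_of_eq (Real.sqrt_sq (by positivity)))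
  calc (m' k).real (E k) ≤ C * Real.sqrt ((m k).real (E k)) := h1 _ (hE k)
    _ ≤ (|C| + 1) * Real.sqrt ((m k).real (E k)) :=
        mul_le_mul_of_nonneg_right (by linarith [le_abs_self C]) (Real.sqrt_nonneg _)
    _ ≤ (|C| + 1) * (δ / (|C| + 1)) := mul_le_mul_of_nonneg_left h3 hC.le
    _ = δ := by field_simp

/-- lower density bound `dm/dm' ≥ r` with a uniform lower tail of `r` -/
theorem pn_contig_of_lower {m m' : ∀ k, Measure (Ω k)} {𝒢 : ∀ k, Set (Set (Ω k))} (r : ∀ k, Ω k → ℝ)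
    (h : ∀ k, ∀ E ∈ 𝒢 k, ∀ η > 0, (m' k).real E ≤ (m' k).real {ω | r k ω ≤ η} + η⁻¹ * (m k).real E)
    (hlt : ∀ δ > 0, ∃ η > 0, ∀ᶠ k in atTop, (m' k).real {ω | r k ω ≤ η} ≤ δ) : Contig m m' 𝒢 := by
  intro δ hδ
  obtain ⟨η, hη, h1⟩ := hlt (δ / 2) (by positivity)
  refine ⟨η * (δ / 2), by positivity, fun E hE hm => ?_⟩
  filter_upwards [h1, hm] with k h2 h3
  calc (m' k).real (E k) ≤ (m' k).real {ω | r k ω ≤ η} + η⁻¹ * (m k).real (E k) := h k _ (hE k) η hη
    _ ≤ δ / 2 + η⁻¹ * (η * (δ / 2)) := add_le_add h2 (mul_le_mul_of_nonneg_left h3 (by positivity))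
    _ = δ := by field_simp; ring

end contig

/-! ## 1. Sequences of laws -/

/-- a sequence of finite laws with coordinate pins, temperatures bounded above -/
structure LSeq where
  G : ℕ → HGraph
  H : ∀ k, HLaw (G k)
  b : ℕ → ℝ
  P₀ : ∀ k, Set (G k).V
  gd : ∀ k, Gd (H k) (b k)
  lam : ∀ k, (H k).Λ = HLaw.pinned (P₀ k)
  bmax : ℝ
  b_le : ∀ k, b k ≤ bmax

namespace LSeq

variable (L : LSeq)

/-- sequences of tests -/
abbrev T : Type := ∀ k, (L.G k).V → ℝ

/-- sequences of sets of sites -/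
abbrev St : Type := ∀ k, Set (L.G k).V

/-- the centred lattice laws -/
def mu (k : ℕ) : Measure ((L.G k).V → ℤ) := latM (L.H k) (L.b k) 0

/-- the tilted lattice laws -/
def muT (fL : L.T) (k : ℕ) : Measure ((L.G k).V → ℤ) := latM (L.H k) (L.b k) (fL k)

/-- the centred reference laws -/
def ga (a : ℝ) (k : ℕ) : Measure ((L.G k).V → ℝ) := plMeas (L.H k) a (L.P₀ k)

/-- the tilted reference laws -/
def gaT (a : ℝ) (fL : L.T) (k : ℕ) : Measure ((L.G k).V → ℝ) := gauM (L.H k) a (L.P₀ k) (fL k)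

/-- additional hard pins -/
def pin (P : L.St) : LSeq where
  G := L.G
  H k := (L.H k).addPin (P k)
  b := L.b
  P₀ k := L.P₀ k ∪ P k
  gd k := pn_gd_addPin _ (L.gd k) _
  lam k := by
    show (L.H k).Λ ⊓ HLaw.pinned (P k) = _
    rw [L.lam k, pl_pinned_inf]
  bmax := L.bmax
  b_le := L.b_le

/-- THE asymptotic notion: Gaussian log-Laplace limit against the discrete reference on the same graph -/
def GLap (a : ℝ) (f : L.T) : Prop :=
  Tendsto (fun k => hLap (L.H k) (L.b k) (f k) - (L.H k).gVar a (f k) / 2) atTop (𝓝 0)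

/-- bounded reference cost -/
def Bd (f : L.T) : Prop := ∃ C : ℝ, ∀ k, (L.H k).gVar 1 (f k) ≤ C

/-- a finite family all of whose bounded (moving) linear combinations have Gaussian limits -/
def GFam (a : ℝ) {ι : Type} [Fintype ι] (F : ι → L.T) : Prop :=
  (∀ c : ℕ → ι → ℝ, (∃ C : ℝ, ∀ k i, |c k i| ≤ C) → L.GLap a fun k => ∑ i, c k i • F i k) ∧ ∀ i, L.Bd (F i)

/-- events of the guard data -/
def guard (P : L.St) (k : ℕ) : Set (Set ((L.G k).V → ℤ)) := {E | ∀ h, C3.resZ (P k) h ∈ E ↔ h ∈ E}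

/-- events of the guard data, real fields (measurable) -/
def guardR (P : L.St) (k : ℕ) : Set (Set ((L.G k).V → ℝ)) := {E | MeasurableSet E ∧ ∀ φ, C3.resR (P k) φ ∈ E ↔ φ ∈ E}

end LSeq

/-- a scale of finite dimensional spaces of tests (level `r` = cell tests of the `r`-fold refinement) -/
structure Scale (L : LSeq) where
  I : ℕ → Type
  fI : ∀ r, Fintype (I r)
  sub : ∀ r k, (I r → ℝ) →ₗ[ℝ] ((L.G k).V → ℝ)

attribute [instance] Scale.fI

namespace Scale

variable {L : LSeq} (S : Scale L)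

/-- the same tests for the law with more pins -/
def pin (P : L.St) : Scale (L.pin P) := ⟨S.I, S.fI, S.sub⟩

/-- [C]T3.1 at every level: Gaussian limits for bounded coefficients -/
def Lim (a : ℝ) : Prop :=
  ∀ r, 0 < r → ∀ t : ℕ → S.I r → ℝ, (∃ C : ℝ, ∀ k i, |t k i| ≤ C) →
    (L.GLap a fun k => S.sub r k (t k)) ∧ L.Bd fun k => S.sub r k (t k)

/-- energy-approximable tests (approximation in the reference cost `gVar 1`, at all sufficiently divisible levels) -/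
def EA (f : L.T) : Prop :=
  ∀ ε > 0, ∃ r₀, 0 < r₀ ∧ ∀ r, r₀ ∣ r → 0 < r → ∃ t : ℕ → S.I r → ℝ, (∃ C : ℝ, ∀ k i, |t k i| ≤ C) ∧
    ∀ᶠ k in atTop, (L.H k).gVar 1 (f k - S.sub r k (t k)) ≤ ε

end Scale

/-! ## 2. Closure of the Gaussian limits under energy approximation -/

theorem pn_pd (L : LSeq) (k : ℕ) : plPD (L.H k) (L.P₀ k) := pl_PD_of_ok _ (L.lam k) (L.b k) (L.gd k).ok (L.gd k).proper

theorem pn_splits (L : LSeq) (P : L.St) (k : ℕ) : Splits (L.H k) (P k) := by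
  intro h hh
  rw [L.lam k] at hh ⊢
  intro v hv
  have h0 : h v = 0 := hh v hv
  simp [C3.resZ, h0]

/-- all tests are admissible -/
theorem pn_adm (L : LSeq) (k : ℕ) (f : (L.G k).V → ℝ) : plAdm (L.H k) f := by
  have h := pl_adm_of_PD (L.H k) (pn_pd L k) f
  rwa [← pl_law_eq_pin (L.H k) (L.lam k)] at h

/-- the uniform Gaussian bound of the log-Laplace transform -/
theorem pn_hLap_le (L : LSeq) : ∃ C : ℝ, 0 ≤ C ∧ ∀ k (f : (L.G k).V → ℝ), (L.H k).gVar 1 f ≤ 1 →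
    hLap (L.H k) (L.b k) f ≤ C * (L.H k).gVar 1 f := by
  obtain ⟨C, hC⟩ := pn_t31_ref_mgf L.bmax 1
  refine ⟨max C 0, le_max_right _ _, fun k f hf => ?_⟩
  obtain ⟨X, hX⟩ := pn_exists_lift (L.H k) (L.gd k).proper (L.b k) f
  rw [pn_hLap_eq_logLap (L.H k) (L.gd k).proper (L.b k) f X hX]
  exact (hC _ _ _ (L.gd k).b_pos (L.b_le k) (L.gd k).ok f X hX hf).trans
    (mul_le_mul_of_nonneg_right (le_max_left _ _) (pl_gVar_nonneg _ one_pos f))

theorem pn_ea_upper (L : LSeq) {C : ℝ} (hC0 : 0 ≤ C)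
    (hC : ∀ k (f : (L.G k).V → ℝ), (L.H k).gVar 1 f ≤ 1 → hLap (L.H k) (L.b k) f ≤ C * (L.H k).gVar 1 f)
    (k : ℕ) (f f' : (L.G k).V → ℝ) {δ ε : ℝ} (hδ : 0 < δ) (hε : (L.H k).gVar 1 (f - f') ≤ ε)
    (hq : ((1 + δ) / δ) ^ 2 * ε ≤ 1) :
    hLap (L.H k) (L.b k) f ≤ hLap (L.H k) (L.b k) ((1 + δ) • f') / (1 + δ) + C * ((1 + δ) / δ) * ε := by
  have hq0 : 0 < (1 + δ) / δ := by positivity
  have h1 := pn_hLap_holder (L.H k) (L.gd k) f' (f - f') (1 + δ) ((1 + δ) / δ) (by linarith) (by field_simp)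
  rw [add_sub_cancel] at h1
  have h2 : (L.H k).gVar 1 (((1 + δ) / δ) • (f - f')) = ((1 + δ) / δ) ^ 2 * (L.H k).gVar 1 (f - f') :=
    pl_gVar_smul _ one_pos _ _
  have h3 : (L.H k).gVar 1 (((1 + δ) / δ) • (f - f')) ≤ ((1 + δ) / δ) ^ 2 * ε := by
    rw [h2]
    exact mul_le_mul_of_nonneg_left hε (by positivity)
  have h4 := (hC k _ (h3.trans hq)).trans (mul_le_mul_of_nonneg_left h3 hC0)
  have h5 : hLap (L.H k) (L.b k) (((1 + δ) / δ) • (f - f')) / ((1 + δ) / δ) ≤ C * ((1 + δ) / δ) * ε := by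
    rw [div_le_iff₀ hq0]
    refine h4.trans (le_of_eq ?_)
    ring
  linarith

theorem pn_ea_lower (L : LSeq) {C : ℝ} (hC0 : 0 ≤ C)
    (hC : ∀ k (f : (L.G k).V → ℝ), (L.H k).gVar 1 f ≤ 1 → hLap (L.H k) (L.b k) f ≤ C * (L.H k).gVar 1 f)
    (k : ℕ) (f f' : (L.G k).V → ℝ) {δ ε : ℝ} (hδ : 0 < δ) (hε : (L.H k).gVar 1 (f - f') ≤ ε)
    (hq : (1 / δ) ^ 2 * ε ≤ 1) :
    hLap (L.H k) (L.b k) ((1 + δ)⁻¹ • f') ≤ hLap (L.H k) (L.b k) f / (1 + δ) + (C * ε / δ) / (1 + δ) := by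
  have hq0 : 0 < (1 + δ) / δ := by positivity
  have hp0 : (1 + δ) ≠ 0 := by positivity
  have h1 := pn_hLap_holder (L.H k) (L.gd k) ((1 + δ)⁻¹ • f) (-(1 + δ)⁻¹ • (f - f')) (1 + δ) ((1 + δ) / δ)
    (by linarith) (by field_simp)
  have e1 : (1 + δ)⁻¹ • f + -(1 + δ)⁻¹ • (f - f') = (1 + δ)⁻¹ • f' := by
    rw [neg_smul, smul_sub]
    abel
  have e2 : (1 + δ) • (1 + δ)⁻¹ • f = f := by
    rw [smul_smul, mul_inv_cancel₀ hp0, one_smul]
  have e3 : ((1 + δ) / δ) • -(1 + δ)⁻¹ • (f - f') = (-(1 / δ)) • (f - f') := by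
    rw [smul_smul]
    congr 1
    field_simp
  rw [e1, e2, e3] at h1
  have h2 : (L.H k).gVar 1 ((-(1 / δ)) • (f - f')) = (1 / δ) ^ 2 * (L.H k).gVar 1 (f - f') := by
    rw [pl_gVar_smul _ one_pos, neg_sq]
  have h3 : (L.H k).gVar 1 ((-(1 / δ)) • (f - f')) ≤ (1 / δ) ^ 2 * ε := by
    rw [h2]
    exact mul_le_mul_of_nonneg_left hε (by positivity)
  have h4 := (hC k _ (h3.trans hq)).trans (mul_le_mul_of_nonneg_left h3 hC0)
  have h5 : hLap (L.H k) (L.b k) ((-(1 / δ)) • (f - f')) / ((1 + δ) / δ) ≤ (C * ε / δ) / (1 + δ) := by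
    rw [div_le_iff₀ hq0]
    refine h4.trans (le_of_eq ?_)
    field_simp
  linarith

theorem pn_ea_var (L : LSeq) {a : ℝ} (ha : 0 < a) (k : ℕ) (f f' : (L.G k).V → ℝ) {B ε : ℝ}
    (hB : (L.H k).gVar 1 f ≤ B) (hε : (L.H k).gVar 1 (f - f') ≤ ε) :
    |(L.H k).gVar a f' - (L.H k).gVar a f|
      ≤ Real.sqrt (max a 1 * ε) * (2 * Real.sqrt (max a 1 * B) + Real.sqrt (max a 1 * ε)) := by
  have hA : 0 ≤ max a 1 := le_max_of_le_right zero_le_one
  have h1 := pl_abs_gVar_sub_le (L.H k) ha (pn_adm L k f') (pn_adm L k f)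
  have e1 : (L.H k).gVar a (f' - f) = (L.H k).gVar a (f - f') := by
    rw [← neg_sub, pl_gVar_neg _ ha]
  have h2 : (L.H k).gVar a (f' - f) ≤ max a 1 * ε := by
    rw [e1]
    exact (pl_gVar_le_max _ ha _).trans (mul_le_mul_of_nonneg_left hε hA)
  have h3 : (L.H k).gVar a f ≤ max a 1 * B := (pl_gVar_le_max _ ha _).trans (mul_le_mul_of_nonneg_left hB hA)
  have h4 := Real.sqrt_le_sqrt h2
  have h5 := Real.sqrt_le_sqrt h3
  have h6 := pl_sqrt_gVar_add_le (L.H k) ha (pn_adm L k f) (pn_adm L k (f' - f))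
  rw [add_sub_cancel] at h6
  refine h1.trans (mul_le_mul h4 (by linarith) (by positivity) (Real.sqrt_nonneg _))

theorem pn_ea_alg {δ lam lam1 lam2 Vf Vf' κ M c c' : ℝ} (hδ0 : 0 < δ) (hδ1 : δ ≤ 1)
    (hU : lam ≤ lam1 / (1 + δ) + c) (hL : lam2 ≤ lam / (1 + δ) + c' / (1 + δ))
    (hV : |Vf' - Vf| ≤ κ) (hVf0 : 0 ≤ Vf) (hVfM : Vf ≤ M) (hκ : κ ≤ 1) (hc : 0 ≤ c) (hc' : 0 ≤ c') :
    |lam - Vf / 2| ≤ |lam1 - (1 + δ) ^ 2 * Vf' / 2| + 2 * |lam2 - ((1 + δ)⁻¹) ^ 2 * Vf' / 2| + κ + δ * (M + 1) + c + c' := by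
  have hp0 : 0 < 1 + δ := by linarith
  have hp1 : 1 ≤ 1 + δ := by linarith
  have hκ0 : 0 ≤ κ := (abs_nonneg _).trans hV
  obtain ⟨hV1, hV2⟩ := abs_le.1 hV
  set e1 := lam1 - (1 + δ) ^ 2 * Vf' / 2 with he1
  set e2 := lam2 - ((1 + δ)⁻¹) ^ 2 * Vf' / 2 with he2
  have hM0 : 0 ≤ M := hVf0.trans hVfM
  rw [abs_le]
  constructor
  · -- lower bound
    have h1 : (1 + δ) * lam2 ≤ lam + c' := by
      have := mul_le_mul_of_nonneg_left hL hp0.le
      have e : (1 + δ) * (lam / (1 + δ) + c' / (1 + δ)) = lam + c' := by field_simp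
      rwa [e] at this
    have h2 : (1 + δ) * lam2 = (1 + δ) * e2 + (1 + δ)⁻¹ * Vf' / 2 := by
      rw [he2]
      field_simp
      ring
    have h3 : -(2 * |e2|) ≤ (1 + δ) * e2 := by
      have := neg_abs_le e2
      nlinarith [abs_nonneg e2]
    have h4 : -(κ + δ * M) ≤ (1 + δ)⁻¹ * Vf' - Vf := by
      have e : (1 + δ)⁻¹ * Vf' - Vf = (1 + δ)⁻¹ * (Vf' - Vf - δ * Vf) := by field_simp; ring
      rw [e]
      have h5 : -(κ + δ * M) ≤ Vf' - Vf - δ * Vf := by nlinarith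
      have h6 : (1 + δ)⁻¹ ≤ 1 := inv_le_one_of_one_le₀ hp1
      have h7 : 0 < (1 + δ)⁻¹ := by positivity
      have h8 : 0 ≤ κ + δ * M := by positivity
      nlinarith
    nlinarith [abs_nonneg e1]
  · -- upper bound
    have h1 : lam1 / (1 + δ) = e1 / (1 + δ) + (1 + δ) * Vf' / 2 := by
      rw [he1]
      field_simp
      ring
    have h2 : e1 / (1 + δ) ≤ |e1| :=
      (div_le_div_of_nonneg_right (le_abs_self e1) hp0.le).trans (div_le_self (abs_nonneg _) hp1)
    have h3 : δ * Vf' ≤ δ * (M + 1) := mul_le_mul_of_nonneg_left (by linarith) hδ0.le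
    nlinarith [abs_nonneg e2]

/-- **L-PN-S2** (~300 l.).  `ε`-version of `C3.mixed_approx`, any sequence of laws.
PROOF.  `g = f - f'`, `p = 1 + δ`, `q = p/(p-1)`.  Upper: `pn_hLap_holder`: `hLap f ≤ hLap (p f')/p + hLap (q g)/q`; `C3.ref_mgf bmax 1` (through `pn_exists_lift`, `pn_hLap_eq_logLap`): `hLap (q g) ≤ C q² gVar 1 g` if `q² ε ≤ 1`.
Lower: `hLap (f'/p) ≤ hLap f / p + hLap (-(q/p) g)/q`.  `pl_gVar_smul`, `pl_abs_gVar_sub_le`, `pl_gVar_le_max` (all tests are admissible: `pl_adm_of_PD`, `pl_law_eq_pin`).  Choose `δ`, then `ε ≪ δ²`. -/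
theorem pn_ea_closure (L : LSeq) {a : ℝ} (ha : 0 < a) (f : L.T) (hbd : L.Bd f)
    (happ : ∀ ε > 0, ∃ f' : L.T, (∀ s : ℝ, L.GLap a fun k => s • f' k) ∧ ∀ᶠ k in atTop, (L.H k).gVar 1 (f k - f' k) ≤ ε) :
    L.GLap a f := by
  obtain ⟨B, hB⟩ := hbd
  obtain ⟨C, hC0, hC⟩ := pn_hLap_le L
  have hB0 : 0 ≤ B := (pl_gVar_nonneg _ one_pos _).trans (hB 0)
  have hA : 0 < max a 1 := lt_max_of_lt_left ha
  set M := max a 1 * B with hM
  have hM0 : 0 ≤ M := by positivity
  unfold LSeq.GLap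
  rw [Metric.tendsto_nhds]
  intro η hη
  -- choice of `δ`
  set δ := min 1 (η / (8 * (M + 1))) with hδdef
  have hδ0 : 0 < δ := lt_min one_pos (by positivity)
  have hδ1 : δ ≤ 1 := min_le_left _ _
  have hδM : δ * (M + 1) ≤ η / 8 := by
    have : δ ≤ η / (8 * (M + 1)) := min_le_right _ _
    calc δ * (M + 1) ≤ η / (8 * (M + 1)) * (M + 1) := mul_le_mul_of_nonneg_right this (by positivity)
      _ = η / 8 := by field_simp
  set q := (1 + δ) / δ with hq
  have hq0 : 0 < q := by positivity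
  have hq1 : 1 / δ ≤ q := by
    rw [hq]
    exact div_le_div_of_nonneg_right (by linarith) hδ0.le
  -- choice of `ε`
  have hF : ∀ᶠ ε in 𝓝 (0 : ℝ), q ^ 2 * ε < 1 ∧ C * q * ε < η / 8 ∧
      Real.sqrt (max a 1 * ε) * (2 * Real.sqrt M + Real.sqrt (max a 1 * ε)) < min 1 (η / 8) := by
    have c1 : Continuous fun ε : ℝ => q ^ 2 * ε := by fun_prop
    have c2 : Continuous fun ε : ℝ => C * q * ε := by fun_prop
    have c3 : Continuous fun ε : ℝ => Real.sqrt (max a 1 * ε) * (2 * Real.sqrt M + Real.sqrt (max a 1 * ε)) := by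
      fun_prop
    refine (c1.tendsto' 0 0 (by simp)).eventually_lt_const one_pos |>.and
      ((c2.tendsto' 0 0 (by simp)).eventually_lt_const (by positivity) |>.and
      ((c3.tendsto' 0 0 (by simp)).eventually_lt_const (lt_min one_pos (by positivity))))
  obtain ⟨ε, ⟨hε1, hε2, hε3⟩, hε0⟩ :=
    ((hF.filter_mono nhdsWithin_le_nhds).and (self_mem_nhdsWithin (s := Set.Ioi (0 : ℝ)))).exists
  have hε0 : 0 < ε := hε0
  obtain ⟨f', hf', happ'⟩ := happ ε hε0
  have hE1 := (Metric.tendsto_nhds.1 (hf' (1 + δ))) (η / 8) (by positivity)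
  have hE2 := (Metric.tendsto_nhds.1 (hf' (1 + δ)⁻¹)) (η / 8) (by positivity)
  filter_upwards [happ', hE1, hE2] with k hk h1 h2
  rw [Real.dist_eq, sub_zero] at h1 h2 ⊢
  rw [pl_gVar_smul _ ha] at h1 h2
  have hU := pn_ea_upper L hC0 hC k (f k) (f' k) hδ0 hk hε1.le
  have hL := pn_ea_lower L hC0 hC k (f k) (f' k) hδ0 hk
    ((mul_le_mul_of_nonneg_right (pow_le_pow_left₀ (by positivity) hq1 2) hε0.le).trans hε1.le)
  have hV := pn_ea_var L ha k (f k) (f' k) (hB k) hk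
  have hVf : (L.H k).gVar a (f k) ≤ M :=
    (pl_gVar_le_max _ ha _).trans (mul_le_mul_of_nonneg_left (hB k) hA.le)
  have hc' : C * ε / δ ≤ C * q * ε := by
    have : C * ε / δ = C * (1 / δ) * ε := by ring
    rw [this]
    exact mul_le_mul_of_nonneg_right (mul_le_mul_of_nonneg_left hq1 hC0) hε0.le
  have key := pn_ea_alg hδ0 hδ1 hU hL hV (pl_gVar_nonneg _ ha _) hVf
    (hε3.le.trans (min_le_left _ _)) (by positivity) (by positivity)
  have hκ : Real.sqrt (max a 1 * ε) * (2 * Real.sqrt M + Real.sqrt (max a 1 * ε)) < η / 8 :=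
    lt_of_lt_of_le hε3 (min_le_right _ _)
  linarith

/-- more pins: smaller reference cost -/
theorem pn_ea_addPin_le {G : HGraph} (H : HLaw G) {a : ℝ} (ha : 0 < a) (P : Set G.V) {f : G.V → ℝ} (hf : plAdm H f) :
    (H.addPin P).gVar a f ≤ H.gVar a f := by
  refine pl_gVar_compare H (H.addPin P) ha hf f id (fun v hv => ?_) (fun v _ => le_rfl) fun v _ => rfl
  refine Submodule.span_mono (Set.image_mono ?_) hv
  intro h hh
  exact hh.1

/-- the seminorm `√gVar` on finite linear combinations -/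
theorem pn_ea_sqrt_sum (L : LSeq) {a : ℝ} (ha : 0 < a) (k : ℕ) {ι : Type} (s : Finset ι) (c : ι → ℝ)
    (f : ι → (L.G k).V → ℝ) :
    Real.sqrt ((L.H k).gVar a (∑ i ∈ s, c i • f i)) ≤ ∑ i ∈ s, |c i| * Real.sqrt ((L.H k).gVar a (f i)) := by
  induction s using Finset.induction_on with
  | empty => simp [pl_gVar_zero _ ha]
  | insert i s hi ih =>
    rw [Finset.sum_insert hi, Finset.sum_insert hi]
    refine (pl_sqrt_gVar_add_le (L.H k) ha (pn_adm L k _) (pn_adm L k _)).trans (add_le_add ?_ ih)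
    rw [pl_gVar_smul _ ha, Real.sqrt_mul (sq_nonneg _), Real.sqrt_sq_eq_abs]

theorem pn_ea_gVar_sum (L : LSeq) {a : ℝ} (ha : 0 < a) (k : ℕ) {ι : Type} [Fintype ι] (c : ι → ℝ)
    (f : ι → (L.G k).V → ℝ) {C ε : ℝ} (hC : ∀ i, |c i| ≤ C) (hε : ∀ i, (L.H k).gVar a (f i) ≤ ε) :
    (L.H k).gVar a (∑ i, c i • f i) ≤ ((Fintype.card ι : ℝ) * C) ^ 2 * ε := by
  have h1 := pn_ea_sqrt_sum L ha k Finset.univ c f
  by_cases hι : IsEmpty ι
  · simp [pl_gVar_zero _ ha]
  rw [not_isEmpty_iff] at hι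
  obtain ⟨i₀⟩ := hι
  have hC0 : 0 ≤ C := (abs_nonneg _).trans (hC i₀)
  have hε0 : 0 ≤ ε := (pl_gVar_nonneg _ ha _).trans (hε i₀)
  have h2 : ∑ i, |c i| * Real.sqrt ((L.H k).gVar a (f i)) ≤ (Fintype.card ι : ℝ) * C * Real.sqrt ε := by
    calc ∑ i, |c i| * Real.sqrt ((L.H k).gVar a (f i)) ≤ ∑ _i : ι, C * Real.sqrt ε :=
          Finset.sum_le_sum fun i _ => mul_le_mul (hC i) (Real.sqrt_le_sqrt (hε i)) (Real.sqrt_nonneg _) hC0
      _ = (Fintype.card ι : ℝ) * C * Real.sqrt ε := by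
          rw [Finset.sum_const, Finset.card_univ, nsmul_eq_mul]
          ring
  have h3 := h1.trans h2
  have h4 : (L.H k).gVar a (∑ i, c i • f i) ≤ ((Fintype.card ι : ℝ) * C * Real.sqrt ε) ^ 2 :=
    (Real.sqrt_le_left (by positivity)).1 h3
  rwa [mul_pow, Real.sq_sqrt hε0] at h4

theorem pn_ea_bd_of_ev (L : LSeq) (f : L.T) (C : ℝ) (h : ∀ᶠ k in atTop, (L.H k).gVar 1 (f k) ≤ C) : L.Bd f := by
  have h1 : IsBoundedUnder (· ≤ ·) atTop fun k => (L.H k).gVar 1 (f k) := ⟨C, by simpa using h⟩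
  obtain ⟨B, hB⟩ := h1.bddAbove_range
  exact ⟨B, fun k => hB ⟨k, rfl⟩⟩

theorem pn_ea_bd {L : LSeq} (S : Scale L) {a : ℝ} (hLim : S.Lim a) (f : L.T) (hf : S.EA f) : L.Bd f := by
  obtain ⟨r₀, hr₀, h⟩ := hf 1 one_pos
  obtain ⟨t, ht, h1⟩ := h r₀ dvd_rfl hr₀
  obtain ⟨C, hC⟩ := (hLim r₀ hr₀ t ht).2
  refine pn_ea_bd_of_ev L f ((1 + Real.sqrt C) ^ 2) (h1.mono fun k hk => ?_)
  have h2 := pl_sqrt_gVar_add_le (L.H k) one_pos (pn_adm L k (f k - S.sub r₀ k (t k))) (pn_adm L k (S.sub r₀ k (t k)))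
  rw [sub_add_cancel] at h2
  have h3 : Real.sqrt ((L.H k).gVar 1 (f k)) ≤ 1 + Real.sqrt C := by
    refine h2.trans (add_le_add ?_ (Real.sqrt_le_sqrt (hC k)))
    calc Real.sqrt ((L.H k).gVar 1 (f k - S.sub r₀ k (t k))) ≤ Real.sqrt 1 := Real.sqrt_le_sqrt hk
      _ = 1 := Real.sqrt_one
  exact (Real.sqrt_le_left (by positivity)).1 h3

/-- **L-PN-S3** (~250 l., from S2).  Finite families of energy-approximable tests. -/
theorem pn_ea_fam {L : LSeq} (S : Scale L) {a : ℝ} (ha : 0 < a) (hLim : S.Lim a) {ι : Type} [Fintype ι] (F : ι → L.T)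
    (hF : ∀ i, S.EA (F i)) : L.GFam a F := by
  have hbd : ∀ i, L.Bd (F i) := fun i => pn_ea_bd S hLim (F i) (hF i)
  refine ⟨fun c hc => ?_, hbd⟩
  obtain ⟨C, hC⟩ := hc
  choose B hB using hbd
  refine pn_ea_closure L ha _ ?_ ?_
  · -- bounded
    refine ⟨((Fintype.card ι : ℝ) * C) ^ 2 * ∑ i, |B i|, fun k => ?_⟩
    refine pn_ea_gVar_sum L one_pos k (c k) (fun i => F i k) (hC k) fun i => ?_
    exact (hB i k).trans ((le_abs_self _).trans (Finset.single_le_sum (f := fun i => |B i|) (fun j _ => abs_nonneg _) (Finset.mem_univ i)))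
  · intro ε hε
    set K : ℝ := ((Fintype.card ι : ℝ) * C) ^ 2 + 1 with hK
    have hK0 : 0 < K := by positivity
    have hε' : 0 < ε / K := by positivity
    choose r₀ hr₀ h using fun i => hF i (ε / K) hε'
    set r := ∏ i, r₀ i with hr
    have hr0 : 0 < r := Finset.prod_pos fun i _ => hr₀ i
    choose t ht h1 using fun i => h i r (Finset.dvd_prod_of_mem _ (Finset.mem_univ i)) hr0
    choose Ct hCt using ht
    refine ⟨fun k => S.sub r k (∑ i, c k i • t i k), fun s => ?_, ?_⟩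
    · have e : (fun k => s • S.sub r k (∑ i, c k i • t i k)) = fun k => S.sub r k (s • ∑ i, c k i • t i k) := by
        funext k
        rw [map_smul]
      rw [e]
      refine (hLim r hr0 _ ⟨|s| * ∑ i, |C| * |Ct i|, fun k j => ?_⟩).1
      simp only [Pi.smul_apply, Finset.sum_apply, smul_eq_mul, abs_mul]
      refine mul_le_mul_of_nonneg_left ?_ (abs_nonneg _)
      refine (Finset.abs_sum_le_sum_abs _ _).trans (Finset.sum_le_sum fun i _ => ?_)
      rw [abs_mul]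
      exact mul_le_mul ((hC k i).trans (le_abs_self _)) ((hCt i k j).trans (le_abs_self _)) (abs_nonneg _) (abs_nonneg _)
    · have hall : ∀ᶠ k in atTop, ∀ i, (L.H k).gVar 1 (F i k - S.sub r k (t i k)) ≤ ε / K := eventually_all.2 h1
      refine hall.mono fun k hk => ?_
      have e : ∑ i, c k i • F i k - S.sub r k (∑ i, c k i • t i k) = ∑ i, c k i • (F i k - S.sub r k (t i k)) := by
        rw [map_sum, ← Finset.sum_sub_distrib]
        refine Finset.sum_congr rfl fun i _ => ?_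
        rw [map_smul, smul_sub]
      rw [e]
      refine (pn_ea_gVar_sum L one_pos k (c k) _ (hC k) hk).trans ?_
      have h2 : ((Fintype.card ι : ℝ) * C) ^ 2 ≤ K := by rw [hK]; linarith
      calc ((Fintype.card ι : ℝ) * C) ^ 2 * (ε / K) ≤ K * (ε / K) := mul_le_mul_of_nonneg_right h2 hε'.le
        _ = ε := by field_simp

/-- more pins: smaller reference cost (`pl_gVar_compare`) -/
theorem pn_ea_pin {L : LSeq} (S : Scale L) (P : L.St) (f : L.T) (h : S.EA f) : (S.pin P).EA f := by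
  intro ε hε
  obtain ⟨r₀, hr₀, h1⟩ := h ε hε
  refine ⟨r₀, hr₀, fun r hr hr0 => ?_⟩
  obtain ⟨t, ht, h2⟩ := h1 r hr hr0
  refine ⟨t, ht, h2.mono fun k hk => ?_⟩
  exact (pn_ea_addPin_le (L.H k) one_pos (P k) (pn_adm L k _)).trans hk

theorem pn_ea_sub {L : LSeq} (S : Scale L) (f g : L.T) (hf : S.EA f) (hg : S.EA g) : S.EA fun k => f k - g k := by
  intro ε hε
  obtain ⟨r₁, hr₁, h1⟩ := hf (ε / 4) (by positivity)
  obtain ⟨r₂, hr₂, h2⟩ := hg (ε / 4) (by positivity)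
  refine ⟨r₁ * r₂, Nat.mul_pos hr₁ hr₂, fun r hr hr0 => ?_⟩
  obtain ⟨t₁, ⟨C₁, hC₁⟩, h3⟩ := h1 r ((dvd_mul_right _ _).trans hr) hr0
  obtain ⟨t₂, ⟨C₂, hC₂⟩, h4⟩ := h2 r ((dvd_mul_left _ _).trans hr) hr0
  refine ⟨fun k => t₁ k - t₂ k, ⟨C₁ + C₂, fun k i => ?_⟩, ?_⟩
  · exact (abs_sub _ _).trans (add_le_add (hC₁ k i) (hC₂ k i))
  · filter_upwards [h3, h4] with k k3 k4
    have e : f k - g k - S.sub r k (t₁ k - t₂ k) = (f k - S.sub r k (t₁ k)) - (g k - S.sub r k (t₂ k)) := by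
      rw [map_sub]
      abel
    rw [e]
    have h5 := pl_sqrt_gVar_sub_le (L.H k) one_pos (pn_adm L k (f k - S.sub r k (t₁ k))) (pn_adm L k (g k - S.sub r k (t₂ k)))
    have h6 : Real.sqrt ((L.H k).gVar 1 ((f k - S.sub r k (t₁ k)) - (g k - S.sub r k (t₂ k)))) ≤ 2 * Real.sqrt (ε / 4) :=
      h5.trans (by linarith [Real.sqrt_le_sqrt k3, Real.sqrt_le_sqrt k4])
    have h7 := (Real.sqrt_le_left (by positivity)).1 h6
    rw [mul_pow, Real.sq_sqrt (by positivity)] at h7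
    linarith

/-! ## 3. Consequences of the Laplace limits -/

/-- helper of S4: `exp x - exp y → 0` if `x - y → 0` and `y` is bounded above. -/
theorem pn_phi_exp_sub {x y : ℕ → ℝ} {C : ℝ} (hy : ∀ k, y k ≤ C)
    (h : Tendsto (fun k => x k - y k) atTop (𝓝 0)) :
    Tendsto (fun k => Real.exp (x k) - Real.exp (y k)) atTop (𝓝 0) := by
  have h1 : Tendsto (fun k => Real.exp (x k - y k) - 1) atTop (𝓝 0) := by
    have h2 := (Real.continuous_exp.tendsto 0).comp h
    rw [Real.exp_zero] at h2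
    simpa using h2.sub_const 1
  have h3 : Tendsto (fun k => Real.exp C * |Real.exp (x k - y k) - 1|) atTop (𝓝 0) := by
    simpa using (h1.abs).const_mul (Real.exp C)
  refine squeeze_zero_norm (fun k => ?_) h3
  have e : Real.exp (x k) - Real.exp (y k) = Real.exp (y k) * (Real.exp (x k - y k) - 1) := by
    rw [mul_sub, ← Real.exp_add, mul_one]
    congr 2
    ring
  rw [e, norm_mul, Real.norm_eq_abs, Real.norm_eq_abs, abs_of_pos (Real.exp_pos _)]
  exact mul_le_mul_of_nonneg_right (Real.exp_le_exp.2 (hy k)) (abs_nonneg _)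

/-- helper of S4: real part of a characteristic function -/
theorem pn_phi_re {Ω : Type} [MeasurableSpace Ω] (m : Measure Ω) [IsFiniteMeasure m] (Y : Ω → ℝ) (hY : Measurable Y) :
    (∫ ω, Complex.exp (Complex.I * (Y ω : ℂ)) ∂m).re = ∫ ω, Real.cos (Y ω) ∂m := by
  have hint : Integrable (fun ω => Complex.exp (Complex.I * (Y ω : ℂ))) m := by
    refine Integrable.of_bound (C := 1) ?_ (Eventually.of_forall fun ω => ?_)
    · exact (Complex.continuous_exp.measurable.comp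
        ((Complex.continuous_ofReal.measurable.comp hY).const_mul _)).aestronglyMeasurable
    · rw [mul_comm, Complex.norm_exp_ofReal_mul_I]
  have h1 := Complex.reCLM.integral_comp_comm hint
  rw [Complex.reCLM_apply] at h1
  rw [← h1]
  refine integral_congr_ae (Eventually.of_forall fun ω => ?_)
  show (Complex.exp (Complex.I * (Y ω : ℂ))).re = _
  rw [mul_comm, Complex.exp_ofReal_mul_I_re]

/-- **L-PN-S4** (~200 l.).  Characteristic coefficients.  `pn_mgf_to_char` with `Y = lin f` under `L.mu`, `Y' = id` under `gaussianReal 0 (gVar a f)`; `pn_mgf_latM`, `pl_gVar_smul`, `mgf_gaussianReal`, `charFun_gaussianReal`; real part. -/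
theorem pn_phi_of_fam (L : LSeq) {a : ℝ} (ha : 0 < a) (f : L.T) (h : L.GFam a fun _ : Unit => f) :
    Tendsto (fun k => hPhi (L.H k) (L.b k) (f k) - Real.exp (-(L.H k).gVar a (f k) / 2)) atTop (𝓝 0) := by
  obtain ⟨hG1, hG2⟩ := h
  obtain ⟨B, hB⟩ := hG2 ()
  have : ∀ k, IsProbabilityMeasure (L.mu k) := fun k => pn_latM_prob (L.H k) (L.gd k) 0
  set v : ℕ → NNReal := fun k => ⟨(L.H k).gVar a (f k), pl_gVar_nonneg _ ha _⟩ with hv
  have hvc : ∀ k, ((v k : NNReal) : ℝ) = (L.H k).gVar a (f k) := fun k => rfl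
  have hvB : ∀ k, ((v k : NNReal) : ℝ) ≤ max a 1 * B := fun k =>
    (pl_gVar_le_max _ ha _).trans (mul_le_mul_of_nonneg_left (hB k) (le_trans zero_le_one (le_max_right _ _)))
  have hglap : ∀ s : ℝ, Tendsto (fun k => hLap (L.H k) (L.b k) (s • f k) - s ^ 2 * (v k : ℝ) / 2) atTop (𝓝 0) := by
    intro s
    have h1 := hG1 (fun _ _ => s) ⟨|s|, fun _ _ => le_rfl⟩
    unfold LSeq.GLap at h1
    refine h1.congr fun k => ?_
    simp only [Finset.univ_unique, Finset.sum_singleton]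
    rw [pl_gVar_smul _ ha, hvc]
  have hlap0 : ∀ k, hLap (L.H k) (L.b k) 0 = 0 := by
    intro k
    have h2 := pn_ExT_eq (L.H k) (L.gd k) 0 fun h => Real.exp (lin 0 h)
    unfold hLap
    rw [h2]
    simp only [pn_lin_zero_left, Real.exp_zero, integral_const, smul_eq_mul, mul_one]
    have h3 : (L.mu k).real Set.univ = 1 := probReal_univ
    have h4 : (latM (L.H k) (L.b k) 0).real Set.univ = 1 := h3
    rw [h4, Real.log_one]
  have mL : ∀ (s : ℝ) k, ∫ h, Real.exp (s * lin (f k) h) ∂(L.mu k) = Real.exp (hLap (L.H k) (L.b k) (s • f k)) := by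
    intro s k
    have h1 := pn_mgf_latM (L.H k) (L.gd k) 0 (s • f k)
    simp only [pn_lin_smul_left, zero_add, hlap0, sub_zero] at h1
    exact h1
  have mG : ∀ (s : ℝ) k, ∫ x, Real.exp (s * x) ∂(ProbabilityTheory.gaussianReal 0 (v k)) = Real.exp (s ^ 2 * (v k : ℝ) / 2) := by
    intro s k
    have h1 := ProbabilityTheory.mgf_id_gaussianReal (μ := 0) (v := v k)
    have h2 := congrFun h1 s
    simp only [ProbabilityTheory.mgf, id] at h2
    rw [h2]
    congr 1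
    ring
  have key := pn_mgf_to_char L.mu (fun k => ProbabilityTheory.gaussianReal 0 (v k)) (fun k h => lin (f k) h) (fun _ x => x)
    (fun k => Measurable.of_discrete) (fun _ => measurable_id)
    (fun k s => by
      refine pn_integrable (L.H k) (L.gd k) 0 (s • f k) 1 _ fun h => ?_
      rw [pn_lin_smul_left, one_mul, abs_of_pos (Real.exp_pos _)])
    (fun k s => ProbabilityTheory.integrable_exp_mul_gaussianReal s)
    (fun s => ⟨Real.exp (s ^ 2 * (max a 1 * B) / 2), fun k => by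
      rw [mG]
      refine Real.exp_le_exp.2 ?_
      have := mul_le_mul_of_nonneg_left (hvB k) (sq_nonneg s)
      linarith⟩)
    (fun s => by
      simp only [mL, mG]
      refine pn_phi_exp_sub (C := s ^ 2 * (max a 1 * B) / 2) (fun k => ?_) (hglap s)
      have := mul_le_mul_of_nonneg_left (hvB k) (sq_nonneg s)
      linarith) Complex.I
  have hre := (Complex.continuous_re.tendsto 0).comp key
  rw [Complex.zero_re] at hre
  refine hre.congr fun k => ?_
  simp only [Function.comp, Complex.sub_re]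
  rw [pn_phi_re _ _ Measurable.of_discrete]
  congr 1
  · unfold hPhi
    rw [pn_ExT_eq (L.H k) (L.gd k)]
    rfl
  · have h1 := ProbabilityTheory.charFun_gaussianReal (μ := 0) (v := v k) 1
    rw [charFun_apply_real] at h1
    have e : (fun x : ℝ => Complex.exp (Complex.I * (x : ℂ))) = fun x : ℝ => Complex.exp (((1 : ℝ) : ℂ) * (x : ℂ) * Complex.I) := by
      funext x
      congr 1
      push_cast
      ring
    rw [e, h1]
    have e2 : (((1 : ℝ) : ℂ) * ((0 : ℝ) : ℂ) * Complex.I - ((v k : ℝ) : ℂ) * ((1 : ℝ) : ℂ) ^ 2 / 2) = ((-(v k : ℝ) / 2 : ℝ) : ℂ) := by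
      push_cast
      ring
    rw [e2, Complex.exp_ofReal_re, hvc]

/-- helper of S5: `√gVar` of a linear combination. -/
theorem pn_sqrt_gVar_sum_le {G : HGraph} (H : HLaw G) {a : ℝ} (ha : 0 < a) (hadm : ∀ f, plAdm H f) {κ : Type}
    (s : Finset κ) (c : κ → ℝ) (f : κ → G.V → ℝ) :
    Real.sqrt (H.gVar a (∑ o ∈ s, c o • f o)) ≤ ∑ o ∈ s, |c o| * Real.sqrt (H.gVar a (f o)) := by
  induction s using Finset.induction_on with
  | empty => simp [pl_gVar_zero H ha]
  | insert o s ho ih =>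
    rw [Finset.sum_insert ho, Finset.sum_insert ho]
    refine (pl_sqrt_gVar_add_le H ha (hadm _) (hadm _)).trans (add_le_add ?_ ih)
    rw [pl_gVar_smul H ha, Real.sqrt_mul (sq_nonneg _), Real.sqrt_sq_eq_abs]

/-- helper of S5: `exp x - exp y → 0` if `x - y → 0` and `y` is bounded above. -/
theorem pn_exp_sub_tendsto {x y : ℕ → ℝ} {C : ℝ} (hy : ∀ k, y k ≤ C)
    (h : Tendsto (fun k => x k - y k) atTop (𝓝 0)) :
    Tendsto (fun k => Real.exp (x k) - Real.exp (y k)) atTop (𝓝 0) := by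
  have h1 : Tendsto (fun k => Real.exp (x k - y k) - 1) atTop (𝓝 0) := by
    have h2 := (Real.continuous_exp.tendsto 0).comp h
    rw [Real.exp_zero] at h2
    simpa using h2.sub_const 1
  have h3 : Tendsto (fun k => Real.exp C * |Real.exp (x k - y k) - 1|) atTop (𝓝 0) := by
    simpa using (h1.abs).const_mul (Real.exp C)
  refine squeeze_zero_norm (fun k => ?_) h3
  have e : Real.exp (x k) - Real.exp (y k) = Real.exp (y k) * (Real.exp (x k - y k) - 1) := by
    rw [mul_sub, ← Real.exp_add, mul_one]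
    congr 2
    ring
  rw [e, norm_mul, Real.norm_eq_abs, Real.norm_eq_abs, abs_of_pos (Real.exp_pos _)]
  exact mul_le_mul_of_nonneg_right (Real.exp_le_exp.2 (hy k)) (abs_nonneg _)

theorem pn_lin_sum_left {G : HGraph} {κ : Type} (s : Finset κ) (c : κ → ℝ) (f : κ → G.V → ℝ) (h : G.V → ℤ) :
    lin (∑ o ∈ s, c o • f o) h = ∑ o ∈ s, c o * lin (f o) h := by
  induction s using Finset.induction_on with
  | empty => simp [pn_lin_zero_left]
  | insert o s ho ih => rw [Finset.sum_insert ho, Finset.sum_insert ho, pn_lin_add_left, pn_lin_smul_left, ih]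

theorem pn_pair_sum_left {G : HGraph} {κ : Type} (s : Finset κ) (c : κ → ℝ) (f : κ → G.V → ℝ) (φ : G.V → ℝ) :
    HLaw.pair (∑ o ∈ s, c o • f o) φ = ∑ o ∈ s, c o * HLaw.pair (f o) φ := by
  induction s using Finset.induction_on with
  | empty => simp [pl_pair_zero_left]
  | insert o s ho ih => rw [Finset.sum_insert ho, Finset.sum_insert ho, pl_pair_add_left, pl_pair_smul_left, ih]

/-- **L-PN-S5** (~300 l.).  Joint laws of finitely many linear statistics under a tilt: tightness and asymptotically equal characteristic functions (`pn_mgf_to_char`, `pn_tight_of_mgf`, `pn_mgf_latM`, `pn_mgf_gauM`). -/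
theorem pn_fam_char (L : LSeq) {a : ℝ} (ha : 0 < a) {ι : Type} [Fintype ι] (F : ι → L.T) (fL : L.T)
    (h : L.GFam a fun o : Option ι => o.elim fL F) :
    TightP (L.muT fL) (fun k h i => lin (F i k) h) ∧ TightP (L.gaT a fL) (fun k φ i => HLaw.pair (F i k) φ) ∧
    ∀ t : ι → ℝ, Tendsto (fun k => (∫ h, Complex.exp (Complex.I * ((∑ i, t i * lin (F i k) h : ℝ) : ℂ)) ∂(L.muT fL k))
      - ∫ φ, Complex.exp (Complex.I * ((∑ i, t i * HLaw.pair (F i k) φ : ℝ) : ℂ)) ∂(L.gaT a fL k)) atTop (𝓝 0) := by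
  obtain ⟨hG1, hG2⟩ := h
  have hpin : ∀ k, plPin (L.H k) (L.P₀ k) = L.H k := fun k => (pl_law_eq_pin (L.H k) (L.lam k)).symm
  have hadm : ∀ k f, plAdm (L.H k) f := fun k f => by
    have h1 := pl_adm_of_PD (L.H k) (pn_pd L k) f
    rwa [hpin k] at h1
  have : ∀ k, IsProbabilityMeasure (L.muT fL k) := fun k => pn_latM_prob (L.H k) (L.gd k) (fL k)
  have : ∀ k, IsProbabilityMeasure (L.gaT a fL k) := fun k => pn_gauM_prob (L.H k) ha (pn_pd L k) (fL k)
  -- the tests `fL + ∑ u i • F i`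
  set g : (ι → ℝ) → L.T := fun u k => fL k + ∑ i, u i • F i k with hg
  have hg0 : ∀ k, g 0 k = fL k := fun k => by simp [hg]
  have hgo : ∀ (u : ι → ℝ) k, ∑ o : Option ι, (o.elim 1 u : ℝ) • (o.elim fL F : L.T) k = g u k := by
    intro u k
    rw [Fintype.sum_option]
    simp [hg]
  have hglap : ∀ u : ι → ℝ, Tendsto (fun k => hLap (L.H k) (L.b k) (g u k) - (L.H k).gVar a (g u k) / 2)
      atTop (𝓝 0) := by
    intro u
    have h1 := hG1 (fun _ o => o.elim 1 u) ⟨1 + ∑ i, |u i|, fun k o => by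
      have h2 : 0 ≤ ∑ i, |u i| := Finset.sum_nonneg fun i _ => abs_nonneg _
      rcases o with _ | i
      · simpa using h2
      · have h3 : |u i| ≤ ∑ i, |u i| := Finset.single_le_sum (fun i _ => abs_nonneg (u i)) (Finset.mem_univ i)
        simpa using by linarith⟩
    unfold LSeq.GLap at h1
    simpa only [hgo] using h1
  -- uniform bounds of the reference variances
  choose Co hCo using hG2
  have hVbd : ∀ M : ℝ, ∃ R : ℝ, ∀ u : ι → ℝ, (∀ i, |u i| ≤ M) → ∀ k, (L.H k).gVar a (g u k) ≤ R := by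
    intro M
    refine ⟨(∑ o : Option ι, max 1 M * Real.sqrt (max a 1 * Co o)) ^ 2, fun u hu k => ?_⟩
    have h1 := pn_sqrt_gVar_sum_le (L.H k) ha (hadm k) Finset.univ (fun o : Option ι => (o.elim 1 u : ℝ))
      (fun o => (o.elim fL F : L.T) k)
    rw [hgo] at h1
    have h2 : ∑ o : Option ι, |(o.elim 1 u : ℝ)| * Real.sqrt ((L.H k).gVar a ((o.elim fL F : L.T) k)) ≤
        ∑ o : Option ι, max 1 M * Real.sqrt (max a 1 * Co o) := by
      refine Finset.sum_le_sum fun o _ => mul_le_mul ?_ (Real.sqrt_le_sqrt ?_) (Real.sqrt_nonneg _)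
        (le_trans zero_le_one (le_max_left _ _))
      · rcases o with _ | i
        · simp
        · exact (hu i).trans (le_max_right _ _)
      · exact (pl_gVar_le_max (L.H k) ha _).trans
          (mul_le_mul_of_nonneg_left (hCo o k) (le_trans zero_le_one (le_max_right _ _)))
    exact (Real.sqrt_le_iff.1 (h1.trans h2)).2
  -- exponents
  set x : (ι → ℝ) → ℕ → ℝ := fun u k => hLap (L.H k) (L.b k) (g u k) - hLap (L.H k) (L.b k) (fL k) with hx
  set y : (ι → ℝ) → ℕ → ℝ := fun u k => ((L.H k).gVar a (g u k) - (L.H k).gVar a (fL k)) / 2 with hy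
  have hxy : ∀ u, Tendsto (fun k => x u k - y u k) atTop (𝓝 0) := by
    intro u
    have h1 := (hglap u).sub (hglap 0)
    rw [sub_zero] at h1
    refine h1.congr fun k => ?_
    simp only [hx, hy, hg0]
    ring
  have hyle : ∀ {M R : ℝ}, (∀ u : ι → ℝ, (∀ i, |u i| ≤ M) → ∀ k, (L.H k).gVar a (g u k) ≤ R) →
      ∀ u : ι → ℝ, (∀ i, |u i| ≤ M) → ∀ k, y u k ≤ R / 2 := by
    intro M R hR u hu k
    have h1 := hR u hu k
    have h2 := pl_gVar_nonneg (L.H k) ha (fL k)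
    simp only [hy]
    linarith
  -- moment generating functions
  have mL : ∀ (u : ι → ℝ) k, ∫ h, Real.exp (∑ i, u i * lin (F i k) h) ∂(L.muT fL k) = Real.exp (x u k) := by
    intro u k
    have h1 := pn_mgf_latM (L.H k) (L.gd k) (fL k) (∑ i, u i • F i k)
    simp only [pn_lin_sum_left] at h1
    exact h1
  have iL : ∀ (u : ι → ℝ) k, Integrable (fun h => Real.exp (∑ i, u i * lin (F i k) h)) (L.muT fL k) := by
    intro u k
    refine pn_integrable (L.H k) (L.gd k) (fL k) (∑ i, u i • F i k) 1 _ fun h => ?_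
    rw [pn_lin_sum_left, one_mul, abs_of_pos (Real.exp_pos _)]
  have mG : ∀ (u : ι → ℝ) k, Integrable (fun φ => Real.exp (∑ i, u i * HLaw.pair (F i k) φ)) (L.gaT a fL k) ∧
      ∫ φ, Real.exp (∑ i, u i * HLaw.pair (F i k) φ) ∂(L.gaT a fL k) = Real.exp (y u k) := by
    intro u k
    have h1 := pn_mgf_gauM (L.H k) ha (pn_pd L k) (fL k) (∑ i, u i • F i k)
    simp only [pn_pair_sum_left, hpin k] at h1
    exact h1
  have hsingle : ∀ (s : ℝ) (i : ι) (w : ι → ℝ), ∑ j, (Pi.single i s : ι → ℝ) j * w j = s * w i := by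
    intro s i w
    rw [Finset.sum_eq_single i (fun j _ hj => by rw [Pi.single_eq_of_ne hj, zero_mul])
      (fun hi => absurd (Finset.mem_univ i) hi), Pi.single_eq_same]
  have hsabs : ∀ (s : ℝ) (i j : ι), |(Pi.single i s : ι → ℝ) j| ≤ |s| := by
    intro s i j
    by_cases hj : j = i
    · rw [hj, Pi.single_eq_same]
    · rw [Pi.single_eq_of_ne hj, abs_zero]
      exact abs_nonneg _
  obtain ⟨R1, hR1⟩ := hVbd 1
  refine ⟨?_, ?_, fun t => ?_⟩
  · -- tightness, lattice side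
    refine pn_tight_of_mgf (L.muT fL) (fun k h i => lin (F i k) h) (fun k => Measurable.of_discrete)
      (fun k i s => ?_) (Real.exp (R1 / 2 + 1)) ?_
    · have h1 := iL (Pi.single i s) k
      simpa only [hsingle] using h1
    · have hev : ∀ u : ι → ℝ, ∀ᶠ k in atTop, x u k ≤ y u k + 1 := by
        intro u
        have h1 := (tendsto_order.1 (hxy u)).2 1 one_pos
        exact h1.mono fun k hk => by linarith
      have h2 : ∀ᶠ k in atTop, ∀ i : ι, x (Pi.single i 1) k ≤ y (Pi.single i 1) k + 1 ∧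
          x (Pi.single i (-1)) k ≤ y (Pi.single i (-1)) k + 1 :=
        eventually_all.2 fun i => (hev _).and (hev _)
      filter_upwards [h2] with k hk i
      have e1 := mL (Pi.single i 1) k
      have e2 := mL (Pi.single i (-1)) k
      simp only [hsingle, one_mul, neg_mul] at e1 e2
      rw [e1, e2]
      constructor
      · refine Real.exp_le_exp.2 ((hk i).1.trans ?_)
        have := hyle hR1 (Pi.single i 1) (fun j => (hsabs 1 i j).trans (by simp)) k
        linarith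
      · refine Real.exp_le_exp.2 ((hk i).2.trans ?_)
        have := hyle hR1 (Pi.single i (-1)) (fun j => (hsabs (-1) i j).trans (by simp)) k
        linarith
  · -- tightness, Gaussian side
    refine pn_tight_of_mgf (L.gaT a fL) (fun k φ i => HLaw.pair (F i k) φ)
      (fun k => measurable_pi_lambda _ fun i => (pl_pair_continuous (F i k)).measurable)
      (fun k i s => ?_) (Real.exp (R1 / 2)) (Eventually.of_forall fun k i => ?_)
    · have h1 := (mG (Pi.single i s) k).1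
      simpa only [hsingle] using h1
    · have e1 := (mG (Pi.single i 1) k).2
      have e2 := (mG (Pi.single i (-1)) k).2
      simp only [hsingle, one_mul, neg_mul] at e1 e2
      rw [e1, e2]
      exact ⟨Real.exp_le_exp.2 (hyle hR1 (Pi.single i 1) (fun j => (hsabs 1 i j).trans (by simp)) k),
        Real.exp_le_exp.2 (hyle hR1 (Pi.single i (-1)) (fun j => (hsabs (-1) i j).trans (by simp)) k)⟩
  · -- characteristic functions
    have hmul : ∀ (s : ℝ) (w : ι → ℝ), s * ∑ i, t i * w i = ∑ i, (s * t i) * w i := by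
      intro s w
      rw [Finset.mul_sum]
      exact Finset.sum_congr rfl fun i _ => by ring
    have hbdu : ∀ s : ℝ, ∀ i, |s * t i| ≤ |s| * ∑ j, |t j| := by
      intro s i
      rw [abs_mul]
      exact mul_le_mul_of_nonneg_left
        (Finset.single_le_sum (fun j _ => abs_nonneg (t j)) (Finset.mem_univ i)) (abs_nonneg _)
    refine pn_mgf_to_char (L.muT fL) (L.gaT a fL) (fun k h => ∑ i, t i * lin (F i k) h)
      (fun k φ => ∑ i, t i * HLaw.pair (F i k) φ) (fun k => Measurable.of_discrete)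
      (fun k => Finset.measurable_sum _ fun i _ => (pl_pair_continuous (F i k)).measurable.const_mul _)
      (fun k s => ?_) (fun k s => ?_) (fun s => ?_) (fun s => ?_) Complex.I
    · simp only [hmul]
      exact iL _ k
    · simp only [hmul]
      exact (mG _ k).1
    · obtain ⟨R, hR⟩ := hVbd (|s| * ∑ j, |t j|)
      refine ⟨Real.exp (R / 2), fun k => ?_⟩
      simp only [hmul]
      rw [(mG _ k).2]
      exact Real.exp_le_exp.2 (hyle hR _ (hbdu s) k)
    · obtain ⟨R, hR⟩ := hVbd (|s| * ∑ j, |t j|)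
      simp only [hmul, mL]
      simp only [fun k => (mG (fun i => s * t i) k).2]
      exact pn_exp_sub_tendsto (hyle hR _ (hbdu s)) (hxy _)

/-- bounded reference cost gives a bounded log-Laplace transform -/
theorem pn_hLap_bdd (L : LSeq) (f : L.T) (h : L.Bd f) : ∃ B : ℝ, ∀ k, hLap (L.H k) (L.b k) (f k) ≤ B := by
  obtain ⟨C₀, hC₀⟩ := h
  obtain ⟨C, hC⟩ := pn_t31_ref_mgf L.bmax C₀
  refine ⟨max C 0 * max C₀ 0, fun k => ?_⟩
  obtain ⟨X, hX⟩ := pn_exists_lift (L.H k) (L.gd k).proper (L.b k) (f k)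
  rw [pn_hLap_eq_logLap (L.H k) (L.gd k).proper (L.b k) (f k) X hX]
  have h0 := pl_gVar_nonneg (L.H k) one_pos (f k)
  calc (L.H k).logLap (L.b k) X ≤ C * (L.H k).gVar 1 (f k) :=
        hC _ _ _ (L.gd k).b_pos (L.b_le k) (L.gd k).ok (f k) X hX (hC₀ k)
    _ ≤ max C 0 * (L.H k).gVar 1 (f k) := mul_le_mul_of_nonneg_right (le_max_left _ _) h0
    _ ≤ max C 0 * max C₀ 0 := mul_le_mul_of_nonneg_left ((hC₀ k).trans (le_max_left _ _)) (le_max_right _ _)

theorem pn_bd_smul (L : LSeq) (f : L.T) (h : L.Bd f) (t : ℝ) : L.Bd fun k => t • f k := by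
  obtain ⟨C₀, hC₀⟩ := h
  refine ⟨t ^ 2 * C₀, fun k => ?_⟩
  rw [pl_gVar_smul _ one_pos]
  exact mul_le_mul_of_nonneg_left (hC₀ k) (sq_nonneg t)

/-- **L-PN-S6** (~150 l.).  Tilts are contiguous both ways (`pn_tilt_event`, `pn_untilt_event`, `C3.ref_mgf`, `pn_hLap_nonneg`, `pn_contig_of_sqrt`). -/
theorem pn_contig_tilt (L : LSeq) (fL : L.T) (h : L.Bd fL) : Contig L.mu (L.muT fL) (fun _ => Set.univ) ∧ Contig (L.muT fL) L.mu (fun _ => Set.univ) := by
  obtain ⟨B₁, hB₁⟩ := pn_hLap_bdd L fL h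
  obtain ⟨B₂, hB₂⟩ := pn_hLap_bdd L _ (pn_bd_smul L fL h 2)
  constructor
  · refine pn_contig_of_sqrt (Real.exp (B₂ / 2)) (Eventually.of_forall fun k E _ => ?_)
    refine (pn_tilt_event (L.H k) (L.gd k) (fL k) E).trans ?_
    refine mul_le_mul_of_nonneg_right (Real.exp_le_exp.2 ?_) (Real.sqrt_nonneg _)
    have h1 := pn_hLap_nonneg (L.H k) (L.gd k) (fL k)
    have h2 := hB₂ k
    linarith
  · refine pn_contig_of_sqrt (Real.exp B₁) (Eventually.of_forall fun k E _ => ?_)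
    refine (pn_untilt_event (L.H k) (L.gd k) (fL k) E).trans ?_
    exact mul_le_mul_of_nonneg_right (Real.exp_le_exp.2 (hB₁ k)) (Real.sqrt_nonneg _)

theorem pn_contig_gau_tilt (L : LSeq) {a : ℝ} (ha : 0 < a) (fL : L.T) (h : L.Bd fL) :
    Contig (L.ga a) (L.gaT a fL) (fun _ => {E | MeasurableSet E}) := by
  obtain ⟨C₀, hC₀⟩ := h
  refine pn_contig_of_sqrt (Real.exp (max a 1 * max C₀ 0 / 2)) (Eventually.of_forall fun k E hE => ?_)
  refine (pn_gau_tilt_event (L.H k) ha (pn_pd L k) (fL k) E hE).trans ?_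
  refine mul_le_mul_of_nonneg_right (Real.exp_le_exp.2 ?_) (Real.sqrt_nonneg _)
  rw [← pl_law_eq_pin (L.H k) (L.lam k)]
  have h1 := pl_gVar_le_max (L.H k) ha (fL k)
  have h2 : max a 1 * (L.H k).gVar 1 (fL k) ≤ max a 1 * max C₀ 0 :=
    mul_le_mul_of_nonneg_left ((hC₀ k).trans (le_max_left _ _)) (le_trans zero_le_one (le_max_right _ _))
  linarith

/-! ## 4. Step B: conditional Laplace transforms at typical data -/

theorem pn_ZC_exp_pos {G : HGraph} (H : HLaw G) {b : ℝ} (hG : Gd H b) (P : Set G.V) (f : G.V → ℝ) (u : G.V → ℤ) :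
    0 < C3.ZC H b P u fun φ => Real.exp (HLaw.pair f φ) := by
  rw [pn_ZC_eq]
  have hs : Summable fun h : ↥(H.Λ ⊓ HLaw.pinned P) =>
      Real.exp (HLaw.pair f (C3.phys ((h : G.V → ℤ) + C3.resZ P u))) * hW H b ((h : G.V → ℤ) + C3.resZ P u) :=
    pn_summable (H.addPin P) (pn_gd_addPin H hG P) (C3.resZ P u) f
  exact hs.tsum_pos (fun h => (mul_pos (Real.exp_pos _) (pn_hW_pos H hG.b_pos _)).le) 0
    (mul_pos (Real.exp_pos _) (pn_hW_pos H hG.b_pos _))

theorem pn_exp_cLap {G : HGraph} (H : HLaw G) {b : ℝ} (hG : Gd H b) (P : Set G.V) (f : G.V → ℝ) (u : G.V → ℤ) :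
    Real.exp (C3.cLap H b P f u) = cE H b P (fun φ => Real.exp (HLaw.pair f φ)) u := by
  unfold C3.cLap cE
  rw [Real.exp_log (div_pos (pn_ZC_exp_pos H hG P f u) (pn_ZC_one_pos H hG P u))]

theorem pn_int_exp_lin {G : HGraph} (H : HLaw G) {b : ℝ} (hG : Gd H b) (g : G.V → ℝ) :
    ∫ h, Real.exp (lin g h) ∂(latM H b 0) = Real.exp (hLap H b g) := by
  rw [pn_int0 H hG, pn_exp_hLap H hG]

theorem pn_stepB_mean {G : HGraph} (H : HLaw G) {b : ℝ} (hG : Gd H b) (P : Set G.V) (hsp : Splits H P) (f β : G.V → ℝ)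
    (hβ : ∀ x ∉ P, β x = 0) (w : ℝ) :
    Integrable (fun h => Real.exp (C3.cLap H b P f h - lin β h - w)) (latM H b 0) ∧
    ∫ h, Real.exp (C3.cLap H b P f h - lin β h - w) ∂(latM H b 0) = Real.exp (hLap H b (f - β) - w) := by
  have hloc : LocP P fun h => Real.exp (-lin β h) := fun h => by
    show Real.exp (-lin β (C3.resZ P h)) = _
    rw [pn_lin_loc P β hβ]
  have hprod : ∀ h : G.V → ℤ, Real.exp (-lin β h) * Real.exp (HLaw.pair f (C3.phys h)) = Real.exp (lin (f - β) h) := by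
    intro h
    have e : lin (f - β) h = lin f h - lin β h := by
      rw [sub_eq_add_neg, pn_lin_add_left, pn_lin_neg_left]
      ring
    rw [e, ← Real.exp_add]
    congr 1
    show -lin β h + lin f h = _
    ring
  obtain ⟨hi, ht⟩ := pn_tower H hG P hsp (fun h => Real.exp (-lin β h)) hloc (fun φ => Real.exp (HLaw.pair f φ)) (f - β) 1
    (fun h => by
      rw [hprod, abs_of_pos (Real.exp_pos _), one_mul])
  have e : ∀ h, Real.exp (C3.cLap H b P f h - lin β h - w)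
      = (Real.exp (-lin β h) * cE H b P (fun φ => Real.exp (HLaw.pair f φ)) h) * Real.exp (-w) := by
    intro h
    rw [← pn_exp_cLap H hG, ← Real.exp_add, ← Real.exp_add]
    congr 1
    ring
  simp only [e]
  refine ⟨hi.mul_const _, ?_⟩
  rw [integral_mul_const, ← ht]
  simp only [hprod]
  rw [pn_int_exp_lin H hG, ← Real.exp_add]
  congr 1

/-- **L-PN-S7** (~250 l.).  `a = exp(cLap f - lin β - v/2)`, `a' = exp(cLap (-f) + lin β - v/2)`: `E a = exp(hLap (f - β) - v/2)` (`pn_tower` with `Ψ = e^{-lin β}`, `F = e^{⟨f,·⟩}`), the same for `a'` (`pn_hLap_neg`),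
`a a' ≥ exp(2 hLap_p f - v)` (`pn_cond_lap_prod`); `pn_mul_squeeze`. -/
theorem pn_stepB (L : LSeq) (P : L.St) (f β : L.T) (v : ℕ → ℝ) (hβ : ∀ k, ∀ x ∉ P k, β k x = 0)
    (hp : Tendsto (fun k => hLap ((L.H k).addPin (P k)) (L.b k) (f k) - v k / 2) atTop (𝓝 0))
    (hm : Tendsto (fun k => hLap (L.H k) (L.b k) (f k - β k) - v k / 2) atTop (𝓝 0)) :
    TendsP L.mu fun k h => C3.cLap (L.H k) (L.b k) (P k) (f k) h - lin (β k) h - v k / 2 := by
  have hprob : ∀ k, IsProbabilityMeasure (L.mu k) := fun k => pn_latM_prob (L.H k) (L.gd k) 0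
  have h1 := fun k => pn_stepB_mean (L.H k) (L.gd k) (P k) (pn_splits L P k) (f k) (β k) (hβ k) (v k / 2)
  have h2 := fun k => pn_stepB_mean (L.H k) (L.gd k) (P k) (pn_splits L P k) (-f k) (-β k)
    (fun x hx => by rw [Pi.neg_apply, hβ k x hx, neg_zero]) (v k / 2)
  have hexp : Tendsto (fun k => Real.exp (hLap (L.H k) (L.b k) (f k - β k) - v k / 2)) atTop (𝓝 1) := by
    have := (Real.continuous_exp.tendsto 0).comp hm
    rwa [Real.exp_zero] at this
  have key := pn_mul_squeeze L.mu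
    (fun k h => Real.exp (C3.cLap (L.H k) (L.b k) (P k) (f k) h - lin (β k) h - v k / 2))
    (fun k h => Real.exp (C3.cLap (L.H k) (L.b k) (P k) (-f k) h - lin (-β k) h - v k / 2))
    (fun k => (h1 k).1) (fun k => (h2 k).1) (fun k h => Real.exp_pos _) (fun k h => Real.exp_pos _)
    (fun k => Real.exp (2 * (hLap ((L.H k).addPin (P k)) (L.b k) (f k) - v k / 2))) ?_ ?_ ?_ ?_
  · simpa only [Real.log_exp] using key
  · have h3 := hp.const_mul 2
    rw [mul_zero] at h3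
    have := (Real.continuous_exp.tendsto 0).comp h3
    rwa [Real.exp_zero] at this
  · intro k h
    rw [← Real.exp_add, Real.exp_le_exp, pn_lin_neg_left]
    have := pn_cond_lap_prod (L.H k) (L.gd k) (P k) (f k) h
    linarith
  · refine hexp.congr fun k => ?_
    exact (h1 k).2.symm
  · refine hexp.congr fun k => ?_
    refine Eq.trans ?_ (h2 k).2.symm
    have e : -f k - -β k = -(f k - β k) := by abel
    rw [e, pn_hLap_neg (L.H k) (L.gd k)]

/-- the balayage of a sequence of tests onto own pins + guard -/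
def LSeq.bal (L : LSeq) (a : ℝ) (P : L.St) (f : L.T) : L.T := fun k => T32.bal (L.H k) a (L.P₀ k ∪ P k) (f k)

/-- the lattice laws are carried by the constraint lattice -/
theorem pn_latM_ae_mem {G : HGraph} (H : HLaw G) (b : ℝ) (fL : G.V → ℝ) : ∀ᵐ h ∂(latM H b fL), h ∈ H.Λ := by
  rw [pn_latM_def, Measure.ae_sum_iff]
  intro h
  refine Measure.ae_smul_measure ?_ _
  rw [ae_dirac_eq]
  exact h.2

/-- events which agree on the constraint lattice have the same probability -/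
theorem pn_latM_real_congr {G : HGraph} (H : HLaw G) (b : ℝ) (fL : G.V → ℝ) (A B : Set (G.V → ℤ))
    (h : ∀ h ∈ H.Λ, h ∈ A ↔ h ∈ B) : (latM H b fL).real A = (latM H b fL).real B := by
  unfold Measure.real
  congr 1
  refine measure_congr ?_
  filter_upwards [pn_latM_ae_mem H b fL] with x hx
  exact propext (h x hx)

/-- `hLap` only sees the test through its values on the constraint lattice -/
theorem pn_hLap_congr {G : HGraph} (H : HLaw G) (b : ℝ) (f g : G.V → ℝ) (h : ∀ h ∈ H.Λ, lin f h = lin g h) :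
    hLap H b f = hLap H b g := by
  rw [pn_hLap_eq, pn_hLap_eq]
  congr 2
  exact tsum_congr fun x => by rw [h x x.2]

/-- on heights vanishing on `P₀` a test supported in `P₀ ∪ P` acts through its restriction to `P` -/
theorem pn_lin_resR {G : HGraph} (P₀ P : Set G.V) (β : G.V → ℝ) (hβ : ∀ x ∉ P₀ ∪ P, β x = 0) (h : G.V → ℤ)
    (hh : h ∈ HLaw.pinned (G := G) P₀) : lin (C3.resR P β) h = lin β h := by
  unfold lin HLaw.pair
  refine Finset.sum_congr rfl fun x _ => ?_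
  unfold C3.resR C3.phys
  by_cases hx : x ∈ P
  · rw [if_pos hx]
  · rw [if_neg hx]
    by_cases hx0 : x ∈ P₀
    · have : h x = 0 := hh x hx0
      rw [this]
      simp
    · rw [hβ x (fun hc => hc.elim hx0 hx)]

/-- Step B against the reference (`pn_bal_var`, `pn_bal_supp`; on own pins `lin` does not see `bal`: heights vanish there.  ~120 l., same leaf S7) -/
theorem pn_stepB_ref (L : LSeq) {a : ℝ} (ha : 0 < a) (P : L.St) (f : L.T) (hp : (L.pin P).GLap a f)
    (hm : L.GLap a fun k => f k - L.bal a P f k) :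
    TendsP L.mu fun k h => C3.cLap (L.H k) (L.b k) (P k) (f k) h - lin (L.bal a P f k) h - ((L.pin P).H k).gVar a (f k) / 2 := by
  have hsupp : ∀ k, ∀ x ∉ L.P₀ k ∪ P k, L.bal a P f k x = 0 := fun k => pn_bal_supp (L.H k) a (L.P₀ k ∪ P k) (f k)
  have hlin : ∀ k, ∀ h ∈ (L.H k).Λ, lin (C3.resR (P k) (L.bal a P f k)) h = lin (L.bal a P f k) h := by
    intro k h hh
    rw [L.lam k] at hh
    exact pn_lin_resR (L.P₀ k) (P k) _ (hsupp k) h hh
  have hvar : ∀ k, (L.H k).gVar a (f k - L.bal a P f k) = ((L.pin P).H k).gVar a (f k) := by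
    intro k
    have e1 : L.H k = plPin (L.H k) (L.P₀ k) := pl_law_eq_pin _ (L.lam k)
    have e2 : (L.pin P).H k = plPin (L.H k) (L.P₀ k ∪ P k) := pl_law_eq_pin _ ((L.pin P).lam k)
    have h1 := pn_bal_var (L.H k) ha (pn_pd L k) (Set.subset_union_left (s := L.P₀ k) (t := P k)) (f k)
    calc (L.H k).gVar a (f k - L.bal a P f k) = (plPin (L.H k) (L.P₀ k)).gVar a (f k - L.bal a P f k) :=
          congrArg (fun H' : HLaw (L.G k) => H'.gVar a (f k - L.bal a P f k)) e1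
      _ = (plPin (L.H k) (L.P₀ k ∪ P k)).gVar a (f k) := h1
      _ = ((L.pin P).H k).gVar a (f k) := (congrArg (fun H' : HLaw (L.G k) => H'.gVar a (f k)) e2).symm
  have key := pn_stepB L P f (fun k => C3.resR (P k) (L.bal a P f k)) (fun k => ((L.pin P).H k).gVar a (f k))
    (fun k x hx => by show (if x ∈ P k then _ else (0:ℝ)) = 0; rw [if_neg hx]) hp ?_
  · intro ε hε
    refine (key ε hε).congr fun k => ?_
    refine pn_latM_real_congr (L.H k) (L.b k) 0 _ _ fun h hh => ?_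
    have e := hlin k h hh
    show (ε < ‖C3.cLap (L.H k) (L.b k) (P k) (f k) h - lin (C3.resR (P k) (L.bal a P f k)) h - ((L.pin P).H k).gVar a (f k) / 2‖)
      ↔ (ε < ‖C3.cLap (L.H k) (L.b k) (P k) (f k) h - lin (L.bal a P f k) h - ((L.pin P).H k).gVar a (f k) / 2‖)
    rw [e]
  · refine hm.congr fun k => ?_
    rw [hvar k]
    congr 1
    refine pn_hLap_congr (L.H k) (L.b k) _ _ fun h hh => ?_
    show lin (f k - L.bal a P f k) h = lin (f k - C3.resR (P k) (L.bal a P f k)) h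
    rw [sub_eq_add_neg, sub_eq_add_neg, pn_lin_add_left, pn_lin_add_left, pn_lin_neg_left, pn_lin_neg_left, hlin k h hh]

/-! ## 5. Steps A and C: soft probes -/

/-- **L-PN-S8** (~200 l.).  Step A, exact.  `ψ = cE cos + i cE sin`: `E|ψ - φ_p e^{iL}|² = E|ψ|² - 2 φ_p E Re(ψ e^{-iL}) + φ_p²`, `|ψ| ≤ φ_p` (`pn_cond_char_le`), `E Re(ψ e^{-iL}) = E cos(X - L)` (`pn_tower` twice). -/
theorem pn_stepA {G : HGraph} (H : HLaw G) {b : ℝ} (hG : Gd H b) (P : Set G.V) (hsp : Splits H P) (f β : G.V → ℝ) (hβ : ∀ x ∉ P, β x = 0) :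
    ∫ h, (cE H b P (fun φ => Real.cos (HLaw.pair f φ)) h - hPhi (H.addPin P) b f * Real.cos (lin β h)) ^ 2 ∂(latM H b 0)
      ≤ 2 * hPhi (H.addPin P) b f * (hPhi (H.addPin P) b f - hPhi H b (f - β)) := by
  have hprob := pn_latM_prob H hG 0
  set φp := hPhi (H.addPin P) b f with hφp
  obtain ⟨hφ0, hφ1⟩ := pn_hPhi_mem (H.addPin P) (pn_gd_addPin H hG P) f
  set c : (G.V → ℤ) → ℝ := cE H b P (fun φ => Real.cos (HLaw.pair f φ)) with hc
  set s : (G.V → ℤ) → ℝ := cE H b P (fun φ => Real.sin (HLaw.pair f φ)) with hs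
  have hcs : ∀ h, c h ^ 2 + s h ^ 2 ≤ φp ^ 2 := fun h => pn_cond_char_le H hG P f h
  have hlin0 : ∀ h : G.V → ℤ, lin 0 h = 0 := fun h => pl_pair_zero_left _
  have hbdd : ∀ (Ψ : (G.V → ℤ) → ℝ) (C : ℝ), (∀ h, |Ψ h| ≤ C) → Integrable Ψ (latM H b 0) := by
    intro Ψ C hΨ
    refine pn_integrable H hG 0 0 C Ψ fun h => ?_
    rw [hlin0, Real.exp_zero, mul_one]
    exact hΨ h
  have hlocC : LocP P fun h => Real.cos (lin β h) := fun h => by
    show Real.cos (lin β (C3.resZ P h)) = _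
    rw [pn_lin_loc P β hβ]
  have hlocS : LocP P fun h => Real.sin (lin β h) := fun h => by
    show Real.sin (lin β (C3.resZ P h)) = _
    rw [pn_lin_loc P β hβ]
  obtain ⟨hi1, ht1⟩ := pn_tower H hG P hsp (fun h => Real.cos (lin β h)) hlocC (fun φ => Real.cos (HLaw.pair f φ)) 0 1
    (fun h => by
      rw [hlin0, Real.exp_zero, mul_one, abs_mul]
      exact mul_le_one₀ (Real.abs_cos_le_one _) (abs_nonneg _) (Real.abs_cos_le_one _))
  obtain ⟨hi2, ht2⟩ := pn_tower H hG P hsp (fun h => Real.sin (lin β h)) hlocS (fun φ => Real.sin (HLaw.pair f φ)) 0 1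
    (fun h => by
      rw [hlin0, Real.exp_zero, mul_one, abs_mul]
      exact mul_le_one₀ (Real.abs_sin_le_one _) (abs_nonneg _) (Real.abs_sin_le_one _))
  have hsum : ∫ h, Real.cos (lin β h) * c h ∂(latM H b 0) + ∫ h, Real.sin (lin β h) * s h ∂(latM H b 0)
      = hPhi H b (f - β) := by
    rw [← ht1, ← ht2, ← integral_add]
    · unfold hPhi
      rw [pn_ExT_eq H hG]
      refine integral_congr_ae (Eventually.of_forall fun h => ?_)
      show Real.cos (lin β h) * Real.cos (lin f h) + Real.sin (lin β h) * Real.sin (lin f h) = Real.cos (lin (f - β) h)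
      have : lin (f - β) h = lin f h - lin β h := pl_pair_sub_left _ _ _
      rw [this, Real.cos_sub]
      ring
    · refine hbdd _ 1 fun h => ?_
      rw [abs_mul]
      exact mul_le_one₀ (Real.abs_cos_le_one _) (abs_nonneg _) (Real.abs_cos_le_one _)
    · refine hbdd _ 1 fun h => ?_
      rw [abs_mul]
      exact mul_le_one₀ (Real.abs_sin_le_one _) (abs_nonneg _) (Real.abs_sin_le_one _)
  have hcabs : ∀ h, |c h| ≤ 1 := fun h => by
    have h1 := hcs h
    have h2 : c h ^ 2 ≤ 1 := by nlinarith [sq_nonneg (s h)]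
    exact abs_le_one_iff_mul_self_le_one.2 (by nlinarith)
  have hiL : Integrable (fun h => (c h - φp * Real.cos (lin β h)) ^ 2) (latM H b 0) := by
    refine hbdd _ 4 fun h => ?_
    have h1 := abs_le.1 (hcabs h)
    have h2 := abs_le.1 (Real.abs_cos_le_one (lin β h))
    rw [abs_of_nonneg (sq_nonneg _)]
    have h3 : |c h - φp * Real.cos (lin β h)| ≤ 2 := by
      rw [abs_le]
      constructor <;> nlinarith [h1.1, h1.2, h2.1, h2.2]
    have := abs_le.1 h3
    nlinarith [this.1, this.2]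
  have hi12 : Integrable (fun h => Real.cos (lin β h) * c h + Real.sin (lin β h) * s h) (latM H b 0) := hi1.add hi2
  calc ∫ h, (c h - φp * Real.cos (lin β h)) ^ 2 ∂(latM H b 0)
      ≤ ∫ h, (2 * φp ^ 2 - 2 * φp * (Real.cos (lin β h) * c h + Real.sin (lin β h) * s h)) ∂(latM H b 0) := by
        refine integral_mono hiL ?_ fun h => ?_
        · exact (integrable_const _).sub (hi12.const_mul _)
        · show (c h - φp * Real.cos (lin β h)) ^ 2 ≤ 2 * φp ^ 2 - 2 * φp * (Real.cos (lin β h) * c h + Real.sin (lin β h) * s h)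
          have h1 := hcs h
          have h2 := Real.sin_sq_add_cos_sq (lin β h)
          nlinarith [sq_nonneg (s h - φp * Real.sin (lin β h))]
    _ = 2 * φp ^ 2 - 2 * φp * hPhi H b (f - β) := by
        have e : ∫ h, (Real.cos (lin β h) * c h + Real.sin (lin β h) * s h) ∂(latM H b 0) = hPhi H b (f - β) := by
          rw [← hsum]
          exact integral_add hi1 hi2
        rw [integral_sub (integrable_const _) (hi12.const_mul _), integral_const, integral_const_mul, e]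
        simp
    _ = 2 * φp * (φp - hPhi H b (f - β)) := by ring

/-- the Gaussian weight of the probes -/
def Qw {G : HGraph} {n : ℕ} (R : Fin n → G.V → ℝ) (φ : G.V → ℝ) : ℝ := Real.exp (-(∑ d, HLaw.pair (R d) φ ^ 2) / 2)

theorem pn_s9_pair_sum {G : HGraph} {n : ℕ} (τ : Fin n → ℝ) (R : Fin n → G.V → ℝ) (φ : G.V → ℝ) :
    HLaw.pair (∑ d, τ d • R d) φ = ∑ d, τ d * HLaw.pair (R d) φ := by
  unfold HLaw.pair
  simp only [Finset.sum_apply, Pi.smul_apply, smul_eq_mul, Finset.sum_mul, Finset.mul_sum]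
  rw [Finset.sum_comm]
  exact Finset.sum_congr rfl fun i _ => Finset.sum_congr rfl fun y _ => by ring

/-- `E|X| ≤ √(E X²)` -/
theorem pn_s9_l1_le_sqrt {Ω : Type} [MeasurableSpace Ω] (m : Measure Ω) [IsProbabilityMeasure m] (X : Ω → ℝ)
    (hX : Integrable X m) (hX2 : Integrable (fun ω => X ω ^ 2) m) :
    ∫ ω, |X ω| ∂m ≤ Real.sqrt (∫ ω, X ω ^ 2 ∂m) := by
  obtain ⟨t, ht⟩ : ∃ t, t = ∫ ω, |X ω| ∂m := ⟨_, rfl⟩
  have ht0 : 0 ≤ t := by rw [ht]; exact integral_nonneg fun _ => abs_nonneg _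
  have h1 : 0 ≤ ∫ ω, (|X ω| - t) ^ 2 ∂m := integral_nonneg fun _ => sq_nonneg _
  have e : ∀ ω, (|X ω| - t) ^ 2 = X ω ^ 2 - 2 * t * |X ω| + t ^ 2 := by
    intro ω
    have := sq_abs (X ω)
    nlinarith
  have h2 : ∫ ω, (|X ω| - t) ^ 2 ∂m = ∫ ω, X ω ^ 2 ∂m - 2 * t * t + t ^ 2 := by
    simp only [e]
    have i1 : Integrable (fun ω => 2 * t * |X ω|) m := hX.abs.const_mul _
    have i2 : Integrable (fun ω => X ω ^ 2 - 2 * t * |X ω|) m := hX2.sub i1
    rw [integral_add i2 (integrable_const _), integral_sub hX2 i1, integral_const_mul, ← ht, integral_const]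
    simp
  rw [h2] at h1
  rw [← ht]
  exact Real.le_sqrt_of_sq_le (by nlinarith)

section one

variable {G : HGraph} (H : HLaw G)

theorem pn_s9_cos_abs_le {b : ℝ} (hG : Gd H b) (P : Set G.V) (f : G.V → ℝ) (u : G.V → ℤ) :
    |cE H b P (fun φ => Real.cos (HLaw.pair f φ)) u| ≤ 1 := by
  have h1 := pn_cond_char_le H hG P f u
  obtain ⟨hφ0, hφ1⟩ := pn_hPhi_mem (H.addPin P) (pn_gd_addPin H hG P) f
  have h2 : cE H b P (fun φ => Real.cos (HLaw.pair f φ)) u ^ 2 ≤ 1 := by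
    nlinarith [sq_nonneg (cE H b P (fun φ => Real.sin (HLaw.pair f φ)) u)]
  exact abs_le_one_iff_mul_self_le_one.2 (by nlinarith)

theorem pn_s9_cos_cont {b : ℝ} (hG : Gd H b) (P : Set G.V) (u : G.V → ℤ) {n : ℕ} (R : Fin n → G.V → ℝ) :
    Continuous fun τ : Fin n → ℝ => cE H b P (fun φ => Real.cos (HLaw.pair (∑ d, τ d • R d) φ)) u := by
  unfold cE
  refine Continuous.div_const ?_ _
  simp only [pn_ZC_eq, pn_s9_pair_sum]
  have hs : Summable fun h : ↥(H.Λ ⊓ HLaw.pinned P) => hW H b ((h : G.V → ℤ) + C3.resZ P u) := by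
    have := pn_summable (H.addPin P) (pn_gd_addPin H hG P) (C3.resZ P u) 0
    simp only [pn_lin_zero_left, Real.exp_zero, one_mul] at this
    exact this
  refine continuous_tsum (fun h => ?_) hs fun h τ => ?_
  · fun_prop
  · rw [norm_mul, Real.norm_eq_abs, Real.norm_eq_abs, abs_of_pos (pn_hW_pos H hG.b_pos _)]
    calc _ ≤ 1 * hW H b ((h : G.V → ℤ) + C3.resZ P u) :=
          mul_le_mul_of_nonneg_right (Real.abs_cos_le_one _) (pn_hW_pos H hG.b_pos _).le
      _ = _ := one_mul _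

/-- bounded functions are integrable under the lattice law -/
theorem pn_s9_int_bdd {b : ℝ} (hG : Gd H b) (Ψ : (G.V → ℤ) → ℝ) (C : ℝ) (hΨ : ∀ h, |Ψ h| ≤ C) :
    Integrable Ψ (latM H b 0) := by
  refine pn_integrable H hG 0 0 C Ψ fun h => ?_
  rw [pn_lin_zero_left, Real.exp_zero, mul_one]
  exact hΨ h

/-- Step A in `L¹`, with an arbitrary coefficient `e` -/
theorem pn_s9_stepA_l1 {b : ℝ} (hG : Gd H b) (P : Set G.V) (hsp : Splits H P) (f β : G.V → ℝ) (hβ : ∀ x ∉ P, β x = 0) (e : ℝ) :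
    ∫ h, |cE H b P (fun φ => Real.cos (HLaw.pair f φ)) h - e * Real.cos (lin β h)| ∂(latM H b 0)
      ≤ Real.sqrt (2 * |hPhi (H.addPin P) b f - hPhi H b (f - β)|) + |hPhi (H.addPin P) b f - e| := by
  have hprob := pn_latM_prob H hG 0
  obtain ⟨hφ0, hφ1⟩ := pn_hPhi_mem (H.addPin P) (pn_gd_addPin H hG P) f
  obtain ⟨φp, hφp⟩ : ∃ φp, φp = hPhi (H.addPin P) b f := ⟨_, rfl⟩
  rw [← hφp] at hφ0 hφ1 ⊢
  obtain ⟨c, hc⟩ : ∃ c : (G.V → ℤ) → ℝ, c = cE H b P (fun φ => Real.cos (HLaw.pair f φ)) := ⟨_, rfl⟩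
  have hA := pn_stepA H hG P hsp f β hβ
  rw [← hφp, ← hc] at hA
  rw [← hc]
  have hcabs : ∀ h, |c h| ≤ 1 := fun h => by rw [hc]; exact pn_s9_cos_abs_le H hG P f h
  have hX : ∀ h, |c h - φp * Real.cos (lin β h)| ≤ 2 := by
    intro h
    have h1 := abs_le.1 (hcabs h)
    have h2 := abs_le.1 (Real.abs_cos_le_one (lin β h))
    rw [abs_le]
    constructor <;> nlinarith [h1.1, h1.2, h2.1, h2.2]
  have hiX : Integrable (fun h => c h - φp * Real.cos (lin β h)) (latM H b 0) := pn_s9_int_bdd H hG _ 2 hX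
  have hiX2 : Integrable (fun h => (c h - φp * Real.cos (lin β h)) ^ 2) (latM H b 0) := by
    refine pn_s9_int_bdd H hG _ 4 fun h => ?_
    rw [abs_of_nonneg (sq_nonneg _)]
    have := abs_le.1 (hX h)
    nlinarith [this.1, this.2]
  have hl := pn_s9_l1_le_sqrt (latM H b 0) _ hiX hiX2
  have hs : Real.sqrt (∫ h, (c h - φp * Real.cos (lin β h)) ^ 2 ∂(latM H b 0))
      ≤ Real.sqrt (2 * |φp - hPhi H b (f - β)|) := by
    refine Real.sqrt_le_sqrt (hA.trans ?_)
    have h1 := le_abs_self (φp - hPhi H b (f - β))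
    have h2 := abs_nonneg (φp - hPhi H b (f - β))
    nlinarith
  calc ∫ h, |c h - e * Real.cos (lin β h)| ∂(latM H b 0)
      ≤ ∫ h, (|c h - φp * Real.cos (lin β h)| + |φp - e|) ∂(latM H b 0) := by
        refine integral_mono_of_nonneg (Eventually.of_forall fun _ => abs_nonneg _)
          (hiX.abs.add (integrable_const _)) (Eventually.of_forall fun h => ?_)
        show |c h - e * Real.cos (lin β h)| ≤ |c h - φp * Real.cos (lin β h)| + |φp - e|
        have e1 : c h - e * Real.cos (lin β h)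
            = (c h - φp * Real.cos (lin β h)) + (φp - e) * Real.cos (lin β h) := by ring
        rw [e1]
        refine (abs_add_le _ _).trans (add_le_add le_rfl ?_)
        rw [abs_mul]
        exact mul_le_of_le_one_right (abs_nonneg _) (Real.abs_cos_le_one _)
    _ = ∫ h, |c h - φp * Real.cos (lin β h)| ∂(latM H b 0) + |φp - e| := by
        rw [integral_add hiX.abs (integrable_const _), integral_const]
        simp
    _ ≤ _ := add_le_add (hl.trans hs) le_rfl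

/-- Fourier representation + Tonelli, one law -/
theorem pn_s9_stepC_one {b : ℝ} (hG : Gd H b) (P : Set G.V) {n : ℕ} (R βR : Fin n → G.V → ℝ) (Sg : Fin n → Fin n → ℝ) :
    Integrable (fun τ => ∫ h, |cE H b P (fun φ => Real.cos (HLaw.pair (∑ d, τ d • R d) φ)) h
        - Real.exp (-(max 0 (qd Sg τ)) / 2) * Real.cos (lin (∑ d, τ d • βR d) h)| ∂(latM H b 0)) (stdG n) ∧
    (∀ τ : Fin n → ℝ, ∫ h, |cE H b P (fun φ => Real.cos (HLaw.pair (∑ d, τ d • R d) φ)) h
        - Real.exp (-(max 0 (qd Sg τ)) / 2) * Real.cos (lin (∑ d, τ d • βR d) h)| ∂(latM H b 0) ≤ 2) ∧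
    ∫ h, |cE H b P (Qw R) h - FQ Sg fun d => lin (βR d) h| ∂(latM H b 0)
      ≤ ∫ τ, (∫ h, |cE H b P (fun φ => Real.cos (HLaw.pair (∑ d, τ d • R d) φ)) h
        - Real.exp (-(max 0 (qd Sg τ)) / 2) * Real.cos (lin (∑ d, τ d • βR d) h)| ∂(latM H b 0)) ∂(stdG n) := by
  have hprob := pn_latM_prob H hG 0
  have hprobG := pn_stdG_prob n
  obtain ⟨A, hA⟩ : ∃ A : (G.V → ℤ) → (Fin n → ℝ) → ℝ,
      A = fun h τ => cE H b P (fun φ => Real.cos (HLaw.pair (∑ d, τ d • R d) φ)) h := ⟨_, rfl⟩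
  obtain ⟨B, hB⟩ : ∃ B : (G.V → ℤ) → (Fin n → ℝ) → ℝ,
      B = fun h τ => Real.exp (-(max 0 (qd Sg τ)) / 2) * Real.cos (lin (∑ d, τ d • βR d) h) := ⟨_, rfl⟩
  have hAc : ∀ h, Continuous (A h) := fun h => by rw [hA]; exact pn_s9_cos_cont H hG P h R
  have hlin : ∀ (h : G.V → ℤ) (τ : Fin n → ℝ), lin (∑ d, τ d • βR d) h = ∑ d, τ d * lin (βR d) h :=
    fun h τ => pn_s9_pair_sum τ βR _
  have hBc : ∀ h, Continuous (B h) := fun h => by
    rw [hB]
    simp only [hlin]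
    unfold qd
    fun_prop
  have hAb : ∀ h τ, |A h τ| ≤ 1 := fun h τ => by rw [hA]; exact pn_s9_cos_abs_le H hG P _ h
  have hBb : ∀ h τ, |B h τ| ≤ 1 := fun h τ => by
    rw [hB]
    simp only [hlin]
    exact pn_FQ_int_le Sg (fun d => lin (βR d) h) τ
  have hbd : ∀ h τ, |A h τ - B h τ| ≤ 2 := fun h τ => by
    have := abs_sub (A h τ) (B h τ)
    linarith [hAb h τ, hBb h τ]
  have hmeas : Measurable (Function.uncurry fun h τ => |A h τ - B h τ|) :=
    measurable_from_prod_countable_right fun h => ((hAc h).sub (hBc h)).abs.measurable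
  have hint : Integrable (Function.uncurry fun h τ => |A h τ - B h τ|) ((latM H b 0).prod (stdG n)) :=
    Integrable.mono' (integrable_const (2 : ℝ)) hmeas.aestronglyMeasurable
      (Eventually.of_forall fun z => by
        show ‖|A z.1 z.2 - B z.1 z.2|‖ ≤ 2
        rw [Real.norm_eq_abs, abs_abs]
        exact hbd _ _)
  have hiA : ∀ h, Integrable (A h) (stdG n) := fun h =>
    Integrable.mono' (integrable_const (1 : ℝ)) (hAc h).aestronglyMeasurable (Eventually.of_forall fun τ => hAb h τ)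
  have hiB : ∀ h, Integrable (B h) (stdG n) := fun h =>
    Integrable.mono' (integrable_const (1 : ℝ)) (hBc h).aestronglyMeasurable (Eventually.of_forall fun τ => hBb h τ)
  have hrep : ∀ h, cE H b P (Qw R) h - FQ Sg (fun d => lin (βR d) h) = ∫ τ, (A h τ - B h τ) ∂(stdG n) := by
    intro h
    rw [integral_sub (hiA h) (hiB h)]
    congr 1
    · rw [hA]
      exact pn_rows_fourier H hG P h R
    · rw [hB]
      simp only [hlin]
      rfl
  have key : ∫ h, |cE H b P (Qw R) h - FQ Sg fun d => lin (βR d) h| ∂(latM H b 0)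
      ≤ ∫ τ, (∫ h, |A h τ - B h τ| ∂(latM H b 0)) ∂(stdG n) := by
    calc ∫ h, |cE H b P (Qw R) h - FQ Sg fun d => lin (βR d) h| ∂(latM H b 0)
        ≤ ∫ h, (∫ τ, |A h τ - B h τ| ∂(stdG n)) ∂(latM H b 0) := by
          refine integral_mono_of_nonneg (Eventually.of_forall fun _ => abs_nonneg _) hint.integral_prod_left
            (Eventually.of_forall fun h => ?_)
          show |cE H b P (Qw R) h - FQ Sg fun d => lin (βR d) h| ≤ ∫ τ, |A h τ - B h τ| ∂(stdG n)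
          rw [hrep]
          exact abs_integral_le_integral_abs
      _ = _ := integral_integral_swap hint
  have hle : ∀ τ : Fin n → ℝ, ∫ h, |A h τ - B h τ| ∂(latM H b 0) ≤ 2 := by
    intro τ
    calc ∫ h, |A h τ - B h τ| ∂(latM H b 0) ≤ ∫ _h, (2 : ℝ) ∂(latM H b 0) :=
          integral_mono_of_nonneg (Eventually.of_forall fun _ => abs_nonneg _) (integrable_const _)
            (Eventually.of_forall fun h => hbd h τ)
      _ = 2 := by simp
  have hi2 := hint.integral_prod_right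
  subst hA hB
  exact ⟨hi2, hle, key⟩

/-- the mean of the Gaussian weight in Fourier form, one law -/
theorem pn_s9_mean_one {b : ℝ} (hG : Gd H b) {n : ℕ} (R : Fin n → G.V → ℝ) :
    Integrable (fun τ : Fin n → ℝ => hPhi H b (∑ d, τ d • R d)) (stdG n) ∧
    ∫ h, Qw R (C3.phys h) ∂(latM H b 0) = ∫ τ, hPhi H b (∑ d, τ d • R d) ∂(stdG n) := by
  have hprob := pn_latM_prob H hG 0
  have hprobG := pn_stdG_prob n
  obtain ⟨A, hA⟩ : ∃ A : (G.V → ℤ) → (Fin n → ℝ) → ℝ,
      A = fun h τ => Real.cos (∑ d, τ d * HLaw.pair (R d) (C3.phys h)) := ⟨_, rfl⟩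
  have hAc : ∀ h, Continuous (A h) := fun h => by rw [hA]; fun_prop
  have hmeas : Measurable (Function.uncurry A) := measurable_from_prod_countable_right fun h => (hAc h).measurable
  have hint : Integrable (Function.uncurry A) ((latM H b 0).prod (stdG n)) :=
    Integrable.mono' (integrable_const (1 : ℝ)) hmeas.aestronglyMeasurable
      (Eventually.of_forall fun z => by
        show ‖A z.1 z.2‖ ≤ 1
        rw [hA]
        exact Real.abs_cos_le_one _)
  have hphi : ∀ τ : Fin n → ℝ, hPhi H b (∑ d, τ d • R d) = ∫ h, A h τ ∂(latM H b 0) := by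
    intro τ
    unfold hPhi
    rw [pn_ExT_eq H hG, hA]
    refine integral_congr_ae (Eventually.of_forall fun h => ?_)
    show Real.cos (lin (∑ d, τ d • R d) h) = _
    unfold lin
    rw [pn_s9_pair_sum]
  have hQ : ∀ h : G.V → ℤ, Qw R (C3.phys h) = ∫ τ, A h τ ∂(stdG n) := by
    intro h
    rw [hA]
    exact (pn_gauss_cosn _).symm
  simp only [hphi, hQ]
  exact ⟨hint.integral_prod_right, integral_integral_swap hint⟩

end one

/-- **L-PN-S9** (~350 l.).  Step C.  `pn_rows_fourier`; `|cE Qw h - FQ| ≤ ∫ γ(dτ) |cE cos_τ h - e^{-q(τ)/2} cos L_τ|`; Tonelli; Cauchy-Schwarz + `pn_stepA`: the `τ`-integrand is `≤ √(2 (φ_p(τ) - φ_μ(τ))) + |φ_p(τ) - e^{-q(τ)/2}| ≤ 3`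
and tends to `0` for every `τ`; dominated convergence under `stdG n`. -/
theorem pn_stepC (L : LSeq) (P : L.St) {n : ℕ} (R βR : Fin n → L.T) (hβ : ∀ d k, ∀ x ∉ P k, βR d k x = 0)
    (Sg : ℕ → Fin n → Fin n → ℝ) (hpsd : ∀ k τ, 0 ≤ qd (Sg k) τ)
    (h1 : ∀ τ : Fin n → ℝ, Tendsto (fun k => hPhi ((L.H k).addPin (P k)) (L.b k) (∑ d, τ d • R d k) - Real.exp (-(qd (Sg k) τ) / 2)) atTop (𝓝 0))
    (h2 : ∀ τ : Fin n → ℝ, Tendsto (fun k => hPhi (L.H k) (L.b k) (∑ d, τ d • (R d k - βR d k)) - Real.exp (-(qd (Sg k) τ) / 2)) atTop (𝓝 0)) :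
    Tendsto (fun k => ∫ h, |cE (L.H k) (L.b k) (P k) (Qw fun d => R d k) h - FQ (Sg k) fun d => lin (βR d k) h| ∂(L.mu k)) atTop (𝓝 0) := by
  have hprobG := pn_stdG_prob n
  obtain ⟨g, hg⟩ : ∃ g : ℕ → (Fin n → ℝ) → ℝ, g = fun k τ =>
      ∫ h, |cE (L.H k) (L.b k) (P k) (fun φ => Real.cos (HLaw.pair (∑ d, τ d • R d k) φ)) h
        - Real.exp (-(max 0 (qd (Sg k) τ)) / 2) * Real.cos (lin (∑ d, τ d • βR d k) h)| ∂(latM (L.H k) (L.b k) 0) := ⟨_, rfl⟩
  have hone : ∀ k, Integrable (g k) (stdG n) ∧ (∀ τ, g k τ ≤ 2) ∧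
      ∫ h, |cE (L.H k) (L.b k) (P k) (Qw fun d => R d k) h - FQ (Sg k) fun d => lin (βR d k) h| ∂(L.mu k)
        ≤ ∫ τ, g k τ ∂(stdG n) := fun k => by
    rw [hg]
    exact pn_s9_stepC_one (L.H k) (L.gd k) (P k) (fun d => R d k) (fun d => βR d k) (Sg k)
  have hg0 : ∀ k τ, 0 ≤ g k τ := fun k τ => by
    rw [hg]
    exact integral_nonneg fun _ => abs_nonneg _
  have hgb : ∀ k τ, g k τ ≤
      Real.sqrt (2 * |(hPhi ((L.H k).addPin (P k)) (L.b k) (∑ d, τ d • R d k) - Real.exp (-(qd (Sg k) τ) / 2))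
          - (hPhi (L.H k) (L.b k) (∑ d, τ d • (R d k - βR d k)) - Real.exp (-(qd (Sg k) τ) / 2))|)
        + |hPhi ((L.H k).addPin (P k)) (L.b k) (∑ d, τ d • R d k) - Real.exp (-(qd (Sg k) τ) / 2)| := by
    intro k τ
    have hb0 : ∀ x ∉ P k, (∑ d, τ d • βR d k) x = 0 := by
      intro x hx
      simp only [Finset.sum_apply, Pi.smul_apply, smul_eq_mul]
      exact Finset.sum_eq_zero fun d _ => by rw [hβ d k x hx, mul_zero]
    have := pn_s9_stepA_l1 (L.H k) (L.gd k) (P k) (pn_splits L P k) (∑ d, τ d • R d k) (∑ d, τ d • βR d k) hb0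
      (Real.exp (-(max 0 (qd (Sg k) τ)) / 2))
    have e1 : (∑ d, τ d • R d k) - (∑ d, τ d • βR d k) = ∑ d, τ d • (R d k - βR d k) := by
      simp only [smul_sub, Finset.sum_sub_distrib]
    rw [e1, max_eq_right (hpsd k τ)] at this
    rw [hg]
    simp only [max_eq_right (hpsd k τ)]
    refine this.trans (le_of_eq ?_)
    congr 4
    ring
  have hlim : ∀ τ, Tendsto (fun k => g k τ) atTop (𝓝 0) := by
    intro τ
    have t1 := ((((h1 τ).sub (h2 τ)).abs.const_mul 2).sqrt).add (h1 τ).abs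
    simp only [sub_zero, abs_zero, mul_zero, Real.sqrt_zero, add_zero] at t1
    exact squeeze_zero (fun k => hg0 k τ) (fun k => hgb k τ) t1
  have hint : Tendsto (fun k => ∫ τ, g k τ ∂(stdG n)) atTop (𝓝 (∫ _τ, (0 : ℝ) ∂(stdG n))) :=
    tendsto_integral_of_dominated_convergence (fun _ => (2 : ℝ)) (fun k => (hone k).1.aestronglyMeasurable)
      (integrable_const _)
      (fun k => Eventually.of_forall fun τ => by
        rw [Real.norm_eq_abs, abs_of_nonneg (hg0 k τ)]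
        exact (hone k).2.1 τ)
      (Eventually.of_forall hlim)
  rw [integral_zero] at hint
  exact squeeze_zero (fun k => integral_nonneg fun _ => abs_nonneg _) (fun k => (hone k).2.2) hint

/-- unconditional version (same proof without conditioning; `E Qw = ∫ γ(dτ) φ(τ)`; ~100 l., same leaf S9) -/
theorem pn_probe_mean (L : LSeq) {n : ℕ} (R : Fin n → L.T) (Sg : ℕ → Fin n → Fin n → ℝ) (hpsd : ∀ k τ, 0 ≤ qd (Sg k) τ)
    (h1 : ∀ τ : Fin n → ℝ, Tendsto (fun k => hPhi (L.H k) (L.b k) (∑ d, τ d • R d k) - Real.exp (-(qd (Sg k) τ) / 2)) atTop (𝓝 0)) :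
    Tendsto (fun k => (∫ h, Qw (fun d => R d k) (C3.phys h) ∂(L.mu k)) - FQ (Sg k) 0) atTop (𝓝 0) := by
  have hprobG := pn_stdG_prob n
  have hone := fun k => pn_s9_mean_one (L.H k) (L.gd k) (fun d => R d k)
  have hexp1 : ∀ k τ, Real.exp (-(qd (Sg k) τ) / 2) ≤ 1 := fun k τ => by
    rw [Real.exp_le_one_iff]
    linarith [hpsd k τ]
  have hie : ∀ k, Integrable (fun τ : Fin n → ℝ => Real.exp (-(qd (Sg k) τ) / 2)) (stdG n) := by
    intro k
    have hc : Continuous fun τ : Fin n → ℝ => Real.exp (-(qd (Sg k) τ) / 2) := by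
      unfold qd
      fun_prop
    refine Integrable.mono' (integrable_const (1 : ℝ)) hc.aestronglyMeasurable (Eventually.of_forall fun τ => ?_)
    rw [Real.norm_eq_abs, abs_of_pos (Real.exp_pos _)]
    exact hexp1 k τ
  have hFQ : ∀ k, FQ (Sg k) 0 = ∫ τ, Real.exp (-(qd (Sg k) τ) / 2) ∂(stdG n) := by
    intro k
    unfold FQ
    refine integral_congr_ae (Eventually.of_forall fun τ => ?_)
    simp [max_eq_right (hpsd k τ)]
  have heq : ∀ k, (∫ h, Qw (fun d => R d k) (C3.phys h) ∂(L.mu k)) - FQ (Sg k) 0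
      = ∫ τ, (hPhi (L.H k) (L.b k) (∑ d, τ d • R d k) - Real.exp (-(qd (Sg k) τ) / 2)) ∂(stdG n) := by
    intro k
    rw [integral_sub (hone k).1 (hie k), hFQ k]
    congr 1
    exact (hone k).2
  simp only [heq]
  have hint : Tendsto (fun k => ∫ τ, (hPhi (L.H k) (L.b k) (∑ d, τ d • R d k) - Real.exp (-(qd (Sg k) τ) / 2)) ∂(stdG n))
      atTop (𝓝 (∫ _τ, (0 : ℝ) ∂(stdG n))) :=
    tendsto_integral_of_dominated_convergence (fun _ => (2 : ℝ))
      (fun k => ((hone k).1.sub (hie k)).aestronglyMeasurable) (integrable_const _)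
      (fun k => Eventually.of_forall fun τ => by
        obtain ⟨p0, p1⟩ := pn_hPhi_mem (L.H k) (L.gd k) (∑ d, τ d • R d k)
        have e0 := Real.exp_pos (-(qd (Sg k) τ) / 2)
        have e1 := hexp1 k τ
        rw [Real.norm_eq_abs, abs_le]
        constructor <;> linarith)
      (Eventually.of_forall h1)
  rw [integral_zero] at hint
  exact hint

/-- **L-PN-S10** (~150 l.).  The `L¹` squeeze, exact (`pn_ext_sandwich`, `pn_ext_density` with `Ψ = 1`, `pn_rPin_mean`). -/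
theorem pn_probe_gap {G : HGraph} (H : HLaw G) {b : ℝ} (hG : Gd H b) (P A : Set G.V) (hsp : Splits H P) (hd : Disjoint A P) {n : ℕ}
    (R : Fin n → G.V → ℝ) (hR : ∀ d, ∀ v ∉ A, R d v = 0) :
    ∫ h, |(extRows H R A hR).rr b P h - C3.rPin H b P A h| ∂(latM H b 0)
      = (extRows H R A hR).zr b ∅ 0 / (extRows H R A hR).zr b P 0 - Real.exp (-H.dPin b A P) := by
  set x := extRows H R A hR with hx
  have hprob := pn_latM_prob H hG 0
  have hprob' := pn_latM_prob (addRows H R) (pn_gd_ext H x hG) 0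
  have hsw : ∀ u, C3.rPin H b P A u ≤ x.rr b P u ∧ x.rr b P u ≤ 1 ∧ 0 < x.zr b P u := fun u =>
    pn_ext_sandwich H x hG P hd u
  have hr : ∀ u, 0 < C3.rPin H b P A u ∧ C3.rPin H b P A u ≤ 1 := fun u => pn_rPin_mem H hG P A u
  have hlin0 : ∀ h : G.V → ℤ, lin 0 h = 0 := fun h => pl_pair_zero_left _
  have hbdd : ∀ (Ψ : (G.V → ℤ) → ℝ) (C : ℝ), (∀ h, |Ψ h| ≤ C) → Integrable Ψ (latM H b 0) := by
    intro Ψ C hΨ
    refine pn_integrable H hG 0 0 C Ψ fun h => ?_
    rw [hlin0, Real.exp_zero, mul_one]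
    exact hΨ h
  have hi1 : Integrable (fun h => x.rr b P h) (latM H b 0) := hbdd _ 1 fun h => by
    rw [abs_of_nonneg ((hr h).1.le.trans (hsw h).1)]
    exact (hsw h).2.1
  have hi2 : Integrable (fun h => C3.rPin H b P A h) (latM H b 0) := hbdd _ 1 fun h => by
    rw [abs_of_pos (hr h).1]
    exact (hr h).2
  have e1 : ∀ h, |x.rr b P h - C3.rPin H b P A h| = x.rr b P h - C3.rPin H b P A h := fun h =>
    abs_of_nonneg (sub_nonneg.2 (hsw h).1)
  simp only [e1]
  rw [integral_sub hi1 hi2, pn_rPin_mean H hG P A hsp hd]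
  congr 1
  have hz0 : 0 < x.zr b ∅ 0 := (pn_ext_sandwich H x hG ∅ (Set.disjoint_empty _) 0).2.2
  have hden := pn_ext_density H x hG P hsp (fun _ => 1) (fun _ => rfl) 1 (fun _ => by simp)
  simp only [one_mul, integral_const, probReal_univ, smul_eq_mul, mul_one] at hden
  have hint : ∫ h, x.zr b P h ∂(latM H b 0) = x.zr b ∅ 0 := by
    field_simp at hden
    linarith
  unfold Ext.rr
  rw [integral_div, hint]

/-- admissible probes with tolerance `ε` (the last field is POT "probe exhaustion") -/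
structure ProbeOK {L : LSeq} (S : Scale L) (a : ℝ) (P A : L.St) {n : ℕ} (R : Fin n → L.T) (ε : ℝ) : Prop where
  supp : ∀ d k, ∀ x ∉ A k, R d k x = 0
  ea : ∀ d, S.EA (R d)
  ea_bal : ∀ d, S.EA (L.bal a P (R d))
  gap : ∀ᶠ k in atTop, gzr (L.H k) (fun d => R d k) a (L.P₀ k) 0 / gzr (L.H k) (fun d => R d k) a (L.P₀ k ∪ P k) 0
      - Real.exp (-(L.H k).gPin a (L.P₀ k) (A k) (P k)) ≤ ε

/-- `hPhi` only sees the test through its values on the constraint lattice -/
theorem pn_s11_hPhi_congr {G : HGraph} (H : HLaw G) (b : ℝ) (f g : G.V → ℝ) (h : ∀ h ∈ H.Λ, lin f h = lin g h) :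
    hPhi H b f = hPhi H b g := by
  unfold hPhi
  rw [pn_ExT0_ratio, pn_ExT0_ratio]
  congr 1
  exact tsum_congr fun x => by rw [h x x.2]

/-- the conditional expectation at zero data is the expectation under the pinned law -/
theorem pn_s11_cE_zero {G : HGraph} (H : HLaw G) {b : ℝ} (hG : Gd H b) (P : Set G.V) (F : (G.V → ℝ) → ℝ) :
    cE H b P F 0 = ∫ h, F (C3.phys h) ∂(latM (H.addPin P) b 0) := by
  unfold cE
  rw [pn_ZC_eq, pn_ZC_eq, pn_resZ_zero, pn_int0 (H.addPin P) (pn_gd_addPin H hG P)]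
  simp only [add_zero, one_mul]
  rfl

/-- no conditioning -/
theorem pn_s11_cE_empty {G : HGraph} (H : HLaw G) {b : ℝ} (hG : Gd H b) (F : (G.V → ℝ) → ℝ) :
    cE H b ∅ F 0 = ∫ h, F (C3.phys h) ∂(latM H b 0) := by
  unfold cE
  rw [pn_ZC_eq, pn_ZC_eq, pn_int0 H hG,
    pn_l11_tsum_nopin H (fun h => F (C3.phys h) * hW H b h), pn_l11_tsum_nopin H (fun h => 1 * hW H b h)]
  simp only [one_mul]

/-- the restoration factor of soft probes is the conditional expectation of the Gaussian weight -/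
theorem pn_s11_zr {G : HGraph} (H : HLaw G) (b : ℝ) (P A : Set G.V) {n : ℕ} (R : Fin n → G.V → ℝ)
    (hR : ∀ d, ∀ v ∉ A, R d v = 0) (u : G.V → ℤ) : (extRows H R A hR).zr b P u = cE H b P (Qw R) u := by
  show C3.ZC (addRows H R) b P u (fun _ => 1) / C3.ZC H b P u (fun _ => 1) = _
  rw [pn_rows_weight]
  simp only [one_mul]
  rfl

/-- linear combinations of a Gaussian family -/
theorem pn_s11_comb (L : LSeq) {a : ℝ} {ι : Type} [Fintype ι] (F : ι → L.T) (h : L.GFam a F) (τ : ι → ℝ) :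
    L.GFam a fun _ : Unit => fun k => ∑ i, τ i • F i k := by
  obtain ⟨T, hT⟩ : ∃ T : ℝ, ∀ i, |τ i| ≤ T :=
    ⟨∑ i, |τ i|, fun i => Finset.single_le_sum (f := fun i => |τ i|) (fun _ _ => abs_nonneg _) (Finset.mem_univ i)⟩
  constructor
  · rintro c ⟨C, hC⟩
    have h1 := h.1 (fun k i => c k () * τ i) ⟨|C| * T, fun k i => by
      rw [abs_mul]
      exact mul_le_mul ((hC k ()).trans (le_abs_self C)) (hT i) (abs_nonneg _) (abs_nonneg _)⟩
    refine h1.congr fun k => ?_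
    have e : (∑ i, (c k () * τ i) • F i k) = ∑ _u : Unit, c k _u • ∑ i, τ i • F i k := by
      simp only [Finset.univ_unique, Finset.sum_singleton, Finset.smul_sum, smul_smul]
    show hLap (L.H k) (L.b k) (∑ i, (c k () * τ i) • F i k) - (L.H k).gVar a (∑ i, (c k () * τ i) • F i k) / 2
      = hLap (L.H k) (L.b k) (∑ _u : Unit, c k _u • ∑ i, τ i • F i k) - (L.H k).gVar a (∑ _u : Unit, c k _u • ∑ i, τ i • F i k) / 2
    rw [e]
  · intro _
    choose C hC using h.2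
    refine ⟨((Fintype.card ι : ℝ) * T) ^ 2 * ∑ i, |C i|, fun k => ?_⟩
    refine pn_ea_gVar_sum L one_pos k τ (fun i => F i k) hT fun i => ?_
    exact (hC i k).trans ((le_abs_self _).trans
      (Finset.single_le_sum (f := fun i => |C i|) (fun _ _ => abs_nonneg _) (Finset.mem_univ i)))

/-- quotients of asymptotically equal sequences, denominators bounded below -/
theorem pn_s11_div {x y x' y' : ℕ → ℝ} {c : ℝ} (hc : 0 < c) (hy' : ∀ k, c ≤ y' k) (hx' : ∀ k, |x' k| ≤ 1)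
    (h1 : Tendsto (fun k => x k - x' k) atTop (𝓝 0)) (h2 : Tendsto (fun k => y k - y' k) atTop (𝓝 0)) :
    Tendsto (fun k => x k / y k - x' k / y' k) atTop (𝓝 0) := by
  have hb : Tendsto (fun k => |x k - x' k| * (2 / c) + |y k - y' k| * (2 / c ^ 2)) atTop (𝓝 0) := by
    have := (h1.abs.mul_const (2 / c)).add (h2.abs.mul_const (2 / c ^ 2))
    simpa using this
  have hev : ∀ᶠ k in atTop, |y k - y' k| < c / 2 := by
    have := (tendsto_order.1 h2.abs).2 (c / 2) (by simpa using half_pos hc)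
    exact this
  refine squeeze_zero_norm' (hev.mono fun k hk => ?_) hb
  have hy0 : c / 2 ≤ y k := by
    have := (abs_lt.1 hk).1
    linarith [hy' k]
  have hyp : 0 < y k := lt_of_lt_of_le (half_pos hc) hy0
  have hyp' : 0 < y' k := lt_of_lt_of_le hc (hy' k)
  have e : x k / y k - x' k / y' k = (x k - x' k) * (1 / y k) + x' k * (-(y k - y' k)) * (1 / (y k * y' k)) := by
    field_simp
    ring
  have b1 : 1 / y k ≤ 2 / c := by
    rw [div_le_div_iff₀ hyp hc]
    linarith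
  have b2 : 1 / (y k * y' k) ≤ 2 / c ^ 2 := by
    rw [div_le_div_iff₀ (mul_pos hyp hyp') (by positivity)]
    nlinarith [hy' k, mul_le_mul hy0 (hy' k) hc.le hyp.le]
  rw [Real.norm_eq_abs, e]
  refine (abs_add_le _ _).trans (add_le_add ?_ ?_)
  · rw [abs_mul, abs_of_pos (by positivity : 0 < 1 / y k)]
    exact mul_le_mul_of_nonneg_left b1 (abs_nonneg _)
  · rw [abs_mul, abs_mul, abs_neg, abs_of_pos (by positivity : 0 < 1 / (y k * y' k))]
    calc |x' k| * |y k - y' k| * (1 / (y k * y' k)) ≤ 1 * |y k - y' k| * (2 / c ^ 2) := by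
          refine mul_le_mul (mul_le_mul_of_nonneg_right (hx' k) (abs_nonneg _)) b2 (by positivity) (by positivity)
      _ = |y k - y' k| * (2 / c ^ 2) := by ring

/-- one law: the `L¹` distance of the hard pin ratio from an explicit quotient -/
theorem pn_s11_one {G : HGraph} (H : HLaw G) {b : ℝ} (hG : Gd H b) (P A : Set G.V) (hsp : Splits H P) (hd : Disjoint A P) {n : ℕ}
    (R : Fin n → G.V → ℝ) (hR : ∀ d, ∀ v ∉ A, R d v = 0) (m : (G.V → ℤ) → Fin n → ℝ) (Sg : Fin n → Fin n → ℝ) :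
    Integrable (fun h => C3.rPin H b P A h - FQ Sg (m h) / FQ Sg 0) (latM H b 0) ∧
    ∫ h, |C3.rPin H b P A h - FQ Sg (m h) / FQ Sg 0| ∂(latM H b 0)
      ≤ ((extRows H R A hR).zr b ∅ 0 / (extRows H R A hR).zr b P 0 - Real.exp (-H.dPin b A P))
        + (∫ h, |cE H b P (Qw R) h - FQ Sg (m h)| ∂(latM H b 0)) / (extRows H R A hR).zr b P 0
        + |1 / (extRows H R A hR).zr b P 0 - 1 / FQ Sg 0| := by
  set x := extRows H R A hR with hx
  have hprob := pn_latM_prob H hG 0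
  have hsw : ∀ u, C3.rPin H b P A u ≤ x.rr b P u ∧ x.rr b P u ≤ 1 ∧ 0 < x.zr b P u := fun u =>
    pn_ext_sandwich H x hG P hd u
  have hr : ∀ u, 0 < C3.rPin H b P A u ∧ C3.rPin H b P A u ≤ 1 := fun u => pn_rPin_mem H hG P A u
  have hF0 : 0 < FQ Sg 0 := pn_FQ_zero_pos Sg
  have hz : 0 < x.zr b P 0 := (hsw 0).2.2
  have hcE : ∀ u, cE H b P (Qw R) u = x.zr b P 0 * x.rr b P u := fun u => by
    rw [← pn_s11_zr H b P A R hR u]
    exact pn_ext_zr_eq H x hG P hd u
  have hrr0 : ∀ u, 0 < x.rr b P u := fun u => (hr u).1.trans_le (hsw u).1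
  have i1 : Integrable (fun h => |x.rr b P h - C3.rPin H b P A h|) (latM H b 0) :=
    pn_s9_int_bdd H hG _ 1 fun h => by
      rw [abs_abs, abs_le]
      constructor <;> linarith [(hr h).1, (hr h).2, (hsw h).2.1, hrr0 h]
  have i2 : Integrable (fun h => |cE H b P (Qw R) h - FQ Sg (m h)|) (latM H b 0) :=
    pn_s9_int_bdd H hG _ (x.zr b P 0 + 1) fun h => by
      rw [abs_abs]
      refine (abs_sub _ _).trans (add_le_add ?_ (pn_FQ_abs_le _ _))
      rw [hcE, abs_of_pos (mul_pos hz (hrr0 h))]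
      calc x.zr b P 0 * x.rr b P h ≤ x.zr b P 0 * 1 := mul_le_mul_of_nonneg_left (hsw h).2.1 hz.le
        _ = x.zr b P 0 := mul_one _
  have i0 : Integrable (fun h => C3.rPin H b P A h - FQ Sg (m h) / FQ Sg 0) (latM H b 0) :=
    pn_s9_int_bdd H hG _ (1 + 1 / FQ Sg 0) fun h => by
      refine (abs_sub _ _).trans (add_le_add ?_ ?_)
      · rw [abs_of_pos (hr h).1]
        exact (hr h).2
      · rw [abs_div, abs_of_pos hF0]
        exact div_le_div_of_nonneg_right (pn_FQ_abs_le _ _) hF0.le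
  refine ⟨i0, ?_⟩
  have hpt : ∀ h, |C3.rPin H b P A h - FQ Sg (m h) / FQ Sg 0|
      ≤ |x.rr b P h - C3.rPin H b P A h| + |cE H b P (Qw R) h - FQ Sg (m h)| / x.zr b P 0
        + |1 / x.zr b P 0 - 1 / FQ Sg 0| := by
    intro h
    have e : C3.rPin H b P A h - FQ Sg (m h) / FQ Sg 0
        = -(x.rr b P h - C3.rPin H b P A h) + (cE H b P (Qw R) h - FQ Sg (m h)) / x.zr b P 0
          + FQ Sg (m h) * (1 / x.zr b P 0 - 1 / FQ Sg 0) := by
      rw [hcE]
      field_simp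
      ring
    rw [e]
    refine (abs_add_le _ _).trans (add_le_add ((abs_add_le _ _).trans (add_le_add ?_ ?_)) ?_)
    · rw [abs_neg]
    · rw [abs_div, abs_of_pos hz]
    · rw [abs_mul]
      calc |FQ Sg (m h)| * |1 / x.zr b P 0 - 1 / FQ Sg 0| ≤ 1 * |1 / x.zr b P 0 - 1 / FQ Sg 0| :=
            mul_le_mul_of_nonneg_right (pn_FQ_abs_le _ _) (abs_nonneg _)
        _ = _ := one_mul _
  have hgap := pn_probe_gap H hG P A hsp hd R hR
  rw [← hx] at hgap
  calc ∫ h, |C3.rPin H b P A h - FQ Sg (m h) / FQ Sg 0| ∂(latM H b 0)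
      ≤ ∫ h, (|x.rr b P h - C3.rPin H b P A h| + |cE H b P (Qw R) h - FQ Sg (m h)| / x.zr b P 0
        + |1 / x.zr b P 0 - 1 / FQ Sg 0|) ∂(latM H b 0) :=
        integral_mono i0.abs ((i1.add (i2.div_const _)).add (integrable_const _)) hpt
    _ = _ := by
        have i12 : Integrable (fun h => |x.rr b P h - C3.rPin H b P A h| + |cE H b P (Qw R) h - FQ Sg (m h)| / x.zr b P 0)
            (latM H b 0) := i1.add (i2.div_const _)
        rw [integral_add i12 (integrable_const _), integral_add i1 (i2.div_const _),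
          integral_div, hgap, integral_const, probReal_univ, one_smul]

/-- **L-PN-S11** (~400 l.; from S3, S4, S9, S10, G1, G4).  The hard pin ratio is close in probability to the explicit function of finitely many linear statistics of the guard data.
`Sg k = covM` under own pins + guard; `m_d = lin (bal (R d))`.   `E|r - FQ(Sg,m)/FQ(Sg,0)| ≤ E|r - R_Q| + E|R_Q - FQ/FQ|`; first term: `pn_probe_gap`, `zr ∅ 0 = E Qw → FQ(covM P₀, 0) = gzr P₀ 0`, `zr P 0 → FQ(Sg,0) = gzr P 0`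
(`pn_gzr_eq_FQ` at `u = 0`, `pn_probe_mean` for `L` and `L.pin P`), `hD`, `ProbeOK.gap`; second term: `pn_stepC`, `pn_FQ_zero_lower`; then `pn_near_of_l1`. -/
theorem pn_r_near {L : LSeq} (S : Scale L) {a : ℝ} (ha : 0 < a) (hLim : S.Lim a) (P A : L.St) (hLimP : (S.pin P).Lim a)
    (hd : ∀ k, Disjoint (A k) (L.P₀ k ∪ P k))
    (hD : Tendsto (fun k => (L.H k).dPin (L.b k) (A k) (P k) - (L.H k).gPin a (L.P₀ k) (A k) (P k)) atTop (𝓝 0))
    {n : ℕ} (R : Fin n → L.T) (ε : ℝ) (hε : 0 < ε) (hR : ProbeOK S a P A R (ε ^ 2 / 2)) :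
    NearP L.mu (fun k h => C3.rPin (L.H k) (L.b k) (P k) (A k) h
      - FQ (covM (L.H k) (fun d => R d k) a (L.P₀ k ∪ P k)) (fun d => lin (L.bal a P (R d) k) h)
        / FQ (covM (L.H k) (fun d => R d k) a (L.P₀ k ∪ P k)) 0) ε := by
  have hprob : ∀ k, IsProbabilityMeasure (L.mu k) := fun k => pn_latM_prob (L.H k) (L.gd k) 0
  have hpd' : ∀ k, plPD (L.H k) (L.P₀ k ∪ P k) := fun k => pl_PD_mono (L.H k) (pn_pd L k) Set.subset_union_left
  have hdP : ∀ k, Disjoint (A k) (P k) := fun k => (hd k).mono_right Set.subset_union_right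
  obtain ⟨Sg, hSg⟩ : ∃ Sg : ℕ → Fin n → Fin n → ℝ, Sg = fun k => covM (L.H k) (fun d => R d k) a (L.P₀ k ∪ P k) := ⟨_, rfl⟩
  obtain ⟨Sg0, hSg0⟩ : ∃ Sg0 : ℕ → Fin n → Fin n → ℝ, Sg0 = fun k => covM (L.H k) (fun d => R d k) a (L.P₀ k) := ⟨_, rfl⟩
  have hSgk : ∀ k, covM (L.H k) (fun d => R d k) a (L.P₀ k ∪ P k) = Sg k := fun k => by rw [hSg]
  have hSg0k : ∀ k, covM (L.H k) (fun d => R d k) a (L.P₀ k) = Sg0 k := fun k => by rw [hSg0]
  simp only [hSgk]
  have e1 : ∀ k, L.H k = plPin (L.H k) (L.P₀ k) := fun k => pl_law_eq_pin _ (L.lam k)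
  have e2 : ∀ k, (L.pin P).H k = plPin (L.H k) (L.P₀ k ∪ P k) := fun k => pl_law_eq_pin _ ((L.pin P).lam k)
  -- variances
  have v0 : ∀ k (τ : Fin n → ℝ), (L.H k).gVar a (∑ d, τ d • R d k) = qd (Sg0 k) τ := by
    intro k τ
    calc (L.H k).gVar a (∑ d, τ d • R d k) = (plPin (L.H k) (L.P₀ k)).gVar a (∑ d, τ d • R d k) :=
          congrArg (fun H' : HLaw (L.G k) => H'.gVar a (∑ d, τ d • R d k)) (e1 k)
      _ = qd (covM (L.H k) (fun d => R d k) a (L.P₀ k)) τ := pn_gVar_sum (L.H k) ha (pn_pd L k) (fun d => R d k) τ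
      _ = _ := by rw [hSg0k]
  have vP : ∀ k (τ : Fin n → ℝ), ((L.pin P).H k).gVar a (∑ d, τ d • R d k) = qd (Sg k) τ := by
    intro k τ
    calc ((L.pin P).H k).gVar a (∑ d, τ d • R d k) = (plPin (L.H k) (L.P₀ k ∪ P k)).gVar a (∑ d, τ d • R d k) :=
          congrArg (fun H' : HLaw (L.G k) => H'.gVar a (∑ d, τ d • R d k)) (e2 k)
      _ = qd (covM (L.H k) (fun d => R d k) a (L.P₀ k ∪ P k)) τ := pn_gVar_sum (L.H k) ha (hpd' k) (fun d => R d k) τ
      _ = _ := by rw [hSgk]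
  have vD : ∀ k (τ : Fin n → ℝ), (L.H k).gVar a (∑ d, τ d • (R d k - L.bal a P (R d) k)) = qd (Sg k) τ := by
    intro k τ
    have h1 := pn_bal_var (L.H k) ha (pn_pd L k) (Set.subset_union_left (s := L.P₀ k) (t := P k)) (∑ d, τ d • R d k)
    rw [pn_bal_sum] at h1
    have e : (∑ d, τ d • (R d k - L.bal a P (R d) k))
        = (∑ d, τ d • R d k) - ∑ d, τ d • bal (L.H k) a (L.P₀ k ∪ P k) (R d k) := by
      simp only [smul_sub, Finset.sum_sub_distrib]
      rfl
    rw [e]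
    calc (L.H k).gVar a ((∑ d, τ d • R d k) - ∑ d, τ d • bal (L.H k) a (L.P₀ k ∪ P k) (R d k))
        = (plPin (L.H k) (L.P₀ k)).gVar a ((∑ d, τ d • R d k) - ∑ d, τ d • bal (L.H k) a (L.P₀ k ∪ P k) (R d k)) :=
          congrArg (fun H' : HLaw (L.G k) => H'.gVar a ((∑ d, τ d • R d k) - ∑ d, τ d • bal (L.H k) a (L.P₀ k ∪ P k) (R d k))) (e1 k)
      _ = (plPin (L.H k) (L.P₀ k ∪ P k)).gVar a (∑ d, τ d • R d k) := h1
      _ = qd (covM (L.H k) (fun d => R d k) a (L.P₀ k ∪ P k)) τ := pn_gVar_sum (L.H k) ha (hpd' k) (fun d => R d k) τ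
      _ = _ := by rw [hSgk]
  have hpsd : ∀ k τ, 0 ≤ qd (Sg k) τ := fun k τ => by rw [← vP k τ]; exact pl_gVar_nonneg _ ha _
  have hpsd0 : ∀ k τ, 0 ≤ qd (Sg0 k) τ := fun k τ => by rw [← v0 k τ]; exact pl_gVar_nonneg _ ha _
  -- families
  have famR : L.GFam a R := pn_ea_fam S ha hLim R hR.ea
  have famP : (L.pin P).GFam a R := pn_ea_fam (S.pin P) ha hLimP R fun d => pn_ea_pin S P (R d) (hR.ea d)
  have famD : L.GFam a fun d k => R d k - L.bal a P (R d) k :=
    pn_ea_fam S ha hLim _ fun d => pn_ea_sub S _ _ (hR.ea d) (hR.ea_bal d)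
  -- the restricted predictors
  obtain ⟨βR, hβR⟩ : ∃ βR : Fin n → L.T, βR = fun d k => C3.resR (P k) (L.bal a P (R d) k) := ⟨_, rfl⟩
  have hβ : ∀ d k, ∀ x ∉ P k, βR d k x = 0 := by
    intro d k x hx
    rw [hβR]
    show (if x ∈ P k then _ else (0 : ℝ)) = 0
    rw [if_neg hx]
  have hlin : ∀ d k, ∀ h ∈ (L.H k).Λ, lin (βR d k) h = lin (L.bal a P (R d) k) h := by
    intro d k h hh
    rw [L.lam k] at hh
    rw [hβR]
    exact pn_lin_resR (L.P₀ k) (P k) _ (pn_bal_supp (L.H k) a (L.P₀ k ∪ P k) (R d k)) h hh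
  -- characteristic coefficients
  have c0 : ∀ τ : Fin n → ℝ, Tendsto (fun k => hPhi (L.H k) (L.b k) (∑ d, τ d • R d k)
      - Real.exp (-(qd (Sg0 k) τ) / 2)) atTop (𝓝 0) := by
    intro τ
    refine (pn_phi_of_fam L ha _ (pn_s11_comb L R famR τ)).congr fun k => ?_
    rw [v0 k τ]
  have cP : ∀ τ : Fin n → ℝ, Tendsto (fun k => hPhi ((L.H k).addPin (P k)) (L.b k) (∑ d, τ d • R d k)
      - Real.exp (-(qd (Sg k) τ) / 2)) atTop (𝓝 0) := by
    intro τ
    refine (pn_phi_of_fam (L.pin P) ha _ (pn_s11_comb (L.pin P) R famP τ)).congr fun k => ?_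
    show hPhi ((L.H k).addPin (P k)) (L.b k) (∑ d, τ d • R d k) - Real.exp (-((L.pin P).H k).gVar a (∑ d, τ d • R d k) / 2) = _
    rw [vP k τ]
  have cD : ∀ τ : Fin n → ℝ, Tendsto (fun k => hPhi (L.H k) (L.b k) (∑ d, τ d • (R d k - βR d k))
      - Real.exp (-(qd (Sg k) τ) / 2)) atTop (𝓝 0) := by
    intro τ
    refine (pn_phi_of_fam L ha _ (pn_s11_comb L _ famD τ)).congr fun k => ?_
    rw [vD k τ]
    congr 1
    refine pn_s11_hPhi_congr (L.H k) (L.b k) _ _ fun h hh => ?_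
    rw [pn_lin_sum_left, pn_lin_sum_left]
    refine Finset.sum_congr rfl fun d _ => ?_
    rw [sub_eq_add_neg, sub_eq_add_neg, pn_lin_add_left, pn_lin_add_left, pn_lin_neg_left, pn_lin_neg_left, hlin d k h hh]
  have sC := pn_stepC L P R βR hβ Sg hpsd cP cD
  have m0 := pn_probe_mean L R Sg0 hpsd0 c0
  have mP := pn_probe_mean (L.pin P) R Sg hpsd cP
  -- bounded covariances
  obtain ⟨Cb, hCb⟩ : ∃ Cb : ℝ, ∀ k d d', |Sg k d d'| ≤ Cb := by
    choose C hC using famP.2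
    have hM : ∀ k d, (plPin (L.H k) (L.P₀ k ∪ P k)).gVar a (R d k) ≤ max a 1 * ∑ d, |C d| := by
      intro k d
      calc (plPin (L.H k) (L.P₀ k ∪ P k)).gVar a (R d k) = ((L.pin P).H k).gVar a (R d k) :=
            (congrArg (fun H' : HLaw (L.G k) => H'.gVar a (R d k)) (e2 k)).symm
        _ ≤ max a 1 * ((L.pin P).H k).gVar 1 (R d k) := pl_gVar_le_max _ ha _
        _ ≤ max a 1 * ∑ d, |C d| := by
            refine mul_le_mul_of_nonneg_left ?_ (le_max_of_le_right zero_le_one)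
            exact (hC d k).trans ((le_abs_self _).trans
              (Finset.single_le_sum (f := fun d => |C d|) (fun _ _ => abs_nonneg _) (Finset.mem_univ d)))
    refine ⟨max a 1 * ∑ d, |C d|, fun k d d' => ?_⟩
    rw [← hSgk]
    have hadm := pl_adm_of_PD (L.H k) (hpd' k)
    refine (pl_abs_cov_le (plPin (L.H k) (L.P₀ k ∪ P k)) ha (hadm (R d k)) (hadm (R d' k))).trans ?_
    have hM0 : 0 ≤ max a 1 * ∑ d, |C d| := (pl_gVar_nonneg _ ha _).trans (hM k d)
    calc Real.sqrt ((plPin (L.H k) (L.P₀ k ∪ P k)).gVar a (R d k)) * Real.sqrt ((plPin (L.H k) (L.P₀ k ∪ P k)).gVar a (R d' k))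
        ≤ Real.sqrt (max a 1 * ∑ d, |C d|) * Real.sqrt (max a 1 * ∑ d, |C d|) :=
          mul_le_mul (Real.sqrt_le_sqrt (hM k d)) (Real.sqrt_le_sqrt (hM k d')) (Real.sqrt_nonneg _) (Real.sqrt_nonneg _)
      _ = _ := Real.mul_self_sqrt hM0
  obtain ⟨c, hc, hcF⟩ := pn_FQ_zero_lower n Cb
  have hFP : ∀ k, c ≤ FQ (Sg k) 0 := fun k => hcF (Sg k) (hCb k)
  -- the restoration factors
  have hz0 : ∀ k, (extRows (L.H k) (fun d => R d k) (A k) (fun d => hR.supp d k)).zr (L.b k) ∅ 0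
      = ∫ h, Qw (fun d => R d k) (C3.phys h) ∂(L.mu k) := fun k => by
    rw [pn_s11_zr, pn_s11_cE_empty (L.H k) (L.gd k)]
    rfl
  have hzP : ∀ k, (extRows (L.H k) (fun d => R d k) (A k) (fun d => hR.supp d k)).zr (L.b k) (P k) 0
      = ∫ h, Qw (fun d => R d k) (C3.phys h) ∂((L.pin P).mu k) := fun k => by
    rw [pn_s11_zr, pn_s11_cE_zero (L.H k) (L.gd k)]
    rfl
  have g0 : ∀ k, gzr (L.H k) (fun d => R d k) a (L.P₀ k) 0 = FQ (Sg0 k) 0 := fun k => by
    rw [pn_gzr_eq_FQ (L.H k) ha (pn_pd L k), hSg0k]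
    congr 1
    funext d
    exact pl_pair_zero_right _
  have gP : ∀ k, gzr (L.H k) (fun d => R d k) a (L.P₀ k ∪ P k) 0 = FQ (Sg k) 0 := fun k => by
    rw [pn_gzr_eq_FQ (L.H k) ha (hpd' k), hSgk]
    congr 1
    funext d
    exact pl_pair_zero_right _
  obtain ⟨z0, hz0'⟩ : ∃ z0 : ℕ → ℝ, z0 = fun k => (extRows (L.H k) (fun d => R d k) (A k) (fun d => hR.supp d k)).zr (L.b k) ∅ 0 := ⟨_, rfl⟩
  obtain ⟨zP, hzP'⟩ : ∃ zP : ℕ → ℝ, zP = fun k => (extRows (L.H k) (fun d => R d k) (A k) (fun d => hR.supp d k)).zr (L.b k) (P k) 0 := ⟨_, rfl⟩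
  have m0' : Tendsto (fun k => z0 k - FQ (Sg0 k) 0) atTop (𝓝 0) := by
    rw [hz0']
    exact m0.congr fun k => congrArg (fun t : ℝ => t - FQ (Sg0 k) 0) (hz0 k).symm
  have mP' : Tendsto (fun k => zP k - FQ (Sg k) 0) atTop (𝓝 0) := by
    rw [hzP']
    exact mP.congr fun k => congrArg (fun t : ℝ => t - FQ (Sg k) 0) (hzP k).symm
  have T1 : Tendsto (fun k => z0 k / zP k - FQ (Sg0 k) 0 / FQ (Sg k) 0) atTop (𝓝 0) :=
    pn_s11_div hc hFP (fun k => pn_FQ_abs_le _ _) m0' mP'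
  have T2 : Tendsto (fun k => Real.exp (-(L.H k).gPin a (L.P₀ k) (A k) (P k)) - Real.exp (-(L.H k).dPin (L.b k) (A k) (P k)))
      atTop (𝓝 0) := by
    refine pn_phi_exp_sub (C := 0) (fun k => ?_) (hD.congr fun k => by ring)
    linarith [pn_dPin_nonneg (L.H k) (L.gd k) (A k) (P k)]
  have T3 : Tendsto (fun k => (∫ h, |cE (L.H k) (L.b k) (P k) (Qw fun d => R d k) h - FQ (Sg k) fun d => lin (βR d k) h| ∂(L.mu k)) / zP k
      - 0 / FQ (Sg k) 0) atTop (𝓝 0) :=
    pn_s11_div hc hFP (fun k => by simp) (by simpa using sC) mP'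
  have T4 : Tendsto (fun k => 1 / zP k - 1 / FQ (Sg k) 0) atTop (𝓝 0) :=
    pn_s11_div hc hFP (fun k => by simp) (by simp) mP'
  have TT := ((T1.add T2).add T3).add T4.abs
  simp only [add_zero, abs_zero, zero_div, sub_zero] at TT
  have hev := (tendsto_order.1 TT).2 (ε ^ 2 / 2) (by positivity)
  -- the version with the restricted predictors
  have key : NearP L.mu (fun k h => C3.rPin (L.H k) (L.b k) (P k) (A k) h
      - FQ (Sg k) (fun d => lin (βR d k) h) / FQ (Sg k) 0) ε := by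
    have hone := fun k => pn_s11_one (L.H k) (L.gd k) (P k) (A k) (pn_splits L P k) (hdP k) (fun d => R d k)
      (fun d => hR.supp d k) (fun h d => lin (βR d k) h) (Sg k)
    refine pn_near_of_l1 L.mu _ (fun k => (hone k).1) ε hε ?_
    filter_upwards [hev, hR.gap] with k hk hgap
    refine (hone k).2.trans ?_
    rw [g0, gP] at hgap
    have ez0 : (extRows (L.H k) (fun d => R d k) (A k) (fun d => hR.supp d k)).zr (L.b k) ∅ 0 = z0 k := by rw [hz0']
    have ezP : (extRows (L.H k) (fun d => R d k) (A k) (fun d => hR.supp d k)).zr (L.b k) (P k) 0 = zP k := by rw [hzP']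
    rw [ez0, ezP]
    have hk' : z0 k / zP k - FQ (Sg0 k) 0 / FQ (Sg k) 0
        + (Real.exp (-(L.H k).gPin a (L.P₀ k) (A k) (P k)) - Real.exp (-(L.H k).dPin (L.b k) (A k) (P k)))
        + (∫ h, |cE (L.H k) (L.b k) (P k) (Qw fun d => R d k) h - FQ (Sg k) fun d => lin (βR d k) h| ∂(latM (L.H k) (L.b k) 0)) / zP k
        + |1 / zP k - 1 / FQ (Sg k) 0| < ε ^ 2 / 2 := hk
    linarith
  refine key.mono fun k hk => ?_
  refine le_of_eq_of_le (pn_latM_real_congr (L.H k) (L.b k) 0 _ _ fun h hh => ?_) hk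
  have e : (fun d => lin (L.bal a P (R d) k) h) = fun d => lin (βR d k) h := funext fun d => (hlin d k h hh).symm
  show (ε < ‖C3.rPin (L.H k) (L.b k) (P k) (A k) h - FQ (Sg k) (fun d => lin (L.bal a P (R d) k) h) / FQ (Sg k) 0‖)
    ↔ (ε < ‖C3.rPin (L.H k) (L.b k) (P k) (A k) h - FQ (Sg k) (fun d => lin (βR d k) h) / FQ (Sg k) 0‖)
  rw [e]

/-- one law: the exact `L¹` squeeze on the reference side -/
theorem pn_s12_one {G : HGraph} (H : HLaw G) {a : ℝ} (ha : 0 < a) {P₀ : Set G.V} (h : plPD H P₀) (p A : Set G.V)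
    (hd : Disjoint A (P₀ ∪ p)) {n : ℕ} (R : Fin n → G.V → ℝ) (hR : ∀ d, ∀ x ∉ A, R d x = 0) :
    Integrable (fun φ => C3.grPin H a (P₀ ∪ p) A φ - grr H R a (P₀ ∪ p) φ) (plMeas H a P₀) ∧
    ∫ φ, |C3.grPin H a (P₀ ∪ p) A φ - grr H R a (P₀ ∪ p) φ| ∂(plMeas H a P₀)
      = gzr H R a P₀ 0 / gzr H R a (P₀ ∪ p) 0 - Real.exp (-(H.gPin a P₀ A p)) := by
  have h' : plPD H (P₀ ∪ p) := pl_PD_mono H h Set.subset_union_left
  have hprob := pl_meas_prob H ha h
  have hg1 := pn_gzr_pos H ha h' R 0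
  have hsw := pn_grr_sandwich H ha h' A hd R hR
  have hgc : Continuous (grr H R a (P₀ ∪ p)) := by
    have e : grr H R a (P₀ ∪ p) = fun u => Real.exp (-(plEn (addRows H R) a (P₀ ∪ p) u - plEn H a (P₀ ∪ p) u) / 2) :=
      funext fun u => pn_grr_eq H ha h' R u
    rw [e]
    exact Real.continuous_exp.comp ((((pl_en_continuous (addRows H R) a (P₀ ∪ p)).sub (pl_en_continuous H a (P₀ ∪ p))).neg).div_const 2)
  have hg_pos : ∀ u, 0 < grr H R a (P₀ ∪ p) u := fun u => div_pos (pn_gzr_pos H ha h' R u) hg1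
  have hgi : Integrable (grr H R a (P₀ ∪ p)) (plMeas H a P₀) :=
    Integrable.mono' (integrable_const (1 : ℝ)) hgc.aestronglyMeasurable
      (Filter.Eventually.of_forall fun u => by
        rw [Real.norm_eq_abs, abs_of_pos (hg_pos u)]; exact (hsw u).2.1)
  have hpc : Continuous (C3.grPin H a (P₀ ∪ p) A) := by
    have e : C3.grPin H a (P₀ ∪ p) A = fun u => Real.exp (-(plGap H a (P₀ ∪ p) A u) / 2) :=
      funext fun u => pl_rPin_eq H ha h' A u
    rw [e]
    exact Real.continuous_exp.comp ((pl_gap_continuous H a (P₀ ∪ p) A).neg.div_const 2)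
  have hp_pos : ∀ u, 0 < C3.grPin H a (P₀ ∪ p) A u := fun u => by
    have e : C3.grPin H a (P₀ ∪ p) A u = Real.exp (-(plGap H a (P₀ ∪ p) A u) / 2) := pl_rPin_eq H ha h' A u
    rw [e]; exact Real.exp_pos _
  have hpi : Integrable (C3.grPin H a (P₀ ∪ p) A) (plMeas H a P₀) :=
    Integrable.mono' (integrable_const (1 : ℝ)) hpc.aestronglyMeasurable
      (Filter.Eventually.of_forall fun u => by
        rw [Real.norm_eq_abs, abs_of_pos (hp_pos u)]; exact (hsw u).1.trans (hsw u).2.1)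
  have hmean : ∫ φ, C3.grPin H a (P₀ ∪ p) A φ ∂plMeas H a P₀ = Real.exp (-(H.gPin a P₀ A p)) :=
    pl_rPin_mean H ha h A p (fun x hx => ((Set.disjoint_left.1 hd hx.1) (Or.inr hx.2)).elim)
  refine ⟨hpi.sub hgi, ?_⟩
  have e1 : ∀ φ, |C3.grPin H a (P₀ ∪ p) A φ - grr H R a (P₀ ∪ p) φ| = grr H R a (P₀ ∪ p) φ - C3.grPin H a (P₀ ∪ p) A φ := fun φ => by
    rw [abs_sub_comm]
    exact abs_of_nonneg (sub_nonneg.2 (hsw φ).1)
  simp only [e1]
  rw [integral_sub hgi hpi, hmean, pn_grr_mean H ha h p R]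

/-- **L-PN-S12** (~200 l.; G4, G5, G7, `pl_rPin_mean`).  The same on the reference side (exact formula for `grr`, `L¹` squeeze). -/
theorem pn_gr_near {L : LSeq} (S : Scale L) {a : ℝ} (ha : 0 < a) (P A : L.St) (hd : ∀ k, Disjoint (A k) (L.P₀ k ∪ P k))
    {n : ℕ} (R : Fin n → L.T) (ε : ℝ) (hε : 0 < ε) (hR : ProbeOK S a P A R (ε ^ 2)) :
    NearP (L.ga a) (fun k φ => C3.grPin (L.H k) a (L.P₀ k ∪ P k) (A k) φ
      - FQ (covM (L.H k) (fun d => R d k) a (L.P₀ k ∪ P k)) (fun d => HLaw.pair (L.bal a P (R d) k) φ)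
        / FQ (covM (L.H k) (fun d => R d k) a (L.P₀ k ∪ P k)) 0) ε := by
  have hprob : ∀ k, IsProbabilityMeasure (L.ga a k) := fun k => pl_meas_prob (L.H k) ha (pn_pd L k)
  have hpd' : ∀ k, plPD (L.H k) (L.P₀ k ∪ P k) := fun k => pl_PD_mono (L.H k) (pn_pd L k) Set.subset_union_left
  have hone := fun k => pn_s12_one (L.H k) ha (pn_pd L k) (P k) (A k) (hd k) (fun d => R d k) (fun d => hR.supp d k)
  have e : ∀ k φ, FQ (covM (L.H k) (fun d => R d k) a (L.P₀ k ∪ P k)) (fun d => HLaw.pair (L.bal a P (R d) k) φ)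
        / FQ (covM (L.H k) (fun d => R d k) a (L.P₀ k ∪ P k)) 0 = grr (L.H k) (fun d => R d k) a (L.P₀ k ∪ P k) φ := by
    intro k φ
    unfold grr
    rw [pn_gzr_eq_FQ (L.H k) ha (hpd' k) (fun d => R d k) φ, pn_gzr_eq_FQ (L.H k) ha (hpd' k) (fun d => R d k) 0]
    congr 2
    funext d
    exact (pl_pair_zero_right _).symm
  simp only [e]
  refine pn_near_of_l1 (L.ga a) _ (fun k => (hone k).1) ε hε ?_
  filter_upwards [hR.gap] with k hk
  exact (hone k).2.trans_le hk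

/-! ## 6. The joint law (pure probability) -/

theorem pn_ct_cont {ι₁ : Type} [Fintype ι₁] (n : ℕ) :
    Continuous fun p : ((ι₁ ⊕ (Fin n × Fin n)) → ℝ) × ((ι₁ ⊕ Fin n) → ℝ) =>
        FQ (fun d d' => p.1 (Sum.inr (d, d'))) (fun d => p.2 (Sum.inr d)) / FQ (fun d d' => p.1 (Sum.inr (d, d'))) 0 := by
  have hA : Continuous fun p : ((ι₁ ⊕ (Fin n × Fin n)) → ℝ) × ((ι₁ ⊕ Fin n) → ℝ) =>
      ((fun d d' => p.1 (Sum.inr (d, d')) : Fin n → Fin n → ℝ), (fun d => p.2 (Sum.inr d) : Fin n → ℝ)) := by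
    fun_prop
  have hB : Continuous fun p : ((ι₁ ⊕ (Fin n × Fin n)) → ℝ) × ((ι₁ ⊕ Fin n) → ℝ) =>
      ((fun d d' => p.1 (Sum.inr (d, d')) : Fin n → Fin n → ℝ), (0 : Fin n → ℝ)) := by
    fun_prop
  have h1 := (pn_FQ_continuous n).comp hA
  have h2 := (pn_FQ_continuous n).comp hB
  exact h1.div h2 fun p => (pn_FQ_zero_pos _).ne'

/-- **L-PN-S13** (~300 l.; from `pn_assembly`, `pn_FQ_continuous`, `pn_FQ_zero_pos`, `pn_near_pi`).  `Θ((c, Sg), (ℓ, M)) = (ℓ + c, FQ Sg M / FQ Sg 0)`; index types `ι₁ ⊕ Fin n` (statistics), `ι₁ ⊕ (Fin n × Fin n)` (parameters), `Option ι₁` (targets). -/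
theorem pn_ct_final {Ω Ω' : ℕ → Type} [∀ k, MeasurableSpace (Ω k)] [∀ k, MeasurableSpace (Ω' k)]
    (m : ∀ k, Measure (Ω k)) (m' : ∀ k, Measure (Ω' k)) [∀ k, IsProbabilityMeasure (m k)] [∀ k, IsProbabilityMeasure (m' k)]
    {ι₁ : Type} [Fintype ι₁] (X ℓ : ∀ k, Ω k → ι₁ → ℝ) (Xg ℓg : ∀ k, Ω' k → ι₁ → ℝ) (r : ∀ k, Ω k → ℝ) (rg : ∀ k, Ω' k → ℝ)
    (hX : ∀ k, Measurable (X k)) (hℓ : ∀ k, Measurable (ℓ k)) (hXg : ∀ k, Measurable (Xg k)) (hℓg : ∀ k, Measurable (ℓg k))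
    (hr : ∀ k, Measurable (r k)) (hrg : ∀ k, Measurable (rg k))
    (c : ℕ → ι₁ → ℝ) (hc : ∃ C : ℝ, ∀ k i, |c k i| ≤ C)
    (h1 : ∀ i, TendsP m fun k ω => X k ω i - ℓ k ω i - c k i) (h1g : ∀ k ω i, Xg k ω i = ℓg k ω i + c k i)
    (h2 : ∀ ε > 0, ∃ (n : ℕ) (M : ∀ k, Ω k → Fin n → ℝ) (Mg : ∀ k, Ω' k → Fin n → ℝ) (Sg : ℕ → Fin n → Fin n → ℝ),
      (∀ k, Measurable (M k)) ∧ (∀ k, Measurable (Mg k)) ∧ (∃ C : ℝ, ∀ k d d', |Sg k d d'| ≤ C) ∧
      NearP m (fun k ω => r k ω - FQ (Sg k) (M k ω) / FQ (Sg k) 0) ε ∧ NearP m' (fun k ω => rg k ω - FQ (Sg k) (Mg k ω) / FQ (Sg k) 0) ε ∧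
      TightP m (fun k ω => Sum.elim (ℓ k ω) (M k ω)) ∧ TightP m' (fun k ω => Sum.elim (ℓg k ω) (Mg k ω)) ∧
      ∀ t : ι₁ ⊕ Fin n → ℝ, Tendsto (fun k => (∫ ω, Complex.exp (Complex.I * ((∑ i, t i * Sum.elim (ℓ k ω) (M k ω) i : ℝ) : ℂ)) ∂(m k))
        - ∫ ω, Complex.exp (Complex.I * ((∑ i, t i * Sum.elim (ℓg k ω) (Mg k ω) i : ℝ) : ℂ)) ∂(m' k)) atTop (𝓝 0))
    (Φ : (ι₁ → ℝ) × ℝ → ℝ) (hΦ : Continuous Φ) (hΦb : ∃ C : ℝ, ∀ x, |Φ x| ≤ C) :
    Tendsto (fun k => (∫ ω, Φ (X k ω, r k ω) ∂(m k)) - ∫ ω, Φ (Xg k ω, rg k ω) ∂(m' k)) atTop (𝓝 0) := by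
  let T : ∀ k, Ω k → Option ι₁ → ℝ := fun k ω o => o.elim (r k ω) (X k ω)
  let T' : ∀ k, Ω' k → Option ι₁ → ℝ := fun k ω o => o.elim (rg k ω) (Xg k ω)
  have hT : ∀ k, Measurable (T k) := by
    intro k
    refine measurable_pi_iff.2 fun o => ?_
    cases o with
    | none => exact hr k
    | some i => exact (measurable_pi_apply i).comp (hX k)
  have hT' : ∀ k, Measurable (T' k) := by
    intro k
    refine measurable_pi_iff.2 fun o => ?_
    cases o with
    | none => exact hrg k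
    | some i => exact (measurable_pi_apply i).comp (hXg k)
  let Φ' : (Option ι₁ → ℝ) → ℝ := fun x => Φ (fun i => x (some i), x none)
  have hΦ' : Continuous Φ' := hΦ.comp (by fun_prop)
  have hΦ'b : ∃ C : ℝ, ∀ x, |Φ' x| ≤ C := by
    obtain ⟨C, hC⟩ := hΦb
    exact ⟨C, fun x => hC _⟩
  refine pn_assembly m m' T T' hT hT' ?_ Φ' hΦ' hΦ'b
  intro ε hε
  have hN : (0 : ℝ) < (Fintype.card (Option ι₁) : ℝ) + 1 := by positivity
  have hε' : 0 < ε / ((Fintype.card (Option ι₁) : ℝ) + 1) := div_pos hε hN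
  obtain ⟨n, M, Mg, Sg, hM, hMg, ⟨CS, hCS⟩, hn1, hn2, ht1, ht2, hch⟩ := h2 _ hε'
  obtain ⟨Cc, hCc⟩ := hc
  let Θ : ((ι₁ ⊕ (Fin n × Fin n)) → ℝ) × ((ι₁ ⊕ Fin n) → ℝ) → Option ι₁ → ℝ := fun p o =>
    o.elim (FQ (fun d d' => p.1 (Sum.inr (d, d'))) (fun d => p.2 (Sum.inr d)) / FQ (fun d d' => p.1 (Sum.inr (d, d'))) 0)
      (fun i => p.2 (Sum.inl i) + p.1 (Sum.inl i))
  have hΘ : Continuous Θ := by
    refine continuous_pi fun o => ?_
    cases o with
    | none =>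
      exact pn_ct_cont n
    | some i =>
      show Continuous fun p : ((ι₁ ⊕ (Fin n × Fin n)) → ℝ) × ((ι₁ ⊕ Fin n) → ℝ) => p.2 (Sum.inl i) + p.1 (Sum.inl i)
      fun_prop
  refine ⟨ι₁ ⊕ Fin n, ι₁ ⊕ (Fin n × Fin n), inferInstance, inferInstance,
    fun k ω => Sum.elim (ℓ k ω) (M k ω), fun k ω => Sum.elim (ℓg k ω) (Mg k ω),
    fun k => Sum.elim (c k) (fun p => Sg k p.1 p.2), Θ, ?_, ?_, hΘ, ?_, ht1, ht2, hch, ?_, ?_⟩
  · intro k
    refine measurable_pi_iff.2 fun o => ?_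
    cases o with
    | inl i => exact (measurable_pi_apply i).comp (hℓ k)
    | inr d => exact (measurable_pi_apply d).comp (hM k)
  · intro k
    refine measurable_pi_iff.2 fun o => ?_
    cases o with
    | inl i => exact (measurable_pi_apply i).comp (hℓg k)
    | inr d => exact (measurable_pi_apply d).comp (hMg k)
  · refine ⟨max (max Cc CS) 0, fun k => ?_⟩
    refine (pi_norm_le_iff_of_nonneg (le_max_right _ _)).2 fun o => ?_
    cases o with
    | inl i => exact (hCc k i).trans ((le_max_left _ _).trans (le_max_left _ _))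
    | inr p => exact (hCS k p.1 p.2).trans ((le_max_right _ _).trans (le_max_left _ _))
  · refine pn_near_pi m _ ε hε fun o => ?_
    cases o with
    | none => exact hn1
    | some i =>
      have hnt := pn_near_of_tends m _ (h1 i) _ hε'
      refine hnt.mono fun k hk => ?_
      have e : ∀ ω, (T k ω - Θ (Sum.elim (c k) (fun p => Sg k p.1 p.2), Sum.elim (ℓ k ω) (M k ω))) (some i)
          = X k ω i - ℓ k ω i - c k i := by
        intro ω
        show X k ω i - (ℓ k ω i + c k i) = _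
        ring
      simp only [e]
      exact hk
  · refine pn_near_pi m' _ ε hε fun o => ?_
    cases o with
    | none => exact hn2
    | some i =>
      refine Eventually.of_forall fun k => ?_
      have e : ∀ ω, (T' k ω - Θ (Sum.elim (c k) (fun p => Sg k p.1 p.2), Sum.elim (ℓg k ω) (Mg k ω))) (some i) = 0 := by
        intro ω
        show Xg k ω i - (ℓg k ω i + c k i) = 0
        rw [h1g]
        ring
      simp only [e, norm_zero]
      have hemp : {ω : Ω' k | ε / ((Fintype.card (Option ι₁) : ℝ) + 1) < 0} = ∅ := by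
        ext ω
        simp only [Set.mem_ofPred_eq, Set.mem_empty_iff_false, iff_false, not_lt]
        exact hε'.le
      rw [hemp, measureReal_empty]
      exact hε'.le

end

end Claimed.Agent.R285.Pins.T32
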