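import Claimed.Agent.R285.Pins.T32Step

/-!
# ROW 285, PINS, T3.2 package (architect helper178).  FILE 5: TWO TOPOLOGIES (cut law / restored law), abstract form of [C]T3.2 and L3.9.   PAPER-FREE.

`Two` = a sequence of cut laws `L` together with laws `H'` on graphs with the SAME vertices (definitionally: `reE`) and more precision inside the core `A` (`Ext`), a guard `P`.   `A` and `P` may meet the own pins `P₀` (`A₀ = A \ P₀`).
`Two.In` = all asymptotic inputs on the CUT laws:  [C]T3.1 at every level (`Scale.Lim`, without and with the guard pinned), the pin interaction limit, and two deterministic facts on the Gaussian references (POT).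
The RESTORED laws enter only `pn_ct_cut`, `pn_ct_res`, through `Scale.Lim` (hypotheses `h'`, `hP'`);  contiguity and L3.9 do not need them.
Exits: `pn_pin_abs` (T3.2, first assertion), `pn_lower_tail`, `pn_contig_*`, `pn_ct_cut`, `pn_ct_res` (T3.2, conditional laws = transfer principle), `pn_transfer_abs` (L3.9).
Every `sorry` is a leaf `L-PN-W*`.  Statements frozen; helper lemmas: prefix `pn_`.
-/

set_option autoImplicit false

namespace Claimed.Agent.R285.Pins.T32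

open Filter Topology MeasureTheory
open Claimed.Agent.R285.Pot
open scoped Classical

noncomputable section

/-! ## 0. Own pins are absorbed -/

section absorb

variable {G : HGraph} (H : HLaw G) {P₀ : Set G.V}

theorem pn_addPin_congr (hl : H.Λ = HLaw.pinned P₀) {X Y : Set G.V} (h : P₀ ∪ X = P₀ ∪ Y) : H.addPin X = H.addPin Y := by
  unfold HLaw.addPin
  rw [hl, pl_pinned_inf, pl_pinned_inf, h]

theorem pn_pPin_congr (hl : H.Λ = HLaw.pinned P₀) (b : ℝ) {X Y : Set G.V} (h : P₀ ∪ X = P₀ ∪ Y) : H.pPin b X = H.pPin b Y := by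
  unfold HLaw.pPin
  rw [pn_addPin_congr H hl h]

theorem pn_dPin_absorb (hl : H.Λ = HLaw.pinned P₀) (b : ℝ) (A P : Set G.V) : H.dPin b (A \ P₀) P = H.dPin b A P := by
  unfold HLaw.dPin
  rw [pn_pPin_congr H hl b (X := A \ P₀ ∪ P) (Y := A ∪ P) (by rw [← Set.union_assoc, ← Set.union_assoc, Set.union_sdiff_self]),
    pn_pPin_congr H hl b (X := A \ P₀) (Y := A) Set.union_sdiff_self]

theorem pn_res_res (P A : Set G.V) (u : G.V → ℤ) : C3.resZ (P ∪ A) (C3.resZ P u) = C3.resZ P u := by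
  funext v
  by_cases h1 : v ∈ P
  · simp [C3.resZ, h1]
  · simp [C3.resZ, h1]

theorem pn_cPin_absorb (hl : H.Λ = HLaw.pinned P₀) (b : ℝ) (P A : Set G.V) (u : G.V → ℤ) : C3.cPin H b P (A \ P₀) u = C3.cPin H b P A u := by
  unfold C3.cPin C3.ZC
  rw [pn_res_res, pn_res_res,
    pn_addPin_congr H hl (X := P ∪ A \ P₀) (Y := P ∪ A) (by
      rw [Set.union_left_comm, Set.union_sdiff_self, Set.union_left_comm])]

theorem pn_rPin_absorb (hl : H.Λ = HLaw.pinned P₀) (b : ℝ) (P A : Set G.V) (u : G.V → ℤ) : C3.rPin H b P (A \ P₀) u = C3.rPin H b P A u := by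
  unfold C3.rPin
  rw [pn_cPin_absorb H hl, pn_cPin_absorb H hl]

theorem pn_union_absorb (P₀ P A : Set G.V) : P₀ ∪ P ∪ A \ P₀ = P₀ ∪ P ∪ A := by
  ext v
  simp only [Set.mem_union, Set.mem_sdiff]
  tauto

theorem pn_gPin_absorb (a : ℝ) (P₀ A P : Set G.V) : H.gPin a P₀ (A \ P₀) P = H.gPin a P₀ A P := by
  unfold HLaw.gPin
  rw [Set.union_sdiff_self]

theorem pn_grPin_absorb (a : ℝ) (P₀ P A : Set G.V) (u : G.V → ℝ) : C3.grPin H a (P₀ ∪ P) (A \ P₀) u = C3.grPin H a (P₀ ∪ P) A u := by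
  unfold C3.grPin C3.gcPin
  rw [pn_union_absorb]

theorem pn_gap_absorb (a : ℝ) (P₀ P A : Set G.V) (u : G.V → ℝ) : plGap H a (P₀ ∪ P) (A \ P₀) u = plGap H a (P₀ ∪ P) A u := by
  unfold plGap
  rw [pn_union_absorb]

end absorb

/-! ## 1. The pin interaction from four ratios -/

/-- the partition sum with additional pins -/
def zP {G : HGraph} (H : HLaw G) (b : ℝ) (X : Set G.V) : ℝ := (H.addPin X).Z b (HLaw.Aff.zero (H.addPin X)) fun _ => 1

/-- change of the rows on the domain pinned on `X`: the ratio of the partition sums has its Gaussian limit (`C3.mixed_rows`) -/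
def RowLim (L : LSeq) (HW : ∀ k, HLaw (L.G k)) (a : ℝ) (X : L.St) : Prop :=
  Tendsto (fun k => Real.log (zP (L.H k) (L.b k) (X k) / zP (HW k) (L.b k) (X k))
    - Real.log (C3.gZ (L.H k) a (L.P₀ k ∪ X k) 0 (fun _ => 1) / C3.gZ (HW k) a (L.P₀ k ∪ X k) 0 fun _ => 1)) atTop (𝓝 0)


theorem pn_addPin_empty {G : HGraph} (H : HLaw G) : H.addPin ∅ = H := by
  unfold HLaw.addPin
  have : HLaw.pinned (∅ : Set G.V) = ⊤ := by
    ext h
    simp only [AddSubgroup.mem_top, iff_true]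
    intro v hv
    exact absurd hv (Set.notMem_empty v)
  rw [this, inf_top_eq]

theorem pn_zP_pos {G : HGraph} (H : HLaw G) {b : ℝ} (hG : Gd H b) (X : Set G.V) : 0 < zP H b X := by
  have h := pn_ZC_one_pos H hG X 0
  have e : C3.resZ X (0 : G.V → ℤ) = 0 := by
    funext v
    simp [C3.resZ]
  unfold C3.ZC at h
  rw [e] at h
  exact h

theorem pn_pPin_eq_zP {G : HGraph} (H : HLaw G) (b : ℝ) (X : Set G.V) : H.pPin b X = zP H b X / zP H b ∅ := by
  unfold HLaw.pPin zP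
  rw [pn_addPin_empty]

theorem pn_dPin_four {G : HGraph} (H : HLaw G) {b : ℝ} (hG : Gd H b) (A P : Set G.V) :
    H.dPin b A P = Real.log (zP H b (A ∪ P)) + Real.log (zP H b ∅) - Real.log (zP H b A) - Real.log (zP H b P) := by
  have h0 := (pn_zP_pos H hG ∅).ne'
  unfold HLaw.dPin
  rw [pn_pPin_eq_zP, pn_pPin_eq_zP, pn_pPin_eq_zP, Real.log_div (pn_zP_pos H hG _).ne' h0,
    Real.log_div (pn_zP_pos H hG _).ne' h0, Real.log_div (pn_zP_pos H hG _).ne' h0]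
  ring

/-- **L-PN-W1** (~300 l.).  (3.27) + (3.29).  `D_U - D_W` = four log-ratios, exactly, on both sides (`pl_four_ratio` on the reference side; on the lattice side algebra of logarithms of positive sums, `pPin X = zP X / zP ∅`);
`0 ≤ D_W ≤ ε` (`pn_dPin_nonneg`), `0 ≤ D_W^g ≤ ε` (`pl_gPin_nonneg`). -/
theorem pn_pin_abs (L : LSeq) {a : ℝ} (ha : 0 < a) (A P : L.St) (hd : ∀ k, A k ∩ P k ⊆ L.P₀ k)
    (hW : ∀ ε > 0, ∃ HW : ∀ k, HLaw (L.G k), (∀ k, (HW k).Λ = HLaw.pinned (L.P₀ k)) ∧ (∀ k, Gd (HW k) (L.b k)) ∧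
      RowLim L HW a (fun _ => ∅) ∧ RowLim L HW a A ∧ RowLim L HW a P ∧ RowLim L HW a (fun k => A k ∪ P k) ∧
      (∀ᶠ k in atTop, (HW k).dPin (L.b k) (A k) (P k) ≤ ε) ∧ ∀ᶠ k in atTop, (HW k).gPin a (L.P₀ k) (A k) (P k) ≤ ε) :
    Tendsto (fun k => (L.H k).dPin (L.b k) (A k) (P k) - (L.H k).gPin a (L.P₀ k) (A k) (P k)) atTop (𝓝 0) := by

  rw [Metric.tendsto_nhds]
  intro ε hε
  obtain ⟨HW, hl, hgd, r0, rA, rP, rAP, hd1, hd2⟩ := hW (ε / 2) (half_pos hε)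
  have hsum := ((rAP.add r0).sub rA).sub rP
  simp only [add_zero, sub_zero] at hsum
  have hev := (Metric.tendsto_nhds.1 hsum) (ε / 2) (half_pos hε)
  filter_upwards [hev, hd1, hd2] with k h1 h2 h3
  have hpdW : plPD (HW k) (L.P₀ k) := pl_PD_of_ok _ (hl k) (L.b k) (hgd k).ok (hgd k).proper
  have id1 := pn_dPin_four (L.H k) (L.gd k) (A k) (P k)
  have id2 := pn_dPin_four (HW k) (hgd k) (A k) (P k)
  have id3 : (L.H k).gPin a (L.P₀ k) (A k) (P k) - (HW k).gPin a (L.P₀ k) (A k) (P k)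
      = Real.log (C3.gZ (L.H k) a (L.P₀ k ∪ (A k ∪ P k)) 0 (fun _ => 1) / C3.gZ (HW k) a (L.P₀ k ∪ (A k ∪ P k)) 0 fun _ => 1)
        + Real.log (C3.gZ (L.H k) a (L.P₀ k ∪ ∅) 0 (fun _ => 1) / C3.gZ (HW k) a (L.P₀ k ∪ ∅) 0 fun _ => 1)
        - Real.log (C3.gZ (L.H k) a (L.P₀ k ∪ A k) 0 (fun _ => 1) / C3.gZ (HW k) a (L.P₀ k ∪ A k) 0 fun _ => 1)
        - Real.log (C3.gZ (L.H k) a (L.P₀ k ∪ P k) 0 (fun _ => 1) / C3.gZ (HW k) a (L.P₀ k ∪ P k) 0 fun _ => 1) := by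
    rw [Set.union_empty, ← Set.union_assoc]
    exact pl_four_ratio (L.H k) (HW k) ha ha (pn_pd L k) hpdW (A k) (P k)
  have n1 := pn_dPin_nonneg (HW k) (hgd k) (A k) (P k)
  have n2 := pl_gPin_nonneg (HW k) ha hpdW (A k) (P k) (hd k)
  have q : ∀ X : Set (L.G k).V, Real.log (zP (L.H k) (L.b k) X / zP (HW k) (L.b k) X)
      = Real.log (zP (L.H k) (L.b k) X) - Real.log (zP (HW k) (L.b k) X) := fun X =>
    Real.log_div (pn_zP_pos _ (L.gd k) X).ne' (pn_zP_pos _ (hgd k) X).ne'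
  rw [Real.dist_eq, sub_zero, q, q, q, q, abs_lt] at h1
  rw [Real.dist_eq, sub_zero, abs_lt]
  constructor <;> linarith [h1.1, h1.2]

/-! ## 2. Two topologies -/

/-- the graph with the same vertices and other edges -/
abbrev reE (G : HGraph) (E' : Type) [Fintype E'] (src' tgt' : E' → G.V) : HGraph where
  V := G.V
  E := E'
  src := src'
  tgt := tgt'

/-- cut laws `L`, restored laws `H'`, guard `P`, core `A` -/
structure Two where
  L : LSeq
  E' : ℕ → Type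
  [fE' : ∀ k, Fintype (E' k)]
  src' : ∀ k, E' k → (L.G k).V
  tgt' : ∀ k, E' k → (L.G k).V
  H' : ∀ k, HLaw (reE (L.G k) (E' k) (src' k) (tgt' k))
  P : L.St
  A : L.St
  x : ∀ k, Ext (L.H k) (H' k) (A k)
  xe : ∀ k (v : (L.G k).V), (x k).e v = v
  dis : ∀ k, Disjoint (A k) (P k)

attribute [instance] Two.fE'

namespace Two

variable (W : Two)

/-- the sequence of restored laws -/
def L' : LSeq where
  G k := reE (W.L.G k) (W.E' k) (W.src' k) (W.tgt' k)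
  H := W.H'
  b := W.L.b
  P₀ := W.L.P₀
  gd k := pn_gd_ext _ (W.x k) (W.L.gd k)
  lam k := by
    ext h
    have e1 : ((h : (W.L.G k).V → ℤ) ∘ (W.x k).e) = h := funext fun v => congrArg h (W.xe k v)
    have e2 := (W.x k).lam h
    rw [W.L.lam k, e1] at e2
    exact e2
  bmax := W.L.bmax
  b_le := W.L.b_le

/-- the same tests for the restored laws -/
def S' (S : Scale W.L) : Scale W.L' := ⟨S.I, S.fI, S.sub⟩

/-- the core without the own pins -/
def A₀ : W.L.St := fun k => W.A k \ W.L.P₀ k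

theorem dis₀ (k : ℕ) : Disjoint (W.A₀ k) (W.L.P₀ k ∪ W.P k) := by
  rw [Set.disjoint_left]
  rintro v ⟨h1, h2⟩ (h3 | h3)
  · exact h2 h3
  · exact Set.disjoint_left.1 (W.dis k) h1 h3

/-- events of the guard data (only heights of the constraint lattice matter) -/
def gcl (k : ℕ) : Set (Set ((W.L.G k).V → ℤ)) := {E | ∀ h ∈ (W.L.H k).Λ, C3.resZ (W.P k) h ∈ E ↔ h ∈ E}

/-- events of the guard data, real fields -/
def gclR (k : ℕ) : Set (Set ((W.L.G k).V → ℝ)) :=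
  {E | MeasurableSet E ∧ ∀ φ, (∀ x ∈ W.L.P₀ k, φ x = 0) → (C3.resR (W.P k) φ ∈ E ↔ φ ∈ E)}

/-- ALL ASYMPTOTIC INPUTS of [C]T3.2 (second part) and L3.9 on the CUT laws -/
structure In (a : ℝ) (S : Scale W.L) : Prop where
  a_pos : 0 < a
  /-- [C]T3.1 at every level, without and with the guard pinned -/
  lim : S.Lim a
  limP : (S.pin W.P).Lim a
  /-- [C]T3.2, first assertion -/
  hD : Tendsto (fun k => (W.L.H k).dPin (W.L.b k) (W.A k) (W.P k) - (W.L.H k).gPin a (W.L.P₀ k) (W.A k) (W.P k)) atTop (𝓝 0)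
  /-- POT (P4): bounded mean energy gap (trace of the interaction operator) -/
  gapB : ∃ C : ℝ, ∀ k, ∫ φ, plGap (W.L.H k) a (W.L.P₀ k ∪ W.P k) (W.A k) φ ∂(W.L.ga a k) ≤ C
  /-- POT (P1) + (P2): probes -/
  probes : ∀ ε > 0, ∃ (n : ℕ) (R : Fin n → W.L.T), ProbeOK S a W.P W.A₀ R ε

end Two

/-! ## 3. Reference side of an extension -/

/-- splitting of a finite sum along an embedding -/
theorem pn_sum_emb {α β : Type*} [Fintype α] [Fintype β] (i : α ↪ β) (F : β → ℝ) :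
    ∑ y, F y = ∑ x, F (i x) + ∑ y : {y // y ∉ Set.range i}, F y := by
  rw [← Fintype.sum_subtype_add_sum_subtype (fun y => y ∈ Set.range i) F]
  congr 1
  symm
  exact @Fintype.sum_equiv α {y // y ∈ Set.range i} ℝ _ (Subtype.fintype fun y => y ∈ Set.range i) _
    (Equiv.ofInjective i i.injective) (fun x => F (i x)) (fun y => F y.1) fun x => rfl

/-- the new rows of an extension (unmasked) -/
def pn_extRow {G G' : HGraph} {H : HLaw G} {H' : HLaw G'} {A : Set G.V} (x : Ext H H' A) (a : ℝ) :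
    ({e' : G'.E // e' ∉ Set.range x.iE} ⊕ {o' : H'.O // o' ∉ Set.range x.iO}) → G.V → ℝ :=
  Sum.elim (fun e' y => Real.sqrt a⁻¹ * ((if x.e (G'.tgt e'.1) = y then 1 else 0) - (if x.e (G'.src e'.1) = y then 1 else 0)))
    (fun o' y => H'.B o'.1 (x.e.symm y))

theorem pn_extRow_eqns_cite : True := by
  have := @pn_extRow.eq_1
  trivial

theorem pn_extRow_supp {G G' : HGraph} {H : HLaw G} {H' : HLaw G'} {A : Set G.V} (x : Ext H H' A) (a : ℝ)
    (j : {e' : G'.E // e' ∉ Set.range x.iE} ⊕ {o' : H'.O // o' ∉ Set.range x.iO}) (y : G.V) (hy : y ∉ A) :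
    pn_extRow x a j y = 0 := by
  rcases j with e' | o'
  · obtain ⟨h1, h2⟩ := x.newE e'.1 e'.2
    have n1 : x.e (G'.tgt e'.1) ≠ y := fun h => hy (h ▸ h2)
    have n2 : x.e (G'.src e'.1) ≠ y := fun h => hy (h ▸ h1)
    simp [pn_extRow, n1, n2]
  · exact x.newO o'.1 o'.2 _ (by rwa [Equiv.apply_symm_apply])

theorem pn_extRow_pair {G G' : HGraph} {H : HLaw G} {H' : HLaw G'} {A : Set G.V} (x : Ext H H' A) (a : ℝ) (v : G.V → ℝ) :
    (∀ e' : {e' : G'.E // e' ∉ Set.range x.iE}, HLaw.pair (pn_extRow x a (Sum.inl e')) v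
      = Real.sqrt a⁻¹ * (v (x.e (G'.tgt e'.1)) - v (x.e (G'.src e'.1)))) ∧
    ∀ o' : {o' : H'.O // o' ∉ Set.range x.iO}, HLaw.pair (pn_extRow x a (Sum.inr o')) v = H'.obs (v ∘ x.e) o'.1 := by
  constructor
  · intro e'
    simp only [HLaw.pair, pn_extRow, Sum.elim_inl]
    have e : ∀ y, Real.sqrt a⁻¹ * ((if x.e (G'.tgt e'.1) = y then 1 else 0) - (if x.e (G'.src e'.1) = y then 1 else 0)) * v y
        = Real.sqrt a⁻¹ * ((if x.e (G'.tgt e'.1) = y then v y else 0) - (if x.e (G'.src e'.1) = y then v y else 0)) := by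
      intro y
      split_ifs <;> ring
    simp only [e]
    rw [← Finset.mul_sum, Finset.sum_sub_distrib, Finset.sum_ite_eq, Finset.sum_ite_eq]
    simp
  · intro o'
    simp only [HLaw.pair, pn_extRow, Sum.elim_inr, HLaw.obs]
    rw [← x.e.sum_comp]
    refine Finset.sum_congr rfl fun y _ => ?_
    simp

theorem pn_ext_form_aux {G G' : HGraph} {H : HLaw G} {H' : HLaw G'} {A : Set G.V} (x : Ext H H' A) {a : ℝ} (ha : 0 < a)
    (v : G.V → ℝ) :
    H'.form a (v ∘ x.e) = H.form a v + ∑ j, HLaw.pair (pn_extRow x a j) v ^ 2 := by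
  obtain ⟨p1, p2⟩ := pn_extRow_pair x a v
  rw [Fintype.sum_sum_type]
  simp only [p1, p2]
  unfold HLaw.form HLaw.en
  rw [pn_sum_emb x.iE, pn_sum_emb x.iO]
  have e1 : ∀ e : G.E, ((v ∘ x.e) (G'.tgt (x.iE e)) - (v ∘ x.e) (G'.src (x.iE e)) + (0 : G'.E → ℝ) (x.iE e)) ^ 2
      = (v (G.tgt e) - v (G.src e) + (0 : G.E → ℝ) e) ^ 2 := by
    intro e
    simp only [Function.comp, x.src_eq, x.tgt_eq, Pi.zero_apply]
  have e2 : ∀ o : H.O, H'.obs (v ∘ x.e) (x.iO o) = H.obs v o := by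
    intro o
    simp only [HLaw.obs, x.row_eq, Function.comp]
    exact x.e.sum_comp fun y => H.B o y * v y
  have e3 : ∀ e' : {e' : G'.E // e' ∉ Set.range x.iE},
      (Real.sqrt a⁻¹ * (v (x.e (G'.tgt e'.1)) - v (x.e (G'.src e'.1)))) ^ 2
        = a⁻¹ * ((v ∘ x.e) (G'.tgt e'.1) - (v ∘ x.e) (G'.src e'.1) + (0 : G'.E → ℝ) e'.1) ^ 2 := by
    intro e'
    rw [mul_pow, Real.sq_sqrt (inv_nonneg.2 ha.le)]
    simp
  simp only [e1, e2, e3]
  rw [← Finset.mul_sum]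
  ring

/-- **L-PN-W2** (~200 l.).  On the reference side new bonds are rows: `R` = the new rows and `√(a⁻¹) (δ_tgt - δ_src)` for the new bonds (enumerate the complements of the ranges of `iE`, `iO` by `Fintype.equivFin`), all multiplied by `1_{∉ P₀}`. -/
theorem pn_ext_form {G G' : HGraph} {H : HLaw G} {H' : HLaw G'} {A : Set G.V} (x : Ext H H' A) {a : ℝ} (ha : 0 < a) (P₀ : Set G.V) :
    ∃ (n : ℕ) (R : Fin n → G.V → ℝ), (∀ d, ∀ v ∉ A \ P₀, R d v = 0) ∧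
      ∀ v : G.V → ℝ, (∀ y ∈ P₀, v y = 0) → H'.form a (v ∘ x.e) = (addRows H R).form a v := by
  set N := {e' : G'.E // e' ∉ Set.range x.iE} ⊕ {o' : H'.O // o' ∉ Set.range x.iO} with hN
  refine ⟨Fintype.card N, fun d y => if y ∈ P₀ then 0 else pn_extRow x a ((Fintype.equivFin N).symm d) y, ?_, ?_⟩
  · intro d y hy
    by_cases h1 : y ∈ P₀
    · simp [h1]
    · have h2 : y ∉ A := fun h => hy ⟨h, h1⟩
      simp only [h1, if_false]
      exact pn_extRow_supp x a _ y h2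
  · intro v hv
    rw [pn_addRows_form, pn_ext_form_aux x ha v]
    congr 1
    rw [← (Fintype.equivFin N).symm.sum_comp]
    refine Finset.sum_congr rfl fun d _ => ?_
    congr 1
    unfold HLaw.pair
    refine Finset.sum_congr rfl fun y _ => ?_
    by_cases h1 : y ∈ P₀
    · simp [hv y h1]
    · simp [h1]

/-- The reference measure depends on the law only through its form on the fields which vanish on the pins (same vertices). -/
theorem pn_meas_congr {G : HGraph} {E' : Type} [Fintype E'] {src' tgt' : E' → G.V} (H' : HLaw (reE G E' src' tgt')) (H₂ : HLaw G) (a : ℝ) (P : Set G.V)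
    (hf : ∀ v : G.V → ℝ, (∀ y ∈ P, v y = 0) → H'.form a v = H₂.form a v) : plMeas H' a P = plMeas H₂ a P := by
  have h0 : ∀ v : {x : G.V // x ∉ P} → ℝ, H'.form a (plExt (G := reE G E' src' tgt') P 0 v) = H₂.form a (plExt P 0 v) := fun v =>
    hf _ fun y hy => by simp [plExt, hy]
  have h1 : plZ H' a P 0 (fun _ => 1) = plZ H₂ a P 0 fun _ => 1 := by
    unfold plZ
    exact integral_congr_ae (Filter.Eventually.of_forall fun v => by
      show _ * Real.exp (-(H'.form a (plExt (G := reE G E' src' tgt') P 0 v)) / 2) = _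
      rw [h0 v])
  unfold plMeas
  rw [h1]
  have h2 : (fun v : {x : G.V // x ∉ P} → ℝ => ENNReal.ofReal (Real.exp (-(H'.form a (plExt (G := reE G E' src' tgt') P 0 v)) / 2) / plZ H₂ a P 0 fun _ => 1))
      = fun v => ENNReal.ofReal (Real.exp (-(H₂.form a (plExt P 0 v)) / 2) / plZ H₂ a P 0 fun _ => 1) := funext fun v => by rw [h0 v]
  exact congrArg (fun d => ((volume : Measure ({x : G.V // x ∉ P} → ℝ)).withDensity d).map (plExt P 0)) h2

/-- more precision: smaller reference cost (same `rspan`, larger form; `pl_gVar_compare` or directly `ciSup_mono`, bounded above by `plPD`; ~100 l., same leaf W2) -/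
theorem pn_ea_res (W : Two) (S : Scale W.L) (f : W.L.T) (h : S.EA f) : (W.S' S).EA f := by
  intro ε hε
  obtain ⟨r₀, hr₀, h1⟩ := h ε hε
  refine ⟨r₀, hr₀, fun r hr hr0 => ?_⟩
  obtain ⟨t, ht, h2⟩ := h1 r hr hr0
  refine ⟨t, ht, h2.mono fun k hk => ?_⟩
  refine le_trans ?_ hk
  refine pl_gVar_compare (W.L.H k) (W.H' k) one_pos (pn_adm W.L k _) _ id (fun v hv => ?_) (fun v _ => ?_) fun v _ => rfl
  · have e1 : (W.H' k).Λ = HLaw.pinned (W.L.P₀ k) := W.L'.lam k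
    have e2 := W.L.lam k
    unfold HLaw.rspan at hv ⊢
    rw [e1] at hv
    rw [e2]
    exact hv
  · have e : v ∘ (W.x k).e = v := funext fun y => congrArg v (W.xe k y)
    have h3 := pn_ext_form_aux (W.x k) one_pos v
    rw [e] at h3
    rw [h3]
    have : 0 ≤ ∑ j, HLaw.pair (pn_extRow (W.x k) 1 j) v ^ 2 := Finset.sum_nonneg fun j _ => sq_nonneg _
    simpa using this

/-! ## 4. Lower tail and contiguity -/

/-- bounded Gaussian interaction (`pl_gPin_le_jensen`) -/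
theorem pn_in_gPin_le (W : Two) {a : ℝ} {S : Scale W.L} (I : W.In a S) :
    ∃ C : ℝ, ∀ k, (W.L.H k).gPin a (W.L.P₀ k) (W.A k) (W.P k) ≤ C := by
  obtain ⟨C, hC⟩ := I.gapB
  refine ⟨C / 2, fun k => ?_⟩
  have h1 := pl_gPin_le_jensen (W.L.H k) I.a_pos (pn_pd W.L k) (W.A k) (W.P k)
    (fun v hv => (Set.disjoint_left.1 (W.dis k) hv.1 hv.2).elim)
  have h2 := hC k
  unfold LSeq.ga at h2
  linarith

/-- **L-PN-W3** (~100 l.).  Uniform lower tail of the Gaussian pin ratio: `grPin = exp(-plGap/2)` (`pl_rPin_eq`), `plGap ≥ 0` (`pl_gap_nonneg`), Markov (`mul_meas_ge_le_integral_of_nonneg`, `pl_gap_integrable`, `pl_gap_continuous`):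
`P(grPin ≤ η) = P(plGap ≥ 2 log(1/η)) ≤ C / (2 log(1/η))`. -/
theorem pn_in_tail (W : Two) {a : ℝ} {S : Scale W.L} (I : W.In a S) :
    ∀ δ > 0, ∃ η > 0, ∀ k, (W.L.ga a k).real {φ | C3.grPin (W.L.H k) a (W.L.P₀ k ∪ W.P k) (W.A k) φ ≤ η} ≤ δ := by

  intro δ hδ
  obtain ⟨C, hC⟩ := I.gapB
  have ha := I.a_pos
  obtain ⟨C', hC', hC'pos⟩ : ∃ C' : ℝ, C ≤ C' ∧ 0 < C' := ⟨max C 1, le_max_left _ _, lt_of_lt_of_le one_pos (le_max_right _ _)⟩
  obtain ⟨t, ht⟩ : ∃ t : ℝ, t = C' / δ := ⟨_, rfl⟩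
  have htpos : 0 < t := by rw [ht]; exact div_pos hC'pos hδ
  refine ⟨Real.exp (-t / 2), Real.exp_pos _, fun k => ?_⟩
  have hpd := pn_pd W.L k
  have hpd' : plPD (W.L.H k) (W.L.P₀ k ∪ W.P k) := pl_PD_mono _ hpd Set.subset_union_left
  have hset : {φ | C3.grPin (W.L.H k) a (W.L.P₀ k ∪ W.P k) (W.A k) φ ≤ Real.exp (-t / 2)}
      = {φ | t ≤ plGap (W.L.H k) a (W.L.P₀ k ∪ W.P k) (W.A k) φ} := by
    ext φ
    simp only [Set.mem_setOf_eq]
    have e : C3.grPin (W.L.H k) a (W.L.P₀ k ∪ W.P k) (W.A k) φ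
        = Real.exp (-(plGap (W.L.H k) a (W.L.P₀ k ∪ W.P k) (W.A k) φ) / 2) := pl_rPin_eq (W.L.H k) ha hpd' (W.A k) φ
    rw [e, Real.exp_le_exp]
    constructor <;> intro h <;> linarith
  rw [hset]
  have hm := mul_meas_ge_le_integral_of_nonneg (μ := W.L.ga a k)
    (f := fun φ => plGap (W.L.H k) a (W.L.P₀ k ∪ W.P k) (W.A k) φ)
    (Filter.Eventually.of_forall fun φ => pl_gap_nonneg _ ha hpd' _ φ)
    (pl_gap_integrable (W.L.H k) ha hpd (W.A k) (W.P k)) t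
  have h3 : t * (W.L.ga a k).real {φ | t ≤ plGap (W.L.H k) a (W.L.P₀ k ∪ W.P k) (W.A k) φ} ≤ C' :=
    le_trans hm (le_trans (hC k) hC')
  have h4 : (W.L.ga a k).real {φ | t ≤ plGap (W.L.H k) a (W.L.P₀ k ∪ W.P k) (W.A k) φ} ≤ C' / t := by
    rw [le_div_iff₀ htpos]; linarith
  have e : C' / t = δ := by rw [ht]; field_simp
  linarith

/-- `NearP` is monotone in the tolerance -/
theorem pn_near_mono {Ω : ℕ → Type} [∀ k, MeasurableSpace (Ω k)] (m : ∀ k, Measure (Ω k)) [∀ k, IsFiniteMeasure (m k)]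
    (X : ∀ k, Ω k → ℝ) {ε ε' : ℝ} (h : NearP m X ε') (hle : ε' ≤ ε) : NearP m X ε := by
  refine h.mono fun k hk => ?_
  refine (measureReal_mono (fun ω hω => ?_)).trans (hk.trans hle)
  have hω' : ε < ‖X k ω‖ := hω
  exact lt_of_le_of_lt hle hω'

/-- the zero test is energy-approximable -/
theorem pn_ea_zero {L : LSeq} (S : Scale L) : S.EA fun _ => 0 := by
  intro ε hε
  refine ⟨1, one_pos, fun r _ _ => ⟨fun _ => 0, ⟨0, fun _ _ => by simp⟩, Eventually.of_forall fun k => ?_⟩⟩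
  rw [map_zero, sub_zero, pl_gVar_zero _ one_pos]
  exact hε.le

theorem pn_probeOK_mono {L : LSeq} {S : Scale L} {a : ℝ} {P A : L.St} {n : ℕ} {R : Fin n → L.T} {ε ε' : ℝ}
    (h : ProbeOK S a P A R ε) (hle : ε ≤ ε') : ProbeOK S a P A R ε' :=
  ⟨h.supp, h.ea, h.ea_bal, h.gap.mono fun _ hk => hk.trans hle⟩

/-- the law with the guard pinned, in the form of POT -/
theorem pn_pin_law (L : LSeq) (P : L.St) (k : ℕ) : plPin (L.H k) (L.P₀ k ∪ P k) = (L.pin P).H k :=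
  (pl_law_eq_pin ((L.pin P).H k) ((L.pin P).lam k)).symm

/-- bounded covariance matrices of bounded tests -/
theorem pn_covM_bdd (L : LSeq) {a : ℝ} (ha : 0 < a) (P : L.St) {n : ℕ} (R : Fin n → L.T) (hR : ∀ d, L.Bd (R d)) :
    ∃ C : ℝ, ∀ k d d', |covM (L.H k) (fun d => R d k) a (L.P₀ k ∪ P k) d d'| ≤ C := by
  choose B hB using hR
  refine ⟨max a 1 * ∑ d, |B d|, fun k d d' => ?_⟩
  have hA : 0 ≤ max a 1 := le_max_of_le_right zero_le_one
  have hb : ∀ d, ((L.pin P).H k).gVar a (R d k) ≤ max a 1 * ∑ d, |B d| := by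
    intro d
    refine (pl_gVar_le_max _ ha _).trans (mul_le_mul_of_nonneg_left ?_ hA)
    refine (pn_ea_addPin_le (L.H k) one_pos (P k) (pn_adm L k _)).trans ((hB d k).trans ((le_abs_self _).trans ?_))
    exact Finset.single_le_sum (f := fun d => |B d|) (fun j _ => abs_nonneg _) (Finset.mem_univ d)
  unfold covM
  rw [pn_pin_law]
  refine (pl_abs_cov_le _ ha (pn_adm (L.pin P) k _) (pn_adm (L.pin P) k _)).trans ?_
  have h0 : 0 ≤ max a 1 * ∑ d, |B d| := (pl_gVar_nonneg _ ha _).trans (hb d)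
  calc Real.sqrt (((L.pin P).H k).gVar a (R d k)) * Real.sqrt (((L.pin P).H k).gVar a (R d' k))
      ≤ Real.sqrt (max a 1 * ∑ d, |B d|) * Real.sqrt (max a 1 * ∑ d, |B d|) :=
        mul_le_mul (Real.sqrt_le_sqrt (hb d)) (Real.sqrt_le_sqrt (hb d')) (Real.sqrt_nonneg _) (Real.sqrt_nonneg _)
    _ = max a 1 * ∑ d, |B d| := Real.mul_self_sqrt h0

/-- the pin ratios of the cut law are close to explicit functions of finitely many linear statistics of the guard data, on both sides -/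
theorem pn_two_probe (W : Two) {a : ℝ} {S : Scale W.L} (I : W.In a S) (ε : ℝ) (hε : 0 < ε) :
    ∃ (n : ℕ) (Rb : Fin n → W.L.T) (Sg : ℕ → Fin n → Fin n → ℝ), (∀ d, S.EA (Rb d)) ∧
      (∀ d k, ∀ x ∉ W.L.P₀ k ∪ W.P k, Rb d k x = 0) ∧ (∃ C : ℝ, ∀ k d d', |Sg k d d'| ≤ C) ∧
      NearP W.L.mu (fun k h => C3.rPin (W.L.H k) (W.L.b k) (W.P k) (W.A k) h
        - FQ (Sg k) (fun d => lin (Rb d k) h) / FQ (Sg k) 0) ε ∧
      NearP (W.L.ga a) (fun k φ => C3.grPin (W.L.H k) a (W.L.P₀ k ∪ W.P k) (W.A k) φ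
        - FQ (Sg k) (fun d => HLaw.pair (Rb d k) φ) / FQ (Sg k) 0) ε := by
  have ha := I.a_pos
  obtain ⟨n, R, hR⟩ := I.probes (ε ^ 2 / 2) (by positivity)
  have hD : Tendsto (fun k => (W.L.H k).dPin (W.L.b k) (W.A₀ k) (W.P k)
      - (W.L.H k).gPin a (W.L.P₀ k) (W.A₀ k) (W.P k)) atTop (𝓝 0) := by
    refine I.hD.congr fun k => ?_
    unfold Two.A₀
    rw [pn_dPin_absorb _ (W.L.lam k), pn_gPin_absorb]
  have h1 := pn_r_near S ha I.lim W.P W.A₀ I.limP W.dis₀ hD R ε hε hR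
  have h2 := pn_gr_near S ha W.P W.A₀ W.dis₀ R ε hε (pn_probeOK_mono hR (by nlinarith [sq_nonneg ε]))
  refine ⟨n, fun d => W.L.bal a W.P (R d), fun k => covM (W.L.H k) (fun d => R d k) a (W.L.P₀ k ∪ W.P k),
    hR.ea_bal, fun d k x hx => pn_bal_supp _ _ _ _ x hx,
    pn_covM_bdd W.L ha W.P R fun d => pn_ea_bd S I.lim _ (hR.ea d), ?_, ?_⟩
  · refine h1.mono fun k hk => ?_
    simp only [Two.A₀, pn_rPin_absorb _ (W.L.lam k)] at hk
    exact hk
  · refine h2.mono fun k hk => ?_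
    simp only [Two.A₀, pn_grPin_absorb] at hk
    exact hk

/-- THE MASTER LEMMA of the transfer principle, one sequence of sampling laws. -/
theorem pn_ct_master (K : LSeq) (SK : Scale K) {a : ℝ} (ha : 0 < a) (hLim : SK.Lim a) (fL : K.T) (hL : SK.EA fL)
    {ι₁ : Type} [Fintype ι₁] (β : ι₁ → K.T) (hβ : ∀ i, SK.EA (β i)) (c : ℕ → ι₁ → ℝ) (hc : ∃ C : ℝ, ∀ k i, |c k i| ≤ C)
    (X : ∀ k, ((K.G k).V → ℤ) → ι₁ → ℝ) (Xg : ∀ k, ((K.G k).V → ℝ) → ι₁ → ℝ)
    (h1 : ∀ i, TendsP K.mu fun k h => X k h i - lin (β i k) h - c k i)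
    (h1g : ∀ k φ i, Xg k φ i = HLaw.pair (β i k) φ + c k i)
    (r : ∀ k, ((K.G k).V → ℤ) → ℝ) (rg : ∀ k, ((K.G k).V → ℝ) → ℝ) (hrg : ∀ k, Measurable (rg k))
    (h2 : ∀ ε > 0, ∃ (n : ℕ) (Rb : Fin n → K.T) (Sg : ℕ → Fin n → Fin n → ℝ), (∀ d, SK.EA (Rb d)) ∧
      (∃ C : ℝ, ∀ k d d', |Sg k d d'| ≤ C) ∧
      NearP K.mu (fun k h => r k h - FQ (Sg k) (fun d => lin (Rb d k) h) / FQ (Sg k) 0) ε ∧
      NearP (K.ga a) (fun k φ => rg k φ - FQ (Sg k) (fun d => HLaw.pair (Rb d k) φ) / FQ (Sg k) 0) ε)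
    (Φ : (ι₁ → ℝ) × ℝ → ℝ) (hΦ : Continuous Φ) (hΦb : ∃ C : ℝ, ∀ x, |Φ x| ≤ C) :
    Tendsto (fun k => (∫ h, Φ (X k h, r k h) ∂(K.muT fL k)) - ∫ φ, Φ (Xg k φ, rg k φ) ∂(K.gaT a fL k)) atTop (𝓝 0) := by
  have : ∀ k, IsProbabilityMeasure (K.mu k) := fun k => pn_latM_prob (K.H k) (K.gd k) 0
  have : ∀ k, IsProbabilityMeasure (K.muT fL k) := fun k => pn_latM_prob (K.H k) (K.gd k) (fL k)
  have : ∀ k, IsProbabilityMeasure (K.ga a k) := fun k => pl_meas_prob (K.H k) ha (pn_pd K k)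
  have : ∀ k, IsProbabilityMeasure (K.gaT a fL k) := fun k => pn_gauM_prob (K.H k) ha (pn_pd K k) (fL k)
  have hBd : K.Bd fL := pn_ea_bd SK hLim fL hL
  have hct := (pn_contig_tilt K fL hBd).1
  have hcg := pn_contig_gau_tilt K ha fL hBd
  have hmℓg : ∀ k, Measurable fun (φ : (K.G k).V → ℝ) (i : ι₁) => HLaw.pair (β i k) φ := fun k =>
    measurable_pi_lambda _ fun i => (pl_pair_continuous (β i k)).measurable
  refine pn_ct_final (K.muT fL) (K.gaT a fL) X (fun k h i => lin (β i k) h) Xg (fun k φ i => HLaw.pair (β i k) φ) r rg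
    (fun k => Measurable.of_discrete) (fun k => Measurable.of_discrete) (fun k => ?_) hmℓg
    (fun k => Measurable.of_discrete) hrg c hc
    (fun i => pn_contig_tends hct _ (fun _ _ => Set.mem_univ _) (h1 i)) h1g ?_ Φ hΦ hΦb
  · have e : Xg k = fun φ i => HLaw.pair (β i k) φ + c k i := funext fun φ => funext fun i => h1g k φ i
    rw [e]
    exact measurable_pi_lambda _ fun i => (pl_pair_continuous (β i k)).measurable.add_const _
  · intro ε hε
    obtain ⟨ε₁, hε₁, t1⟩ := pn_contig_near hct ε hε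
    obtain ⟨ε₂, hε₂, t2⟩ := pn_contig_near hcg ε hε
    obtain ⟨n, Rb, Sg, hRb, hSg, n1, n2⟩ := h2 (min ε₁ ε₂) (lt_min hε₁ hε₂)
    have hfam : K.GFam a fun o : Option (ι₁ ⊕ Fin n) => o.elim fL (Sum.elim β Rb) := by
      refine pn_ea_fam SK ha hLim _ fun o => ?_
      rcases o with _ | i | d
      · exact hL
      · exact hβ i
      · exact hRb d
    obtain ⟨c1, c2, c3⟩ := pn_fam_char K ha (Sum.elim β Rb) fL hfam
    have e1 : (fun (k : ℕ) (h : (K.G k).V → ℤ) (i : ι₁ ⊕ Fin n) => lin ((Sum.elim β Rb : ι₁ ⊕ Fin n → K.T) i k) h)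
        = fun k h => Sum.elim (fun i => lin (β i k) h) (fun d => lin (Rb d k) h) := by
      funext k h i
      rcases i with i | d <;> rfl
    have e2 : (fun (k : ℕ) (φ : (K.G k).V → ℝ) (i : ι₁ ⊕ Fin n) => HLaw.pair ((Sum.elim β Rb : ι₁ ⊕ Fin n → K.T) i k) φ)
        = fun k φ => Sum.elim (fun i => HLaw.pair (β i k) φ) (fun d => HLaw.pair (Rb d k) φ) := by
      funext k φ i
      rcases i with i | d <;> rfl
    have hmMg : ∀ k, Measurable fun (φ : (K.G k).V → ℝ) (d : Fin n) => HLaw.pair (Rb d k) φ := fun k =>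
      measurable_pi_lambda _ fun d => (pl_pair_continuous (Rb d k)).measurable
    refine ⟨n, fun k h d => lin (Rb d k) h, fun k φ d => HLaw.pair (Rb d k) φ, Sg, fun k => Measurable.of_discrete,
      hmMg, hSg, t1 _ (fun _ _ => Set.mem_univ _) (pn_near_mono _ _ n1 (min_le_left _ _)),
      t2 _ (fun k ε' => ?_) (pn_near_mono _ _ n2 (min_le_right _ _)), ?_, ?_, fun t => ?_⟩
    · have hFQ : Measurable fun φ : (K.G k).V → ℝ => FQ (Sg k) fun d => HLaw.pair (Rb d k) φ :=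
        ((pn_FQ_continuous n).measurable.comp (measurable_const.prodMk (hmMg k)) : _)
      have hm : Measurable fun φ : (K.G k).V → ℝ =>
          ‖rg k φ - FQ (Sg k) (fun d => HLaw.pair (Rb d k) φ) / FQ (Sg k) 0‖ :=
        ((hrg k).sub (hFQ.div_const _)).norm
      exact measurableSet_lt measurable_const hm
    · rw [e1] at c1
      exact c1
    · rw [e2] at c2
      exact c2
    · have c4 := c3 t
      refine c4.congr fun k => ?_
      congr 1
      · refine integral_congr_ae (Eventually.of_forall fun h => ?_)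
        have := congrFun (congrFun e1 k) h
        simp only at this ⊢
        rw [← this]
      · refine integral_congr_ae (Eventually.of_forall fun φ => ?_)
        have := congrFun (congrFun e2 k) φ
        simp only at this ⊢
        rw [← this]

/-- the cutoff of the lower tail -/
def pn_chi (η r : ℝ) : ℝ := max 0 (min 1 (2 - r / η))

theorem pn_chi_eqns_cite : True := by
  have := @pn_chi.eq_1
  trivial

theorem pn_chi_cont (η : ℝ) : Continuous (pn_chi η) := by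
  unfold pn_chi
  fun_prop

theorem pn_chi_mem (η r : ℝ) : 0 ≤ pn_chi η r ∧ pn_chi η r ≤ 1 :=
  ⟨le_max_left _ _, max_le zero_le_one (min_le_left _ _)⟩

theorem pn_chi_one {η r : ℝ} (hη : 0 < η) (h : r ≤ η) : pn_chi η r = 1 := by
  have h1 : r / η ≤ 1 := (div_le_one hη).2 h
  unfold pn_chi
  rw [min_eq_left (by linarith), max_eq_right zero_le_one]

theorem pn_chi_zero {η r : ℝ} (hη : 0 < η) (h : 2 * η < r) : pn_chi η r = 0 := by
  have h1 : 2 < r / η := (lt_div_iff₀ hη).2 h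
  unfold pn_chi
  rw [max_eq_left]
  exact (min_le_right _ _).trans (by linarith)

/-- **L-PN-W4** (~300 l.).  Uniform lower tail of the lattice pin ratio.  `pn_ct_final` with `ι₁ = Empty`, `m = L.mu`, `m' = L.ga a`, `Φ(_, r) = χ(r)`, `χ = 1` on `(-∞, η]`, `0` on `[2η, ∞)`, linear between;
inputs `h2`: `pn_r_near`, `pn_gr_near` for the core `W.A₀` (`W.dis₀`; back to `W.A` by `pn_rPin_absorb`, `pn_grPin_absorb`, `pn_dPin_absorb`, `pn_gPin_absorb`), `pn_fam_char` (tilt `0`; `pn_gauM_zero`), `pn_ea_fam`;  `pn_in_tail` at `2η`. -/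
theorem pn_lower_tail (W : Two) {a : ℝ} {S : Scale W.L} (I : W.In a S) :
    ∀ δ > 0, ∃ η > 0, ∀ᶠ k in atTop, (W.L.mu k).real {h | C3.rPin (W.L.H k) (W.L.b k) (W.P k) (W.A k) h ≤ η} ≤ δ := by
  intro δ hδ
  have ha := I.a_pos
  obtain ⟨η', hη', ht⟩ := pn_in_tail W I (δ / 2) (by positivity)
  have hη : 0 < η' / 2 := by positivity
  refine ⟨η' / 2, hη, ?_⟩
  have : ∀ k, IsProbabilityMeasure (W.L.mu k) := fun k => pn_latM_prob (W.L.H k) (W.L.gd k) 0
  have : ∀ k, IsProbabilityMeasure (W.L.ga a k) := fun k => pl_meas_prob (W.L.H k) ha (pn_pd W.L k)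
  have hpd' : ∀ k, plPD (W.L.H k) (W.L.P₀ k ∪ W.P k) := fun k => pl_PD_mono _ (pn_pd W.L k) Set.subset_union_left
  have hrg : ∀ k, Measurable (C3.grPin (W.L.H k) a (W.L.P₀ k ∪ W.P k) (W.A k)) := fun k =>
    pn_grPin_measurable (W.L.H k) ha (hpd' k) (W.A k)
  have key := pn_ct_master W.L S ha I.lim (fun _ => 0) (pn_ea_zero S) (ι₁ := Empty) (fun i => i.elim) (fun i => i.elim)
    (fun _ i => i.elim) ⟨0, fun _ i => i.elim⟩ (fun _ _ i => i.elim) (fun _ _ i => i.elim) (fun i => i.elim)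
    (fun _ _ i => i.elim) (fun k h => C3.rPin (W.L.H k) (W.L.b k) (W.P k) (W.A k) h)
    (fun k φ => C3.grPin (W.L.H k) a (W.L.P₀ k ∪ W.P k) (W.A k) φ) hrg
    (fun ε hε => by
      obtain ⟨n, Rb, Sg, h1, _, h3, h4, h5⟩ := pn_two_probe W I ε hε
      exact ⟨n, Rb, Sg, h1, h3, h4, h5⟩)
    (fun p => pn_chi (η' / 2) p.2) ((pn_chi_cont _).comp continuous_snd)
    ⟨1, fun p => by
      rw [abs_of_nonneg (pn_chi_mem _ _).1]
      exact (pn_chi_mem _ _).2⟩
  have hev := (tendsto_order.1 key).2 (δ / 2) (by positivity)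
  refine hev.mono fun k hk => ?_
  have em : W.L.muT (fun _ => 0) k = W.L.mu k := rfl
  have eg : W.L.gaT a (fun _ => 0) k = W.L.ga a k := pn_gauM_zero (W.L.H k) (W.L.P₀ k)
  rw [em, eg] at hk
  simp only at hk
  -- lattice side
  have l1 : (W.L.mu k).real {h | C3.rPin (W.L.H k) (W.L.b k) (W.P k) (W.A k) h ≤ η' / 2}
      ≤ ∫ h, pn_chi (η' / 2) (C3.rPin (W.L.H k) (W.L.b k) (W.P k) (W.A k) h) ∂(W.L.mu k) := by
    have hE : MeasurableSet {h | C3.rPin (W.L.H k) (W.L.b k) (W.P k) (W.A k) h ≤ η' / 2} := MeasurableSet.of_discrete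
    rw [← integral_indicator_one hE]
    refine integral_mono ((integrable_const (1 : ℝ)).indicator hE) ?_ fun h => ?_
    · refine Integrable.of_bound (C := 1) Measurable.of_discrete.aestronglyMeasurable (Eventually.of_forall fun h => ?_)
      rw [Real.norm_eq_abs, abs_of_nonneg (pn_chi_mem _ _).1]
      exact (pn_chi_mem _ _).2
    · by_cases hh : h ∈ {h | C3.rPin (W.L.H k) (W.L.b k) (W.P k) (W.A k) h ≤ η' / 2}
      · rw [Set.indicator_of_mem hh]
        exact (pn_chi_one hη hh).ge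
      · rw [Set.indicator_of_notMem hh]
        exact (pn_chi_mem _ _).1
  -- reference side
  have l2 : ∫ φ, pn_chi (η' / 2) (C3.grPin (W.L.H k) a (W.L.P₀ k ∪ W.P k) (W.A k) φ) ∂(W.L.ga a k)
      ≤ (W.L.ga a k).real {φ | C3.grPin (W.L.H k) a (W.L.P₀ k ∪ W.P k) (W.A k) φ ≤ η'} := by
    have hE : MeasurableSet {φ | C3.grPin (W.L.H k) a (W.L.P₀ k ∪ W.P k) (W.A k) φ ≤ η'} :=
      measurableSet_le (hrg k) measurable_const
    rw [← integral_indicator_one hE]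
    refine integral_mono ?_ ((integrable_const (1 : ℝ)).indicator hE) fun φ => ?_
    · refine Integrable.of_bound (C := 1) ((pn_chi_cont _).measurable.comp (hrg k)).aestronglyMeasurable
        (Eventually.of_forall fun h => ?_)
      rw [Real.norm_eq_abs, abs_of_nonneg (pn_chi_mem _ _).1]
      exact (pn_chi_mem _ _).2
    · by_cases hh : φ ∈ {φ | C3.grPin (W.L.H k) a (W.L.P₀ k ∪ W.P k) (W.A k) φ ≤ η'}
      · rw [Set.indicator_of_mem hh]
        exact (pn_chi_mem _ _).2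
      · rw [Set.indicator_of_notMem hh]
        have h3 : η' < C3.grPin (W.L.H k) a (W.L.P₀ k ∪ W.P k) (W.A k) φ := not_le.1 hh
        exact (pn_chi_zero hη (by linarith)).le
  have l3 := ht k
  linarith

/-- the indicator of a guard event as a function of the guard data -/
def pn_gi {G : HGraph} (P : Set G.V) (E : Set (G.V → ℤ)) (h : G.V → ℤ) : ℝ := if C3.resZ P h ∈ E then 1 else 0

theorem pn_gi_eqns_cite : True := by
  have := @pn_gi.eq_1
  trivial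

theorem pn_gi_loc {G : HGraph} (P : Set G.V) (E : Set (G.V → ℤ)) : LocP P (pn_gi P E) := fun h => by
  unfold pn_gi
  rw [pn_resZ_resZ]

theorem pn_gi_mem {G : HGraph} (P : Set G.V) (E : Set (G.V → ℤ)) (h : G.V → ℤ) : 0 ≤ pn_gi P E h ∧ pn_gi P E h ≤ 1 := by
  unfold pn_gi
  split_ifs <;> simp

theorem pn_gi_int {G : HGraph} (H : HLaw G) (b : ℝ) (fL : G.V → ℝ) (P : Set G.V) (E : Set (G.V → ℤ))
    (hE : ∀ h ∈ H.Λ, C3.resZ P h ∈ E ↔ h ∈ E) : ∫ h, pn_gi P E h ∂(latM H b fL) = (latM H b fL).real E := by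
  rw [← pn_latM_real_congr H b fL {h | C3.resZ P h ∈ E} E hE, ← integral_indicator_one MeasurableSet.of_discrete]
  refine integral_congr_ae (Eventually.of_forall fun h => ?_)
  by_cases hh : C3.resZ P h ∈ E
  · simp [pn_gi, hh, Set.indicator]
  · simp [pn_gi, hh, Set.indicator]

theorem pn_two_lam' (W : Two) (k : ℕ) : (W.H' k).Λ = (W.L.H k).Λ := (W.L'.lam k).trans (W.L.lam k).symm

theorem pn_two_comp (W : Two) (k : ℕ) {α : Type} (h : (W.L.G k).V → α) : h ∘ (W.x k).e.symm = h := by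
  funext v
  have h1 := W.xe k ((W.x k).e.symm v)
  rw [Equiv.apply_symm_apply] at h1
  show h ((W.x k).e.symm v) = h v
  rw [← h1]

theorem pn_two_int (W : Two) (k : ℕ) (E : Set ((W.L.G k).V → ℤ)) (hE : E ∈ W.gcl k) :
    ∫ h, pn_gi (W.P k) E h ∂(latM (W.L.H k) (W.L.b k) 0) = (W.L.mu k).real E := pn_gi_int _ _ _ _ _ hE

theorem pn_two_int' (W : Two) (k : ℕ) (E : Set ((W.L.G k).V → ℤ)) (hE : E ∈ W.gcl k) :
    ∫ h', pn_gi (W.P k) E (h' ∘ (W.x k).e.symm) ∂(latM (W.H' k) (W.L.b k) 0) = (W.L'.mu k).real E := by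
  refine (integral_congr_ae (Eventually.of_forall fun h' => ?_)).trans
    (pn_gi_int (W.H' k) (W.L.b k) 0 (W.P k) E (fun h hh => hE h (by rwa [pn_two_lam'] at hh)))
  exact congrArg (pn_gi (W.P k) E) (pn_two_comp W k h')

/-- bounded lattice interaction -/
theorem pn_in_dPin_le (W : Two) {a : ℝ} {S : Scale W.L} (I : W.In a S) :
    ∃ C : ℝ, ∀ᶠ k in atTop, (W.L.H k).dPin (W.L.b k) (W.A k) (W.P k) ≤ C := by
  obtain ⟨C, hC⟩ := pn_in_gPin_le W I
  refine ⟨C + 1, ((tendsto_order.1 I.hD).2 1 one_pos).mono fun k hk => ?_⟩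
  have := hC k
  linarith

/-- **L-PN-W5** (~350 l. for the three).  `ν(E) ≤ e^D μ(E)` (`pn_ext_upper` for `Ψ = 1_{resZ P h ∈ E}`; `D ≤ gPin + o(1) ≤ C`: `In.hD`, `pn_in_gPin_le`);  `μ(E) ≤ μ(r ≤ η) + ν(E)/η` (`pn_ext_lower`), `pn_lower_tail`, `pn_contig_of_lower`;
the laws are carried by the constraint lattice.   Reference side: `pn_ext_form` with `P₀`, `pn_meas_congr`, `pn_gau_upper` for the core `W.A₀` and `Ψ = 1_{resR P φ ∈ E}`, `pl_meas_ae_pin`, `pn_gPin_absorb`. -/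
theorem pn_contig_up (W : Two) {a : ℝ} {S : Scale W.L} (I : W.In a S) : Contig W.L.mu W.L'.mu W.gcl := by
  obtain ⟨C, hC⟩ := pn_in_dPin_le W I
  refine pn_contig_of_le (Real.exp C) (hC.mono fun k hk E hE => ?_)
  have h1 := pn_ext_upper (W.L.H k) (W.x k) (W.L.gd k) (W.P k) (pn_splits W.L W.P k) (W.dis k) (pn_gi (W.P k) E)
    (pn_gi_loc _ _) (pn_gi_mem _ _)
  rw [pn_two_int W k E hE] at h1
  exact ((pn_two_int' W k E hE).symm.le.trans h1).trans
    (mul_le_mul_of_nonneg_right (Real.exp_le_exp.2 hk) measureReal_nonneg)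

theorem pn_two_down (W : Two) (k : ℕ) (E : Set ((W.L.G k).V → ℤ)) (hE : E ∈ W.gcl k) (η : ℝ) (hη : 0 < η) :
    (W.L.mu k).real E ≤ (W.L.mu k).real {h | C3.rPin (W.L.H k) (W.L.b k) (W.P k) (W.A k) h ≤ η}
      + η⁻¹ * (W.L'.mu k).real E := by
  have hprob : IsProbabilityMeasure (latM (W.L.H k) (W.L.b k) 0) := pn_latM_prob (W.L.H k) (W.L.gd k) 0
  have h1 := pn_ext_lower (W.L.H k) (W.x k) (W.L.gd k) (W.P k) (pn_splits W.L W.P k) (W.dis k) (pn_gi (W.P k) E)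
    (pn_gi_loc _ _) (pn_gi_mem _ _)
  replace h1 := h1.trans (pn_two_int' W k E hE).le
  have h2 := pn_two_int W k E hE
  refine h2.symm.le.trans ?_
  have hr : ∀ h, 0 < C3.rPin (W.L.H k) (W.L.b k) (W.P k) (W.A k) h ∧ C3.rPin (W.L.H k) (W.L.b k) (W.P k) (W.A k) h ≤ 1 :=
    fun h => pn_rPin_mem (W.L.H k) (W.L.gd k) (W.P k) (W.A k) h
  have hS : MeasurableSet {h | C3.rPin (W.L.H k) (W.L.b k) (W.P k) (W.A k) h ≤ η} := MeasurableSet.of_discrete
  have i1 : Integrable (fun h => pn_gi (W.P k) E h) (latM (W.L.H k) (W.L.b k) 0) :=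
    pn_integrable_bdd _ (W.L.gd k) 0 1 _ fun h => by
      rw [abs_of_nonneg (pn_gi_mem _ _ _).1]
      exact (pn_gi_mem _ _ _).2
  have i2 : Integrable (fun h => pn_gi (W.P k) E h * C3.rPin (W.L.H k) (W.L.b k) (W.P k) (W.A k) h)
      (latM (W.L.H k) (W.L.b k) 0) :=
    pn_integrable_bdd _ (W.L.gd k) 0 1 _ fun h => by
      rw [abs_of_nonneg (mul_nonneg (pn_gi_mem _ _ _).1 (hr h).1.le)]
      exact mul_le_one₀ (pn_gi_mem _ _ _).2 (hr h).1.le (hr h).2
  have i3 : Integrable (Set.indicator {h | C3.rPin (W.L.H k) (W.L.b k) (W.P k) (W.A k) h ≤ η} (1 : ((W.L.G k).V → ℤ) → ℝ))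
      (latM (W.L.H k) (W.L.b k) 0) := (integrable_const (1 : ℝ)).indicator hS
  have h4 : ∫ h, pn_gi (W.P k) E h ∂(latM (W.L.H k) (W.L.b k) 0)
      ≤ ∫ h, (Set.indicator {h | C3.rPin (W.L.H k) (W.L.b k) (W.P k) (W.A k) h ≤ η} (1 : ((W.L.G k).V → ℤ) → ℝ) h
        + η⁻¹ * (pn_gi (W.P k) E h * C3.rPin (W.L.H k) (W.L.b k) (W.P k) (W.A k) h)) ∂(latM (W.L.H k) (W.L.b k) 0) := by
    refine integral_mono i1 (i3.add (i2.const_mul _)) fun h => ?_
    have g0 := (pn_gi_mem (W.P k) E h).1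
    have g1 := (pn_gi_mem (W.P k) E h).2
    by_cases hh : h ∈ {h | C3.rPin (W.L.H k) (W.L.b k) (W.P k) (W.A k) h ≤ η}
    · simp only [Set.indicator_of_mem hh, Pi.one_apply]
      have : 0 ≤ η⁻¹ * (pn_gi (W.P k) E h * C3.rPin (W.L.H k) (W.L.b k) (W.P k) (W.A k) h) :=
        mul_nonneg (inv_nonneg.2 hη.le) (mul_nonneg g0 (hr h).1.le)
      linarith
    · simp only [Set.indicator_of_notMem hh, zero_add]
      have h5 : η < C3.rPin (W.L.H k) (W.L.b k) (W.P k) (W.A k) h := not_le.1 hh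
      have h6 : 1 ≤ η⁻¹ * C3.rPin (W.L.H k) (W.L.b k) (W.P k) (W.A k) h := by
        rw [inv_mul_eq_div, one_le_div hη]
        exact h5.le
      calc pn_gi (W.P k) E h = pn_gi (W.P k) E h * 1 := (mul_one _).symm
        _ ≤ pn_gi (W.P k) E h * (η⁻¹ * C3.rPin (W.L.H k) (W.L.b k) (W.P k) (W.A k) h) := mul_le_mul_of_nonneg_left h6 g0
        _ = η⁻¹ * (pn_gi (W.P k) E h * C3.rPin (W.L.H k) (W.L.b k) (W.P k) (W.A k) h) := by ring
  rw [integral_add i3 (i2.const_mul _), integral_const_mul, integral_indicator_one hS] at h4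
  exact h4.trans (add_le_add le_rfl (mul_le_mul_of_nonneg_left h1 (inv_nonneg.2 hη.le)))

theorem pn_contig_down (W : Two) {a : ℝ} {S : Scale W.L} (I : W.In a S) : Contig W.L'.mu W.L.mu W.gcl :=
  pn_contig_of_lower (fun k h => C3.rPin (W.L.H k) (W.L.b k) (W.P k) (W.A k) h)
    (fun k E hE η hη => pn_two_down W k E hE η hη) (pn_lower_tail W I)

/-- the indicator of a guard event as a function of the guard data, real fields -/
def pn_giR {G : HGraph} (P : Set G.V) (E : Set (G.V → ℝ)) (φ : G.V → ℝ) : ℝ := if C3.resR P φ ∈ E then 1 else 0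

theorem pn_giR_eqns_cite : True := by
  have := @pn_giR.eq_1
  trivial

theorem pn_resR_measurable {G : HGraph} (P : Set G.V) : Measurable (C3.resR (G := G) P) := by
  refine measurable_pi_lambda _ fun v => ?_
  unfold C3.resR
  by_cases hv : v ∈ P
  · simp only [hv, if_true]
    exact measurable_pi_apply v
  · simp only [hv, if_false]
    exact measurable_const

theorem pn_giR_loc {G : HGraph} (P₀ P : Set G.V) (E : Set (G.V → ℝ)) : LocR (P₀ ∪ P) (pn_giR P E) := fun φ => by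
  unfold pn_giR
  have e : C3.resR P (C3.resR (P₀ ∪ P) φ) = C3.resR P φ := by
    funext v
    by_cases hv : v ∈ P
    · simp [C3.resR, hv]
    · simp [C3.resR, hv]
  rw [e]

theorem pn_giR_mem {G : HGraph} (P : Set G.V) (E : Set (G.V → ℝ)) (φ : G.V → ℝ) : 0 ≤ pn_giR P E φ ∧ pn_giR P E φ ≤ 1 := by
  unfold pn_giR
  split_ifs <;> simp

theorem pn_giR_measurable {G : HGraph} (P : Set G.V) (E : Set (G.V → ℝ)) (hE : MeasurableSet E) : Measurable (pn_giR P E) :=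
  Measurable.ite (pn_resR_measurable P hE) measurable_const measurable_const

theorem pn_giR_int {G : HGraph} (H : HLaw G) (a : ℝ) (P₀ P : Set G.V) (E : Set (G.V → ℝ)) (hm : MeasurableSet E)
    (hE : ∀ φ, (∀ x ∈ P₀, φ x = 0) → (C3.resR P φ ∈ E ↔ φ ∈ E)) :
    ∫ φ, pn_giR P E φ ∂(plMeas H a P₀) = (plMeas H a P₀).real E := by
  rw [← integral_indicator_one hm]
  refine integral_congr_ae ((pl_meas_ae_pin H a P₀).mono fun φ hφ => ?_)
  have h1 := hE φ hφ
  by_cases hh : φ ∈ E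
  · simp [pn_giR, hh, h1.2 hh, Set.indicator]
  · have h2 : C3.resR P φ ∉ E := fun h => hh (h1.1 h)
    simp [pn_giR, hh, h2, Set.indicator]

theorem pn_contig_gau_up (W : Two) {a : ℝ} {S : Scale W.L} (I : W.In a S) : Contig (W.L.ga a) (W.L'.ga a) W.gclR := by
  have ha := I.a_pos
  obtain ⟨C, hC⟩ := pn_in_gPin_le W I
  refine pn_contig_of_le (Real.exp C) (Eventually.of_forall fun k E hE => ?_)
  obtain ⟨n, R, hR, hform⟩ := pn_ext_form (W.x k) ha (W.L.P₀ k)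
  have e1 : W.L'.ga a k = plMeas (addRows (W.L.H k) R) a (W.L.P₀ k) := by
    refine pn_meas_congr (W.H' k) (addRows (W.L.H k) R) a (W.L.P₀ k) fun v hv => ?_
    have h1 := hform v hv
    have e : v ∘ (W.x k).e = v := funext fun y => congrArg v (W.xe k y)
    rwa [e] at h1
  have h1 := pn_gau_upper (W.L.H k) ha (pn_pd W.L k) (W.P k) (W.A₀ k) (W.dis₀ k) R hR (pn_giR (W.P k) E)
    (pn_giR_loc _ _ _) (pn_giR_measurable _ _ hE.1) (pn_giR_mem _ _)
  rw [pn_giR_int _ _ _ _ _ hE.1 hE.2, pn_giR_int _ _ _ _ _ hE.1 hE.2] at h1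
  rw [e1]
  refine h1.trans (mul_le_mul_of_nonneg_right (Real.exp_le_exp.2 ?_) measureReal_nonneg)
  unfold Two.A₀
  rw [pn_gPin_absorb]
  exact hC k

/-! ## 5. The transfer principle -/

section ct

variable (W : Two) {a : ℝ} {S : Scale W.L} {J J' : Type} [Fintype J] [Fintype J'] (fX : J → W.L.T) (fX' : J' → W.L.T) (fL : W.L.T)

/-- the lattice targets -/
def Two.tX (k : ℕ) (h : (W.L.G k).V → ℤ) : J ⊕ J' → ℝ :=
  Sum.elim (fun i => C3.cLap (W.L.H k) (W.L.b k) (W.P k) (fX i k) h) (fun i => C3.cLap (W.H' k) (W.L.b k) (W.P k) (fX' i k) h)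

/-- the reference targets -/
def Two.tXg (a : ℝ) (k : ℕ) (φ : (W.L.G k).V → ℝ) : J ⊕ J' → ℝ :=
  Sum.elim (fun i => C3.gcLap (W.L.H k) a (W.L.P₀ k ∪ W.P k) (fX i k) φ) (fun i => C3.gcLap (W.H' k) a (W.L.P₀ k ∪ W.P k) (fX' i k) φ)

/-- Gaussian Laplace limit of one energy-approximable test -/
theorem pn_ea_glap {L : LSeq} (S : Scale L) {a : ℝ} (ha : 0 < a) (hLim : S.Lim a) (f : L.T) (hf : S.EA f) : L.GLap a f := by
  have h1 := (pn_ea_fam S ha hLim (fun _ : Unit => f) fun _ => hf).1 (fun _ _ => 1) ⟨1, fun _ _ => by simp⟩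
  have e : (fun k => ∑ _i : Unit, (1 : ℝ) • f k) = f := by
    funext k
    simp
  rwa [e] at h1

theorem pn_cLap_loc {G : HGraph} (H : HLaw G) (b : ℝ) (P : Set G.V) (f : G.V → ℝ) (h : G.V → ℤ) :
    C3.cLap H b P f (C3.resZ P h) = C3.cLap H b P f h := by
  unfold C3.cLap C3.ZC
  rw [pn_resZ_resZ]

theorem pn_rPin_loc {G : HGraph} (H : HLaw G) (b : ℝ) (P A : Set G.V) (h : G.V → ℤ) :
    C3.rPin H b P A (C3.resZ P h) = C3.rPin H b P A h := by
  unfold C3.rPin C3.cPin C3.ZC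
  rw [pn_resZ_resZ]

theorem pn_lin_guard {G : HGraph} (P₀ P : Set G.V) (β : G.V → ℝ) (hβ : ∀ x ∉ P₀ ∪ P, β x = 0) (h : G.V → ℤ)
    (hh : h ∈ HLaw.pinned (G := G) P₀) : lin β (C3.resZ P h) = lin β h := by
  unfold lin HLaw.pair
  refine Finset.sum_congr rfl fun x _ => ?_
  show β x * (2 * Real.pi * ((C3.resZ P h x : ℤ) : ℝ)) = β x * (2 * Real.pi * ((h x : ℤ) : ℝ))
  by_cases hx : x ∈ P
  · have e : C3.resZ P h x = h x := if_pos hx
    rw [e]
  · have e : C3.resZ P h x = 0 := if_neg hx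
    rw [e]
    by_cases hx0 : x ∈ P₀
    · have : h x = 0 := hh x hx0
      rw [this]
    · rw [hβ x (fun hc => hc.elim hx0 hx)]
      simp

theorem pn_pair_guard {G : HGraph} (P₀ P : Set G.V) (β : G.V → ℝ) (hβ : ∀ x ∉ P₀ ∪ P, β x = 0) (φ : G.V → ℝ)
    (hφ : ∀ x ∈ P₀, φ x = 0) : HLaw.pair β (C3.resR P φ) = HLaw.pair β φ := by
  unfold HLaw.pair
  refine Finset.sum_congr rfl fun x _ => ?_
  unfold C3.resR
  by_cases hx : x ∈ P
  · rw [if_pos hx]
  · rw [if_neg hx]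
    by_cases hx0 : x ∈ P₀
    · rw [hφ x hx0]
    · rw [hβ x (fun hc => hc.elim hx0 hx)]
      simp

theorem pn_resR_guard {G : HGraph} (P₀ P : Set G.V) (φ : G.V → ℝ) (hφ : ∀ x ∈ P₀, φ x = 0) :
    C3.resR (P₀ ∪ P) φ = C3.resR P φ := by
  funext x
  unfold C3.resR
  by_cases hx : x ∈ P
  · simp [hx]
  · by_cases hx0 : x ∈ P₀
    · simp [hx, hx0, hφ x hx0]
    · simp [hx, hx0]

theorem pn_pin_gVar_mem (L : LSeq) {a : ℝ} (ha : 0 < a) (P : L.St) (k : ℕ) (f : (L.G k).V → ℝ) :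
    0 ≤ ((L.pin P).H k).gVar a f ∧ ((L.pin P).H k).gVar a f ≤ max a 1 * (L.H k).gVar 1 f :=
  ⟨pl_gVar_nonneg _ ha _, (pl_gVar_le_max _ ha _).trans (mul_le_mul_of_nonneg_left
    (pn_ea_addPin_le (L.H k) one_pos (P k) (pn_adm L k _)) (le_max_of_le_right zero_le_one))⟩

/-- the predictors of the targets -/
def Two.bX (a : ℝ) : J ⊕ J' → W.L.T := Sum.elim (fun i => W.L.bal a W.P (fX i)) (fun i => W.L'.bal a W.P (fX' i))

/-- the constants of the targets -/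
def Two.cX (a : ℝ) (k : ℕ) : J ⊕ J' → ℝ :=
  Sum.elim (fun i => ((W.L.pin W.P).H k).gVar a (fX i k) / 2) (fun i => ((W.L'.pin W.P).H k).gVar a (fX' i k) / 2)

theorem pn_two_bX_eqns_cite : True := by
  have := @Two.bX.eq_1
  have := @Two.cX.eq_1
  trivial

theorem pn_two_bX_supp (a : ℝ) (i : J ⊕ J') (k : ℕ) : ∀ x ∉ W.L.P₀ k ∪ W.P k, W.bX fX fX' a i k x = 0 := by
  intro x hx
  rcases i with i | i
  · exact pn_bal_supp (W.L.H k) a _ _ x hx
  · exact pn_bal_supp (W.H' k) a _ _ x hx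

theorem pn_two_cX_bdd (ha : 0 < a) (hB : ∀ i, W.L.Bd (fX i)) (hB' : ∀ i, W.L'.Bd (fX' i)) :
    ∃ C : ℝ, ∀ k i, |W.cX fX fX' a k i| ≤ C := by
  choose B hB using hB
  choose B' hB' using hB'
  have hA : 0 ≤ max a 1 := le_max_of_le_right zero_le_one
  refine ⟨max a 1 * (∑ i, |B i| + ∑ i, |B' i|), fun k i => ?_⟩
  have s1 : 0 ≤ ∑ i, |B i| := Finset.sum_nonneg fun i _ => abs_nonneg _
  have s2 : 0 ≤ ∑ i, |B' i| := Finset.sum_nonneg fun i _ => abs_nonneg _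
  rcases i with i | i
  · obtain ⟨h0, h1⟩ := pn_pin_gVar_mem W.L ha W.P k (fX i k)
    have h2 : (W.L.H k).gVar 1 (fX i k) ≤ ∑ i, |B i| + ∑ i, |B' i| := by
      have := Finset.single_le_sum (f := fun i => |B i|) (fun j _ => abs_nonneg _) (Finset.mem_univ i)
      have h3 := hB i k
      have h4 := le_abs_self (B i)
      linarith
    have h5 := mul_le_mul_of_nonneg_left h2 hA
    show |((W.L.pin W.P).H k).gVar a (fX i k) / 2| ≤ _
    rw [abs_of_nonneg (by linarith)]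
    linarith
  · obtain ⟨h0, h1⟩ := pn_pin_gVar_mem W.L' ha W.P k (fX' i k)
    have h2 : (W.L'.H k).gVar 1 (fX' i k) ≤ ∑ i, |B i| + ∑ i, |B' i| := by
      have := Finset.single_le_sum (f := fun i => |B' i|) (fun j _ => abs_nonneg _) (Finset.mem_univ i)
      have h3 := hB' i k
      have h4 := le_abs_self (B' i)
      linarith
    have h5 := mul_le_mul_of_nonneg_left h2 hA
    show |((W.L'.pin W.P).H k).gVar a (fX' i k) / 2| ≤ _
    rw [abs_of_nonneg (by linarith)]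
    linarith

theorem pn_gcLap_seq (L : LSeq) {a : ℝ} (ha : 0 < a) (P : L.St) (f : L.T) (k : ℕ) (φ : (L.G k).V → ℝ) :
    C3.gcLap (L.H k) a (L.P₀ k ∪ P k) (f k) φ = HLaw.pair (L.bal a P f k) φ + ((L.pin P).H k).gVar a (f k) / 2 := by
  have h1 := pn_gcLap_eq (L.H k) ha (pl_PD_mono _ (pn_pd L k) (Set.subset_union_left (t := P k))) (f k) φ
  rw [pn_pin_law] at h1
  exact h1

theorem pn_two_tXg (ha : 0 < a) (k : ℕ) (φ : (W.L.G k).V → ℝ) (i : J ⊕ J') :
    W.tXg fX fX' a k φ i = HLaw.pair (W.bX fX fX' a i k) φ + W.cX fX fX' a k i := by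
  rcases i with i | i
  · exact pn_gcLap_seq W.L ha W.P (fX i) k φ
  · exact pn_gcLap_seq W.L' ha W.P (fX' i) k φ

/-- the errors of Step B are functions of the guard data -/
theorem pn_two_guard (a : ℝ) (i : J ⊕ J') (k : ℕ) (ε : ℝ) :
    {h | ε < ‖W.tX fX fX' k h i - lin (W.bX fX fX' a i k) h - W.cX fX fX' a k i‖} ∈ W.gcl k := by
  intro h hh
  have hh' : h ∈ HLaw.pinned (G := W.L.G k) (W.L.P₀ k) := by rwa [W.L.lam k] at hh
  show ε < ‖W.tX fX fX' k (C3.resZ (W.P k) h) i - lin (W.bX fX fX' a i k) (C3.resZ (W.P k) h) - W.cX fX fX' a k i‖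
    ↔ ε < ‖W.tX fX fX' k h i - lin (W.bX fX fX' a i k) h - W.cX fX fX' a k i‖
  rw [pn_lin_guard _ _ _ (pn_two_bX_supp W fX fX' a i k) h hh']
  have e : W.tX fX fX' k (C3.resZ (W.P k) h) i = W.tX fX fX' k h i := by
    rcases i with i | i
    · exact pn_cLap_loc (W.L.H k) _ _ _ h
    · exact pn_cLap_loc (W.H' k) _ _ _ h
  rw [e]

/-- Step B for all targets, each under its own law -/
theorem pn_two_stepB (I : W.In a S) (h' : (W.S' S).Lim a) (hP' : ((W.S' S).pin W.P).Lim a)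
    (hX : ∀ i, S.EA (fX i) ∧ S.EA (W.L.bal a W.P (fX i))) (hX' : ∀ i, S.EA (fX' i) ∧ S.EA (W.L'.bal a W.P (fX' i))) :
    (∀ i : J, TendsP W.L.mu fun k h => W.tX fX fX' k h (Sum.inl i) - lin (W.bX fX fX' a (Sum.inl i) k) h
      - W.cX fX fX' a k (Sum.inl i)) ∧
    ∀ i : J', TendsP W.L'.mu fun k h => W.tX fX fX' k h (Sum.inr i) - lin (W.bX fX fX' a (Sum.inr i) k) h
      - W.cX fX fX' a k (Sum.inr i) := by
  have ha := I.a_pos
  constructor
  · intro i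
    exact pn_stepB_ref W.L ha W.P (fX i) (pn_ea_glap (S.pin W.P) ha I.limP _ (pn_ea_pin S W.P _ (hX i).1))
      (pn_ea_glap S ha I.lim _ (pn_ea_sub S _ _ (hX i).1 (hX i).2))
  · intro i
    exact pn_stepB_ref W.L' ha W.P (fX' i)
      (pn_ea_glap ((W.S' S).pin W.P) ha hP' _ (pn_ea_pin (W.S' S) W.P _ (pn_ea_res W S _ (hX' i).1)))
      (pn_ea_glap (W.S' S) ha h' _ (pn_ea_res W S _ (pn_ea_sub S _ _ (hX' i).1 (hX' i).2)))

/-- **L-PN-W6** (~500 l.).  Data sampled under the CUT law.  `pn_ct_final` with `ι₁ = J ⊕ J'`, `ℓ = lin (bal ·)`, `c = gVar_pinned / 2`.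
`h1`, `i ∈ J`: `pn_stepB_ref` for `L` (Laplace limits from `pn_ea_fam`, `pn_ea_pin`, `pn_ea_sub`), then `pn_contig_tilt`.   `i ∈ J'`: `pn_stepB_ref` for `L'`, `pn_contig_down`, `pn_contig_tilt`.   `h1g`: `pn_gcLap_eq`.
`h2`: tolerances through `pn_contig_near`; `pn_r_near`, `pn_gr_near`, `pn_contig_gau_tilt`; `pn_fam_char` for `L` and the family `bal (fX i)`, `bal' (fX' i)`, `bal (R d)`. -/
theorem pn_ct_cut (I : W.In a S) (h' : (W.S' S).Lim a) (hP' : ((W.S' S).pin W.P).Lim a)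
    (hX : ∀ i, S.EA (fX i) ∧ S.EA (W.L.bal a W.P (fX i))) (hX' : ∀ i, S.EA (fX' i) ∧ S.EA (W.L'.bal a W.P (fX' i))) (hL : S.EA fL)
    (Φ : (J ⊕ J' → ℝ) × ℝ → ℝ) (hΦ : Continuous Φ) (hΦb : ∃ C : ℝ, ∀ x, |Φ x| ≤ C) :
    Tendsto (fun k => (∫ h, Φ (W.tX fX fX' k h, C3.rPin (W.L.H k) (W.L.b k) (W.P k) (W.A k) h) ∂(W.L.muT fL k))
      - ∫ φ, Φ (W.tXg fX fX' a k φ, C3.grPin (W.L.H k) a (W.L.P₀ k ∪ W.P k) (W.A k) φ) ∂(W.L.gaT a fL k)) atTop (𝓝 0) := by
  have ha := I.a_pos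
  obtain ⟨sB, sB'⟩ := pn_two_stepB W fX fX' I h' hP' hX hX'
  have hpd' : ∀ k, plPD (W.L.H k) (W.L.P₀ k ∪ W.P k) := fun k => pl_PD_mono _ (pn_pd W.L k) Set.subset_union_left
  refine pn_ct_master W.L S ha I.lim fL hL (W.bX fX fX' a) ?_ (W.cX fX fX' a)
    (pn_two_cX_bdd W fX fX' ha (fun i => pn_ea_bd S I.lim _ (hX i).1)
      (fun i => pn_ea_bd (W.S' S) h' _ (pn_ea_res W S _ (hX' i).1)))
    (W.tX fX fX') (W.tXg fX fX' a) ?_ (pn_two_tXg W fX fX' ha)
    (fun k h => C3.rPin (W.L.H k) (W.L.b k) (W.P k) (W.A k) h)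
    (fun k φ => C3.grPin (W.L.H k) a (W.L.P₀ k ∪ W.P k) (W.A k) φ)
    (fun k => pn_grPin_measurable (W.L.H k) ha (hpd' k) (W.A k))
    (fun ε hε => by
      obtain ⟨n, Rb, Sg, h1, _, h3, h4, h5⟩ := pn_two_probe W I ε hε
      exact ⟨n, Rb, Sg, h1, h3, h4, h5⟩) Φ hΦ hΦb
  · rintro (i | i)
    · exact (hX i).2
    · exact (hX' i).2
  · rintro (i | i)
    · exact sB i
    · exact pn_contig_tends (pn_contig_down W I) _ (pn_two_guard W fX fX' a (Sum.inr i)) (sB' i)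

/-- the probe approximation of the pin ratios of the cut law, under the RESTORED laws -/
theorem pn_two_probe_res (I : W.In a S) (ε : ℝ) (hε : 0 < ε) :
    ∃ (n : ℕ) (Rb : Fin n → W.L.T) (Sg : ℕ → Fin n → Fin n → ℝ), (∀ d, S.EA (Rb d)) ∧
      (∃ C : ℝ, ∀ k d d', |Sg k d d'| ≤ C) ∧
      NearP W.L'.mu (fun k h => C3.rPin (W.L.H k) (W.L.b k) (W.P k) (W.A k) h
        - FQ (Sg k) (fun d => lin (Rb d k) h) / FQ (Sg k) 0) ε ∧
      NearP (W.L'.ga a) (fun k φ => C3.grPin (W.L.H k) a (W.L.P₀ k ∪ W.P k) (W.A k) φ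
        - FQ (Sg k) (fun d => HLaw.pair (Rb d k) φ) / FQ (Sg k) 0) ε := by
  have ha := I.a_pos
  have : ∀ k, IsProbabilityMeasure (W.L.mu k) := fun k => pn_latM_prob (W.L.H k) (W.L.gd k) 0
  have : ∀ k, IsProbabilityMeasure (W.L.ga a k) := fun k => pl_meas_prob (W.L.H k) ha (pn_pd W.L k)
  have hpd' : ∀ k, plPD (W.L.H k) (W.L.P₀ k ∪ W.P k) := fun k => pl_PD_mono _ (pn_pd W.L k) Set.subset_union_left
  obtain ⟨ε₁, hε₁, t1⟩ := pn_contig_near (pn_contig_up W I) ε hε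
  obtain ⟨ε₂, hε₂, t2⟩ := pn_contig_near (pn_contig_gau_up W I) ε hε
  obtain ⟨n, Rb, Sg, h1, h2, h3, h4, h5⟩ := pn_two_probe W I (min ε₁ ε₂) (lt_min hε₁ hε₂)
  refine ⟨n, Rb, Sg, h1, h3, t1 _ (fun k ε' => ?_) (pn_near_mono _ _ h4 (min_le_left _ _)),
    t2 _ (fun k ε' => ?_) (pn_near_mono _ _ h5 (min_le_right _ _))⟩
  · intro h hh
    have hh' : h ∈ HLaw.pinned (G := W.L.G k) (W.L.P₀ k) := by rwa [W.L.lam k] at hh
    show ε' < ‖C3.rPin (W.L.H k) (W.L.b k) (W.P k) (W.A k) (C3.resZ (W.P k) h)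
        - FQ (Sg k) (fun d => lin (Rb d k) (C3.resZ (W.P k) h)) / FQ (Sg k) 0‖
      ↔ ε' < ‖C3.rPin (W.L.H k) (W.L.b k) (W.P k) (W.A k) h - FQ (Sg k) (fun d => lin (Rb d k) h) / FQ (Sg k) 0‖
    rw [pn_rPin_loc]
    have e : (fun d => lin (Rb d k) (C3.resZ (W.P k) h)) = fun d => lin (Rb d k) h :=
      funext fun d => pn_lin_guard _ _ _ (h2 d k) h hh'
    rw [e]
  · constructor
    · have hmMg : Measurable fun (φ : (W.L.G k).V → ℝ) (d : Fin n) => HLaw.pair (Rb d k) φ :=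
        measurable_pi_lambda _ fun d => (pl_pair_continuous (Rb d k)).measurable
      have hFQ : Measurable fun φ : (W.L.G k).V → ℝ => FQ (Sg k) fun d => HLaw.pair (Rb d k) φ :=
        ((pn_FQ_continuous n).measurable.comp (measurable_const.prodMk hmMg) : _)
      have hm : Measurable fun φ : (W.L.G k).V → ℝ =>
          ‖C3.grPin (W.L.H k) a (W.L.P₀ k ∪ W.P k) (W.A k) φ - FQ (Sg k) (fun d => HLaw.pair (Rb d k) φ) / FQ (Sg k) 0‖ :=
        ((pn_grPin_measurable (W.L.H k) ha (hpd' k) (W.A k)).sub (hFQ.div_const _)).norm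
      exact measurableSet_lt measurable_const hm
    · intro φ hφ
      show ε' < ‖C3.grPin (W.L.H k) a (W.L.P₀ k ∪ W.P k) (W.A k) (C3.resR (W.P k) φ)
          - FQ (Sg k) (fun d => HLaw.pair (Rb d k) (C3.resR (W.P k) φ)) / FQ (Sg k) 0‖
        ↔ ε' < ‖C3.grPin (W.L.H k) a (W.L.P₀ k ∪ W.P k) (W.A k) φ
          - FQ (Sg k) (fun d => HLaw.pair (Rb d k) φ) / FQ (Sg k) 0‖
      have e1 : C3.grPin (W.L.H k) a (W.L.P₀ k ∪ W.P k) (W.A k) (C3.resR (W.P k) φ)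
          = C3.grPin (W.L.H k) a (W.L.P₀ k ∪ W.P k) (W.A k) φ := by
        rw [← pn_resR_guard _ _ φ hφ]
        exact pn_grPin_loc (W.L.H k) a _ _ φ
      have e2 : (fun d => HLaw.pair (Rb d k) (C3.resR (W.P k) φ)) = fun d => HLaw.pair (Rb d k) φ :=
        funext fun d => pn_pair_guard _ _ _ (h2 d k) φ hφ
      rw [e1, e2]

/-- **L-PN-W7** (~500 l.).  Data sampled under the RESTORED law.  As W6 with `pn_contig_up`, `pn_contig_gau_up`, `pn_ea_res`, `pn_fam_char` for `L'`. -/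
theorem pn_ct_res (I : W.In a S) (h' : (W.S' S).Lim a) (hP' : ((W.S' S).pin W.P).Lim a)
    (hX : ∀ i, S.EA (fX i) ∧ S.EA (W.L.bal a W.P (fX i))) (hX' : ∀ i, S.EA (fX' i) ∧ S.EA (W.L'.bal a W.P (fX' i))) (hL : S.EA fL)
    (Φ : (J ⊕ J' → ℝ) × ℝ → ℝ) (hΦ : Continuous Φ) (hΦb : ∃ C : ℝ, ∀ x, |Φ x| ≤ C) :
    Tendsto (fun k => (∫ h, Φ (W.tX fX fX' k h, C3.rPin (W.L.H k) (W.L.b k) (W.P k) (W.A k) h) ∂(W.L'.muT fL k))
      - ∫ φ, Φ (W.tXg fX fX' a k φ, C3.grPin (W.L.H k) a (W.L.P₀ k ∪ W.P k) (W.A k) φ) ∂(W.L'.gaT a fL k)) atTop (𝓝 0) := by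
  have ha := I.a_pos
  obtain ⟨sB, sB'⟩ := pn_two_stepB W fX fX' I h' hP' hX hX'
  have hpd' : ∀ k, plPD (W.L.H k) (W.L.P₀ k ∪ W.P k) := fun k => pl_PD_mono _ (pn_pd W.L k) Set.subset_union_left
  refine pn_ct_master W.L' (W.S' S) ha h' fL (pn_ea_res W S _ hL) (W.bX fX fX' a) ?_ (W.cX fX fX' a)
    (pn_two_cX_bdd W fX fX' ha (fun i => pn_ea_bd S I.lim _ (hX i).1)
      (fun i => pn_ea_bd (W.S' S) h' _ (pn_ea_res W S _ (hX' i).1)))
    (W.tX fX fX') (W.tXg fX fX' a) ?_ (pn_two_tXg W fX fX' ha)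
    (fun k h => C3.rPin (W.L.H k) (W.L.b k) (W.P k) (W.A k) h)
    (fun k φ => C3.grPin (W.L.H k) a (W.L.P₀ k ∪ W.P k) (W.A k) φ)
    (fun k => pn_grPin_measurable (W.L.H k) ha (hpd' k) (W.A k))
    (fun ε hε => by
      obtain ⟨n, Rb, Sg, h1, h3, h4, h5⟩ := pn_two_probe_res W I ε hε
      exact ⟨n, Rb, Sg, fun d => pn_ea_res W S _ (h1 d), h3, h4, h5⟩) Φ hΦ hΦb
  · rintro (i | i)
    · exact pn_ea_res W S _ (hX i).2
    · exact pn_ea_res W S _ (hX' i).2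
  · rintro (i | i)
    · exact pn_contig_tends (pn_contig_up W I) _ (pn_two_guard W fX fX' a (Sum.inl i)) (sB i)
    · exact sB' i

/-- for `0 ≤ Ψ ≤ 1`: convergence of the means to zero is convergence to zero in probability -/
theorem pn_int_tends_iff {Ω : ℕ → Type} [∀ k, MeasurableSpace (Ω k)] (m : ∀ k, Measure (Ω k)) [∀ k, IsProbabilityMeasure (m k)]
    (Ψ : ∀ k, Ω k → ℝ) (hm : ∀ k, Measurable (Ψ k)) (h01 : ∀ k ω, 0 ≤ Ψ k ω ∧ Ψ k ω ≤ 1) :
    Tendsto (fun k => ∫ ω, Ψ k ω ∂(m k)) atTop (𝓝 0) ↔ TendsP m Ψ := by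
  have hint : ∀ k, Integrable (Ψ k) (m k) := fun k =>
    Integrable.of_bound (C := 1) (hm k).aestronglyMeasurable (Eventually.of_forall fun ω => by
      rw [Real.norm_eq_abs, abs_of_nonneg (h01 k ω).1]
      exact (h01 k ω).2)
  constructor
  · intro h ε hε
    have h1 : Tendsto (fun k => ε⁻¹ * ∫ ω, Ψ k ω ∂(m k)) atTop (𝓝 0) := by
      simpa using h.const_mul ε⁻¹
    refine squeeze_zero (fun k => measureReal_nonneg) (fun k => ?_) h1
    have h2 := mul_meas_ge_le_integral_of_nonneg (μ := m k) (f := Ψ k) (Eventually.of_forall fun ω => (h01 k ω).1) (hint k) ε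
    have h3 : (m k).real {ω | ε < ‖Ψ k ω‖} ≤ (m k).real {ω | ε ≤ Ψ k ω} := by
      refine measureReal_mono fun ω hω => ?_
      have hω' : ε < ‖Ψ k ω‖ := hω
      rw [Real.norm_eq_abs, abs_of_nonneg (h01 k ω).1] at hω'
      exact hω'.le
    rw [inv_mul_eq_div, le_div_iff₀ hε]
    calc (m k).real {ω | ε < ‖Ψ k ω‖} * ε ≤ (m k).real {ω | ε ≤ Ψ k ω} * ε := mul_le_mul_of_nonneg_right h3 hε.le
      _ = ε * (m k).real {ω | ε ≤ Ψ k ω} := mul_comm _ _
      _ ≤ _ := h2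
  · intro h
    refine tendsto_order.2 ⟨fun y hy => Eventually.of_forall fun k =>
      lt_of_lt_of_le hy (integral_nonneg fun ω => (h01 k ω).1), fun η hη => ?_⟩
    have h1 := (tendsto_order.1 (h (η / 2) (by positivity))).2 (η / 2) (by positivity)
    refine h1.mono fun k hk => ?_
    have hE : MeasurableSet {ω | η / 2 < ‖Ψ k ω‖} := measurableSet_lt measurable_const (hm k).norm
    have h2 : ∫ ω, Ψ k ω ∂(m k) ≤ ∫ ω, (η / 2 + Set.indicator {ω | η / 2 < ‖Ψ k ω‖} (1 : Ω k → ℝ) ω) ∂(m k) := by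
      refine integral_mono (hint k) ((integrable_const _).add ((integrable_const (1 : ℝ)).indicator hE)) fun ω => ?_
      by_cases hω : ω ∈ {ω | η / 2 < ‖Ψ k ω‖}
      · simp only [Set.indicator_of_mem hω, Pi.one_apply]
        have := (h01 k ω).2
        linarith
      · simp only [Set.indicator_of_notMem hω, add_zero]
        have hω' : ¬ η / 2 < ‖Ψ k ω‖ := hω
        rw [Real.norm_eq_abs, abs_of_nonneg (h01 k ω).1, not_lt] at hω'
        exact hω'
    have i3 : Integrable (Set.indicator {ω | η / 2 < ‖Ψ k ω‖} (1 : Ω k → ℝ)) (m k) :=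
      (integrable_const (1 : ℝ)).indicator hE
    rw [integral_add (integrable_const _) i3, integral_indicator_one hE] at h2
    simp only [integral_const, probReal_univ, smul_eq_mul, one_mul] at h2
    linarith

/-- **L-PN-W8** (~250 l.).  L3.9, two-way transfer.  For `0 ≤ Ψ ≤ 1`: `E Ψ → 0` iff `P(Ψ > ε) → 0` for all `ε`; the events `{Ψ > ε}` are guard events; `pn_contig_tilt` (both directions, both laws), `pn_contig_up`, `pn_contig_down`. -/
theorem pn_transfer_abs (I : W.In a S) (fL' : W.L.T) (hL : W.L.Bd fL) (hL' : W.L'.Bd fL') (Ψ : ∀ k, ((W.L.G k).V → ℤ) → ℝ) (h01 : ∀ k h, 0 ≤ Ψ k h ∧ Ψ k h ≤ 1)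
    (hloc : ∀ k h, Ψ k h = Ψ k (C3.resZ (W.P k) h)) :
    Tendsto (fun k => ∫ h, Ψ k h ∂(W.L.muT fL k)) atTop (𝓝 0) ↔ Tendsto (fun k => ∫ h, Ψ k h ∂(W.L'.muT fL' k)) atTop (𝓝 0) := by
  have : ∀ k, IsProbabilityMeasure (W.L.muT fL k) := fun k => pn_latM_prob (W.L.H k) (W.L.gd k) (fL k)
  have : ∀ k, IsProbabilityMeasure (W.L'.muT fL' k) := fun k => pn_latM_prob (W.L'.H k) (W.L'.gd k) (fL' k)
  have hg : ∀ k (ε : ℝ), {h | ε < ‖Ψ k h‖} ∈ W.gcl k := by
    intro k ε h _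
    show ε < ‖Ψ k (C3.resZ (W.P k) h)‖ ↔ ε < ‖Ψ k h‖
    rw [← hloc]
  have e1 := pn_int_tends_iff (W.L.muT fL) Ψ (fun k => Measurable.of_discrete) h01
  have e2 := pn_int_tends_iff (W.L'.muT fL') Ψ (fun k => Measurable.of_discrete) h01
  rw [e1]
  refine Iff.trans ?_ e2.symm
  constructor
  · intro h
    have h1 : TendsP W.L.mu Ψ := pn_contig_tends (pn_contig_tilt W.L fL hL).2 Ψ (fun _ _ => Set.mem_univ _) h
    have h2 : TendsP W.L'.mu Ψ := pn_contig_tends (pn_contig_up W I) Ψ hg h1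
    exact pn_contig_tends (pn_contig_tilt W.L' fL' hL').1 Ψ (fun _ _ => Set.mem_univ _) h2
  · intro h
    have h1 : TendsP W.L'.mu Ψ := pn_contig_tends (pn_contig_tilt W.L' fL' hL').2 Ψ (fun _ _ => Set.mem_univ _) h
    have h2 : TendsP W.L.mu Ψ := pn_contig_tends (pn_contig_down W I) Ψ hg h1
    exact pn_contig_tends (pn_contig_tilt W.L fL hL).1 Ψ (fun _ _ => Set.mem_univ _) h2

end ct

end

end Claimed.Agent.R285.Pins.T32
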