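import Claimed.Agent.R285.Rsd.Calc

/-!
# ROW 285, PINS-TILT 2: linear exponential tilts of a proper centred system (architect + proofs helper64).   Paper-free, NO sorry.

[C]s3.4 (30-pins.tex l.616-654) and the short route to vanishing reach (helper235, 15:25Z).   `S` proper, `L` a test (the remaining linear tilt of an exploration), `μ = E0`, `μ_L = Ev 0 L`, `m₂ = E0 e^{2L}`.
* `pn_tl_even`      : `E0 F ≤ E0 (F e^L)` for even `F ≥ 0`   (`μ(e^L | E) = μ(cosh L | E) ≥ 1`);   `pn_tl_one_le : 1 ≤ E0 e^L`;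
* `pn_tl_exp_le`    : `E0 e^L ≤ √m₂`;
* `pn_tl_sq`        : `E0 (e^L - 1)² ≤ m₂ - 1`,   `pn_tl_var : E0 (e^L - E0 e^L)² ≤ m₂ - 1`;
* `pn_tl_change`    : `|Ev 0 L F - E0 F| ≤ √(E0 F²) √(m₂ - 1)`     (means and second moments of fixed unexposed smears change by `O(ε)`);
* `pn_tl_tv`        : `|Ev 0 L F - E0 F| ≤ M √(m₂ - 1)` for `|F| ≤ M`      (total variation of the tilt);
* `pn_tl_relative`  : `E0 F ≤ √m₂ · Ev 0 L F` for even `F ≥ 0`      ((3.21) of [C], relative estimate, independent of the size of `E0 F`);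
* `pn_tl_absorb`    : `Ev 0 L L ≤ log m₂`      (absorption);
* `pn_E0_cs`        : Cauchy-Schwarz for `E0`.
Unnormalised forms (for mixtures over the boundary temperatures): multiply by `S.wT 0 L = Zf 0 e^L > 0`, `pn_Ev_eq`.
-/

set_option autoImplicit false

namespace Claimed.Agent.R285.Pins

noncomputable section

variable {S : LSys}

theorem pn_E0_sub (hS : S.Ok) {F G : S.L → ℝ} (hF : S.Dom F) (hG : S.Dom G) :
    S.E0 (fun z => F z - G z) = S.E0 F - S.E0 G := by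
  simp only [rd_E0_eq, rd_Zf_sub hS hF hG, sub_div]

theorem pn_E0_nonneg (hS : S.Ok) {F : S.L → ℝ} (h : ∀ z, 0 ≤ F z) : 0 ≤ S.E0 F := by
  rw [rd_E0_eq]
  exact div_nonneg (rd_Zf_nonneg hS 0 h) (rd_w_pos hS 0).le

/-- Cauchy-Schwarz -/
theorem pn_E0_cs (hS : S.Ok) {F G : S.L → ℝ} (hF : S.Dom F) (hG : S.Dom G) :
    S.E0 (fun z => F z * G z) ^ 2 ≤ S.E0 (fun z => F z ^ 2) * S.E0 fun z => G z ^ 2 := by
  have hFF := rd_dom_pow hF 2
  have hGG := rd_dom_pow hG 2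
  have hFG := rd_dom_mul hF hG
  have key : ∀ s : ℝ, 0 ≤ S.E0 (fun z => G z ^ 2) * (s * s) + 2 * S.E0 (fun z => F z * G z) * s + S.E0 fun z => F z ^ 2 := by
    intro s
    have h0 : 0 ≤ S.E0 fun z => (F z + s * G z) ^ 2 := pn_E0_nonneg hS fun z => sq_nonneg _
    have e : S.E0 (fun z => (F z + s * G z) ^ 2)
        = S.E0 fun z => (F z ^ 2 + (2 * s) * (F z * G z)) + (s * s) * G z ^ 2 := by
      congr 1
      funext z
      ring
    rw [e, rd_E0_add hS (rd_dom_add hFF (rd_dom_smul _ hFG)) (rd_dom_smul _ hGG), rd_E0_add hS hFF (rd_dom_smul _ hFG),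
      rd_E0_smul, rd_E0_smul] at h0
    linarith
  have hd := discrim_le_zero key
  unfold discrim at hd
  nlinarith

theorem pn_E0_abs_le_sqrt (hS : S.Ok) {F G : S.L → ℝ} (hF : S.Dom F) (hG : S.Dom G) :
    |S.E0 fun z => F z * G z| ≤ Real.sqrt (S.E0 fun z => F z ^ 2) * Real.sqrt (S.E0 fun z => G z ^ 2) := by
  rw [← Real.sqrt_mul (pn_E0_nonneg hS fun z => sq_nonneg _)]
  exact Real.abs_le_sqrt (pn_E0_cs hS hF hG)

/-- the tilted expectation through centred expectations -/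
theorem pn_Ev_eq (hS : S.Ok) (L : S.L →+ ℝ) (F : S.L → ℝ) :
    S.Ev 0 L F = S.E0 (fun z => F z * Real.exp (L z)) / S.E0 fun z => Real.exp (L z) := by
  have hw := rd_w_pos hS 0
  rw [rd_E0_eq, rd_E0_exp, LSys.Ev]
  field_simp

/-- `E0 F ≤ E0 (F e^L)` for even `F ≥ 0` -/
theorem pn_tl_even (hS : S.Ok) (L : S.L →+ ℝ) {F : S.L → ℝ} (hF : S.Dom F) (h0 : ∀ z, 0 ≤ F z) (hev : ∀ z, F (-z) = F z) :
    S.E0 F ≤ S.E0 fun z => F z * Real.exp (L z) := by
  have d1 : S.Dom fun z => F z * Real.exp (L z) := rd_dom_mul hF (rd_dom_exp L)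
  have d2 : S.Dom fun z => F z * Real.exp ((-L) z) := rd_dom_mul hF (rd_dom_exp (-L))
  have hsym : S.E0 (fun z => F z * Real.exp ((-L) z)) = S.E0 fun z => F z * Real.exp (L z) := by
    rw [← rd_E0_inv fun z => F z * Real.exp (L z)]
    congr 1
    funext z
    rw [hev, map_neg]
    rfl
  have hadd := rd_E0_add hS d1 d2
  have hlow : S.E0 (fun z => 2 * F z) ≤ S.E0 fun z => F z * Real.exp (L z) + F z * Real.exp ((-L) z) :=
    rd_E0_mono hS (rd_dom_smul 2 hF) (rd_dom_add d1 d2) fun z => by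
      have h1 : (2 : ℝ) ≤ Real.exp (L z) + Real.exp ((-L) z) := by
        have h2 := Real.one_le_cosh (L z)
        rw [Real.cosh_eq] at h2
        have h3 : (-L) z = -(L z) := rfl
        rw [h3]
        linarith
      nlinarith [h0 z]
  rw [rd_E0_smul, hadd, hsym] at hlow
  linarith

theorem pn_tl_one_le (hS : S.Ok) (L : S.L →+ ℝ) : 1 ≤ S.E0 fun z => Real.exp (L z) := by
  have h := pn_tl_even hS L (rd_dom_const (S := S) 1) (fun _ => zero_le_one) fun _ => rfl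
  rw [rd_E0_const hS] at h
  simpa using h

theorem pn_tl_two (L : S.L →+ ℝ) (z : S.L) : Real.exp (L z) ^ 2 = Real.exp (2 * L z) := by
  rw [← Real.exp_nat_mul]
  norm_num

theorem pn_dom_exp2 (L : S.L →+ ℝ) : S.Dom fun z => Real.exp (2 * L z) := by
  have := rd_dom_exp ((2 : ℝ) • L)
  simpa using this

theorem pn_tl_one_le_two (hS : S.Ok) (L : S.L →+ ℝ) : 1 ≤ S.E0 fun z => Real.exp (2 * L z) := by
  have := pn_tl_one_le hS ((2 : ℝ) • L)
  simpa using this

/-- `(E0 e^L)² ≤ E0 e^{2L}` -/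
theorem pn_tl_exp_sq_le (hS : S.Ok) (L : S.L →+ ℝ) :
    S.E0 (fun z => Real.exp (L z)) ^ 2 ≤ S.E0 fun z => Real.exp (2 * L z) := by
  have h := pn_E0_cs hS (rd_dom_const (S := S) 1) (rd_dom_exp L)
  simp only [one_mul, one_pow, rd_E0_const hS, pn_tl_two] at h
  exact h

theorem pn_tl_exp_le (hS : S.Ok) (L : S.L →+ ℝ) :
    S.E0 (fun z => Real.exp (L z)) ≤ Real.sqrt (S.E0 fun z => Real.exp (2 * L z)) :=
  Real.le_sqrt_of_sq_le (pn_tl_exp_sq_le hS L)

/-- `E0 (e^L - c)² = m₂ - 2 c m₁ + c²` -/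
theorem pn_tl_sq_eq (hS : S.Ok) (L : S.L →+ ℝ) (c : ℝ) :
    S.E0 (fun z => (Real.exp (L z) - c) ^ 2)
      = S.E0 (fun z => Real.exp (2 * L z)) - 2 * c * S.E0 (fun z => Real.exp (L z)) + c ^ 2 := by
  have e : S.E0 (fun z => (Real.exp (L z) - c) ^ 2)
      = S.E0 fun z => (Real.exp (2 * L z) - (2 * c) * Real.exp (L z)) + c ^ 2 := by
    congr 1
    funext z
    rw [← pn_tl_two]
    ring
  rw [e, rd_E0_add hS (rd_dom_sub (pn_dom_exp2 L) (rd_dom_smul _ (rd_dom_exp L))) (rd_dom_const _),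
    pn_E0_sub hS (pn_dom_exp2 L) (rd_dom_smul _ (rd_dom_exp L)), rd_E0_smul, rd_E0_const hS]

theorem pn_tl_sq (hS : S.Ok) (L : S.L →+ ℝ) :
    S.E0 (fun z => (Real.exp (L z) - 1) ^ 2) ≤ S.E0 (fun z => Real.exp (2 * L z)) - 1 := by
  rw [pn_tl_sq_eq hS]
  have := pn_tl_one_le hS L
  linarith

theorem pn_tl_var (hS : S.Ok) (L : S.L →+ ℝ) :
    S.E0 (fun z => (Real.exp (L z) - S.E0 fun z => Real.exp (L z)) ^ 2) ≤ S.E0 (fun z => Real.exp (2 * L z)) - 1 := by
  rw [pn_tl_sq_eq hS]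
  have := pn_tl_one_le hS L
  nlinarith

/-- **change of an expectation under the tilt, `L²` form** -/
theorem pn_tl_change (hS : S.Ok) (L : S.L →+ ℝ) {F : S.L → ℝ} (hF : S.Dom F) :
    |S.Ev 0 L F - S.E0 F| ≤ Real.sqrt (S.E0 fun z => F z ^ 2) * Real.sqrt (S.E0 (fun z => Real.exp (2 * L z)) - 1) := by
  set m := S.E0 fun z => Real.exp (L z) with hm
  have hm1 : 1 ≤ m := pn_tl_one_le hS L
  have dG : S.Dom fun z => Real.exp (L z) - m := rd_dom_sub (rd_dom_exp L) (rd_dom_const m)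
  have e : S.Ev 0 L F - S.E0 F = S.E0 (fun z => F z * (Real.exp (L z) - m)) / m := by
    have e1 : S.E0 (fun z => F z * (Real.exp (L z) - m)) = S.E0 (fun z => F z * Real.exp (L z)) - m * S.E0 F := by
      rw [← rd_E0_smul, ← pn_E0_sub hS (rd_dom_mul hF (rd_dom_exp L)) (rd_dom_smul _ hF)]
      congr 1
      funext z
      ring
    have hm0 : m ≠ 0 := by linarith
    rw [e1, pn_Ev_eq hS, ← hm]
    field_simp
  rw [e, abs_div, abs_of_pos (by linarith : 0 < m)]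
  have h1 := pn_E0_abs_le_sqrt hS hF dG
  have h2 : Real.sqrt (S.E0 fun z => (Real.exp (L z) - m) ^ 2) ≤ Real.sqrt (S.E0 (fun z => Real.exp (2 * L z)) - 1) :=
    Real.sqrt_le_sqrt (pn_tl_var hS L)
  calc |S.E0 fun z => F z * (Real.exp (L z) - m)| / m ≤ |S.E0 fun z => F z * (Real.exp (L z) - m)| :=
        div_le_self (abs_nonneg _) hm1
    _ ≤ _ := h1
    _ ≤ _ := mul_le_mul_of_nonneg_left h2 (Real.sqrt_nonneg _)

/-- **total variation of the tilt** -/
theorem pn_tl_tv (hS : S.Ok) (L : S.L →+ ℝ) {F : S.L → ℝ} (M : ℝ) (hM : ∀ z, |F z| ≤ M) :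
    |S.Ev 0 L F - S.E0 F| ≤ M * Real.sqrt (S.E0 (fun z => Real.exp (2 * L z)) - 1) := by
  have hF : S.Dom F := rd_dom_bdd M hM
  have hM0 : 0 ≤ M := (abs_nonneg _).trans (hM 0)
  refine (pn_tl_change hS L hF).trans (mul_le_mul_of_nonneg_right ?_ (Real.sqrt_nonneg _))
  rw [Real.sqrt_le_left hM0]
  have h := rd_E0_mono hS (rd_dom_pow hF 2) (rd_dom_const (M ^ 2)) fun z => by
    rw [← sq_abs]
    exact pow_le_pow_left₀ (abs_nonneg _) (hM z) 2
  rwa [rd_E0_const hS] at h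

/-- **relative tilt estimate** ((3.21) of [C]) -/
theorem pn_tl_relative (hS : S.Ok) (L : S.L →+ ℝ) {F : S.L → ℝ} (hF : S.Dom F) (h0 : ∀ z, 0 ≤ F z) (hev : ∀ z, F (-z) = F z) :
    S.E0 F ≤ Real.sqrt (S.E0 fun z => Real.exp (2 * L z)) * S.Ev 0 L F := by
  have hm1 := pn_tl_one_le hS L
  have h1 := pn_tl_even hS L hF h0 hev
  have h2 := pn_tl_exp_le hS L
  rw [pn_Ev_eq hS, mul_div_assoc', le_div_iff₀ (by linarith)]
  have h3 : 0 ≤ S.E0 F := pn_E0_nonneg hS h0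
  calc S.E0 F * S.E0 (fun z => Real.exp (L z)) ≤ S.E0 F * Real.sqrt (S.E0 fun z => Real.exp (2 * L z)) :=
        mul_le_mul_of_nonneg_left h2 h3
    _ ≤ S.E0 (fun z => F z * Real.exp (L z)) * Real.sqrt (S.E0 fun z => Real.exp (2 * L z)) :=
        mul_le_mul_of_nonneg_right h1 (Real.sqrt_nonneg _)
    _ = _ := mul_comm _ _

/-- **absorption**: `E_L L ≤ log E0 e^{2L}` -/
theorem pn_tl_absorb (hS : S.Ok) (L : S.L →+ ℝ) :
    S.Ev 0 L (fun z => L z) ≤ Real.log (S.E0 fun z => Real.exp (2 * L z)) := by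
  set m := S.E0 fun z => Real.exp (L z) with hm
  have hm1 : 1 ≤ m := pn_tl_one_le hS L
  set a := S.Ev 0 L fun z => L z with ha
  have ha' : S.E0 (fun z => L z * Real.exp (L z)) = a * m := by
    have hm0 : m ≠ 0 := by linarith
    rw [ha, pn_Ev_eq hS, ← hm]
    field_simp
  have dL : S.Dom fun z => L z * Real.exp (L z) := rd_dom_mul (rd_dom_test L) (rd_dom_exp L)
  -- tangent line at `a`
  have h1 : S.E0 (fun z => Real.exp a * ((1 - a) * Real.exp (L z) + L z * Real.exp (L z))) ≤ S.E0 fun z => Real.exp (2 * L z) :=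
    rd_E0_mono hS (rd_dom_smul _ (rd_dom_add (rd_dom_smul _ (rd_dom_exp L)) dL)) (pn_dom_exp2 L) fun z => by
      have h2 : L z - a + 1 ≤ Real.exp (L z - a) := Real.add_one_le_exp _
      have h3 : Real.exp (L z) = Real.exp a * Real.exp (L z - a) := by
        rw [← Real.exp_add]
        congr 1
        ring
      have h4 : Real.exp a * (L z - a + 1) ≤ Real.exp (L z) := by
        rw [h3]
        exact mul_le_mul_of_nonneg_left h2 (Real.exp_pos _).le
      rw [← pn_tl_two, sq]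
      calc Real.exp a * ((1 - a) * Real.exp (L z) + L z * Real.exp (L z))
          = (Real.exp a * (L z - a + 1)) * Real.exp (L z) := by ring
        _ ≤ _ := mul_le_mul_of_nonneg_right h4 (Real.exp_pos _).le
  rw [rd_E0_smul, rd_E0_add hS (rd_dom_smul _ (rd_dom_exp L)) dL, rd_E0_smul, ha'] at h1
  have h5 : Real.exp a ≤ S.E0 fun z => Real.exp (2 * L z) := by
    have h6 : Real.exp a * ((1 - a) * m + a * m) = Real.exp a * m := by ring
    rw [h6] at h1
    have h7 : Real.exp a ≤ Real.exp a * m := le_mul_of_one_le_right (Real.exp_pos _).le hm1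
    linarith
  rw [Real.le_log_iff_exp_le (lt_of_lt_of_le (Real.exp_pos _) h5)]
  exact h5

end

end Claimed.Agent.R285.Pins
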