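import Claimed.Agent.R285.Pins.Tilt
import Claimed.Agent.R285.Rsd.CosetFree

/-!
# ROW 285, PINS-TILT 4: the reference bound with rows (REF) and the tilt lemmas (T2), (T4), (T5) for FLOWS, at `LSys` level (architect + proofs helper64).   Paper-free, NO sorry.

Blueprint v2 (`Pins/Plan.lean`), section 3.   `pnSt S t s : z ↦ ∑_e t_e z_e + ∑_o s_o z_o`.
* `pn_ref_rows` (REF): `E0 exp(∑ t_e z_e + ∑ s_o z_o) ≤ exp(∑ b_e (cosh t_e - 1) + |s|²/2)`   [complete the square in the Gaussian coordinates: shift `-s`; `lsys_ratio_mono` towards the system without rows; `lsys_reference`];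
* `pn_ref_quad`: the same with `∑ b_e (cosh t_e - 1) ≤ b ∑ t_e²` when `|t_e| ≤ 1`, `b_e ≤ b`;
* `pn_tl_jensen`: `Ev 0 L Y ≤ log E0 e^{L+Y}`.
-/

set_option autoImplicit false

namespace Claimed.Agent.R285.Pins

open Rsd (lsys_ratio_mono lsys_reference)

noncomputable section

/-- the statistic `∑_e t_e z_e + ∑_o s_o z_o` -/
def pnSt (S : LSys) (t : S.E → ℝ) (s : S.O → ℝ) : S.L →+ ℝ where
  toFun z := ∑ e, t e * (((z : S.Amb).1 e : ℤ) : ℝ) + ∑ o, s o * (z : S.Amb).2 o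
  map_zero' := by simp
  map_add' z z' := by
    simp only [AddSubgroup.coe_add, Prod.fst_add, Prod.snd_add, Pi.add_apply, Int.cast_add, mul_add, Finset.sum_add_distrib]
    ring

theorem pnSt_apply (S : LSys) (t : S.E → ℝ) (s : S.O → ℝ) (z : S.L) :
    pnSt S t s z = ∑ e, t e * (((z : S.Amb).1 e : ℤ) : ℝ) + ∑ o, s o * (z : S.Amb).2 o := rfl

theorem pnSt_add (S : LSys) (t t' : S.E → ℝ) (s s' : S.O → ℝ) : pnSt S t s + pnSt S t' s' = pnSt S (t + t') (s + s') := by
  ext z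
  simp only [AddMonoidHom.add_apply, pnSt_apply, Pi.add_apply, add_mul, Finset.sum_add_distrib]
  ring

theorem pnSt_smul (S : LSys) (c : ℝ) (t : S.E → ℝ) (s : S.O → ℝ) : c • pnSt S t s = pnSt S (c • t) (c • s) := by
  ext z
  simp only [AddMonoidHom.smul_apply, pnSt_apply, Pi.smul_apply, smul_eq_mul, mul_add, Finset.mul_sum, mul_assoc]

/-- the projection which forgets the Gaussian coordinates -/
def pnProj (S : LSys) : S.Amb →+ (S.E → ℤ) × (Empty → ℝ) where
  toFun z := (z.1, fun o => o.elim)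
  map_zero' := Prod.ext rfl (funext fun o => o.elim)
  map_add' _ _ := Prod.ext rfl (funext fun o => o.elim)

/-- the system without rows -/
def pnBare (S : LSys) : LSys := { E := S.E, O := Empty, b := S.b, L := S.L.map (pnProj S) }

/-- a system without Gaussian coordinates is proper -/
theorem pn_bare_ok (S : LSys) (hb : ∀ e, 0 < S.b e) : (pnBare S).Ok := by
  set g : (S.E → ℤ) →+ (pnBare S).Amb := AddMonoidHom.inl (S.E → ℤ) (Empty → ℝ) with hg
  refine Rsd.kit_ok_of_map (pnBare S) hb ((pnBare S).L.comap g) g (LinearMap.inl ℝ (S.E → ℝ) (Empty → ℝ)) ?_ ?_ ?_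
  · intro c
    rfl
  · intro x _ hx
    exact congrArg Prod.fst hx
  · refine (AddSubgroup.map_comap_eq_self_of_surjective ?_ _).symm
    intro z
    exact ⟨z.1, Prod.ext rfl (funext fun o => (o : Empty).elim)⟩

/-- the rows are additional precision -/
def pnRef (S : LSys) : LSys.Ref (pnBare S) S where
  iE := Function.Embedding.refl _
  iO := ⟨fun o => (o : Empty).elim, fun o => (o : Empty).elim⟩
  hb := fun _ => rfl
  map_mem := by
    intro z hz
    exact ⟨z, hz, Prod.ext rfl (funext fun o => (o : Empty).elim)⟩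

/-- completing the square -/
theorem pn_W_shift (S : LSys) (s : S.O → ℝ) (z : S.Amb) :
    S.W (z + ((0 : S.E → ℤ), fun o => - s o)) = S.W (z + 0) * Real.exp (∑ o, s o * z.2 o - (∑ o, s o ^ 2) / 2) := by
  unfold LSys.W
  rw [mul_assoc, ← Real.exp_add]
  have e : ∑ o, (z + ((0 : S.E → ℤ), fun o => - s o)).2 o ^ 2 = ∑ o, z.2 o ^ 2 - 2 * ∑ o, s o * z.2 o + ∑ o, s o ^ 2 := by
    rw [Finset.mul_sum, ← Finset.sum_sub_distrib, ← Finset.sum_add_distrib]
    refine Finset.sum_congr rfl fun o _ => ?_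
    simp only [Prod.snd_add, Pi.add_apply]
    ring
  have e' : -(∑ o, (z + ((0 : S.E → ℤ), fun o => - s o)).2 o ^ 2) / 2
      = -(∑ o, (z + 0).2 o ^ 2) / 2 + (∑ o, s o * z.2 o - (∑ o, s o ^ 2) / 2) := by
    rw [e, add_zero]
    ring
  rw [e']
  congr 1

/-- the flow statistic of the system without rows -/
def pnY (S : LSys) (t : S.E → ℝ) : (pnBare S).L →+ ℝ := pnSt (pnBare S) t fun o => (o : Empty).elim

theorem pnY_apply (S : LSys) (t : S.E → ℝ) (z : (pnBare S).L) :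
    pnY S t z = ∑ e : (pnBare S).E, t e * (((z : (pnBare S).Amb).1 e : ℤ) : ℝ) := by
  show (∑ e : (pnBare S).E, t e * (((z : (pnBare S).Amb).1 e : ℤ) : ℝ)) + ∑ o : Empty, _ = _
  simp

theorem pnY_psi (S : LSys) (t : S.E → ℝ) (z : S.L) :
    ((pnY S t).comp (pnRef S).psi) z = ∑ e, t e * (((z : S.Amb).1 e : ℤ) : ℝ) := by
  rw [AddMonoidHom.comp_apply, pnY_apply]
  rfl

/-- **(REF)** -/
theorem pn_ref_rows (S : LSys) (hS : S.Ok) (t : S.E → ℝ) (s : S.O → ℝ) :
    S.E0 (fun z => Real.exp (pnSt S t s z)) ≤ Real.exp (∑ e, S.b e * (Real.cosh (t e) - 1) + (∑ o, s o ^ 2) / 2) := by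
  have h0 := pn_bare_ok S hS.1
  have hr := lsys_ratio_mono (pnRef S) h0 hS (((0 : S.E → ℤ), fun o => - s o) : S.Amb) (pnY S t)
  have hres : (pnRef S).res (((0 : S.E → ℤ), fun o => - s o) : S.Amb) = 0 :=
    Prod.ext rfl (funext fun o => (o : Empty).elim)
  rw [hres] at hr
  have href := lsys_reference (pnBare S) h0 t
  have e1 : (pnBare S).wT 0 (pnY S t) / (pnBare S).w 0
      = (pnBare S).E0 fun z => Real.exp (∑ e, t e * (((z : (pnBare S).Amb).1 e : ℤ) : ℝ)) := by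
    rw [← rd_E0_exp]
    congr 1
    funext z
    rw [pnY_apply]
    rfl
  rw [e1] at hr
  have e2 : S.wT (((0 : S.E → ℤ), fun o => - s o) : S.Amb) ((pnY S t).comp (pnRef S).psi)
      = Real.exp (-(∑ o, s o ^ 2) / 2) * S.Zf 0 fun z => Real.exp (pnSt S t s z) := by
    unfold LSys.wT
    rw [← rd_Zf_smul]
    unfold LSys.Zf
    refine tsum_congr fun z => ?_
    rw [pn_W_shift]
    show Real.exp (((pnY S t).comp (pnRef S).psi) z) * _ = (Real.exp (-(∑ o, s o ^ 2) / 2) * Real.exp (pnSt S t s z)) * _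
    rw [pnY_psi, pnSt_apply]
    have e4 : Real.exp (∑ e, t e * (((z : S.Amb).1 e : ℤ) : ℝ)) * Real.exp (∑ o, s o * (z : S.Amb).2 o - (∑ o, s o ^ 2) / 2)
        = Real.exp (-(∑ o, s o ^ 2) / 2) * Real.exp (∑ e, t e * (((z : S.Amb).1 e : ℤ) : ℝ) + ∑ o, s o * (z : S.Amb).2 o) := by
      rw [← Real.exp_add, ← Real.exp_add]
      congr 1
      ring
    calc _ = (Real.exp (∑ e, t e * (((z : S.Amb).1 e : ℤ) : ℝ))
          * Real.exp (∑ o, s o * (z : S.Amb).2 o - (∑ o, s o ^ 2) / 2)) * S.W ((z : S.Amb) + 0) := by ring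
      _ = _ := by rw [e4]
  rw [e2, mul_div_assoc, ← rd_E0_eq] at hr
  have h3 := hr.trans href
  rw [Real.exp_add]
  have e5 : Real.exp ((∑ o, s o ^ 2) / 2) * Real.exp (-(∑ o, s o ^ 2) / 2) = 1 := by
    rw [← Real.exp_add]
    have : (∑ o, s o ^ 2) / 2 + -(∑ o, s o ^ 2) / 2 = 0 := by ring
    rw [this, Real.exp_zero]
  calc S.E0 (fun z => Real.exp (pnSt S t s z))
      = Real.exp ((∑ o, s o ^ 2) / 2) * (Real.exp (-(∑ o, s o ^ 2) / 2) * S.E0 fun z => Real.exp (pnSt S t s z)) := by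
        rw [← mul_assoc, e5, one_mul]
    _ ≤ Real.exp ((∑ o, s o ^ 2) / 2) * Real.exp (∑ e, (pnBare S).b e * (Real.cosh (t e) - 1)) :=
        mul_le_mul_of_nonneg_left h3 (Real.exp_pos _).le
    _ = _ := mul_comm _ _

/-- `cosh x - 1 ≤ x²` for `|x| ≤ 1` -/
theorem pn_cosh_sub_one_le (x : ℝ) (hx : |x| ≤ 1) : Real.cosh x - 1 ≤ x ^ 2 := by
  have h1 := Real.cosh_le_exp_half_sq x
  have hx2 : x ^ 2 ≤ 1 := by
    rw [← sq_abs]
    exact pow_le_one₀ (abs_nonneg _) hx
  have h2 : Real.exp (x ^ 2 / 2) ≤ 1 + x ^ 2 := by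
    have h3 : Real.exp (x ^ 2 / 2) * (1 - x ^ 2 / 2) ≤ 1 := by
      have h4 : 1 - x ^ 2 / 2 ≤ Real.exp (-(x ^ 2 / 2)) := by
        have := Real.add_one_le_exp (-(x ^ 2 / 2))
        linarith
      calc Real.exp (x ^ 2 / 2) * (1 - x ^ 2 / 2) ≤ Real.exp (x ^ 2 / 2) * Real.exp (-(x ^ 2 / 2)) :=
            mul_le_mul_of_nonneg_left h4 (Real.exp_pos _).le
        _ = 1 := by rw [← Real.exp_add]; simp
    have h5 : 0 < Real.exp (x ^ 2 / 2) := Real.exp_pos _
    have h6 : 0 ≤ x ^ 2 := sq_nonneg x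
    nlinarith
  linarith

/-- (REF) in quadratic form -/
theorem pn_ref_quad (S : LSys) (hS : S.Ok) (b : ℝ) (hb : ∀ e, S.b e ≤ b) (t : S.E → ℝ) (ht : ∀ e, |t e| ≤ 1) (s : S.O → ℝ) :
    S.E0 (fun z => Real.exp (pnSt S t s z)) ≤ Real.exp (b * ∑ e, t e ^ 2 + (∑ o, s o ^ 2) / 2) := by
  refine (pn_ref_rows S hS t s).trans (Real.exp_le_exp.2 ?_)
  have h1 : ∑ e, S.b e * (Real.cosh (t e) - 1) ≤ ∑ e, b * t e ^ 2 := by
    refine Finset.sum_le_sum fun e _ => ?_
    have h2 : 0 ≤ Real.cosh (t e) - 1 := by linarith [Real.one_le_cosh (t e)]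
    calc S.b e * (Real.cosh (t e) - 1) ≤ S.b e * t e ^ 2 :=
          mul_le_mul_of_nonneg_left (pn_cosh_sub_one_le _ (ht e)) (hS.1 e).le
      _ ≤ b * t e ^ 2 := mul_le_mul_of_nonneg_right (hb e) (sq_nonneg _)
  rw [← Finset.mul_sum] at h1
  linarith

variable {S : LSys}

/-- **Jensen**: `E_L Y ≤ log E0 e^{L+Y}` -/
theorem pn_tl_jensen (hS : S.Ok) (L Y : S.L →+ ℝ) :
    S.Ev 0 L (fun z => Y z) ≤ Real.log (S.E0 fun z => Real.exp ((L + Y) z)) := by
  set m := S.E0 fun z => Real.exp (L z) with hm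
  have hm1 : 1 ≤ m := pn_tl_one_le hS L
  set a := S.Ev 0 L fun z => Y z with ha
  have ha' : S.E0 (fun z => Y z * Real.exp (L z)) = a * m := by
    have hm0 : m ≠ 0 := by linarith
    rw [ha, pn_Ev_eq hS, ← hm]
    field_simp
  have dL : S.Dom fun z => Y z * Real.exp (L z) := rd_dom_mul (rd_dom_test Y) (rd_dom_exp L)
  have h1 : S.E0 (fun z => Real.exp a * ((1 - a) * Real.exp (L z) + Y z * Real.exp (L z))) ≤ S.E0 fun z => Real.exp ((L + Y) z) :=
    rd_E0_mono hS (rd_dom_smul _ (rd_dom_add (rd_dom_smul _ (rd_dom_exp L)) dL)) (rd_dom_exp (L + Y)) fun z => by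
      have h2 : Y z - a + 1 ≤ Real.exp (Y z - a) := Real.add_one_le_exp _
      have h3 : Real.exp (Y z) = Real.exp a * Real.exp (Y z - a) := by
        rw [← Real.exp_add]
        congr 1
        ring
      have h4 : Real.exp a * (Y z - a + 1) ≤ Real.exp (Y z) := by
        rw [h3]
        exact mul_le_mul_of_nonneg_left h2 (Real.exp_pos _).le
      rw [AddMonoidHom.add_apply, Real.exp_add, mul_comm (Real.exp (L z))]
      calc Real.exp a * ((1 - a) * Real.exp (L z) + Y z * Real.exp (L z))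
          = (Real.exp a * (Y z - a + 1)) * Real.exp (L z) := by ring
        _ ≤ _ := mul_le_mul_of_nonneg_right h4 (Real.exp_pos _).le
  rw [rd_E0_smul, rd_E0_add hS (rd_dom_smul _ (rd_dom_exp L)) dL, rd_E0_smul, ha'] at h1
  have h5 : Real.exp a ≤ S.E0 fun z => Real.exp ((L + Y) z) := by
    have h6 : Real.exp a * ((1 - a) * m + a * m) = Real.exp a * m := by ring
    rw [h6] at h1
    have h7 : Real.exp a ≤ Real.exp a * m := le_mul_of_one_le_right (Real.exp_pos _).le hm1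
    linarith
  rw [Real.le_log_iff_exp_le (lt_of_lt_of_le (Real.exp_pos _) h5)]
  exact h5

/-- Stores the on-demand equation lemmas of the definitions above in THIS module (rule 6 hygiene). -/
theorem pn_tiltRef_forced : True := by
  have := @pnSt.eq_1
  have := @pnProj.eq_1
  have := @pnBare.eq_1
  have := @pnRef.eq_1
  have := @pnY.eq_1
  trivial

end

end Claimed.Agent.R285.Pins
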